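import Claimed.Open.R002.Statement

/-!
# `Statement` contains the main theorems of the two companion papers

Result 002 has three papers.  The first conjunct `MainStatement` of `Statement` is Theorem 1.1 of
*Exact Birch–Swinnerton-Dyer Formula from Low Selmer Corank*.  Here we write down, with the same
definitions,

* `SelmerConverse`: Theorem 1.1 of *The Selmer converse for elliptic curves at every prime*;
* `TwoPrimary`: Theorem 1.1 together with Corollary 1.2 (the any-prime input criterion) of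
  *The two-primary Birch–Swinnerton-Dyer formula in Selmer corank at most one*;

and we check that `Statement` implies both.  We also record that the exact formula forces all the
quantities in it to be nonzero, so that none of the totalised functions (`Nat.card`, `∏ᶠ`,
`AddSubgroup.index`, `∫`, `limUnder`) takes its junk value `0` in it.
-/

set_option autoImplicit false

namespace Claimed.Open.R002

open WeierstrassCurve
open scoped Classical

noncomputable section

/-- If an entire function vanishes to order exactly `r` at `z₀`, its `r`-th derivative there is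
nonzero. -/
theorem iteratedDeriv_ne_zero_of_analyticOrderAt_eq {L : ℂ → ℂ} (hL : Differentiable ℂ L)
    {z₀ : ℂ} {r : ℕ} (h : analyticOrderAt L z₀ = (r : ℕ∞)) : iteratedDeriv r L z₀ ≠ 0 := by
  intro h0
  have ha : AnalyticAt ℂ L z₀ := hL.analyticAt z₀
  have h1 : ∀ i < r, iteratedDeriv i L z₀ = 0 :=
    (natCast_le_analyticOrderAt_iff_iteratedDeriv_eq_zero ha).1 h.ge
  have h2 : ((r + 1 : ℕ) : ℕ∞) ≤ analyticOrderAt L z₀ := by
    refine (natCast_le_analyticOrderAt_iff_iteratedDeriv_eq_zero ha).2 fun i hi => ?_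
    rcases Nat.lt_succ_iff_lt_or_eq.1 hi with hi | rfl
    · exact h1 i hi
    · exact h0
  rw [h] at h2
  exact absurd (Nat.cast_le.1 h2) (by omega)

/-- **Theorem 1.1** of *The Selmer converse for elliptic curves at every prime*: for every elliptic
curve `A₀/ℚ`, every prime `p` and `r ∈ {0, 1}`,
`s_p(A₀) = r ⟹ a(A₀) = rank A₀(ℚ) = r` and `#Ш(A₀/ℚ) < ∞`. -/
def SelmerConverse : Prop :=
  ∀ (E : WeierstrassCurve ℚ) [E.IsElliptic] (p : ℕ) [Fact p.Prime] (r : ℕ),
    r ≤ 1 → selmerCorank E p = (r : Cardinal) →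
      (∃ L : ℂ → ℂ, IsLFunction E L ∧ analyticOrderAt L 1 = (r : ℕ∞)) ∧
      Module.rank ℤ (MW E) = (r : Cardinal) ∧
      Finite (Sha E)

/-- **Theorem 1.1 and Corollary 1.2** of *The two-primary Birch–Swinnerton-Dyer formula in Selmer
corank at most one*: if `s_p(E) = r ≤ 1` for some prime `p` (Theorem 1.1 is the case `p = 2`), then
`rank E(ℚ) = ord_{s=1} L(E,s) = r`, `#Ш(E/ℚ) < ∞`,
`Q_E = L^{(r)}(E,1) (#T_E)² / (r! Ω_E Reg_E ∏ c_ℓ(E)) ∈ ℚ_{>0}` and `v₂(Q_E) = v₂(#Ш(E/ℚ))`. -/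
def TwoPrimary : Prop :=
  ∀ (E : WeierstrassCurve ℚ) [E.IsElliptic] (p : ℕ) [Fact p.Prime] (r : ℕ),
    r ≤ 1 → selmerCorank E p = (r : Cardinal) →
      Module.rank ℤ (MW E) = (r : Cardinal) ∧
      Finite (Sha E) ∧
      (∃ Ω, IsRealPeriod E Ω) ∧
      (∃ R, IsRegulator E R) ∧
      ∃ L : ℂ → ℂ, IsLFunction E L ∧ analyticOrderAt L 1 = (r : ℕ∞) ∧
        ∀ Ω R : ℝ, IsRealPeriod E Ω → IsRegulator E R →
          ∃ Q : ℚ, 0 < Q ∧
            iteratedDeriv r L 1 * (Nat.card (AddCommGroup.torsion (MW E)) : ℂ) ^ 2 /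
              ((r.factorial : ℂ) * (Ω : ℂ) * (R : ℂ) * (tamagawaProduct E : ℂ)) = (Q : ℂ) ∧
            padicValRat 2 Q = (padicValNat 2 (Nat.card (Sha E)) : ℤ)

/-- `Statement` contains the main theorem of the Selmer-converse paper. -/
theorem Statement.selmerConverse (h : Statement) : SelmerConverse := by
  intro E _ p _ r hr hs
  obtain ⟨h1, h2, -, -, L, hL, hord, -⟩ := h.1 E p r hr hs
  exact ⟨⟨L, hL, hord⟩, h1, h2⟩

/-- The exact formula, together with `ord_{s=1} L = r`, forces every factor to be nonzero. -/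
theorem factors_ne_zero {L : ℂ → ℂ} (hL : Differentiable ℂ L) {r : ℕ}
    (hord : analyticOrderAt L 1 = (r : ℕ∞)) {Ω R : ℝ} {S T t : ℕ}
    (hf : iteratedDeriv r L 1 / (r.factorial : ℂ) =
      ((Ω * R * (S : ℝ) * (T : ℝ) / (t : ℝ) ^ 2 : ℝ) : ℂ)) :
    Ω ≠ 0 ∧ R ≠ 0 ∧ S ≠ 0 ∧ T ≠ 0 ∧ t ≠ 0 := by
  have hD := iteratedDeriv_ne_zero_of_analyticOrderAt_eq hL hord
  have hfac : (r.factorial : ℂ) ≠ 0 := Nat.cast_ne_zero.2 r.factorial_ne_zero
  have hne : ((Ω * R * (S : ℝ) * (T : ℝ) / (t : ℝ) ^ 2 : ℝ) : ℂ) ≠ 0 := by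
    rw [← hf]; exact div_ne_zero hD hfac
  have hne' : Ω * R * (S : ℝ) * (T : ℝ) / (t : ℝ) ^ 2 ≠ 0 := by
    intro h0; exact hne (by rw [h0]; simp)
  refine ⟨?_, ?_, ?_, ?_, ?_⟩ <;> rintro rfl <;> simp at hne'

/-- `Statement` contains the main theorem of the two-primary paper (indeed `Q_E = #Ш(E/ℚ)`). -/
theorem Statement.twoPrimary (h : Statement) : TwoPrimary := by
  intro E _ p _ r hr hs
  obtain ⟨h1, h2, h3, h4, L, hL, hord, hf⟩ := h.1 E p r hr hs
  refine ⟨h1, h2, h3, h4, L, hL, hord, fun Ω R hΩ hR => ?_⟩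
  have hf' := hf Ω R hΩ hR
  obtain ⟨hΩ0, hR0, hS0, hT0, ht0⟩ := factors_ne_zero hL.1 hord hf'
  have hfac : (r.factorial : ℂ) ≠ 0 := Nat.cast_ne_zero.2 r.factorial_ne_zero
  refine ⟨(Nat.card (Sha E) : ℚ), by exact_mod_cast Nat.pos_of_ne_zero hS0, ?_, ?_⟩
  · have hΩc : (Ω : ℂ) ≠ 0 := by exact_mod_cast hΩ0
    have hRc : (R : ℂ) ≠ 0 := by exact_mod_cast hR0
    have hTc : (tamagawaProduct E : ℂ) ≠ 0 := by exact_mod_cast hT0
    have htc : (Nat.card (AddCommGroup.torsion (MW E)) : ℂ) ≠ 0 := by exact_mod_cast ht0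
    have hD : iteratedDeriv r L 1 = (r.factorial : ℂ) *
        ((Ω : ℂ) * (R : ℂ) * (Nat.card (Sha E) : ℂ) * (tamagawaProduct E : ℂ) /
          (Nat.card (AddCommGroup.torsion (MW E)) : ℂ) ^ 2) := by
      rw [div_eq_iff hfac] at hf'
      rw [hf']
      push_cast
      ring
    rw [hD]
    push_cast
    field_simp
  · exact padicValRat.of_nat

/-- In the situation of `Statement`, none of `Ω_E`, `Reg_E`, `#Ш`, `∏ c_ℓ`, `#E(ℚ)_tors` is `0`:
the totalised functions take their genuine values. -/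
theorem Statement.factors_ne_zero (h : Statement) (E : WeierstrassCurve ℚ) [E.IsElliptic] (q : ℕ)
    [Fact q.Prime] (r : ℕ) (hr : r ≤ 1) (hs : selmerCorank E q = (r : Cardinal)) (Ω R : ℝ)
    (hΩ : IsRealPeriod E Ω) (hR : IsRegulator E R) :
    Ω ≠ 0 ∧ R ≠ 0 ∧ Nat.card (Sha E) ≠ 0 ∧ tamagawaProduct E ≠ 0 ∧
      Nat.card (AddCommGroup.torsion (MW E)) ≠ 0 := by
  obtain ⟨-, -, -, -, L, hL, hord, hf⟩ := h.1 E q r hr hs
  exact Claimed.Open.R002.factors_ne_zero hL.1 hord (hf Ω R hΩ hR)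

end

end Claimed.Open.R002
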