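import Claimed.Open.R002.Statement

/-!
# Sanity, part 14: coranks

`corank p A` of `Statement.lean` is the `ℤ_p`-rank of `Hom(A, ℚ_p/ℤ_p)`.  We check that it is what it
should be on the groups that occur as Selmer groups, `(ℚ_p/ℤ_p)^r × (finite group)`:
* `End(ℚ_p/ℤ_p) = ℤ_p` (`exists_eq_smul_id`, `dualQpModZpEquiv`), so `corank (ℚ_p/ℤ_p) = 1`;
* `corank (A × B) = corank A + corank B`; isomorphic groups have the same corank;
* a group killed by a nonzero integer (e.g. a finite group) has corank `0`;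
* `corank ((ℚ_p/ℤ_p)^r × T) = r` for every finite abelian group `T`.
-/

set_option autoImplicit false

namespace Claimed.Open.R002

noncomputable section

variable (p : ℕ) [hp : Fact p.Prime]

/-- the class of `x ∈ ℚ_p` in `ℚ_p/ℤ_p` -/
def qmk : ℚ_[p] →ₗ[ℤ_[p]] QpModZp p := Submodule.mkQ _

lemma qmk_surjective : Function.Surjective (qmk p) := Submodule.mkQ_surjective _

lemma qmk_eq_zero_iff (x : ℚ_[p]) : qmk p x = 0 ↔ ∃ z : ℤ_[p], (z : ℚ_[p]) = x := by
  unfold qmk
  rw [Submodule.mkQ_apply, Submodule.Quotient.mk_eq_zero, Submodule.mem_one]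
  rfl

/-- `e_n`, the class of `p⁻ⁿ` -/
def qe (n : ℕ) : QpModZp p := qmk p ((p : ℚ_[p]) ^ n)⁻¹

lemma pQ_ne_zero : (p : ℚ_[p]) ≠ 0 := by exact_mod_cast hp.1.ne_zero

lemma smul_qe_eq_zero_iff (z : ℤ_[p]) (n : ℕ) : z • qe p n = 0 ↔ (p : ℤ_[p]) ^ n ∣ z := by
  unfold qe
  rw [← map_smul, qmk_eq_zero_iff]
  have hpn : ((p : ℚ_[p]) ^ n) ≠ 0 := pow_ne_zero _ (pQ_ne_zero p)
  constructor
  · rintro ⟨w, hw⟩
    refine ⟨w, ?_⟩
    apply Subtype.ext
    have : (z : ℚ_[p]) * ((p : ℚ_[p]) ^ n)⁻¹ = w := hw.symm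
    push_cast
    rw [← this]; field_simp
  · rintro ⟨w, rfl⟩
    refine ⟨w, ?_⟩
    show (w : ℚ_[p]) = (((p : ℤ_[p]) ^ n * w : ℤ_[p]) : ℚ_[p]) * ((p : ℚ_[p]) ^ n)⁻¹
    push_cast
    field_simp

lemma dvd_iff_norm_le (x : ℤ_[p]) (n : ℕ) : (p : ℤ_[p]) ^ n ∣ x ↔ ‖x‖ ≤ (p : ℝ) ^ (-n : ℤ) := by
  rw [PadicInt.norm_le_pow_iff_mem_span_pow, Ideal.mem_span_singleton]

/-- a `p`-adically coherent sequence has a limit -/
lemma exists_padic_limit (a : ℕ → ℤ_[p]) (h : ∀ n, (p : ℤ_[p]) ^ n ∣ a (n + 1) - a n) :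
    ∃ b : ℤ_[p], ∀ n, (p : ℤ_[p]) ^ n ∣ b - a n := by
  have h1p : (1 : ℝ) < p := by exact_mod_cast hp.1.one_lt
  have hcau : CauchySeq a := by
    apply cauchySeq_of_le_geometric ((p : ℝ)⁻¹) 1 (inv_lt_one_of_one_lt₀ h1p)
    intro n
    rw [dist_comm, dist_eq_norm, one_mul, inv_pow, ← zpow_natCast, ← zpow_neg]
    exact (dvd_iff_norm_le p _ n).mp (h n)
  obtain ⟨b, hb⟩ := cauchySeq_tendsto_of_complete hcau
  refine ⟨b, fun n => ?_⟩
  have hmn : ∀ k, (p : ℤ_[p]) ^ n ∣ a (n + k) - a n := by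
    intro k
    induction k with
    | zero => simp
    | succ k ih =>
      have h1 : (p : ℤ_[p]) ^ n ∣ a (n + k + 1) - a (n + k) :=
        (pow_dvd_pow _ (Nat.le_add_right n k)).trans (h (n + k))
      have : a (n + (k + 1)) - a n = (a (n + k + 1) - a (n + k)) + (a (n + k) - a n) := by
        rw [← add_assoc]; ring
      rw [this]
      exact dvd_add h1 ih
  rw [dvd_iff_norm_le]
  have hclosed : IsClosed {x : ℤ_[p] | ‖x - a n‖ ≤ (p : ℝ) ^ (-n : ℤ)} :=
    isClosed_le (continuous_norm.comp (continuous_id.sub continuous_const)) continuous_const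
  refine hclosed.mem_of_tendsto hb ?_
  filter_upwards [Filter.eventually_ge_atTop n] with m hm
  obtain ⟨k, rfl⟩ := Nat.exists_eq_add_of_le hm
  exact (dvd_iff_norm_le p _ n).mp (hmn k)

/-- every element of `ℚ_p/ℤ_p` is a natural multiple of some `e_n` -/
lemma exists_nsmul_qe (y : QpModZp p) : ∃ (n k : ℕ), y = k • qe p n := by
  obtain ⟨x, rfl⟩ := qmk_surjective p y
  have h1p : (1 : ℝ) < p := by exact_mod_cast hp.1.one_lt
  obtain ⟨n, hn⟩ := pow_unbounded_of_one_lt ‖x‖ h1p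
  have hnorm : ‖x * (p : ℚ_[p]) ^ n‖ ≤ 1 := by
    rw [norm_mul, norm_pow, Padic.norm_p, inv_pow]
    have hpos : (0 : ℝ) < (p : ℝ) ^ n := by positivity
    rw [← div_eq_mul_inv, div_le_one hpos]
    exact hn.le
  let z : ℤ_[p] := ⟨x * (p : ℚ_[p]) ^ n, hnorm⟩
  have hpn : ((p : ℚ_[p]) ^ n) ≠ 0 := pow_ne_zero _ (pQ_ne_zero p)
  have hx : qmk p x = z • qe p n := by
    unfold qe
    rw [← map_smul]
    congr 1
    show x = (x * (p : ℚ_[p]) ^ n) * ((p : ℚ_[p]) ^ n)⁻¹
    field_simp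
  refine ⟨n, PadicInt.appr z n, ?_⟩
  rw [hx, ← sub_eq_zero, ← Nat.cast_smul_eq_nsmul ℤ_[p], ← sub_smul, smul_qe_eq_zero_iff,
    ← Ideal.mem_span_singleton]
  exact PadicInt.appr_spec n z

lemma p_smul_qe_succ (n : ℕ) : p • qe p (n + 1) = qe p n := by
  unfold qe
  rw [← map_nsmul]
  congr 1
  have := pQ_ne_zero p
  rw [nsmul_eq_mul, pow_succ]
  field_simp

lemma pow_smul_qe (n : ℕ) : p ^ n • qe p n = 0 := by
  rw [← Nat.cast_smul_eq_nsmul ℤ_[p], smul_qe_eq_zero_iff]
  push_cast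
  exact dvd_rfl

/-- an element killed by `pⁿ` is a `ℤ_p`-multiple of `e_n` -/
lemma exists_smul_qe_of_pow_smul_eq_zero (y : QpModZp p) (n : ℕ) (h : p ^ n • y = 0) :
    ∃ z : ℤ_[p], y = z • qe p n := by
  obtain ⟨x, rfl⟩ := qmk_surjective p y
  rw [← map_nsmul, qmk_eq_zero_iff] at h
  obtain ⟨z, hz⟩ := h
  refine ⟨z, ?_⟩
  unfold qe
  rw [← map_smul]
  congr 1
  have hpn : ((p : ℚ_[p]) ^ n) ≠ 0 := pow_ne_zero _ (pQ_ne_zero p)
  show x = (z : ℚ_[p]) * ((p : ℚ_[p]) ^ n)⁻¹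
  rw [hz, nsmul_eq_mul]
  push_cast
  field_simp

/-- **`End(ℚ_p/ℤ_p) = ℤ_p`**: every endomorphism of the group `ℚ_p/ℤ_p` is the multiplication by a
`p`-adic integer. -/
theorem exists_eq_smul_id (f : QpModZp p →+ QpModZp p) :
    ∃ b : ℤ_[p], f = b • AddMonoidHom.id (QpModZp p) := by
  have h1 : ∀ n, ∃ z : ℤ_[p], f (qe p n) = z • qe p n := fun n =>
    exists_smul_qe_of_pow_smul_eq_zero p _ n (by rw [← map_nsmul, pow_smul_qe, map_zero])
  choose a ha using h1
  have hcoh : ∀ n, (p : ℤ_[p]) ^ n ∣ a (n + 1) - a n := fun n => by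
    rw [← smul_qe_eq_zero_iff, sub_smul, ← ha n, sub_eq_zero, ← p_smul_qe_succ, map_nsmul, ha (n + 1),
      smul_comm]
  obtain ⟨b, hb⟩ := exists_padic_limit p a hcoh
  refine ⟨b, ?_⟩
  ext y
  obtain ⟨n, k, rfl⟩ := exists_nsmul_qe p y
  have hbn : b • qe p n = a n • qe p n := by
    rw [← sub_eq_zero, ← sub_smul, smul_qe_eq_zero_iff]; exact hb n
  rw [map_nsmul, ha, AddMonoidHom.smul_apply, AddMonoidHom.id_apply, smul_comm b k, hbn]

lemma eq_zero_of_forall_pow_dvd (b : ℤ_[p]) (h : ∀ n : ℕ, (p : ℤ_[p]) ^ n ∣ b) : b = 0 := by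
  have h1p : (1 : ℝ) < p := by exact_mod_cast hp.1.one_lt
  have hlim : Filter.Tendsto (fun n : ℕ => ((p : ℝ)⁻¹) ^ n) Filter.atTop (nhds 0) :=
    tendsto_pow_atTop_nhds_zero_of_lt_one (by positivity) (inv_lt_one_of_one_lt₀ h1p)
  have hle : ‖b‖ ≤ 0 := by
    refine ge_of_tendsto' hlim fun n => ?_
    have := (dvd_iff_norm_le p b n).mp (h n)
    rwa [zpow_neg, zpow_natCast, ← inv_pow] at this
  exact norm_eq_zero.mp (le_antisymm hle (norm_nonneg b))

/-- The Pontryagin dual of `ℚ_p/ℤ_p` is free of rank one over `ℤ_p`, generated by the identity. -/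
def dualQpModZpEquiv : ℤ_[p] ≃ₗ[ℤ_[p]] PontryaginDual p (QpModZp p) :=
  LinearEquiv.ofBijective
    (LinearMap.toSpanSingleton ℤ_[p] (PontryaginDual p (QpModZp p)) (AddMonoidHom.id _))
    ⟨by
      rw [← LinearMap.ker_eq_bot, LinearMap.ker_eq_bot']
      intro b hb
      apply eq_zero_of_forall_pow_dvd p
      intro n
      rw [← smul_qe_eq_zero_iff]
      have := DFunLike.congr_fun hb (qe p n)
      simpa using this,
    fun f => by
      obtain ⟨b, hb⟩ := exists_eq_smul_id p f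
      exact ⟨b, by rw [hb]; rfl⟩⟩

/-- `corank_{ℤ_p} (ℚ_p/ℤ_p) = 1`. -/
theorem corank_QpModZp : corank p (QpModZp p) = 1 := by
  unfold corank
  rw [← (dualQpModZpEquiv p).rank_eq, Module.rank_self]

universe u

/-- Isomorphic groups have isomorphic duals. -/
def dualCongr {A B : Type u} [AddCommGroup A] [AddCommGroup B] (e : A ≃+ B) :
    PontryaginDual p A ≃ₗ[ℤ_[p]] PontryaginDual p B where
  toFun f := f.comp e.symm.toAddMonoidHom
  invFun f := f.comp e.toAddMonoidHom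
  left_inv f := by ext a; simp
  right_inv f := by ext a; simp
  map_add' f g := rfl
  map_smul' c f := rfl

theorem corank_congr {A B : Type u} [AddCommGroup A] [AddCommGroup B] (e : A ≃+ B) :
    corank p A = corank p B :=
  (dualCongr p e).rank_eq

/-- The dual of a product is the product of the duals. -/
def dualProd (A B : Type u) [AddCommGroup A] [AddCommGroup B] :
    PontryaginDual p (A × B) ≃ₗ[ℤ_[p]] PontryaginDual p A × PontryaginDual p B where
  toFun f := (f.comp (AddMonoidHom.inl A B), f.comp (AddMonoidHom.inr A B))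
  invFun g := g.1.coprod g.2
  left_inv f := by
    ext ⟨a, b⟩
    simp only [AddMonoidHom.coprod_apply, AddMonoidHom.comp_apply, AddMonoidHom.inl_apply,
      AddMonoidHom.inr_apply, ← map_add, Prod.mk_add_mk, add_zero, zero_add]
  right_inv g := by
    ext a <;> simp
  map_add' f g := rfl
  map_smul' c f := rfl

lemma rank_prod_of_isDomain {R : Type*} [CommRing R] [IsDomain R] (M N : Type u) [AddCommGroup M]
    [AddCommGroup N] [Module R M] [Module R N] :
    Module.rank R (M × N) = Module.rank R M + Module.rank R N := by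
  have h := LinearMap.rank_range_add_rank_ker (LinearMap.fst R M N)
  rw [LinearMap.range_eq_top.mpr LinearMap.fst_surjective, rank_top, LinearMap.ker_fst] at h
  rw [← h, (LinearEquiv.ofInjective (LinearMap.inr R M N) LinearMap.inr_injective).rank_eq]

/-- `corank (A × B) = corank A + corank B`. -/
theorem corank_prod (A B : Type u) [AddCommGroup A] [AddCommGroup B] :
    corank p (A × B) = corank p A + corank p B := by
  unfold corank
  rw [(dualProd p A B).rank_eq, rank_prod_of_isDomain]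

/-- A group killed by a nonzero integer has corank `0`. -/
theorem corank_eq_zero_of_nsmul_eq_zero {A : Type*} [AddCommGroup A] (N : ℕ) (hN : N ≠ 0)
    (h : ∀ a : A, N • a = 0) : corank p A = 0 := by
  unfold corank
  rw [rank_eq_zero_iff]
  intro f
  refine ⟨(N : ℤ_[p]), by exact_mod_cast hN, ?_⟩
  ext a
  rw [AddMonoidHom.smul_apply, Nat.cast_smul_eq_nsmul, ← map_nsmul, h, map_zero,
    AddMonoidHom.zero_apply]

/-- A finite group has corank `0`. -/
theorem corank_eq_zero_of_finite (A : Type*) [AddCommGroup A] [Finite A] : corank p A = 0 :=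
  corank_eq_zero_of_nsmul_eq_zero p (Nat.card A) Nat.card_pos.ne' fun _ => card_nsmul_eq_zero'

/-- `corank (ℚ_p/ℤ_p)^r = r`. -/
theorem corank_pi_QpModZp (r : ℕ) : corank p (Fin r → QpModZp p) = r := by
  induction r with
  | zero =>
    rw [corank_eq_zero_of_finite]; simp
  | succ r ih =>
    rw [← corank_congr p (Fin.consLinearEquiv ℤ (fun _ : Fin (r + 1) => QpModZp p)).toAddEquiv,
      corank_prod, ih, corank_QpModZp]
    push_cast
    rw [add_comm]

/-- **`corank ((ℚ_p/ℤ_p)^r × T) = r`** for a finite abelian group `T`: the corank of a cofinitely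
generated `ℤ_p`-module is the number of copies of `ℚ_p/ℤ_p` in it. -/
theorem corank_pi_prod_finite (r : ℕ) (T : Type) [AddCommGroup T] [Finite T] :
    corank p ((Fin r → QpModZp p) × T) = r := by
  rw [corank_prod, corank_pi_QpModZp, corank_eq_zero_of_finite, add_zero]

end

end Claimed.Open.R002
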