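import Claimed.Open.R002.Corollaries

/-!
# Sanity: the definitions used in `SylvesterStatement` and `TwistDensityStatement`

(Lemmas of helper131, file assembled by helper257.)

* `cubeSumCurve ℓ : y² = x³ - 432 ℓ²` is an elliptic curve, and its affine points correspond to the
  solutions of `X³ + Y³ = ℓ` by the two explicit maps quoted in `Statement.lean`, which are inverse
  to each other.
* The hypotheses of `SylvesterStatement` are met (`ℓ = 7, 13, 17`), and for these primes the last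
  assertion is checked by hand.
* `quadraticTwist E d` is an elliptic curve for `d ≠ 0`, it becomes isomorphic to `E` over every
  field that contains a square root `δ` of `d`, by a change of variables which `δ ↦ -δ` composes
  with `[-1]`; `E¹ ≅ E`.
* `𝒟(X)` is finite, nonempty for `X ≥ 1`, and `𝒟_0(E;X)`, `𝒟_1(E;X)` are disjoint subsets.
* `Statement` implies the whole of Corollary `cor:quadratic-twist-density` (`TwistDensityFull`):
  the two limits, and the pointwise assertions for every twist of corank `j ∈ {0, 1}`.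
-/

set_option autoImplicit false

namespace Claimed.Open.R002

open WeierstrassCurve Filter Topology

/-! ## The cube-sum curves -/

/-- `Δ(E_ℓ) = -2¹² 3⁹ ℓ⁴`. -/
theorem cubeSumCurve_Δ (ℓ : ℚ) : (cubeSumCurve ℓ).Δ = -(2 ^ 12 * 3 ^ 9) * ℓ ^ 4 := by
  simp only [cubeSumCurve, WeierstrassCurve.Δ, WeierstrassCurve.b₂, WeierstrassCurve.b₄,
    WeierstrassCurve.b₆, WeierstrassCurve.b₈]
  ring

theorem cubeSumCurve_isElliptic {ℓ : ℚ} (hℓ : ℓ ≠ 0) : (cubeSumCurve ℓ).IsElliptic := by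
  rw [WeierstrassCurve.isElliptic_iff, cubeSumCurve_Δ, isUnit_iff_ne_zero]
  positivity

/-- On `y² = x³ - 432 ℓ²` with `ℓ ≠ 0` every rational affine point has `x ≠ 0`. -/
theorem cubeSumCurve_x_ne_zero {ℓ x y : ℚ} (hℓ : ℓ ≠ 0)
    (h : (cubeSumCurve ℓ).toAffine.Equation x y) : x ≠ 0 := by
  rw [WeierstrassCurve.Affine.equation_iff] at h
  simp only [cubeSumCurve] at h
  rintro rfl
  have h1 : y ^ 2 + 432 * ℓ ^ 2 = 0 := by linear_combination h
  have h2 : 0 < ℓ ^ 2 := by positivity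
  nlinarith [sq_nonneg y]

/-- An affine point `(x, y)` of `y² = x³ - 432 ℓ²` gives the solution
`((36 ℓ + y) / (6 x), (36 ℓ - y) / (6 x))` of `X³ + Y³ = ℓ`. -/
theorem cubeSum_of_point {ℓ x y : ℚ} (hℓ : ℓ ≠ 0) (h : (cubeSumCurve ℓ).toAffine.Equation x y) :
    ((36 * ℓ + y) / (6 * x)) ^ 3 + ((36 * ℓ - y) / (6 * x)) ^ 3 = ℓ := by
  have hx : x ≠ 0 := cubeSumCurve_x_ne_zero hℓ h
  rw [WeierstrassCurve.Affine.equation_iff] at h
  simp only [cubeSumCurve] at h
  field_simp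
  linear_combination (6 * 36 * ℓ) * h

/-- A solution of `X³ + Y³ = ℓ ≠ 0` has `X + Y ≠ 0`: the only rational point at infinity of the
cubic is the origin `(1 : -1 : 0)`. -/
theorem cubeSum_add_ne_zero {ℓ X Y : ℚ} (hℓ : ℓ ≠ 0) (h : X ^ 3 + Y ^ 3 = ℓ) : X + Y ≠ 0 := by
  intro h0
  apply hℓ
  rw [← h]
  have : Y = -X := by linarith
  subst this
  ring

/-- Conversely a solution of `X³ + Y³ = ℓ` gives the affine point
`(12 ℓ / (X + Y), 36 ℓ (X - Y) / (X + Y))`. -/
theorem point_of_cubeSum {ℓ X Y : ℚ} (hℓ : ℓ ≠ 0) (h : X ^ 3 + Y ^ 3 = ℓ) :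
    (cubeSumCurve ℓ).toAffine.Equation (12 * ℓ / (X + Y)) (36 * ℓ * (X - Y) / (X + Y)) := by
  have hXY : X + Y ≠ 0 := cubeSum_add_ne_zero hℓ h
  rw [WeierstrassCurve.Affine.equation_iff]
  simp only [cubeSumCurve]
  field_simp
  subst h
  ring

/-- The two maps are inverse to each other (cubic → Weierstrass → cubic). -/
theorem cubeSum_of_point_of_cubeSum {ℓ X Y : ℚ} (hℓ : ℓ ≠ 0) (h : X ^ 3 + Y ^ 3 = ℓ) :
    (36 * ℓ + 36 * ℓ * (X - Y) / (X + Y)) / (6 * (12 * ℓ / (X + Y))) = X ∧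
      (36 * ℓ - 36 * ℓ * (X - Y) / (X + Y)) / (6 * (12 * ℓ / (X + Y))) = Y := by
  have hXY : X + Y ≠ 0 := cubeSum_add_ne_zero hℓ h
  constructor <;> field_simp <;> ring

/-- The two maps are inverse to each other (Weierstrass → cubic → Weierstrass). -/
theorem point_of_cubeSum_of_point {ℓ x y : ℚ} (hℓ : ℓ ≠ 0)
    (h : (cubeSumCurve ℓ).toAffine.Equation x y) :
    12 * ℓ / ((36 * ℓ + y) / (6 * x) + (36 * ℓ - y) / (6 * x)) = x ∧
      36 * ℓ * ((36 * ℓ + y) / (6 * x) - (36 * ℓ - y) / (6 * x)) /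
        ((36 * ℓ + y) / (6 * x) + (36 * ℓ - y) / (6 * x)) = y := by
  have hx : x ≠ 0 := cubeSumCurve_x_ne_zero hℓ h
  constructor <;> field_simp <;> ring

/-- The hypotheses of `SylvesterStatement` are met in each of the three classes. -/
theorem sylvester_hypotheses_met :
    (Nat.Prime 13 ∧ 13 % 9 = 4) ∧ (Nat.Prime 7 ∧ 7 % 9 = 7) ∧ (Nat.Prime 17 ∧ 17 % 9 = 8) := by
  refine ⟨⟨by norm_num, by norm_num⟩, ⟨by norm_num, by norm_num⟩, ⟨by norm_num, by norm_num⟩⟩

/-- `13 = (7/3)³ + (2/3)³`, `7 = 2³ + (-1)³`, `17 = (18/7)³ + (-1/7)³`. -/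
theorem sylvester_examples :
    (∃ x y : ℚ, x ^ 3 + y ^ 3 = (13 : ℕ)) ∧ (∃ x y : ℚ, x ^ 3 + y ^ 3 = (7 : ℕ)) ∧
      (∃ x y : ℚ, x ^ 3 + y ^ 3 = (17 : ℕ)) :=
  ⟨⟨7 / 3, 2 / 3, by norm_num⟩, ⟨2, -1, by norm_num⟩, ⟨18 / 7, -1 / 7, by norm_num⟩⟩

/-! ## Quadratic twists -/

/-- `Δ(E^d) = d⁶ Δ(E)`. -/
theorem quadraticTwist_Δ (E : WeierstrassCurve ℚ) (d : ℚ) :
    (quadraticTwist E d).Δ = d ^ 6 * E.Δ := by
  simp only [quadraticTwist, WeierstrassCurve.Δ, WeierstrassCurve.b₂, WeierstrassCurve.b₄,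
    WeierstrassCurve.b₆, WeierstrassCurve.b₈]
  ring

theorem quadraticTwist_isElliptic (E : WeierstrassCurve ℚ) [E.IsElliptic] {d : ℚ} (hd : d ≠ 0) :
    (quadraticTwist E d).IsElliptic := by
  rw [WeierstrassCurve.isElliptic_iff, quadraticTwist_Δ]
  exact (isUnit_iff_ne_zero.mpr (pow_ne_zero 6 hd)).mul E.isUnit_Δ

/-- Over any field containing a square root `δ` of `d ≠ 0`, `E^d` is isomorphic to `E`, by the change
of variables `(X, Y) ↦ (δ⁻² X, δ⁻³ Y - (a₁/2) δ⁻² X - a₃/2)`.  The nontrivial automorphism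
`δ ↦ -δ` composes this isomorphism with `[-1]`, which characterises the quadratic twist by `d`. -/
theorem quadraticTwist_baseChange (E : WeierstrassCurve ℚ) {d : ℚ} (F : Type*) [Field F]
    [Algebra ℚ F] (δ : Fˣ) (hδ : (δ : F) ^ 2 = algebraMap ℚ F d) :
    (quadraticTwist E d)⁄F =
      (⟨δ⁻¹, 0, -algebraMap ℚ F E.a₁ / 2, -algebraMap ℚ F E.a₃ / 2⟩ : VariableChange F) • (E⁄F) := by
  have h2 : (2 : F) ≠ 0 := by
    have : CharZero F := algebraRat.charZero F
    norm_num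
  have h4 : (4 : F) ≠ 0 := by
    have : CharZero F := algebraRat.charZero F
    norm_num
  simp only [quadraticTwist, WeierstrassCurve.baseChange, WeierstrassCurve.map,
    WeierstrassCurve.variableChange_def, WeierstrassCurve.b₂, WeierstrassCurve.b₄,
    WeierstrassCurve.b₆, inv_inv]
  ext <;> simp only [map_zero, map_div₀, map_mul, map_pow, map_add, map_ofNat, ← hδ] <;>
    field_simp <;> ring

/-- `E¹ ≅ E` over `ℚ`. -/
theorem quadraticTwist_one (E : WeierstrassCurve ℚ) :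
    quadraticTwist E 1 = (⟨1, 0, -E.a₁ / 2, -E.a₃ / 2⟩ : VariableChange ℚ) • E := by
  simp only [quadraticTwist, WeierstrassCurve.variableChange_def, WeierstrassCurve.b₂,
    WeierstrassCurve.b₄, WeierstrassCurve.b₆, inv_one, Units.val_one]
  ext <;> simp <;> ring

/-- The points of `E^d` are the solutions of `d y² = x³ + (b₂/4) x² + (b₄/2) x + b₆/4`. -/
theorem quadraticTwist_equation_iff (E : WeierstrassCurve ℚ) {d : ℚ} (hd : d ≠ 0) (x y : ℚ) :
    (quadraticTwist E d).toAffine.Equation (d * x) (d ^ 2 * y) ↔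
      d * y ^ 2 = x ^ 3 + E.b₂ / 4 * x ^ 2 + E.b₄ / 2 * x + E.b₆ / 4 := by
  rw [WeierstrassCurve.Affine.equation_iff]
  simp only [quadraticTwist]
  constructor
  · intro h
    have h3 : d ^ 3 ≠ 0 := pow_ne_zero 3 hd
    apply mul_left_cancel₀ h3
    linear_combination h
  · intro h
    linear_combination d ^ 3 * h

/-- `𝒟(X)` is finite, so that `Nat.card` counts it. -/
theorem squarefreeUpTo_finite (X : ℝ) : (squarefreeUpTo X).Finite := by
  refine (Set.finite_Icc (-⌊X⌋) ⌊X⌋).subset ?_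
  rintro d ⟨-, h, -⟩
  have h1 : |d| ≤ ⌊X⌋ := Int.le_floor.mpr h
  exact ⟨by linarith [neg_abs_le d], by linarith [le_abs_self d]⟩

/-- `1 ∈ 𝒟(X)` for `X ≥ 1`: the denominators in `TwistDensityStatement` are eventually nonzero. -/
theorem one_mem_squarefreeUpTo {X : ℝ} (hX : 1 ≤ X) : (1 : ℤ) ∈ squarefreeUpTo X :=
  ⟨by norm_num, by simpa using hX, squarefree_one⟩

theorem card_squarefreeUpTo_pos {X : ℝ} (hX : 1 ≤ X) : 0 < Nat.card (squarefreeUpTo X) := by
  have : Finite (squarefreeUpTo X) := (squarefreeUpTo_finite X).to_subtype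
  have : Nonempty (squarefreeUpTo X) := ⟨⟨1, one_mem_squarefreeUpTo hX⟩⟩
  exact Nat.card_pos

theorem twistsOfCorank_subset (E : WeierstrassCurve ℚ) (j : ℕ) (X : ℝ) :
    twistsOfCorank E j X ⊆ squarefreeUpTo X := fun _ h => h.1

theorem twistsOfCorank_disjoint (E : WeierstrassCurve ℚ) (X : ℝ) :
    Disjoint (twistsOfCorank E 0 X) (twistsOfCorank E 1 X) := by
  rw [Set.disjoint_left]
  rintro d ⟨-, h0⟩ ⟨-, h1⟩
  rw [h0] at h1
  exact absurd h1 (by simp)

/-! ## `Statement` gives the whole of Corollary `cor:quadratic-twist-density` -/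

/-- **Corollary `cor:quadratic-twist-density`** of the two-primary paper, in full: the two density
limits, and for every nonzero squarefree `d` with `s₂(E^d) = j ∈ {0, 1}`, for `F = E^d`:
`rank F(ℚ) = ord_{s=1} L(F,s) = j`, `#Ш(F/ℚ) < ∞`, `Q_F ∈ ℚ_{>0}` and `v₂(Q_F) = v₂(#Ш(F/ℚ))`. -/
def TwistDensityFull : Prop :=
  ∀ (E : WeierstrassCurve ℚ) [E.IsElliptic] (j : ℕ), j ≤ 1 →
    Tendsto (fun X : ℝ => (Nat.card (twistsOfCorank E j X) : ℝ) / (Nat.card (squarefreeUpTo X) : ℝ))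
      atTop (𝓝 (1 / 2)) ∧
    ∀ d : ℤ, d ≠ 0 → Squarefree d → selmerCorank (quadraticTwist E d) 2 = (j : Cardinal) →
      Module.rank ℤ (MW (quadraticTwist E d)) = (j : Cardinal) ∧
      Finite (Sha (quadraticTwist E d)) ∧
      (∃ Ω, IsRealPeriod (quadraticTwist E d) Ω) ∧
      (∃ R, IsRegulator (quadraticTwist E d) R) ∧
      ∃ L : ℂ → ℂ, IsLFunction (quadraticTwist E d) L ∧ analyticOrderAt L 1 = (j : ℕ∞) ∧
        ∀ Ω R : ℝ, IsRealPeriod (quadraticTwist E d) Ω → IsRegulator (quadraticTwist E d) R →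
          ∃ Q : ℚ, 0 < Q ∧
            iteratedDeriv j L 1 *
                (Nat.card (AddCommGroup.torsion (MW (quadraticTwist E d))) : ℂ) ^ 2 /
              ((j.factorial : ℂ) * (Ω : ℂ) * (R : ℂ) * (tamagawaProduct (quadraticTwist E d) : ℂ)) =
                (Q : ℂ) ∧
            padicValRat 2 Q = (padicValNat 2 (Nat.card (Sha (quadraticTwist E d))) : ℤ)

theorem Statement.twistDensityFull (h : Statement) : TwistDensityFull := by
  intro E _ j hj
  refine ⟨h.2.2 E j hj, fun d hd _ hs => ?_⟩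
  have : (quadraticTwist E d).IsElliptic :=
    quadraticTwist_isElliptic E (by exact_mod_cast hd)
  exact h.twoPrimary (quadraticTwist E d) 2 j hj hs

/-- The union of the two families has density one. -/
theorem Statement.twist_density_one (h : Statement) (E : WeierstrassCurve ℚ) [E.IsElliptic] :
    Tendsto (fun X : ℝ => (Nat.card ↥(twistsOfCorank E 0 X ∪ twistsOfCorank E 1 X) : ℝ) /
      (Nat.card (squarefreeUpTo X) : ℝ)) atTop (𝓝 1) := by
  have h0 := h.2.2 E 0 (by norm_num)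
  have h1 := h.2.2 E 1 le_rfl
  have h01 := h0.add h1
  have e : (1 / 2 : ℝ) + 1 / 2 = 1 := by norm_num
  rw [e] at h01
  refine h01.congr fun X => ?_
  have hf0 : (twistsOfCorank E 0 X).Finite :=
    (squarefreeUpTo_finite X).subset (twistsOfCorank_subset E 0 X)
  have hf1 : (twistsOfCorank E 1 X).Finite :=
    (squarefreeUpTo_finite X).subset (twistsOfCorank_subset E 1 X)
  have hc : Nat.card ↥(twistsOfCorank E 0 X ∪ twistsOfCorank E 1 X) =
      Nat.card (twistsOfCorank E 0 X) + Nat.card (twistsOfCorank E 1 X) := by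
    simpa [Set.ncard_eq_toFinset_card', Nat.card_coe_set_eq] using
      Set.ncard_union_eq (twistsOfCorank_disjoint E X) hf0 hf1
  rw [hc]
  push_cast
  ring

end Claimed.Open.R002
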