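import Claimed.Open.R002.SanityE5Action

/-!
# Sanity, part E5.8: `P = (-4, 6)` is not divisible by `2` modulo torsion on `E₅ : y² = x³ - 25 x`

If `Q ∈ E₅(ℚ)` then `x(2Q)`, `x(2Q) - 5`, `x(2Q) + 5` are squares of rational numbers (`double_rat₅`).  Hence
* no point of order two is the double of a rational point, so the rational points of `2`-power order are killed by `2`
  (`two_torsion_of_rat₅`: no rational `4`-torsion);
* none of `P`, `P + T₁ = (25/4, ·)`, `P + T₂ = (-5/9, ·)`, `P + T₃ = (45, ·)` is the double of a rational point.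

Consequence (`half_P₅_ne`): for `2 R₁ = P` the coboundary of `R₁` is not the coboundary of a point of `E₅[2^∞]`, i.e. the
Kummer class of `P / 2` in `H¹(ℚ, E₅[2^∞])` is not zero.
-/

set_option autoImplicit false

namespace Claimed.Open.R002

open WeierstrassCurve

noncomputable section

attribute [local instance] Classical.propDecidable
attribute [-instance] DivisionRing.toRatAlgebra

/-- `5` is not the square of a rational number. -/
lemma sq_ne_five₅ (r : ℚ) : r ^ 2 ≠ 5 := by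
  intro h
  have hr : r ≠ 0 := by
    rintro rfl
    norm_num at h
  have : Fact (Nat.Prime 5) := ⟨by norm_num⟩
  have h1 : padicValRat 5 (r ^ 2) = padicValRat 5 ((5 : ℕ) : ℚ) := by rw [h]; norm_num
  rw [padicValRat.pow, padicValRat.self (by norm_num)] at h1
  push_cast at h1
  omega

local notation "ι₅" => algebraMap ℚ (AlgebraicClosure ℚ)

/-- The double of a rational point of `E₅`: `x`, `x - 5`, `x + 5` are rational squares. -/
lemma double_rat₅ (Q : PointsBar E₅ ℚ) (hQ : ∀ τ : GalBar ℚ, τ • Q = Q) :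
    Q + Q = 0 ∨ ∃ (a b c : ℚ) (Y : AlgebraicClosure ℚ) (h : Y ^ 2 = (ι₅ (a ^ 2)) ^ 3 - 25 * ι₅ (a ^ 2)),
      Q + Q = pt₅ (ι₅ (a ^ 2)) Y h ∧ b ^ 2 = a ^ 2 - 5 ∧ c ^ 2 = a ^ 2 + 5 := by
  by_cases h0 : Q = 0
  · left; rw [h0, add_zero]
  obtain ⟨x, y, h, rfl⟩ := exists_pt₅ Q h0
  by_cases hy : y = 0
  · subst hy
    left
    exact pt_add_self_of_y_eq_zero₅ h
  right
  have hfix : ∀ τ : GalBar ℚ, τ x = x ∧ τ y = y := fun τ => by
    have := hQ τ
    rw [smul_pt₅] at this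
    exact pt_inj₅ this
  obtain ⟨x0, rfl⟩ := exists_of_fixed ℚ x fun τ => (hfix τ).1
  obtain ⟨y0, rfl⟩ := exists_of_fixed ℚ y fun τ => (hfix τ).2
  have hy0 : y0 ≠ 0 := by
    rintro rfl
    exact hy (map_zero _)
  have h' : y0 ^ 2 = x0 ^ 3 - 25 * x0 := by
    apply (ι₅).injective
    rw [map_pow, h, map_sub, map_pow, map_mul, map_ofNat]
  obtain ⟨X, Y, h₃, e, hX⟩ := two_pt₅ h hy
  have hX' : X = ι₅ (g1₅ x0 y0 ^ 2) := by rw [hX, map_pow, map_g1₅]
  subst hX'
  exact ⟨g1₅ x0 y0, g2₅ x0 y0, g3₅ x0 y0, Y, h₃, e, g2_sq₅ h' hy0, g3_sq₅ h' hy0⟩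

/-- A point of order two is not the double of a rational point. -/
lemma double_rat_two_torsion₅ (Q : PointsBar E₅ ℚ) (hQ : ∀ τ : GalBar ℚ, τ • Q = Q)
    (h4 : (Q + Q) + (Q + Q) = 0) : Q + Q = 0 := by
  rcases double_rat₅ Q hQ with h | ⟨a, b, c, Y, h, e, hb, hc⟩
  · exact h
  exfalso
  rcases two_torsion₅ _ h4 with h' | h' | h' | h'
  · rw [e] at h'
    exact pt_ne_zero₅ h'
  · rw [e] at h'
    have h1 : ι₅ (a ^ 2) = ι₅ 0 := by rw [(pt_inj₅ h').1, map_zero]
    have h2 : a ^ 2 = 0 := (ι₅).injective h1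
    nlinarith [sq_nonneg b]
  · rw [e] at h'
    have h1 : ι₅ (a ^ 2) = ι₅ 5 := by rw [(pt_inj₅ h').1, map_ofNat]
    exact sq_ne_five₅ a ((ι₅).injective h1)
  · rw [e] at h'
    have h1 : ι₅ (a ^ 2) = ι₅ (-5) := by rw [(pt_inj₅ h').1, map_neg, map_ofNat]
    have h2 : a ^ 2 = -5 := (ι₅).injective h1
    nlinarith [sq_nonneg a]

/-- **No rational `4`-torsion**: a rational point of `2`-power order of `E₅` is killed by `2`. -/
lemma two_torsion_of_rat₅ (m : ℕ) : ∀ S : PointsBar E₅ ℚ, (∀ τ : GalBar ℚ, τ • S = S) →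
    2 ^ m • S = 0 → S + S = 0 := by
  induction m with
  | zero =>
    intro S _ h
    rw [pow_zero, one_nsmul] at h
    rw [h, add_zero]
  | succ m ih =>
    intro S hS h
    refine double_rat_two_torsion₅ S hS (ih (S + S) (fun τ => by rw [smul_add, hS]) ?_)
    rw [← two_nsmul, ← mul_nsmul', ← pow_succ]
    exact h

lemma P₅_eq : P₅ = (pt₅ (-4) 6 (by norm_num) : PointsBar E₅ ℚ) := by
  unfold P₅ ratPt₅
  exact pt_eq_pt₅ (by rw [map_neg, map_ofNat]) (by rw [map_ofNat])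

lemma P₅_y_ne : (6 : AlgebraicClosure ℚ) ≠ 0 := by norm_num

/-- None of `P`, `P + T₁`, `P + T₂`, `P + T₃` is the double of a rational point. -/
lemma P₅_add_ne_double (Q T : PointsBar E₅ ℚ) (hQ : ∀ τ : GalBar ℚ, τ • Q = Q) (hT : T + T = 0) :
    Q + Q ≠ P₅ + T := by
  intro hQT
  have hP := P₅_eq
  rcases two_torsion₅ T hT with rfl | rfl | rfl | rfl
  · rw [add_zero] at hQT
    rcases double_rat₅ Q hQ with h | ⟨a, b, c, Y, h, e, hb, hc⟩
    · rw [h, hP] at hQT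
      exact pt_ne_zero₅ hQT.symm
    · rw [e, hP] at hQT
      have h1 : ι₅ (a ^ 2) = ι₅ (-4) := by rw [(pt_inj₅ hQT).1, map_neg, map_ofNat]
      have h2 : a ^ 2 = -4 := (ι₅).injective h1
      nlinarith [sq_nonneg a]
  · rw [hP, add_T1₅ _ P₅_y_ne] at hQT
    rcases double_rat₅ Q hQ with h | ⟨a, b, c, Y, h, e, hb, hc⟩
    · rw [h] at hQT
      exact pt_ne_zero₅ hQT.symm
    · rw [e] at hQT
      have h1 : ι₅ (a ^ 2) = ι₅ (-25 / -4) := by
        rw [(pt_inj₅ hQT).1, map_div₀, map_neg, map_neg, map_ofNat, map_ofNat]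
      have h2 : a ^ 2 = -25 / -4 := (ι₅).injective h1
      refine sq_ne_five₅ (2 * b) ?_
      rw [mul_pow, hb, h2]
      norm_num
  · rw [hP, add_T2₅ _ P₅_y_ne] at hQT
    rcases double_rat₅ Q hQ with h | ⟨a, b, c, Y, h, e, hb, hc⟩
    · rw [h] at hQT
      exact pt_ne_zero₅ hQT.symm
    · rw [e] at hQT
      have h1 : ι₅ (a ^ 2) = ι₅ (5 * (-4 + 5) / (-4 - 5)) := by
        rw [(pt_inj₅ hQT).1, map_div₀, map_mul, map_add, map_sub, map_neg, map_ofNat, map_ofNat]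
      have h2 : a ^ 2 = 5 * (-4 + 5) / (-4 - 5) := (ι₅).injective h1
      norm_num at h2
      nlinarith [sq_nonneg a]
  · rw [hP, add_T3₅ _ P₅_y_ne] at hQT
    rcases double_rat₅ Q hQ with h | ⟨a, b, c, Y, h, e, hb, hc⟩
    · rw [h] at hQT
      exact pt_ne_zero₅ hQT.symm
    · rw [e] at hQT
      have h1 : ι₅ (a ^ 2) = ι₅ (5 * (5 - -4) / (-4 + 5)) := by
        rw [(pt_inj₅ hQT).1, map_div₀, map_mul, map_add, map_sub, map_neg, map_ofNat, map_ofNat]
      have h2 : a ^ 2 = 5 * (5 - -4) / (-4 + 5) := (ι₅).injective h1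
      refine sq_ne_five₅ (a / 3) ?_
      rw [div_pow, h2]
      norm_num

/-- **The Kummer class of `P / 2` is not zero**: if `2 R₁ = P`, the coboundary of `R₁` is not the coboundary of a point of
`E₅[2^∞]`. -/
theorem half_P₅_ne (R1 T : PointsBar E₅ ℚ) (h : R1 + R1 = P₅) (hT : ∃ m : ℕ, 2 ^ m • T = 0) :
    ¬ ∀ τ : GalBar ℚ, τ • R1 - R1 = τ • T - T := by
  intro hcob
  obtain ⟨m, hm⟩ := hT
  have hQ : ∀ τ : GalBar ℚ, τ • (R1 - T) = R1 - T := fun τ => by
    have := hcob τ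
    rw [smul_sub]
    calc τ • R1 - τ • T = (τ • R1 - R1) - (τ • T - T) + (R1 - T) := by abel
      _ = R1 - T := by rw [this, sub_self, zero_add]
  have hQQ : (R1 - T) + (R1 - T) = P₅ - (T + T) := by rw [← h]; abel
  have hTT : ∀ τ : GalBar ℚ, τ • (T + T) = T + T := fun τ => by
    have e : T + T = P₅ - ((R1 - T) + (R1 - T)) := by rw [hQQ]; abel
    rw [e, smul_sub, smul_add, hQ, smul_P₅]
  have h2 : (T + T) + (T + T) = 0 :=
    two_torsion_of_rat₅ m (T + T) hTT (by rw [nsmul_add, hm, add_zero])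
  refine P₅_add_ne_double (R1 - T) (T + T) hQ h2 ?_
  rw [hQQ, sub_eq_add_neg, neg_eq_of_add_eq_zero_left h2]

end

end Claimed.Open.R002
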