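import Claimed.Open.R002.SanityE0FourTorsion

/-!
# Sanity, part 9: complete `2`-descent on `E₀ : y² = x³ - x`

An everywhere locally trivial continuous cocycle `G_ℚ → E₀[2]` is the coboundary of a point of
order dividing four.
-/

set_option autoImplicit false

namespace Claimed.Open.R002

open WeierstrassCurve

noncomputable section

attribute [local instance] Classical.propDecidable
attribute [-instance] DivisionRing.toRatAlgebra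

local instance algQp (p : ℕ) [Fact p.Prime] : Algebra ℚ ℚ_[p] := DivisionRing.toRatAlgebra
local instance algR : Algebra ℚ ℝ := DivisionRing.toRatAlgebra

local notation "Kb" => AlgebraicClosure ℚ

/-- the generic local step, including the choice of an embedding -/
lemma localCond_of_locTrivAt (F : Type*) [Field F] [Algebra ℚ F] [CharZero F]
    (ξ : GalBar ℚ → PointsBar E₀ ℚ) (h2 : ∀ τ, ξ τ + ξ τ = 0)
    (α1 α3 : Kb) (hα1 : α1 ≠ 0) (hα3 : α3 ≠ 0)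
    (h1 : ∀ τ : GalBar ℚ, τ α1 = ((e1 (ξ τ) : ℤ) : Kb) * α1)
    (h3 : ∀ τ : GalBar ℚ, τ α3 = ((e3 (ξ τ) : ℤ) : Kb) * α3)
    (d1 d3 : ℚ) (hd1 : algebraMap ℚ Kb d1 = α1 ^ 2) (hd3 : algebraMap ℚ Kb d3 = α3 ^ 2)
    (hloc : LocTrivAt E₀ F ξ) : LocalCond F d1 d3 := by
  let ι : Emb ℚ F := IsAlgClosed.lift
  obtain ⟨Q, hQ⟩ := hloc ι
  exact localCond_of_locTriv F ξ h2 α1 α3 hα1 hα3 h1 h3 d1 d3 hd1 hd3 ι Q hQ

lemma cocycle_one {G M : Type*} [Group G] [TopologicalSpace G] [AddCommGroup M]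
    [DistribMulAction G M] (ξ : Z1 G M) : ξ.1 1 = 0 := by
  have := Z1.map_mul ξ 1 1
  rw [one_smul, mul_one] at this
  exact (add_eq_left.mp this.symm)

/-- **Complete 2-descent for `y² = x³ - x`**: an everywhere locally trivial continuous cocycle with
values in `E₀[2]` is the coboundary of a `4`-torsion point. -/
theorem two_descent (ξ : Z1 (GalBar ℚ) (PointsBar E₀ ℚ)) (h2 : ∀ τ, ξ.1 τ + ξ.1 τ = 0)
    (hloc : LocTriv E₀ ξ.1) :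
    ∃ R : PointsBar E₀ ℚ, 4 • R = 0 ∧ ∀ τ : GalBar ℚ, ξ.1 τ = τ • R - R := by
  have hmul : ∀ σ τ : GalBar ℚ, ξ.1 (σ * τ) = ξ.1 σ + ξ.1 τ := fun σ τ => by
    rw [Z1.map_mul, smul_two_torsion ℚ σ _ (h2 τ)]
  let χ1 : GalBar ℚ →* ℤˣ :=
    { toFun := fun τ => e1 (ξ.1 τ)
      map_one' := by rw [cocycle_one]; simp
      map_mul' := fun σ τ => by rw [hmul, e1_add _ _ (h2 σ) (h2 τ)] }
  let χ3 : GalBar ℚ →* ℤˣ :=
    { toFun := fun τ => e3 (ξ.1 τ)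
      map_one' := by rw [cocycle_one]; simp
      map_mul' := fun σ τ => by rw [hmul, e3_add _ _ (h2 σ) (h2 τ)] }
  have hopen1 : IsOpen (χ1.ker : Set (GalBar ℚ)) :=
    ((Z1.isLocallyConstant ξ).comp e1).isOpen_fiber 1
  have hopen3 : IsOpen (χ3.ker : Set (GalBar ℚ)) :=
    ((Z1.isLocallyConstant ξ).comp e3).isOpen_fiber 1
  obtain ⟨α1, hα1, h1⟩ := exists_kummer_generator χ1 hopen1
  obtain ⟨α3, hα3, h3⟩ := exists_kummer_generator χ3 hopen3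
  have hsq : ∀ ε : ℤˣ, ((ε : ℤ) : Kb) * ((ε : ℤ) : Kb) = 1 := by
    intro ε
    rcases Int.units_eq_one_or ε with rfl | rfl <;> simp
  obtain ⟨d1, hd1⟩ := exists_of_fixed ℚ (α1 ^ 2) (fun σ => by
    rw [map_pow, h1]; linear_combination (α1 ^ 2) * hsq (χ1 σ))
  obtain ⟨d3, hd3⟩ := exists_of_fixed ℚ (α3 ^ 2) (fun σ => by
    rw [map_pow, h3]; linear_combination (α3 ^ 2) * hsq (χ3 σ))
  have hd10 : d1 ≠ 0 := by
    rintro rfl
    rw [map_zero] at hd1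
    exact hα1 (by simpa using hd1.symm)
  have hd30 : d3 ≠ 0 := by
    rintro rfl
    rw [map_zero] at hd3
    exact hα3 (by simpa using hd3.symm)
  -- local conditions
  have hp : ∀ (ℓ : ℕ) (_ : Fact ℓ.Prime), LocalCond ℚ_[ℓ] d1 d3 := fun ℓ hℓ =>
    localCond_of_locTrivAt ℚ_[ℓ] ξ.1 h2 α1 α3 hα1 hα3 h1 h3 d1 d3 hd1 hd3 (hloc.1 ℓ hℓ)
  have hR : LocalCond ℝ d1 d3 :=
    localCond_of_locTrivAt ℝ ξ.1 h2 α1 α3 hα1 hα3 h1 h3 d1 d3 hd1 hd3 hloc.2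
  have hev1 : ∀ ℓ : ℕ, ℓ.Prime → Even (padicValRat ℓ d1) := fun ℓ hℓ =>
    haveI : Fact ℓ.Prime := ⟨hℓ⟩
    (hp ℓ ⟨hℓ⟩).even_val_d1 hd10
  have hev3 : ∀ ℓ : ℕ, ℓ.Prime → ℓ ≠ 2 → Even (padicValRat ℓ d3) := fun ℓ hℓ hℓ2 =>
    haveI : Fact ℓ.Prime := ⟨hℓ⟩
    (hp ℓ ⟨hℓ⟩).even_val_d3 hd30 hℓ2
  have hpos3 : 0 < d3 := hR.pos_d3 hd30
  -- global consequences
  obtain ⟨I, hI⟩ := IsAlgClosed.exists_pow_nat_eq (-1 : Kb) (n := 2) (by norm_num)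
  obtain ⟨r, hr⟩ := IsAlgClosed.exists_pow_nat_eq (2 : Kb) (n := 2) (by norm_num)
  obtain ⟨β1, c1, hβ1, hc1⟩ : ∃ (β : Kb) (c : ℚ), (β = 1 ∨ β ^ 2 = -1) ∧
      α1 ^ 2 = (algebraMap ℚ Kb c * β) ^ 2 := by
    rcases lt_or_gt_of_ne hd10 with hneg | hpos
    · obtain ⟨s, -, hs⟩ := rat_eq_sq_of_even_val (-d1) (by linarith)
        (fun ℓ hℓ => by rw [padicValRat.neg]; exact hev1 ℓ hℓ)
      refine ⟨I, s, Or.inr hI, ?_⟩
      have : d1 = -s ^ 2 := by linarith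
      rw [← hd1, this, mul_pow, hI, map_neg, map_pow]; ring
    · obtain ⟨s, -, hs⟩ := rat_eq_sq_of_even_val d1 hpos hev1
      refine ⟨1, s, Or.inl rfl, ?_⟩
      rw [← hd1, hs, mul_one, map_pow]
  obtain ⟨β3, c3, hβ3, hc3⟩ : ∃ (β : Kb) (c : ℚ), (β = 1 ∨ β ^ 2 = 2) ∧
      α3 ^ 2 = (algebraMap ℚ Kb c * β) ^ 2 := by
    obtain ⟨s, -, hs | hs⟩ := rat_eq_sq_or_two_sq d3 hpos3 hev3
    · refine ⟨1, s, Or.inl rfl, ?_⟩
      rw [← hd3, hs, mul_one, map_pow]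
    · refine ⟨r, s, Or.inr hr, ?_⟩
      rw [← hd3, hs, mul_pow, hr, map_mul, map_pow, map_ofNat]; ring
  obtain ⟨R1, hR1, hR1'⟩ := exists_R1 β1 hβ1 (fun τ => χ1 τ)
    (fun τ => sign_of_root α1 β1 hα1 c1 hc1 _ τ (h1 τ))
  obtain ⟨R3, hR3, hR3'⟩ := exists_R3 β3 hβ3 (fun τ => χ3 τ)
    (fun τ => sign_of_root α3 β3 hα3 c3 hc3 _ τ (h3 τ))
  refine ⟨R1 + R3, by rw [nsmul_add, hR1, hR3, add_zero], fun τ => ?_⟩
  obtain ⟨T, e, hT2, hT1, hT3⟩ := hR1' τ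
  obtain ⟨T', e', hT2', hT1', hT3'⟩ := hR3' τ
  have hTT : (T + T') + (T + T') = 0 := by
    calc (T + T') + (T + T') = (T + T) + (T' + T') := by abel
      _ = 0 := by rw [hT2, hT2', add_zero]
  have key : ξ.1 τ = T + T' := by
    apply eq_of_e1_e3 _ _ (h2 τ) hTT
    · rw [e1_add _ _ hT2 hT2', hT1, hT1', mul_one]; rfl
    · rw [e3_add _ _ hT2 hT2', hT3, hT3', one_mul]; rfl
  rw [key, smul_add, e, e']
  abel

end

end Claimed.Open.R002
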