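import Claimed.Open.R002.SanityE5Defs

/-!
# Sanity, part E5.4b: the `5`-adic condition of the `2`-descent on `E₅ : y² = x³ - 25 x`

The binary forms `2 x² ∓ y²` are anisotropic over `ℚ₅` (`±2` are not squares modulo `5`) and their non-zero values have even
valuation.  This kills the eight pairs `(±1, 2)`, `(±1, 10)`, `(±5, 1)`, `(±5, 5)` of the `2`-descent.
-/

set_option autoImplicit false

namespace Claimed.Open.R002

/-- `2 t² ∓ 1` and `2 ∓ t²` never vanish modulo `5`. -/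
lemma five_zmod₅ (t : ZMod 5) :
    2 * t ^ 2 - 1 ≠ 0 ∧ 2 * t ^ 2 + 1 ≠ 0 ∧ 2 - t ^ 2 ≠ 0 ∧ 2 + t ^ 2 ≠ 0 := by
  revert t; decide

variable [Fact (Nat.Prime 5)]

/-- A `5`-adic integer which does not vanish modulo `5` has norm one. -/
lemma five_norm_eq_one₅ (q : ℤ_[5]) (h : PadicInt.toZMod q ≠ 0) : ‖(q : ℚ_[5])‖ = 1 := by
  have hu : IsUnit q := by
    by_contra hn
    apply h
    have h1 : q ∈ IsLocalRing.maximalIdeal ℤ_[5] := (IsLocalRing.mem_maximalIdeal q).2 hn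
    rw [← PadicInt.ker_toZMod] at h1
    exact h1
  exact PadicInt.isUnit_iff.1 hu

/-- For `‖w‖ ≤ 1` the numbers `2 w² - ε` and `2 - ε w²`, `ε = ± 1`, are `5`-adic units. -/
lemma five_unit₅ (w ε : ℚ_[5]) (hw : ‖w‖ ≤ 1) (hε : ε = 1 ∨ ε = -1) :
    ‖2 * w ^ 2 - ε‖ = 1 ∧ ‖2 - ε * w ^ 2‖ = 1 := by
  let W : ℤ_[5] := ⟨w, hw⟩
  have hW : (W : ℚ_[5]) = w := rfl
  have t2 : PadicInt.toZMod (2 : ℤ_[5]) = 2 := map_ofNat _ 2
  have c2 : ((2 : ℤ_[5]) : ℚ_[5]) = 2 := by norm_cast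
  obtain ⟨h1, h2, h3, h4⟩ := five_zmod₅ (PadicInt.toZMod W)
  rcases hε with rfl | rfl
  · constructor
    · have := five_norm_eq_one₅ (2 * W ^ 2 - 1) (by simpa [t2] using h1)
      simpa [hW, c2] using this
    · have := five_norm_eq_one₅ (2 - W ^ 2) (by simpa [t2] using h3)
      simpa [hW, c2] using this
  · constructor
    · have := five_norm_eq_one₅ (2 * W ^ 2 + 1) (by simpa [t2] using h2)
      simpa [hW, c2, sub_neg_eq_add] using this
    · have := five_norm_eq_one₅ (2 + W ^ 2) (by simpa [t2] using h4)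
      simpa [hW, c2, sub_neg_eq_add] using this

/-- The non-zero values of `2 x² - ε y²` over `ℚ₅` have the norm of a non-zero square. -/
lemma five_form₅ (x y ε : ℚ_[5]) (hε : ε = 1 ∨ ε = -1) (hxy : x ≠ 0 ∨ y ≠ 0) :
    ∃ z : ℚ_[5], z ≠ 0 ∧ ‖2 * x ^ 2 - ε * y ^ 2‖ = ‖z‖ ^ 2 := by
  rcases le_or_gt ‖x‖ ‖y‖ with h | h
  · have hy : y ≠ 0 := by
      rintro rfl
      rcases hxy with hx | hy
      · exact hx (by simpa using h)
      · exact hy rfl
    refine ⟨y, hy, ?_⟩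
    have hw : ‖x / y‖ ≤ 1 := by
      rw [norm_div]; exact div_le_one_of_le₀ h (norm_nonneg _)
    have h1 := (five_unit₅ (x / y) ε hw hε).1
    have h2 : 2 * x ^ 2 - ε * y ^ 2 = y ^ 2 * (2 * (x / y) ^ 2 - ε) := by field_simp
    rw [h2, norm_mul, h1, mul_one, norm_pow]
  · have hx : x ≠ 0 := by
      rintro rfl
      simp at h
      exact absurd h (not_lt.2 (norm_nonneg _))
    refine ⟨x, hx, ?_⟩
    have hw : ‖y / x‖ ≤ 1 := by
      rw [norm_div]; exact div_le_one_of_le₀ h.le (norm_nonneg _)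
    have h1 := (five_unit₅ (y / x) ε hw hε).2
    have h2 : 2 * x ^ 2 - ε * y ^ 2 = x ^ 2 * (2 - ε * (y / x) ^ 2) := by field_simp
    rw [h2, norm_mul, h1, mul_one, norm_pow]

/-- A non-zero value of `2 x² - ε y²` is never `± 5` times a square. -/
lemma five_no_sol₅ (x y c ε w : ℚ_[5]) (hε : ε = 1 ∨ ε = -1) (hw : w = 1 ∨ w = -1)
    (hxy : x ≠ 0 ∨ y ≠ 0) (h : 2 * x ^ 2 - ε * y ^ 2 = 5 * w * c ^ 2) : False := by
  obtain ⟨z, hz, hn⟩ := five_form₅ x y ε hε hxy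
  have hw1 : ‖w‖ = 1 := by rcases hw with rfl | rfl <;> simp
  have h5 : ‖(5 : ℚ_[5])‖ = (5 : ℝ)⁻¹ := by
    have := Padic.norm_p (p := 5)
    simpa using this
  rw [h, norm_mul, norm_mul, hw1, mul_one, h5, norm_pow] at hn
  by_cases hc : c = 0
  · subst hc
    simp at hn
    exact hz (by simpa using hn.symm)
  · rw [Padic.norm_eq_zpow_neg_valuation hz, Padic.norm_eq_zpow_neg_valuation hc] at hn
    have h5' : ((5 : ℕ) : ℝ) = 5 := by norm_num
    rw [h5', ← zpow_natCast, ← zpow_natCast, ← zpow_mul, ← zpow_mul, ← zpow_neg_one, ← zpow_add₀ (by norm_num)] at hn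
    have := zpow_right_injective₀ (a := (5 : ℝ)) (by norm_num) (by norm_num) hn
    push_cast at this
    omega

/-- **The `5`-adic condition** kills the pairs `(±1, 2)`, `(±1, 10)`, `(±5, 1)`, `(±5, 5)`. -/
theorem LC₅.five_bad {e s1 s3 : ℚ} (he : e = 1 ∨ e = -1) (hs1 : s1 ≠ 0) (hs3 : s3 ≠ 0) {a b : ℚ}
    (hab : (a = 1 ∧ b = 2) ∨ (a = 1 ∧ b = 10) ∨ (a = 5 ∧ b = 1) ∨ (a = 5 ∧ b = 5)) :
    ¬ LC₅ ℚ_[5] (e * a * s1 ^ 2) (b * s3 ^ 2) := by
  rintro ⟨t1, t2, t3, h1, h2⟩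
  set E : ℚ_[5] := algebraMap ℚ ℚ_[5] e with hE
  have hE1 : E = 1 ∨ E = -1 := by
    rcases he with rfl | rfl
    · left; simp [hE]
    · right; simp [hE]
  have hE2 : -E = 1 ∨ -E = -1 := by
    rcases hE1 with h | h
    · right; rw [h]
    · left; rw [h]; simp
  have hEE : E * E = 1 := by rcases hE1 with h | h <;> rw [h] <;> ring
  set A : ℚ_[5] := algebraMap ℚ ℚ_[5] s3 * t3 with hA
  set B : ℚ_[5] := algebraMap ℚ ℚ_[5] s1 * t1 with hB
  set C : ℚ_[5] := algebraMap ℚ ℚ_[5] s1 * algebraMap ℚ ℚ_[5] s3 * t2 with hC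
  simp only [map_mul, map_pow] at h1 h2
  rcases hab with ⟨rfl, rfl⟩ | ⟨rfl, rfl⟩ | ⟨rfl, rfl⟩ | ⟨rfl, rfl⟩
  · -- `2 A² - e B² = 5`
    have h1' : 2 * A ^ 2 - E * B ^ 2 = 5 := by
      have : algebraMap ℚ ℚ_[5] 2 = 2 := by simp
      simp only [map_one, this] at h1
      rw [hA, hB]; linear_combination h1
    refine five_no_sol₅ A B 1 E 1 hE1 (Or.inl rfl) ?_ (by rw [h1']; ring)
    by_contra hcon
    push Not at hcon
    rw [hcon.1, hcon.2] at h1'
    norm_num at h1'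
  · -- `10 A² - e B² = 5`
    have h1' : 10 * A ^ 2 - E * B ^ 2 = 5 := by
      have : algebraMap ℚ ℚ_[5] 10 = 10 := by simp
      simp only [map_one, this] at h1
      rw [hA, hB]; linear_combination h1
    refine five_no_sol₅ A 1 (B / 5) 1 E (Or.inl rfl) hE1 (Or.inr one_ne_zero) ?_
    linear_combination (1 / 5 : ℚ_[5]) * h1'
  · -- `A² - 5 e B² = 5`, `e (B² - C²) = 1`
    have h1' : A ^ 2 - 5 * E * B ^ 2 = 5 := by
      have : algebraMap ℚ ℚ_[5] 5 = 5 := by simp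
      simp only [map_one, this] at h1
      rw [hA, hB]; linear_combination h1
    have h2' : 5 * E * B ^ 2 - 5 * E * C ^ 2 = 5 := by
      have : algebraMap ℚ ℚ_[5] 5 = 5 := by simp
      simp only [map_one, this] at h2
      rw [hB, hC]; linear_combination h2
    refine five_no_sol₅ 1 C (A / 5) (-E) 1 hE2 (Or.inl rfl) (Or.inl one_ne_zero) ?_
    linear_combination (-1 / 5 : ℚ_[5]) * h1' - (1 / 5) * h2'
  · -- `A² - e B² = 1`, `e (B² - 5 C²) = 1`
    have h1' : 5 * A ^ 2 - 5 * E * B ^ 2 = 5 := by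
      have : algebraMap ℚ ℚ_[5] 5 = 5 := by simp
      simp only [this] at h1
      rw [hA, hB]; linear_combination h1
    have h2' : 5 * E * B ^ 2 - 25 * E * C ^ 2 = 5 := by
      have : algebraMap ℚ ℚ_[5] 5 = 5 := by simp
      simp only [this] at h2
      rw [hB, hC]; linear_combination h2
    refine five_no_sol₅ 1 A C 1 (-E) (Or.inl rfl) hE2 (Or.inl one_ne_zero) ?_
    have h5 : (5 : ℚ_[5]) ≠ 0 := by norm_num
    have : 5 * (2 * (1 : ℚ_[5]) ^ 2 - 1 * A ^ 2) = 5 * (5 * -E * C ^ 2) := by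
      linear_combination (-1 : ℚ_[5]) * h1' - h2'
    exact mul_left_cancel₀ h5 this

end Claimed.Open.R002
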