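import Mathlib

/-!
# Sanity, part 4: local and global squares

Parity of the valuations of `X` and `X + 1` for a point `(X, Y)` of `y² = x³ - x` over `ℚ_p`, and:
a positive rational number all of whose valuations are even is a square.
Used for the checked example `SanityE0Selmer.lean`.
-/

set_option autoImplicit false

namespace Claimed.Open.R002

section Padic

variable {p : ℕ} [hp : Fact p.Prime]

lemma padic_val_add_of_lt {x y : ℚ_[p]} (hx : x ≠ 0) (hy : y ≠ 0)
    (h : x.valuation < y.valuation) : x + y ≠ 0 ∧ (x + y).valuation = x.valuation := by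
  have h1p : 1 < (p : ℝ) := mod_cast hp.1.one_lt
  have hne : ‖x‖ ≠ ‖y‖ := by
    rw [Padic.norm_eq_zpow_neg_valuation hx, Padic.norm_eq_zpow_neg_valuation hy]
    intro e
    have := (zpow_right_injective₀ (by linarith) (ne_of_gt h1p)) e
    omega
  have hmax : ‖x + y‖ = max ‖x‖ ‖y‖ := Padic.add_eq_max_of_ne hne
  have hlt : ‖y‖ < ‖x‖ := by
    rw [Padic.norm_eq_zpow_neg_valuation hx, Padic.norm_eq_zpow_neg_valuation hy]
    exact zpow_lt_zpow_right₀ h1p (by omega)
  rw [max_eq_left hlt.le] at hmax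
  have hxy : x + y ≠ 0 := by
    intro e
    rw [e, norm_zero] at hmax
    exact hx (norm_eq_zero.mp hmax.symm)
  refine ⟨hxy, ?_⟩
  rw [Padic.norm_eq_zpow_neg_valuation hx, Padic.norm_eq_zpow_neg_valuation hxy] at hmax
  have := (zpow_right_injective₀ (by linarith) (ne_of_gt h1p)) hmax
  omega

/-- `X ≠ 0` on `Y² = X³ - X` over `ℚ_p` has even valuation. -/
lemma even_val_X {X Y : ℚ_[p]} (h : Y ^ 2 = X ^ 3 - X) (hX : X ≠ 0) : Even X.valuation := by
  have hm1 : (-1 : ℚ_[p]) ≠ 0 := by norm_num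
  have vm1 : (-1 : ℚ_[p]).valuation = 0 := by
    have : ((-1 : ℚ) : ℚ_[p]).valuation = padicValRat p (-1) := Padic.valuation_ratCast _
    rw [padicValRat.neg, padicValRat.one] at this
    simpa using this
  have hX2 : X ^ 2 ≠ 0 := pow_ne_zero 2 hX
  have vX2 : (X ^ 2).valuation = 2 * X.valuation := by simp
  have hfac : Y ^ 2 = X * (X ^ 2 + -1) := by rw [h]; ring
  rcases lt_trichotomy X.valuation 0 with hv | hv | hv
  · obtain ⟨hne, hval⟩ := padic_val_add_of_lt hX2 hm1 (by rw [vX2, vm1]; omega)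
    have := congrArg Padic.valuation hfac
    rw [Padic.valuation_mul hX hne, hval, vX2, Padic.valuation_pow] at this
    exact ⟨Y.valuation - X.valuation, by push_cast at this; omega⟩
  · rw [hv]; exact Even.zero
  · obtain ⟨hne, hval⟩ := padic_val_add_of_lt hm1 hX2 (by rw [vX2, vm1]; omega)
    rw [add_comm] at hne hval
    have := congrArg Padic.valuation hfac
    rw [Padic.valuation_mul hX hne, hval, vm1, Padic.valuation_pow] at this
    exact ⟨Y.valuation, by push_cast at this; omega⟩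

/-- `X + 1 ≠ 0` on `Y² = X³ - X` over `ℚ_p`, `p` odd, has even valuation. -/
lemma even_val_X_add_one (hp2 : p ≠ 2) {X Y : ℚ_[p]} (h : Y ^ 2 = X ^ 3 - X) (hX : X + 1 ≠ 0) :
    Even (X + 1).valuation := by
  set Z := X + 1 with hZ
  have hm1 : (-1 : ℚ_[p]) ≠ 0 := by norm_num
  have vm1 : (-1 : ℚ_[p]).valuation = 0 := by
    have : ((-1 : ℚ) : ℚ_[p]).valuation = padicValRat p (-1) := Padic.valuation_ratCast _
    rw [padicValRat.neg, padicValRat.one] at this
    simpa using this
  have hm2 : (-2 : ℚ_[p]) ≠ 0 := by norm_num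
  have vm2 : (-2 : ℚ_[p]).valuation = 0 := by
    have h1 : ((-2 : ℤ) : ℚ_[p]).valuation = padicValInt p (-2) := Padic.valuation_intCast _
    have h2 : padicValInt p (-2) = 0 := by
      apply padicValInt.eq_zero_of_not_dvd
      intro hd
      have : (p : ℤ) ∣ 2 := by simpa using hd
      have : p ∣ 2 := by exact_mod_cast this
      exact hp2 ((Nat.prime_dvd_prime_iff_eq hp.1 Nat.prime_two).mp this)
    rw [h2] at h1
    simpa using h1
  have hfac : Y ^ 2 = Z * ((Z + -1) * (Z + -2)) := by rw [h, hZ]; ring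
  rcases lt_trichotomy Z.valuation 0 with hv | hv | hv
  · obtain ⟨hne1, hval1⟩ := padic_val_add_of_lt hX hm1 (by rw [vm1]; omega)
    obtain ⟨hne2, hval2⟩ := padic_val_add_of_lt hX hm2 (by rw [vm2]; omega)
    have := congrArg Padic.valuation hfac
    rw [Padic.valuation_mul hX (mul_ne_zero hne1 hne2), Padic.valuation_mul hne1 hne2, hval1, hval2,
      Padic.valuation_pow] at this
    exact ⟨Y.valuation - Z.valuation, by push_cast at this; omega⟩
  · rw [hv]; exact Even.zero
  · obtain ⟨hne1, hval1⟩ := padic_val_add_of_lt hm1 hX (by rw [vm1]; omega)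
    obtain ⟨hne2, hval2⟩ := padic_val_add_of_lt hm2 hX (by rw [vm2]; omega)
    rw [add_comm] at hne1 hval1 hne2 hval2
    have := congrArg Padic.valuation hfac
    rw [Padic.valuation_mul hX (mul_ne_zero hne1 hne2), Padic.valuation_mul hne1 hne2, hval1, hval2,
      vm1, vm2, Padic.valuation_pow] at this
    exact ⟨Y.valuation, by push_cast at this; omega⟩

end Padic

section Squares

lemma exists_squarefree_rep (d : ℚ) (hd : 0 < d) :
    ∃ (a : ℕ) (s : ℚ), Squarefree a ∧ s ≠ 0 ∧ d = a * s ^ 2 := by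
  obtain ⟨a, b, hab, hsq⟩ := Nat.sq_mul_squarefree (d.num.natAbs * d.den)
  have hnum : 0 < d.num := Rat.num_pos.mpr hd
  have hden : (d.den : ℚ) ≠ 0 := by exact_mod_cast d.den_nz
  have hb : b ≠ 0 := by
    rintro rfl
    have : d.num.natAbs * d.den = 0 := by rw [← hab]; ring
    rcases Nat.mul_eq_zero.mp this with h | h
    · have := Int.natAbs_eq_zero.mp h; omega
    · exact d.den_nz h
  refine ⟨a, b / d.den, hsq, div_ne_zero (by exact_mod_cast hb) hden, ?_⟩
  have h1 : ((d.num.natAbs : ℕ) : ℚ) = d.num := by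
    have : ((d.num.natAbs : ℕ) : ℤ) = d.num := Int.natAbs_of_nonneg hnum.le
    calc ((d.num.natAbs : ℕ) : ℚ) = (((d.num.natAbs : ℕ) : ℤ) : ℚ) := (Int.cast_natCast _).symm
      _ = d.num := by rw [this]
  have h2 : (b : ℚ) ^ 2 * a = d.num * d.den := by
    rw [← h1]; exact_mod_cast hab
  have h3 : d = d.num / d.den := (Rat.num_div_den d).symm
  rw [div_pow, mul_div_assoc', eq_div_iff (pow_ne_zero 2 hden), mul_comm (a : ℚ), h2]
  nth_rewrite 1 [h3]
  field_simp

lemma not_dvd_of_even_val {d : ℚ} {a : ℕ} {s : ℚ} (ha : Squarefree a) (hs : s ≠ 0)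
    (hd : d = a * s ^ 2) {p : ℕ} (hp : p.Prime) (h : Even (padicValRat p d)) : ¬ p ∣ a := by
  have : Fact p.Prime := ⟨hp⟩
  have ha0 : a ≠ 0 := ha.ne_zero
  have e : padicValRat p d = padicValNat p a + 2 * padicValRat p s := by
    rw [hd, padicValRat.mul (by exact_mod_cast ha0) (pow_ne_zero 2 hs), padicValRat.pow,
      padicValRat.of_nat]
    push_cast; ring
  have hle : padicValNat p a ≤ 1 := by
    rw [← Nat.factorization_def a hp]
    exact ha.natFactorization_le_one p
  intro hdvd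
  have hpos : 1 ≤ padicValNat p a := one_le_padicValNat_of_dvd ha0 hdvd
  have h1 : padicValNat p a = 1 := le_antisymm hle hpos
  rw [e, h1] at h
  obtain ⟨k, hk⟩ := h
  push_cast at hk
  omega

theorem rat_eq_sq_of_even_val (d : ℚ) (hd : 0 < d)
    (h : ∀ p : ℕ, p.Prime → Even (padicValRat p d)) : ∃ s : ℚ, s ≠ 0 ∧ d = s ^ 2 := by
  obtain ⟨a, s, ha, hs, e⟩ := exists_squarefree_rep d hd
  have : a = 1 := by
    rw [Nat.eq_one_iff_not_exists_prime_dvd]
    intro p hp
    exact not_dvd_of_even_val ha hs e hp (h p hp)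
  subst this
  exact ⟨s, hs, by rw [e]; simp⟩

theorem rat_eq_sq_or_two_sq (d : ℚ) (hd : 0 < d)
    (h : ∀ p : ℕ, p.Prime → p ≠ 2 → Even (padicValRat p d)) :
    ∃ s : ℚ, s ≠ 0 ∧ (d = s ^ 2 ∨ d = 2 * s ^ 2) := by
  obtain ⟨a, s, ha, hs, e⟩ := exists_squarefree_rep d hd
  have hodd : ∀ p : ℕ, p.Prime → p ≠ 2 → ¬ p ∣ a := fun p hp hp2 =>
    not_dvd_of_even_val ha hs e hp (h p hp hp2)
  by_cases h2 : 2 ∣ a
  · obtain ⟨c, rfl⟩ := h2
    have : c = 1 := by
      rw [Nat.eq_one_iff_not_exists_prime_dvd]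
      intro p hp hpc
      by_cases hp2 : p = 2
      · subst hp2
        obtain ⟨c', rfl⟩ := hpc
        have := ha 2 ⟨c', by ring⟩
        simp at this
      · exact hodd p hp hp2 (Dvd.dvd.mul_left hpc 2)
    subst this
    exact ⟨s, hs, Or.inr (by rw [e]; norm_num)⟩
  · have : a = 1 := by
      rw [Nat.eq_one_iff_not_exists_prime_dvd]
      intro p hp
      by_cases hp2 : p = 2
      · subst hp2; exact h2
      · exact hodd p hp hp2
    subst this
    exact ⟨s, hs, Or.inl (by rw [e]; simp)⟩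

end Squares

end Claimed.Open.R002
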