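import Claimed.Open.R002.SanityE5Parity
import Claimed.Open.R002.SanityE5Five
import Claimed.Open.R002.SanityLocal

/-!
# Sanity, part E5.5: the classes `(d₁, d₃)` that are everywhere locally soluble

The `2`-covering of `E₅ : y² = x³ - 25 x` attached to `(d₁, d₃)` has points over `ℝ` and over all
`ℚ_ℓ` only if, modulo squares, `(d₁, d₃)` is one of the eight pairs
`(±1, 1), (±1, 5), (±5, 2), (±5, 10)`: the `2`-Selmer group of `E₅` has order at most `8`.
-/

set_option autoImplicit false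

namespace Claimed.Open.R002

/-- a squarefree number all of whose prime divisors divide `N` (squarefree support) divides the
product of a finite set of primes containing them -/
lemma dvd_prod_of_squarefree₅ {b : ℕ} (hb : Squarefree b) (S : Finset ℕ)
    (h : ∀ q : ℕ, q.Prime → q ∣ b → q ∈ S) : b ∣ ∏ q ∈ S, q := by
  rw [← Nat.prod_primeFactors_of_squarefree hb]
  apply Finset.prod_dvd_prod_of_subset
  intro q hq
  exact h q (Nat.prime_of_mem_primeFactors hq) (Nat.dvd_of_mem_primeFactors hq)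

theorem classes₅ (d1 d3 : ℚ) (hd1 : d1 ≠ 0) (hd3 : d3 ≠ 0)
    (hp : ∀ (ℓ : ℕ) (_ : Fact ℓ.Prime), LC₅ ℚ_[ℓ] d1 d3) (hR : LC₅ ℝ d1 d3) :
    ∃ e a b s1 s3 : ℚ, (e = 1 ∨ e = -1) ∧ s1 ≠ 0 ∧ s3 ≠ 0 ∧ d1 = e * a * s1 ^ 2 ∧
      d3 = b * s3 ^ 2 ∧
        ((a = 1 ∧ b = 1) ∨ (a = 1 ∧ b = 5) ∨ (a = 5 ∧ b = 2) ∨ (a = 5 ∧ b = 10)) := by
  have h3pos : 0 < d3 := hR.pos_d3 hd3
  obtain ⟨b, s3, hb, hs3, e3⟩ := exists_squarefree_rep d3 h3pos
  have hb10 : b ∣ 10 := by
    have := dvd_prod_of_squarefree₅ hb {2, 5} (by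
      intro q hq hqb
      by_contra hq25
      simp only [Finset.mem_insert, Finset.mem_singleton, not_or] at hq25
      have : Fact q.Prime := ⟨hq⟩
      exact not_dvd_of_even_val hb hs3 e3 hq
        ((hp q ⟨hq⟩).even_val_d3 hq25.1 hq25.2 hd1 hd3) hqb)
    simpa using this
  have hbmem : b = 1 ∨ b = 2 ∨ b = 5 ∨ b = 10 := by
    have : b ∈ Nat.divisors 10 := Nat.mem_divisors.mpr ⟨hb10, by norm_num⟩
    have h10 : Nat.divisors 10 = {1, 2, 5, 10} := by decide
    rw [h10] at this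
    simpa using this
  have h1pos : 0 < |d1| := abs_pos.mpr hd1
  obtain ⟨a, s1, ha, hs1, e1⟩ := exists_squarefree_rep |d1| h1pos
  have hval : ∀ q : ℕ, padicValRat q |d1| = padicValRat q d1 := by
    intro q
    rcases abs_choice d1 with h | h
    · rw [h]
    · rw [h, padicValRat.neg]
  have ha5 : a ∣ 5 := by
    have := dvd_prod_of_squarefree₅ ha {5} (by
      intro q hq hqa
      by_contra hq5
      simp only [Finset.mem_singleton] at hq5
      have : Fact q.Prime := ⟨hq⟩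
      exact not_dvd_of_even_val ha hs1 e1 hq
        (by rw [hval]; exact (hp q ⟨hq⟩).even_val_d1 hq5 hd1 hd3) hqa)
    simpa using this
  have hamem : a = 1 ∨ a = 5 := (Nat.dvd_prime (by norm_num)).mp ha5
  obtain ⟨e, he, hed⟩ : ∃ e : ℚ, (e = 1 ∨ e = -1) ∧ d1 = e * |d1| := by
    rcases abs_choice d1 with h | h
    · exact ⟨1, Or.inl rfl, by rw [h, one_mul]⟩
    · exact ⟨-1, Or.inr rfl, by rw [h]; ring⟩
  have e1' : d1 = e * (a : ℚ) * s1 ^ 2 := by rw [hed, e1]; ring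
  have hbad : ¬ (((a : ℚ) = 1 ∧ (b : ℚ) = 2) ∨ ((a : ℚ) = 1 ∧ (b : ℚ) = 10) ∨
      ((a : ℚ) = 5 ∧ (b : ℚ) = 1) ∨ ((a : ℚ) = 5 ∧ (b : ℚ) = 5)) := by
    intro hab
    have h5p : Fact (Nat.Prime 5) := ⟨by norm_num⟩
    have h5 := hp 5 h5p
    rw [e1', e3] at h5
    exact LC₅.five_bad he hs1 hs3 hab h5
  refine ⟨e, a, b, s1, s3, he, hs1, hs3, e1', e3, ?_⟩
  rcases hamem with rfl | rfl <;> rcases hbmem with rfl | rfl | rfl | rfl <;>
    first
    | (exfalso; apply hbad; norm_num; done)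
    | norm_num

end Claimed.Open.R002
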