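import Claimed.Open.R002.SanityE5Action

/-!
# Sanity, part E5.4: the eight rational points `b P + T` (`b = 1, 2`, `T ∈ E₅[2]`) of `y² = x³ - 25 x`

`P = (-4, 6)`.  Their classes under the `2`-descent map `(x, x + 5)` are the eight classes that
survive the local conditions.
-/

set_option autoImplicit false

namespace Claimed.Open.R002

open WeierstrassCurve

noncomputable section

attribute [local instance] Classical.propDecidable
attribute [-instance] DivisionRing.toRatAlgebra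

local notation "Kb" => AlgebraicClosure ℚ

lemma ratPt_eq₅ {X Y X' Y' : ℚ} {h : Y ^ 2 = X ^ 3 - 25 * X} {h' : Y' ^ 2 = X' ^ 3 - 25 * X'}
    (hx : X = X') (hy : Y = Y') : ratPt₅ X Y h = ratPt₅ X' Y' h' := by
  subst hx hy; rfl

lemma algMap_ne_zero₅ {Y : ℚ} (hY : Y ≠ 0) : algebraMap ℚ Kb Y ≠ 0 :=
  (map_ne_zero (algebraMap ℚ Kb)).mpr hY

lemma ratPt_add_T1₅ {X Y : ℚ} (h : Y ^ 2 = X ^ 3 - 25 * X) (hY : Y ≠ 0) :
    ratPt₅ X Y h + T1₅ = ratPt₅ (-25 / X) (25 * Y / X ^ 2) (eqn_T1₅ h hY) := by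
  unfold ratPt₅
  rw [add_T1₅ _ (algMap_ne_zero₅ hY)]
  exact pt_eq_pt₅ (by simp only [map_div₀, map_neg, map_ofNat])
    (by simp only [map_div₀, map_mul, map_pow, map_ofNat])

lemma ratPt_add_T2₅ {X Y : ℚ} (h : Y ^ 2 = X ^ 3 - 25 * X) (hY : Y ≠ 0) :
    ratPt₅ X Y h + T2₅ = ratPt₅ (5 * (X + 5) / (X - 5)) (-50 * Y / (X - 5) ^ 2) (eqn_T2₅ h hY) := by
  unfold ratPt₅
  rw [add_T2₅ _ (algMap_ne_zero₅ hY)]
  exact pt_eq_pt₅ (by simp only [map_div₀, map_mul, map_add, map_sub, map_ofNat])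
    (by simp only [map_div₀, map_mul, map_pow, map_sub, map_neg, map_ofNat])

lemma ratPt_add_T3₅ {X Y : ℚ} (h : Y ^ 2 = X ^ 3 - 25 * X) (hY : Y ≠ 0) :
    ratPt₅ X Y h + T3₅ = ratPt₅ (5 * (5 - X) / (X + 5)) (-50 * Y / (X + 5) ^ 2) (eqn_T3₅ h hY) := by
  unfold ratPt₅
  rw [add_T3₅ _ (algMap_ne_zero₅ hY)]
  exact pt_eq_pt₅ (by simp only [map_div₀, map_mul, map_add, map_sub, map_ofNat])
    (by simp only [map_div₀, map_mul, map_pow, map_add, map_neg, map_ofNat])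

lemma ratPt_add_self₅ {X Y X₃ Y₃ : ℚ} (h : Y ^ 2 = X ^ 3 - 25 * X) (h₃ : Y₃ ^ 2 = X₃ ^ 3 - 25 * X₃)
    (hY : Y ≠ 0) (hX : X₃ = ((3 * X ^ 2 - 25) / (2 * Y)) ^ 2 - X - X)
    (hY3 : Y₃ = -((3 * X ^ 2 - 25) / (2 * Y) * (X₃ - X) + Y)) :
    ratPt₅ X Y h + ratPt₅ X Y h = ratPt₅ X₃ Y₃ h₃ := by
  unfold ratPt₅
  refine pt_add_self₅ _ _ (algMap_ne_zero₅ hY) ?_ ?_
  · rw [hX]; simp only [map_sub, map_pow, map_div₀, map_mul, map_ofNat]
  · rw [hY3]; simp only [map_sub, map_add, map_neg, map_pow, map_div₀, map_mul, map_ofNat]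

/-! ### The eight points -/

lemma P_add_T1₅ : P₅ + T1₅ = ratPt₅ (25 / 4) (75 / 8) (by norm_num) := by
  unfold P₅
  rw [ratPt_add_T1₅ _ (by norm_num)]
  exact ratPt_eq₅ (by norm_num) (by norm_num)

lemma P_add_T2₅ : P₅ + T2₅ = ratPt₅ (-5 / 9) (-100 / 27) (by norm_num) := by
  unfold P₅
  rw [ratPt_add_T2₅ _ (by norm_num)]
  exact ratPt_eq₅ (by norm_num) (by norm_num)

lemma P_add_T3₅ : P₅ + T3₅ = ratPt₅ 45 (-300) (by norm_num) := by
  unfold P₅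
  rw [ratPt_add_T3₅ _ (by norm_num)]
  exact ratPt_eq₅ (by norm_num) (by norm_num)

lemma two_P₅ : P₅ + P₅ = ratPt₅ (1681 / 144) (-62279 / 1728) (by norm_num) := by
  unfold P₅
  exact ratPt_add_self₅ _ _ (by norm_num) (by norm_num) (by norm_num)

lemma two_P_add_T1₅ : P₅ + P₅ + T1₅ = ratPt₅ (-3600 / 1681) (-455700 / 68921) (by norm_num) := by
  rw [two_P₅, ratPt_add_T1₅ _ (by norm_num)]
  exact ratPt_eq₅ (by norm_num) (by norm_num)

lemma two_P_add_T2₅ : P₅ + P₅ + T2₅ = ratPt₅ (12005 / 961) (1205400 / 29791) (by norm_num) := by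
  rw [two_P₅, ratPt_add_T2₅ _ (by norm_num)]
  exact ratPt_eq₅ (by norm_num) (by norm_num)

lemma two_P_add_T3₅ : P₅ + P₅ + T3₅ = ratPt₅ (-4805 / 2401) (762600 / 117649) (by norm_num) := by
  rw [two_P₅, ratPt_add_T3₅ _ (by norm_num)]
  exact ratPt_eq₅ (by norm_num) (by norm_num)

end

end Claimed.Open.R002
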