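import Claimed.Open.R002.SanityE5LocalCond
import Claimed.Open.R002.SanityE5Points
import Claimed.Open.R002.SanityE5Classes
import Claimed.Open.R002.SanityE0TwoDescent

/-!
# Sanity, part E5.6: complete `2`-descent on `E₅ : y² = x³ - 25 x`

An everywhere locally trivial continuous cocycle `G_ℚ → E₅[2]` is the coboundary of a point `R` with
`2 R = b P + T`, `P = (-4, 6)`, `T ∈ E₅[2]`.
-/

set_option autoImplicit false

namespace Claimed.Open.R002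

open WeierstrassCurve

noncomputable section

attribute [local instance] Classical.propDecidable
attribute [-instance] DivisionRing.toRatAlgebra

local instance algQp₅ (p : ℕ) [Fact p.Prime] : Algebra ℚ ℚ_[p] := DivisionRing.toRatAlgebra
local instance algR₅ : Algebra ℚ ℝ := DivisionRing.toRatAlgebra

local notation "Kb" => AlgebraicClosure ℚ

/-- The Kummer parameters of the coboundary of a half of a rational point `(X, Y)` are
`(X, X + 5)`: a cocycle with values in `E₅[2]` and the same parameters is that coboundary. -/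
lemma eq_cob_of_half₅ (ξ : GalBar ℚ → PointsBar E₅ ℚ) (h2 : ∀ τ, ξ τ + ξ τ = 0)
    (α1 α3 : Kb) (hα1 : α1 ≠ 0) (hα3 : α3 ≠ 0)
    (h1 : ∀ τ : GalBar ℚ, τ α1 = ((e1₅ (ξ τ) : ℤ) : Kb) * α1)
    (h3 : ∀ τ : GalBar ℚ, τ α3 = ((e3₅ (ξ τ) : ℤ) : Kb) * α3)
    (X Y c1 c3 : ℚ) (hXY : Y ^ 2 = X ^ 3 - 25 * X) (hc1 : c1 ≠ 0) (hc3 : c3 ≠ 0)
    (hX1 : algebraMap ℚ Kb X = (algebraMap ℚ Kb c1 * α1) ^ 2)
    (hX3 : algebraMap ℚ Kb X + 5 = (algebraMap ℚ Kb c3 * α3) ^ 2)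
    (R : PointsBar E₅ ℚ) (hR : R + R = ratPt₅ X Y hXY) (τ : GalBar ℚ) : ξ τ = τ • R - R := by
  have hR0 : R ≠ 0 := by
    rintro rfl
    rw [add_zero] at hR
    exact pt_ne_zero₅ hR.symm
  obtain ⟨x, y, h, rfl⟩ := exists_pt₅ R hR0
  have hy : y ≠ 0 := by
    rintro rfl
    rw [pt_add_self_of_y_eq_zero₅ h] at hR
    exact pt_ne_zero₅ hR.symm
  obtain ⟨X', Y', h₃, e, hX'⟩ := two_pt₅ h hy
  have hXX : X' = algebraMap ℚ Kb X := by
    rw [e] at hR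
    exact (pt_inj₅ hR).1
  have hg1 : g1₅ x y ^ 2 = (algebraMap ℚ Kb c1 * α1) ^ 2 := by rw [← hX1, ← hXX, hX']
  have hg3 : g3₅ x y ^ 2 = (algebraMap ℚ Kb c3 * α3) ^ 2 := by
    rw [g3_sq₅ h hy, ← hX3, ← hXX, hX']
  have hc1' : algebraMap ℚ Kb c1 ≠ 0 := (map_ne_zero _).mpr hc1
  have hc3' : algebraMap ℚ Kb c3 ≠ 0 := (map_ne_zero _).mpr hc3
  have hg10 : g1₅ x y ≠ 0 := by
    intro e0
    rw [e0] at hg1
    exact pow_ne_zero 2 (mul_ne_zero hc1' hα1) (by rw [← hg1]; ring)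
  have hg30 : g3₅ x y ≠ 0 := by
    intro e0
    rw [e0] at hg3
    exact pow_ne_zero 2 (mul_ne_zero hc3' hα3) (by rw [← hg3]; ring)
  set T : PointsBar E₅ ℚ := τ • pt₅ x y h - pt₅ x y h with hT
  have hT2 : T + T = 0 := by
    have : T + T = τ • (pt₅ x y h + pt₅ x y h) - (pt₅ x y h + pt₅ x y h) := by
      rw [hT, smul_add]; abel
    rw [this, hR, smul_ratPt₅, sub_self]
  have hτR : τ • pt₅ x y h = pt₅ x y h + T := by rw [hT]; abel
  obtain ⟨k1, -, k3⟩ := g_add₅ T hT2 h hy (map_eqn₅ τ h) (by rw [← smul_pt₅]; exact hτR)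
  rw [← map_g1₅] at k1
  rw [← map_g3₅] at k3
  have s1 := sign_of_root (g1₅ x y) α1 hg10 c1 hg1 (e1₅ T) τ k1
  have s3 := sign_of_root (g3₅ x y) α3 hg30 c3 hg3 (e3₅ T) τ k3
  apply eq_of_e1_e3₅ _ _ (h2 τ) hT2
  · apply unit_eq_of_cast_eq (A := Kb)
    apply mul_right_cancel₀ hα1
    rw [← h1, s1]
  · apply unit_eq_of_cast_eq (A := Kb)
    apply mul_right_cancel₀ hα3
    rw [← h3, s3]

/-- **Complete 2-descent for `y² = x³ - 25 x`**: an everywhere locally trivial continuous cocycle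
with values in `E₅[2]` is the coboundary of a point `R` with `2 R = b P + T`, `T ∈ E₅[2]`. -/
theorem two_descent₅ (ξ : Z1 (GalBar ℚ) (PointsBar E₅ ℚ)) (h2 : ∀ τ, ξ.1 τ + ξ.1 τ = 0)
    (hloc : LocTriv E₅ ξ.1) :
    ∃ (R T : PointsBar E₅ ℚ) (b : ℕ), T + T = 0 ∧ R + R = b • P₅ + T ∧
      ∀ τ : GalBar ℚ, ξ.1 τ = τ • R - R := by
  have hmul : ∀ σ τ : GalBar ℚ, ξ.1 (σ * τ) = ξ.1 σ + ξ.1 τ := fun σ τ => by
    rw [Z1.map_mul, smul_two_torsion₅ ℚ σ _ (h2 τ)]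
  let χ1 : GalBar ℚ →* ℤˣ :=
    { toFun := fun τ => e1₅ (ξ.1 τ)
      map_one' := by rw [cocycle_one]; simp
      map_mul' := fun σ τ => by rw [hmul, e1_add₅ _ _ (h2 σ) (h2 τ)] }
  let χ3 : GalBar ℚ →* ℤˣ :=
    { toFun := fun τ => e3₅ (ξ.1 τ)
      map_one' := by rw [cocycle_one]; simp
      map_mul' := fun σ τ => by rw [hmul, e3_add₅ _ _ (h2 σ) (h2 τ)] }
  have hopen1 : IsOpen (χ1.ker : Set (GalBar ℚ)) :=
    ((Z1.isLocallyConstant ξ).comp e1₅).isOpen_fiber 1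
  have hopen3 : IsOpen (χ3.ker : Set (GalBar ℚ)) :=
    ((Z1.isLocallyConstant ξ).comp e3₅).isOpen_fiber 1
  obtain ⟨α1, hα1, h1⟩ := exists_kummer_generator χ1 hopen1
  obtain ⟨α3, hα3, h3⟩ := exists_kummer_generator χ3 hopen3
  have hsq : ∀ ε : ℤˣ, ((ε : ℤ) : Kb) * ((ε : ℤ) : Kb) = 1 := by
    intro ε
    rcases Int.units_eq_one_or ε with rfl | rfl <;> simp
  obtain ⟨d1, hd1⟩ := exists_of_fixed ℚ (α1 ^ 2) (fun σ => by
    rw [map_pow, h1]; linear_combination (α1 ^ 2) * hsq (χ1 σ))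
  obtain ⟨d3, hd3⟩ := exists_of_fixed ℚ (α3 ^ 2) (fun σ => by
    rw [map_pow, h3]; linear_combination (α3 ^ 2) * hsq (χ3 σ))
  have hd10 : d1 ≠ 0 := by
    rintro rfl
    rw [map_zero] at hd1
    exact hα1 (by simpa using hd1.symm)
  have hd30 : d3 ≠ 0 := by
    rintro rfl
    rw [map_zero] at hd3
    exact hα3 (by simpa using hd3.symm)
  -- local conditions
  have hp : ∀ (ℓ : ℕ) (_ : Fact ℓ.Prime), LC₅ ℚ_[ℓ] d1 d3 := fun ℓ hℓ =>
    lc₅_of_locTrivAt ℚ_[ℓ] ξ.1 h2 α1 α3 hα1 hα3 h1 h3 d1 d3 hd1 hd3 (hloc.1 ℓ hℓ)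
  have hR : LC₅ ℝ d1 d3 :=
    lc₅_of_locTrivAt ℝ ξ.1 h2 α1 α3 hα1 hα3 h1 h3 d1 d3 hd1 hd3 hloc.2
  obtain ⟨e, a, b, s1, s3, he, hs1, hs3, e1, e3, hab⟩ := classes₅ d1 d3 hd10 hd30 hp hR
  -- the generic conclusion from a rational point in the class of `(d₁, d₃)`
  have key : ∀ (X Y r1 r3 : ℚ) (hXY : Y ^ 2 = X ^ 3 - 25 * X) (n : ℕ) (T : PointsBar E₅ ℚ),
      r1 ≠ 0 → r3 ≠ 0 → X = e * a * r1 ^ 2 → X + 5 = b * r3 ^ 2 → T + T = 0 →
      n • P₅ + T = ratPt₅ X Y hXY →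
      ∃ (R T : PointsBar E₅ ℚ) (b : ℕ), T + T = 0 ∧ R + R = b • P₅ + T ∧
        ∀ τ : GalBar ℚ, ξ.1 τ = τ • R - R := by
    intro X Y r1 r3 hXY n T hr1 hr3 hX1 hX3 hT hPT
    obtain ⟨R, hRR⟩ := exists_half₅ (ratPt₅ X Y hXY)
    refine ⟨R, T, n, hT, by rw [hRR, hPT], fun τ => ?_⟩
    refine eq_cob_of_half₅ ξ.1 h2 α1 α3 hα1 hα3 h1 h3 X Y (r1 / s1) (r3 / s3) hXY
      (div_ne_zero hr1 hs1) (div_ne_zero hr3 hs3) ?_ ?_ R hRR τ
    · rw [mul_pow, ← hd1, ← map_pow, ← map_mul]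
      congr 1
      rw [hX1, e1]; field_simp
    · rw [mul_pow, ← hd3, ← map_pow, ← map_mul, ← map_ofNat (algebraMap ℚ Kb) 5, ← map_add]
      congr 1
      rw [hX3, e3]; field_simp
  have z0 : (0 : PointsBar E₅ ℚ) + 0 = 0 := add_zero 0
  rcases he with rfl | rfl <;> rcases hab with ⟨rfl, rfl⟩ | ⟨rfl, rfl⟩ | ⟨rfl, rfl⟩ | ⟨rfl, rfl⟩
  · -- (1, 1) : 2P
    exact key (1681 / 144) (-62279 / 1728) (41 / 12) (49 / 12) (by norm_num) 2 0 (by norm_num) (by norm_num) (by norm_num) (by norm_num)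
      z0 (by rw [add_zero, two_nsmul, two_P₅])
  · -- (1, 5) : P + T1
    exact key (25 / 4) (75 / 8) (5 / 2) (3 / 2) (by norm_num) 1 T1₅ (by norm_num) (by norm_num) (by norm_num) (by norm_num)
      T1_add_T1₅ (by rw [one_nsmul, P_add_T1₅])
  · -- (5, 2) : P + T3
    exact key 45 (-300) 3 5 (by norm_num) 1 T3₅ (by norm_num) (by norm_num) (by norm_num) (by norm_num)
      T3_add_T3₅ (by rw [one_nsmul, P_add_T3₅])
  · -- (5, 10) : 2P + T2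
    exact key (12005 / 961) (1205400 / 29791) (49 / 31) (41 / 31) (by norm_num) 2 T2₅ (by norm_num) (by norm_num) (by norm_num)
      (by norm_num) T2_add_T2₅ (by rw [two_nsmul, two_P_add_T2₅])
  · -- (-1, 1) : P
    exact key (-4) 6 2 1 (by norm_num) 1 0 (by norm_num) (by norm_num) (by norm_num) (by norm_num)
      z0 (by rw [add_zero, one_nsmul]; rfl)
  · -- (-1, 5) : 2P + T1
    exact key (-3600 / 1681) (-455700 / 68921) (60 / 41) (31 / 41) (by norm_num) 2 T1₅ (by norm_num) (by norm_num) (by norm_num)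
      (by norm_num) T1_add_T1₅ (by rw [two_nsmul, two_P_add_T1₅])
  · -- (-5, 2) : 2P + T3
    exact key (-4805 / 2401) (762600 / 117649) (31 / 49) (60 / 49) (by norm_num) 2 T3₅ (by norm_num) (by norm_num) (by norm_num)
      (by norm_num) T3_add_T3₅ (by rw [two_nsmul, two_P_add_T3₅])
  · -- (-5, 10) : P + T2
    exact key (-5 / 9) (-100 / 27) (1 / 3) (2 / 3) (by norm_num) 1 T2₅ (by norm_num) (by norm_num) (by norm_num) (by norm_num)
      T2_add_T2₅ (by rw [one_nsmul, P_add_T2₅])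

end

end Claimed.Open.R002
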