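import Claimed.Open.R002.SanityRankOne
import Claimed.Open.R002.SanityE5TwoDescent
import Claimed.Open.R002.SanityE5NonZero

/-!
# Sanity, part E5.10: a checked example of Selmer corank exactly one

`Sel_{2^∞}(E₅/ℚ) ≅ ℚ₂/ℤ₂` for the congruent number curve `E₅ : y² = x³ - 25 x`, hence
`selmerCorank E₅ 2 = 1`: the hypotheses of `Claimed.Open.R002.MainStatement` are met by
`(E, q, r) = (E₅, 2, 1)`, so the branch `r = 1` of the main theorem is not vacuous either.

The proof is the classical complete `2`-descent, carried out inside the cohomological definitions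
of `Statement.lean`:
* a Selmer cocycle with values in `E₅[2]` is a pair of quadratic characters, i.e. a pair `(d₁, d₃)`
  of classes in `ℚˣ/ℚˣ²`, and the `2`-covering `d₃ t₃² - d₁ t₁² = 5`, `d₁ t₁² - d₁ d₃ t₂² = 5` has points
  over all `ℚ_p` and over `ℝ` (`SanityE5LocalCond.lean`);
* this forces `d₁ ∈ {±1, ±5}`, `d₃ ∈ {1, 2, 5, 10}` (`SanityE5Parity.lean`), and the place `5` excludes
  eight of the sixteen pairs (`SanityE5Five.lean`, `SanityE5Classes.lean`);
* the other eight are the classes of the rational points `b P + T`, `P = (-4, 6)`, `b ∈ {1, 2}`,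
  `T ∈ E₅[2]` (`SanityE5Points.lean`, `SanityE5TwoDescent.lean`);
* `P ∉ 2 E₅(ℚ) + E₅[2]` and there is no rational point of order four (`SanityE5NonZero.lean`);
* the induction from `E₅[2]` to `E₅[2ⁿ]` and the corank of a Prüfer group are curve-free
  (`SanityRankOne.lean`, `SanityChainCorank.lean`).
-/

set_option autoImplicit false

namespace Claimed.Open.R002

open WeierstrassCurve

noncomputable section

attribute [local instance] Classical.propDecidable
attribute [-instance] DivisionRing.toRatAlgebra

lemma P₅_mem_rationalPoints : P₅ ∈ rationalPoints E₅ ℚ :=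
  mem_rationalPoints_of_fixed E₅ ℚ P₅ smul_P₅

/-- **The congruent number curve `y² = x³ - 25 x` has `s₂(E) = corank_{ℤ₂} Sel_{2^∞}(E/ℚ) = 1`.** -/
theorem selmerCorank_E₅_two : selmerCorank E₅ 2 = 1 :=
  selmerCorank_two_eq_one_of_descent P₅_mem_rationalPoints exists_half₅ two_descent₅ half_P₅_ne

/-- The hypotheses of `MainStatement` hold for `E = E₅ : y² = x³ - 25 x`, `q = 2`, `r = 1`. -/
theorem hypotheses_met_corank_one : ∃ (E : WeierstrassCurve ℚ) (_ : E.IsElliptic) (q : ℕ)
    (_ : Fact q.Prime) (r : ℕ), r = 1 ∧ r ≤ 1 ∧ selmerCorank E q = (r : Cardinal) :=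
  ⟨E₅, inferInstance, 2, inferInstance, 1, rfl, le_refl 1, by
    rw [selmerCorank_E₅_two]; simp⟩

end

end Claimed.Open.R002
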