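import Claimed.Open.R002.SanitySha
import Claimed.Open.R002.SanityE5Selmer

/-!
# Sanity for R002: members of both counting sets of `TwistDensityStatement`

`TwistDensityStatement` counts `𝒟_j(E; X) = twistsOfCorank E j X`, `j = 0, 1`.  `SanitySha.lean` checks `1 ∈ 𝒟₀(E₀; X)` and
`1 ∉ 𝒟₁(E₀; X)`; no member of a set `𝒟₁` was checked.  Here, for `E₀ : y² = x³ - x`:

* `quadraticTwist E₀ d` is the congruent number curve `y² = x³ - d² x`, for every `d` (`quadraticTwist_E₀_eq`); it is `E₅` for `d = ±5`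
  and `E₀` for `d = ±1`;
* `±5 ∈ 𝒟₁(E₀; X)` and `±5 ∉ 𝒟₀(E₀; X)` for `X ≥ 5` (from the complete `2`-descent `selmerCorank_E₅_two`), and `5 ∉ 𝒟(X)` for `X < 5`;
* `-1 ∈ 𝒟₀(E₀; X)`, `-1 ∉ 𝒟₁(E₀; X)`;
* `𝒟_j(E₀; X)` is stable under `d ↦ -d`;
* so for `X ≥ 5` both sets are non-empty, with at least two elements each, and for `1 ≤ X < 2` the quotient `#𝒟₀ / #𝒟` of the statement is `1` and `#𝒟₁ / #𝒟` is `0`.
-/

set_option autoImplicit false

namespace Claimed.Open.R002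

open WeierstrassCurve

/-- The quadratic twist of `E₀ : y² = x³ - x` by `d` is `y² = x³ - d² x`. -/
theorem quadraticTwist_E₀_eq (d : ℚ) : quadraticTwist E₀ d = ⟨0, 0, 0, -d ^ 2, 0⟩ := by
  unfold quadraticTwist E₀
  ext <;> simp [WeierstrassCurve.b₂, WeierstrassCurve.b₄, WeierstrassCurve.b₆]
  ring

theorem quadraticTwist_E₀_neg (d : ℚ) : quadraticTwist E₀ (-d) = quadraticTwist E₀ d := by
  rw [quadraticTwist_E₀_eq, quadraticTwist_E₀_eq, neg_sq]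

theorem quadraticTwist_E₀_five : quadraticTwist E₀ ((5 : ℤ) : ℚ) = E₅ := by
  rw [quadraticTwist_E₀_eq]
  unfold E₅
  norm_num

theorem quadraticTwist_E₀_neg_five : quadraticTwist E₀ ((-5 : ℤ) : ℚ) = E₅ := by
  rw [quadraticTwist_E₀_eq]
  unfold E₅
  norm_num

theorem quadraticTwist_E₀_neg_one : quadraticTwist E₀ ((-1 : ℤ) : ℚ) = E₀ := by
  rw [quadraticTwist_E₀_eq]
  unfold E₀
  norm_num

theorem neg_mem_squarefreeUpTo_iff {X : ℝ} {d : ℤ} :
    -d ∈ squarefreeUpTo X ↔ d ∈ squarefreeUpTo X := by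
  have hsq : Squarefree (-d) ↔ Squarefree d := by
    rw [← Int.squarefree_natAbs, ← Int.squarefree_natAbs (n := d), Int.natAbs_neg]
  show (0 < |-d| ∧ ((|-d| : ℤ) : ℝ) ≤ X ∧ Squarefree (-d)) ↔
    (0 < |d| ∧ ((|d| : ℤ) : ℝ) ≤ X ∧ Squarefree d)
  rw [abs_neg, hsq]

/-- `𝒟_j(E₀; X)` is stable under `d ↦ -d`. -/
theorem neg_mem_twistsOfCorank_E₀_iff {j : ℕ} {X : ℝ} {d : ℤ} :
    -d ∈ twistsOfCorank E₀ j X ↔ d ∈ twistsOfCorank E₀ j X := by
  show (-d ∈ squarefreeUpTo X ∧ selmerCorank (quadraticTwist E₀ ((-d : ℤ) : ℚ)) 2 = (j : Cardinal)) ↔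
    (d ∈ squarefreeUpTo X ∧ selmerCorank (quadraticTwist E₀ ((d : ℤ) : ℚ)) 2 = (j : Cardinal))
  rw [neg_mem_squarefreeUpTo_iff, Int.cast_neg, quadraticTwist_E₀_neg]

theorem five_mem_squarefreeUpTo {X : ℝ} (hX : 5 ≤ X) : (5 : ℤ) ∈ squarefreeUpTo X := by
  refine ⟨by norm_num, by simpa using hX, ?_⟩
  exact (Int.prime_iff_natAbs_prime.mpr (by norm_num)).squarefree

theorem five_not_mem_squarefreeUpTo {X : ℝ} (hX : X < 5) : (5 : ℤ) ∉ squarefreeUpTo X := by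
  rintro ⟨-, h, -⟩
  have : (5 : ℝ) ≤ X := by simpa using h
  linarith

/-- **Example**: `5 ∈ 𝒟₁(E₀; X)` for `X ≥ 5`: the first checked member of a set `𝒟₁`. -/
theorem five_mem_twistsOfCorank_E₀ {X : ℝ} (hX : 5 ≤ X) : (5 : ℤ) ∈ twistsOfCorank E₀ 1 X := by
  refine ⟨five_mem_squarefreeUpTo hX, ?_⟩
  rw [quadraticTwist_E₀_five, selmerCorank_E₅_two]
  simp

/-- **Non-example**: `5 ∉ 𝒟₀(E₀; X)`. -/
theorem five_not_mem_twistsOfCorank_E₀ (X : ℝ) : (5 : ℤ) ∉ twistsOfCorank E₀ 0 X := by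
  rintro ⟨-, h⟩
  rw [quadraticTwist_E₀_five, selmerCorank_E₅_two] at h
  simp at h

theorem neg_five_mem_twistsOfCorank_E₀ {X : ℝ} (hX : 5 ≤ X) :
    (-5 : ℤ) ∈ twistsOfCorank E₀ 1 X :=
  neg_mem_twistsOfCorank_E₀_iff.mpr (five_mem_twistsOfCorank_E₀ hX)

theorem neg_five_not_mem_twistsOfCorank_E₀ (X : ℝ) : (-5 : ℤ) ∉ twistsOfCorank E₀ 0 X :=
  fun h => five_not_mem_twistsOfCorank_E₀ X (neg_mem_twistsOfCorank_E₀_iff.mp h)

theorem neg_one_mem_twistsOfCorank_E₀ {X : ℝ} (hX : 1 ≤ X) : (-1 : ℤ) ∈ twistsOfCorank E₀ 0 X :=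
  neg_mem_twistsOfCorank_E₀_iff.mpr (one_mem_twistsOfCorank_E₀ hX)

theorem neg_one_not_mem_twistsOfCorank_E₀ (X : ℝ) : (-1 : ℤ) ∉ twistsOfCorank E₀ 1 X :=
  fun h => one_not_mem_twistsOfCorank_E₀ X (neg_mem_twistsOfCorank_E₀_iff.mp h)

/-- For `X ≥ 5` both counting sets of `TwistDensityStatement` for `E₀` have at least two elements. -/
theorem two_le_card_twistsOfCorank_E₀ {X : ℝ} (hX : 5 ≤ X) (j : ℕ) (hj : j ≤ 1) :
    2 ≤ Nat.card (twistsOfCorank E₀ j X) := by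
  have hfin : (twistsOfCorank E₀ j X).Finite :=
    (squarefreeUpTo_finite X).subset (twistsOfCorank_subset E₀ j X)
  have key : ∀ a : ℤ, a ≠ -a → a ∈ twistsOfCorank E₀ j X → -a ∈ twistsOfCorank E₀ j X →
      2 ≤ Nat.card (twistsOfCorank E₀ j X) := by
    intro a hne h1 h2
    have hsub : (({a, -a} : Finset ℤ) : Set ℤ) ⊆ twistsOfCorank E₀ j X := by
      intro z hz
      simp only [Finset.coe_insert, Finset.coe_singleton, Set.mem_insert_iff,
        Set.mem_singleton_iff] at hz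
      rcases hz with rfl | rfl
      · exact h1
      · exact h2
    have hcard : ({a, -a} : Finset ℤ).card = 2 := Finset.card_pair hne
    rw [Nat.card_coe_set_eq, ← hcard, ← Set.ncard_coe_finset]
    exact Set.ncard_le_ncard hsub hfin
  interval_cases j
  · exact key 1 (by norm_num) (one_mem_twistsOfCorank_E₀ (by linarith))
      (neg_one_mem_twistsOfCorank_E₀ (by linarith))
  · exact key 5 (by norm_num) (five_mem_twistsOfCorank_E₀ hX) (neg_five_mem_twistsOfCorank_E₀ hX)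

/-- `𝒟(X) = {1, -1}` for `1 ≤ X < 2`. -/
theorem squarefreeUpTo_eq_of_lt_two {X : ℝ} (h1 : 1 ≤ X) (h2 : X < 2) :
    squarefreeUpTo X = {1, -1} := by
  ext d
  simp only [Set.mem_insert_iff, Set.mem_singleton_iff]
  constructor
  · rintro ⟨h0, hle, -⟩
    have h3 : ((|d| : ℤ) : ℝ) < 2 := lt_of_le_of_lt hle h2
    have h4 : |d| < 2 := by exact_mod_cast h3
    have h5 : |d| = 1 := by omega
    rcases abs_eq (by norm_num : (0 : ℤ) ≤ 1) |>.mp h5 with h | h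
    · exact Or.inl h
    · exact Or.inr h
  · rintro (rfl | rfl)
    · exact one_mem_squarefreeUpTo h1
    · exact neg_mem_squarefreeUpTo_iff.mpr (one_mem_squarefreeUpTo h1)

/-- The two quotients of `TwistDensityStatement` for `E₀` at `1 ≤ X < 2`: `#𝒟₀ / #𝒟 = 1`, `#𝒟₁ / #𝒟 = 0`. -/
theorem twist_quotients_E₀_of_lt_two {X : ℝ} (h1 : 1 ≤ X) (h2 : X < 2) :
    (Nat.card (twistsOfCorank E₀ 0 X) : ℝ) / (Nat.card (squarefreeUpTo X) : ℝ) = 1 ∧
      (Nat.card (twistsOfCorank E₀ 1 X) : ℝ) / (Nat.card (squarefreeUpTo X) : ℝ) = 0 := by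
  have e0 : twistsOfCorank E₀ 0 X = squarefreeUpTo X := by
    apply Set.Subset.antisymm (twistsOfCorank_subset E₀ 0 X)
    rw [squarefreeUpTo_eq_of_lt_two h1 h2]
    rintro d (rfl | rfl)
    · exact one_mem_twistsOfCorank_E₀ h1
    · exact neg_one_mem_twistsOfCorank_E₀ h1
  have e1 : twistsOfCorank E₀ 1 X = ∅ := by
    rw [Set.eq_empty_iff_forall_notMem]
    intro d hd
    have := twistsOfCorank_subset E₀ 1 X hd
    rw [squarefreeUpTo_eq_of_lt_two h1 h2] at this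
    rcases this with rfl | rfl
    · exact one_not_mem_twistsOfCorank_E₀ X hd
    · exact neg_one_not_mem_twistsOfCorank_E₀ X hd
  have hpos : (0 : ℝ) < (Nat.card (squarefreeUpTo X) : ℝ) := by
    exact_mod_cast card_squarefreeUpTo_pos h1
  refine ⟨?_, ?_⟩
  · rw [e0]; exact div_self hpos.ne'
  · rw [e1]; simp

end Claimed.Open.R002
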