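import Mathlib

/-!
# Sanity, part 3: the curve `E₀ : y² = x³ - x`

Group law computations over an arbitrary field of characteristic zero: translation by the three
points of order two, the duplication formula, the functions `g₁, g₂, g₃` with
`gᵢ(Q)² = x(2Q) - eᵢ` and their signs under translation by `E₀[2]` (the Weil pairing in disguise),
divisibility by `2` over an algebraically closed field, and explicit points of order four.
Used for the checked example `SanityE0Selmer.lean`.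
-/

set_option autoImplicit false
set_option linter.unusedSectionVars false

namespace Claimed.Open.R002

open WeierstrassCurve Polynomial

/-- The curve `y² = x³ - x` (Cremona label 32a2). -/
def E₀ : WeierstrassCurve ℚ := ⟨0, 0, 0, -1, 0⟩

@[simp] lemma E₀_a₁ : E₀.a₁ = 0 := rfl
@[simp] lemma E₀_a₂ : E₀.a₂ = 0 := rfl
@[simp] lemma E₀_a₃ : E₀.a₃ = 0 := rfl
@[simp] lemma E₀_a₄ : E₀.a₄ = -1 := rfl
@[simp] lemma E₀_a₆ : E₀.a₆ = 0 := rfl

instance E₀.isElliptic : E₀.IsElliptic := by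
  rw [WeierstrassCurve.isElliptic_iff]
  simp [WeierstrassCurve.Δ, WeierstrassCurve.b₂, WeierstrassCurve.b₄, WeierstrassCurve.b₆,
    WeierstrassCurve.b₈]

section Field

variable {F : Type*} [Field F] [Algebra ℚ F]

instance E₀.isElliptic_baseChange : (E₀⁄F).IsElliptic :=
  inferInstanceAs (E₀.map (algebraMap ℚ F)).IsElliptic

lemma E₀_equation_iff (x y : F) : (E₀⁄F).toAffine.Equation x y ↔ y ^ 2 = x ^ 3 - x := by
  rw [Affine.equation_iff]
  simp
  ring_nf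

lemma E₀_nonsingular_iff (x y : F) : (E₀⁄F).toAffine.Nonsingular x y ↔ y ^ 2 = x ^ 3 - x := by
  rw [← E₀_equation_iff]
  exact (Affine.equation_iff_nonsingular (W := (E₀⁄F))).symm

variable [DecidableEq F]

/-- The affine point `(x, y)` of `y² = x³ - x`. -/
def pt (x y : F) (h : y ^ 2 = x ^ 3 - x) : (E₀⁄F).toAffine.Point :=
  .some x y ((E₀_nonsingular_iff x y).mpr h)

lemma pt_eq_pt {x y x' y' : F} {h : y ^ 2 = x ^ 3 - x} {h' : y' ^ 2 = x' ^ 3 - x'}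
    (hx : x = x') (hy : y = y') : pt x y h = pt x' y' h' := by
  subst hx hy; rfl

lemma pt_inj {x y x' y' : F} {h : y ^ 2 = x ^ 3 - x} {h' : y' ^ 2 = x' ^ 3 - x'}
    (e : pt x y h = pt x' y' h') : x = x' ∧ y = y' := by
  simpa [pt] using e

lemma pt_ne_zero {x y : F} {h : y ^ 2 = x ^ 3 - x} : pt x y h ≠ 0 := by
  intro e; cases e

lemma exists_pt (P : (E₀⁄F).toAffine.Point) (hP : P ≠ 0) :
    ∃ (x y : F) (h : y ^ 2 = x ^ 3 - x), P = pt x y h := by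
  rcases P with _ | ⟨x, y, h⟩
  · exact absurd rfl hP
  · exact ⟨x, y, (E₀_nonsingular_iff x y).mp h, rfl⟩

lemma neg_pt {x y : F} (h : y ^ 2 = x ^ 3 - x) :
    -pt x y h = pt x (-y) (by rw [neg_sq, h]) := by
  simp [pt, Affine.Point.neg_some, Affine.negY]

lemma pt_add_of_X_ne {x₁ y₁ x₂ y₂ x₃ y₃ : F} (h₁ : y₁ ^ 2 = x₁ ^ 3 - x₁)
    (h₂ : y₂ ^ 2 = x₂ ^ 3 - x₂) (h₃ : y₃ ^ 2 = x₃ ^ 3 - x₃) (hx : x₁ ≠ x₂)
    (hX : x₃ = ((y₁ - y₂) / (x₁ - x₂)) ^ 2 - x₁ - x₂)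
    (hY : y₃ = -((y₁ - y₂) / (x₁ - x₂) * (x₃ - x₁) + y₁)) :
    pt x₁ y₁ h₁ + pt x₂ y₂ h₂ = pt x₃ y₃ h₃ := by
  unfold pt
  rw [Affine.Point.add_of_X_ne hx]
  have hs : (E₀⁄F).toAffine.slope x₁ x₂ y₁ y₂ = (y₁ - y₂) / (x₁ - x₂) :=
    Affine.slope_of_X_ne hx
  have e1 : (E₀⁄F).toAffine.addX x₁ x₂ ((E₀⁄F).toAffine.slope x₁ x₂ y₁ y₂) = x₃ := by
    rw [hs, hX]; simp [Affine.addX]
  have e2 : (E₀⁄F).toAffine.addY x₁ x₂ y₁ ((E₀⁄F).toAffine.slope x₁ x₂ y₁ y₂) = y₃ := by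
    rw [Affine.addY, Affine.negAddY, e1, hs, hY]; simp [Affine.negY]
  simp only [Affine.Point.some.injEq]
  exact ⟨e1, e2⟩

lemma pt_add_self {x y x₃ y₃ : F} (h : y ^ 2 = x ^ 3 - x) (h₃ : y₃ ^ 2 = x₃ ^ 3 - x₃) (hy : y ≠ 0)
    (hX : x₃ = ((3 * x ^ 2 - 1) / (2 * y)) ^ 2 - x - x)
    (hY : y₃ = -((3 * x ^ 2 - 1) / (2 * y) * (x₃ - x) + y)) :
    pt x y h + pt x y h = pt x₃ y₃ h₃ := by
  unfold pt
  have : CharZero F := algebraRat.charZero F
  have h2 : (2 : F) ≠ 0 := two_ne_zero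
  have hne : y ≠ (E₀⁄F).toAffine.negY x y := by
    simp only [Affine.negY]
    simp
    intro e
    apply hy
    have : 2 * y = 0 := by linear_combination e
    exact (mul_eq_zero.mp this).resolve_left h2
  rw [Affine.Point.add_self_of_Y_ne hne]
  have hs : (E₀⁄F).toAffine.slope x x y y = (3 * x ^ 2 - 1) / (2 * y) := by
    rw [Affine.slope_of_Y_ne rfl hne]
    simp [Affine.negY]
    ring_nf
  have e1 : (E₀⁄F).toAffine.addX x x ((E₀⁄F).toAffine.slope x x y y) = x₃ := by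
    rw [hs, hX]; simp [Affine.addX]
  have e2 : (E₀⁄F).toAffine.addY x x y ((E₀⁄F).toAffine.slope x x y y) = y₃ := by
    rw [Affine.addY, Affine.negAddY, e1, hs, hY]; simp [Affine.negY]
  simp only [Affine.Point.some.injEq]
  exact ⟨e1, e2⟩

def T1 : (E₀⁄F).toAffine.Point := pt 0 0 (by ring)
def T2 : (E₀⁄F).toAffine.Point := pt 1 0 (by ring)
def T3 : (E₀⁄F).toAffine.Point := pt (-1) 0 (by ring)

lemma x_ne_of_y_ne {x y : F} (h : y ^ 2 = x ^ 3 - x) (hy : y ≠ 0) : x ≠ 0 ∧ x - 1 ≠ 0 ∧ x + 1 ≠ 0 := by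
  have : x * (x - 1) * (x + 1) ≠ 0 := by
    have e : x * (x - 1) * (x + 1) = y ^ 2 := by rw [h]; ring
    rw [e]; exact pow_ne_zero 2 hy
  exact ⟨left_ne_zero_of_mul (left_ne_zero_of_mul this), right_ne_zero_of_mul (left_ne_zero_of_mul this),
    right_ne_zero_of_mul this⟩

lemma eqn_T1 {x y : F} (h : y ^ 2 = x ^ 3 - x) (hy : y ≠ 0) :
    (y / x ^ 2) ^ 2 = (-1 / x) ^ 3 - (-1 / x) := by
  obtain ⟨h0, h1, h3⟩ := x_ne_of_y_ne h hy
  field_simp
  linear_combination h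

lemma add_T1 {x y : F} (h : y ^ 2 = x ^ 3 - x) (hy : y ≠ 0) :
    pt x y h + T1 = pt (-1 / x) (y / x ^ 2) (eqn_T1 h hy) := by
  obtain ⟨h0, h1, h3⟩ := x_ne_of_y_ne h hy
  refine pt_add_of_X_ne _ _ _ h0 ?_ ?_
  · field_simp
    linear_combination (-x) * h
  · field_simp
    ring

lemma eqn_T2 {x y : F} (h : y ^ 2 = x ^ 3 - x) (hy : y ≠ 0) :
    (-2 * y / (x - 1) ^ 2) ^ 2 = ((x + 1) / (x - 1)) ^ 3 - ((x + 1) / (x - 1)) := by
  obtain ⟨h0, h1, h3⟩ := x_ne_of_y_ne h hy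
  field_simp
  linear_combination 4 * h

lemma add_T2 {x y : F} (h : y ^ 2 = x ^ 3 - x) (hy : y ≠ 0) :
    pt x y h + T2 = pt ((x + 1) / (x - 1)) (-2 * y / (x - 1) ^ 2) (eqn_T2 h hy) := by
  obtain ⟨h0, h1, h3⟩ := x_ne_of_y_ne h hy
  refine pt_add_of_X_ne _ _ _ (sub_ne_zero.mp h1) ?_ ?_
  · field_simp
    linear_combination (-1 : F) * h
  · field_simp
    ring

lemma eqn_T3 {x y : F} (h : y ^ 2 = x ^ 3 - x) (hy : y ≠ 0) :
    (-2 * y / (x + 1) ^ 2) ^ 2 = ((1 - x) / (x + 1)) ^ 3 - ((1 - x) / (x + 1)) := by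
  obtain ⟨h0, h1, h3⟩ := x_ne_of_y_ne h hy
  field_simp
  linear_combination 4 * h

lemma add_T3 {x y : F} (h : y ^ 2 = x ^ 3 - x) (hy : y ≠ 0) :
    pt x y h + T3 = pt ((1 - x) / (x + 1)) (-2 * y / (x + 1) ^ 2) (eqn_T3 h hy) := by
  obtain ⟨h0, h1, h3⟩ := x_ne_of_y_ne h hy
  refine pt_add_of_X_ne _ _ _ (fun e => h3 (by rw [e]; ring)) ?_ ?_
  · have : x - -1 = x + 1 := by ring
    rw [this]
    field_simp
    linear_combination (-1 : F) * h
  · have : x - -1 = x + 1 := by ring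
    rw [this]
    field_simp
    ring

def g1 (x y : F) : F := (x ^ 2 + 1) / (2 * y)
def g2 (x y : F) : F := (x ^ 2 - 2 * x - 1) / (2 * y)
def g3 (x y : F) : F := (x ^ 2 + 2 * x - 1) / (2 * y)

lemma g2_sq {x y : F} (h : y ^ 2 = x ^ 3 - x) (hy : y ≠ 0) : g2 x y ^ 2 = g1 x y ^ 2 - 1 := by
  have : CharZero F := algebraRat.charZero F
  unfold g1 g2
  field_simp
  linear_combination 4 * h

lemma g3_sq {x y : F} (h : y ^ 2 = x ^ 3 - x) (hy : y ≠ 0) : g3 x y ^ 2 = g1 x y ^ 2 + 1 := by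
  have : CharZero F := algebraRat.charZero F
  unfold g1 g3
  field_simp
  linear_combination (-4 : F) * h

lemma two_pt {x y : F} (h : y ^ 2 = x ^ 3 - x) (hy : y ≠ 0) :
    ∃ (X Y : F) (h₃ : Y ^ 2 = X ^ 3 - X), pt x y h + pt x y h = pt X Y h₃ ∧ X = g1 x y ^ 2 := by
  have : CharZero F := algebraRat.charZero F
  have h2 : (2 : F) ≠ 0 := two_ne_zero
  have hne : y ≠ (E₀⁄F).toAffine.negY x y := by
    simp only [Affine.negY]
    simp
    intro e
    apply hy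
    have : 2 * y = 0 := by linear_combination e
    exact (mul_eq_zero.mp this).resolve_left h2
  have hs : (E₀⁄F).toAffine.slope x x y y = (3 * x ^ 2 - 1) / (2 * y) := by
    rw [Affine.slope_of_Y_ne rfl hne]
    simp [Affine.negY]
    ring_nf
  refine ⟨_, _, (E₀_nonsingular_iff _ _).mp (Affine.nonsingular_add ((E₀_nonsingular_iff x y).mpr h)
    ((E₀_nonsingular_iff x y).mpr h) fun hxy => hne hxy.right), ?_, ?_⟩
  · unfold pt
    rw [Affine.Point.add_self_of_Y_ne hne]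
  · rw [hs]
    simp [Affine.addX, g1]
    field_simp
    linear_combination (-8 * x) * h

-- signs
lemma g1_T1 {x y : F} (h : y ^ 2 = x ^ 3 - x) (hy : y ≠ 0) : g1 (-1 / x) (y / x ^ 2) = g1 x y := by
  have : CharZero F := algebraRat.charZero F
  obtain ⟨h0, h1, h3⟩ := x_ne_of_y_ne h hy
  unfold g1; field_simp; ring
lemma g2_T1 {x y : F} (h : y ^ 2 = x ^ 3 - x) (hy : y ≠ 0) : g2 (-1 / x) (y / x ^ 2) = - g2 x y := by
  have : CharZero F := algebraRat.charZero F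
  obtain ⟨h0, h1, h3⟩ := x_ne_of_y_ne h hy
  unfold g2; field_simp; ring
lemma g3_T1 {x y : F} (h : y ^ 2 = x ^ 3 - x) (hy : y ≠ 0) : g3 (-1 / x) (y / x ^ 2) = - g3 x y := by
  have : CharZero F := algebraRat.charZero F
  obtain ⟨h0, h1, h3⟩ := x_ne_of_y_ne h hy
  unfold g3; field_simp; ring
lemma g1_T2 {x y : F} (h : y ^ 2 = x ^ 3 - x) (hy : y ≠ 0) :
    g1 ((x + 1) / (x - 1)) (-2 * y / (x - 1) ^ 2) = - g1 x y := by
  have : CharZero F := algebraRat.charZero F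
  obtain ⟨h0, h1, h3⟩ := x_ne_of_y_ne h hy
  unfold g1; field_simp; ring
lemma g2_T2 {x y : F} (h : y ^ 2 = x ^ 3 - x) (hy : y ≠ 0) :
    g2 ((x + 1) / (x - 1)) (-2 * y / (x - 1) ^ 2) = g2 x y := by
  have : CharZero F := algebraRat.charZero F
  obtain ⟨h0, h1, h3⟩ := x_ne_of_y_ne h hy
  unfold g2; field_simp; ring
lemma g3_T2 {x y : F} (h : y ^ 2 = x ^ 3 - x) (hy : y ≠ 0) :
    g3 ((x + 1) / (x - 1)) (-2 * y / (x - 1) ^ 2) = - g3 x y := by
  have : CharZero F := algebraRat.charZero F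
  obtain ⟨h0, h1, h3⟩ := x_ne_of_y_ne h hy
  unfold g3; field_simp; ring
lemma g1_T3 {x y : F} (h : y ^ 2 = x ^ 3 - x) (hy : y ≠ 0) :
    g1 ((1 - x) / (x + 1)) (-2 * y / (x + 1) ^ 2) = - g1 x y := by
  have : CharZero F := algebraRat.charZero F
  obtain ⟨h0, h1, h3⟩ := x_ne_of_y_ne h hy
  unfold g1; field_simp; ring
lemma g2_T3 {x y : F} (h : y ^ 2 = x ^ 3 - x) (hy : y ≠ 0) :
    g2 ((1 - x) / (x + 1)) (-2 * y / (x + 1) ^ 2) = - g2 x y := by
  have : CharZero F := algebraRat.charZero F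
  obtain ⟨h0, h1, h3⟩ := x_ne_of_y_ne h hy
  unfold g2; field_simp; ring
lemma g3_T3 {x y : F} (h : y ^ 2 = x ^ 3 - x) (hy : y ≠ 0) :
    g3 ((1 - x) / (x + 1)) (-2 * y / (x + 1) ^ 2) = g3 x y := by
  have : CharZero F := algebraRat.charZero F
  obtain ⟨h0, h1, h3⟩ := x_ne_of_y_ne h hy
  unfold g3; field_simp; ring

/-! group table of the 2-torsion -/
lemma pt_add_self_of_y_eq_zero {x : F} (h : (0 : F) ^ 2 = x ^ 3 - x) : pt x 0 h + pt x 0 h = 0 := by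
  unfold pt
  apply Affine.Point.add_self_of_Y_eq
  simp [Affine.negY]

lemma T1_add_T1 : (T1 + T1 : (E₀⁄F).toAffine.Point) = 0 := pt_add_self_of_y_eq_zero _
lemma T2_add_T2 : (T2 + T2 : (E₀⁄F).toAffine.Point) = 0 := pt_add_self_of_y_eq_zero _
lemma T3_add_T3 : (T3 + T3 : (E₀⁄F).toAffine.Point) = 0 := pt_add_self_of_y_eq_zero _

lemma T1_add_T2 : (T1 + T2 : (E₀⁄F).toAffine.Point) = T3 := by
  have : CharZero F := algebraRat.charZero F
  refine pt_add_of_X_ne _ _ _ (by norm_num) ?_ ?_ <;> norm_num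

lemma T1_add_T3 : (T1 + T3 : (E₀⁄F).toAffine.Point) = T2 := by
  rw [← T1_add_T2, ← add_assoc, T1_add_T1, zero_add]

lemma T2_add_T3 : (T2 + T3 : (E₀⁄F).toAffine.Point) = T1 := by
  rw [← T1_add_T2, add_comm T1, ← add_assoc, T2_add_T2, zero_add]

lemma T1_ne_zero : (T1 : (E₀⁄F).toAffine.Point) ≠ 0 := pt_ne_zero
lemma T2_ne_zero : (T2 : (E₀⁄F).toAffine.Point) ≠ 0 := pt_ne_zero
lemma T3_ne_zero : (T3 : (E₀⁄F).toAffine.Point) ≠ 0 := pt_ne_zero
lemma T1_ne_T2 : (T1 : (E₀⁄F).toAffine.Point) ≠ T2 := fun e => by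
  have : CharZero F := algebraRat.charZero F
  have := (pt_inj e).1; norm_num at this
lemma T1_ne_T3 : (T1 : (E₀⁄F).toAffine.Point) ≠ T3 := fun e => by
  have : CharZero F := algebraRat.charZero F
  have := (pt_inj e).1; norm_num at this
lemma T2_ne_T3 : (T2 : (E₀⁄F).toAffine.Point) ≠ T3 := fun e => by
  have : CharZero F := algebraRat.charZero F
  have := (pt_inj e).1; norm_num at this

/-- classification of the 2-torsion -/
lemma two_torsion (T : (E₀⁄F).toAffine.Point) (hT : T + T = 0) :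
    T = 0 ∨ T = T1 ∨ T = T2 ∨ T = T3 := by
  by_cases h0 : T = 0
  · exact Or.inl h0
  obtain ⟨x, y, h, rfl⟩ := exists_pt T h0
  by_cases hy : y = 0
  · subst hy
    have : x * (x - 1) * (x + 1) = 0 := by linear_combination -h
    rcases mul_eq_zero.mp this with h' | h'
    · rcases mul_eq_zero.mp h' with h'' | h''
      · exact Or.inr (Or.inl (pt_eq_pt h'' rfl))
      · exact Or.inr (Or.inr (Or.inl (pt_eq_pt (sub_eq_zero.mp h'') rfl)))
    · exact Or.inr (Or.inr (Or.inr (pt_eq_pt (eq_neg_of_add_eq_zero_left h') rfl)))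
  · obtain ⟨X, Y, h₃, e, -⟩ := two_pt h hy
    rw [e] at hT
    exact absurd hT pt_ne_zero

/-- the "Weil pairing with `T1`" -/
def e1 (T : (E₀⁄F).toAffine.Point) : ℤˣ := if T = 0 ∨ T = T1 then 1 else -1
/-- the "Weil pairing with `T3`" -/
def e3 (T : (E₀⁄F).toAffine.Point) : ℤˣ := if T = 0 ∨ T = T3 then 1 else -1

@[simp] lemma e1_zero : e1 (0 : (E₀⁄F).toAffine.Point) = 1 := by simp [e1]
@[simp] lemma e1_T1 : e1 (T1 : (E₀⁄F).toAffine.Point) = 1 := by simp [e1]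
@[simp] lemma e1_T2 : e1 (T2 : (E₀⁄F).toAffine.Point) = -1 := by
  simp [e1, T2_ne_zero, T1_ne_T2.symm]
@[simp] lemma e1_T3 : e1 (T3 : (E₀⁄F).toAffine.Point) = -1 := by
  simp [e1, T3_ne_zero, T1_ne_T3.symm]
@[simp] lemma e3_zero : e3 (0 : (E₀⁄F).toAffine.Point) = 1 := by simp [e3]
@[simp] lemma e3_T1 : e3 (T1 : (E₀⁄F).toAffine.Point) = -1 := by
  simp [e3, T1_ne_zero, T1_ne_T3]
@[simp] lemma e3_T2 : e3 (T2 : (E₀⁄F).toAffine.Point) = -1 := by
  simp [e3, T2_ne_zero, T2_ne_T3]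
@[simp] lemma e3_T3 : e3 (T3 : (E₀⁄F).toAffine.Point) = 1 := by simp [e3]

lemma e1_add (S T : (E₀⁄F).toAffine.Point) (hS : S + S = 0) (hT : T + T = 0) :
    e1 (S + T) = e1 S * e1 T := by
  rcases two_torsion S hS with rfl | rfl | rfl | rfl <;>
  rcases two_torsion T hT with rfl | rfl | rfl | rfl <;>
  simp [T1_add_T1, T2_add_T2, T3_add_T3, T1_add_T2, T1_add_T3, T2_add_T3, add_comm T2 T1,
    add_comm T3 T1, add_comm T3 T2]

lemma e3_add (S T : (E₀⁄F).toAffine.Point) (hS : S + S = 0) (hT : T + T = 0) :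
    e3 (S + T) = e3 S * e3 T := by
  rcases two_torsion S hS with rfl | rfl | rfl | rfl <;>
  rcases two_torsion T hT with rfl | rfl | rfl | rfl <;>
  simp [T1_add_T1, T2_add_T2, T3_add_T3, T1_add_T2, T1_add_T3, T2_add_T3, add_comm T2 T1,
    add_comm T3 T1, add_comm T3 T2]

/-- a 2-torsion point is determined by its two signs -/
lemma eq_of_e1_e3 (S T : (E₀⁄F).toAffine.Point) (hS : S + S = 0) (hT : T + T = 0)
    (h1 : e1 S = e1 T) (h3 : e3 S = e3 T) : S = T := by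
  rcases two_torsion S hS with rfl | rfl | rfl | rfl <;>
  rcases two_torsion T hT with rfl | rfl | rfl | rfl <;>
  simp_all

/-- transformation of `g₁, g₂, g₃` under translation by a 2-torsion point -/
lemma g_add (T : (E₀⁄F).toAffine.Point) (hT : T + T = 0) {x y x' y' : F}
    (h : y ^ 2 = x ^ 3 - x) (hy : y ≠ 0) (h' : y' ^ 2 = x' ^ 3 - x')
    (e : pt x' y' h' = pt x y h + T) :
    g1 x' y' = ((e1 T : ℤ) : F) * g1 x y ∧
    g2 x' y' = ((e1 T : ℤ) : F) * ((e3 T : ℤ) : F) * g2 x y ∧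
    g3 x' y' = ((e3 T : ℤ) : F) * g3 x y := by
  rcases two_torsion T hT with rfl | rfl | rfl | rfl
  · rw [add_zero] at e
    obtain ⟨rfl, rfl⟩ := pt_inj e
    simp
  · rw [add_T1 h hy] at e
    obtain ⟨rfl, rfl⟩ := pt_inj e
    rw [g1_T1 h hy, g2_T1 h hy, g3_T1 h hy]
    simp
  · rw [add_T2 h hy] at e
    obtain ⟨rfl, rfl⟩ := pt_inj e
    rw [g1_T2 h hy, g2_T2 h hy, g3_T2 h hy]
    simp
  · rw [add_T3 h hy] at e
    obtain ⟨rfl, rfl⟩ := pt_inj e
    rw [g1_T3 h hy, g2_T3 h hy, g3_T3 h hy]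
    simp

/-- Over an algebraically closed field every point is divisible by `2`. -/
lemma exists_half [IsAlgClosed F] (P : (E₀⁄F).toAffine.Point) : ∃ Q, Q + Q = P := by
  have : CharZero F := algebraRat.charZero F
  by_cases h0 : P = 0
  · exact ⟨0, by rw [h0, add_zero]⟩
  obtain ⟨x₀, y₀, h, rfl⟩ := exists_pt P h0
  let f : F[X] := X ^ 4 - C (4 * x₀) * X ^ 3 + C 2 * X ^ 2 + C (4 * x₀) * X + C 1
  have hdeg : f.degree ≠ 0 := by
    have : f.degree = 4 := by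
      simp only [f]
      compute_degree!
    rw [this]; norm_num
  obtain ⟨x, hx⟩ := IsAlgClosed.exists_root f hdeg
  have hx' : (x ^ 2 + 1) ^ 2 = 4 * x₀ * (x ^ 3 - x) := by
    simp only [f, IsRoot.def, eval_add, eval_sub, eval_mul, eval_pow, eval_X, eval_C] at hx
    linear_combination hx
  obtain ⟨y, hy⟩ := IsAlgClosed.exists_pow_nat_eq (x ^ 3 - x) (n := 2) (by norm_num)
  have hy0 : y ≠ 0 := by
    rintro rfl
    have e1 : x ^ 3 - x = 0 := by rw [← hy]; ring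
    have e2 : (x ^ 2 + 1) ^ 2 = 0 := by rw [hx', e1, mul_zero]
    have e3 : x ^ 2 + 1 = 0 := by simpa using e2
    have e4 : 2 * x = 0 := by linear_combination x * e3 - e1
    have e5 : x = 0 := by simpa using e4
    rw [e5] at e3
    norm_num at e3
  obtain ⟨X', Y', h₃, e, hX⟩ := two_pt hy hy0
  have hXx : X' = x₀ := by
    rw [hX, g1, div_pow, hx', mul_pow, hy]
    have : x ^ 3 - x ≠ 0 := by rw [← hy]; exact pow_ne_zero 2 hy0
    rw [div_eq_iff (mul_ne_zero (by norm_num) this)]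
    ring
  subst hXx
  have hYY : (Y' - y₀) * (Y' + y₀) = 0 := by linear_combination h₃ - h
  rcases mul_eq_zero.mp hYY with h' | h'
  · exact ⟨pt x y hy, by rw [e]; exact pt_eq_pt rfl (sub_eq_zero.mp h')⟩
  · refine ⟨-pt x y hy, ?_⟩
    rw [← neg_add, e, neg_pt]
    exact pt_eq_pt rfl (by linear_combination -h')

/-! explicit 4-torsion points -/

lemma eqn_Q1 {I : F} (hI : I ^ 2 = -1) : (1 - I) ^ 2 = I ^ 3 - I := by
  linear_combination (1 - I) * hI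

lemma eqn_Q1' {I : F} (hI : I ^ 2 = -1) : (1 + I) ^ 2 = (-I) ^ 3 - (-I) := by
  linear_combination (1 + I) * hI

lemma Q1_y_ne {I : F} (hI : I ^ 2 = -1) : (1 - I) ≠ 0 := by
  have : CharZero F := algebraRat.charZero F
  intro e
  have e1 : I = 1 := by linear_combination -e
  rw [e1] at hI
  norm_num at hI

lemma Q1_add_T3 {I : F} (hI : I ^ 2 = -1) :
    pt I (1 - I) (eqn_Q1 hI) + T3 = pt (-I) (1 + I) (eqn_Q1' hI) := by
  have : CharZero F := algebraRat.charZero F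
  rw [add_T3 _ (Q1_y_ne hI)]
  obtain ⟨h0, h1, h3⟩ := x_ne_of_y_ne (eqn_Q1 hI) (Q1_y_ne hI)
  apply pt_eq_pt
  · field_simp
    linear_combination hI
  · field_simp
    linear_combination (-3 - I) * hI

lemma Q1_add_Q1 {I : F} (hI : I ^ 2 = -1) :
    pt I (1 - I) (eqn_Q1 hI) + pt I (1 - I) (eqn_Q1 hI) = T1 := by
  obtain ⟨X, Y, h₃, e, hX⟩ := two_pt (eqn_Q1 hI) (Q1_y_ne hI)
  have hX0 : X = 0 := by rw [hX, g1, hI]; simp
  subst hX0
  have hY0 : Y = 0 := by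
    have : Y ^ 2 = 0 := by rw [h₃]; ring
    simpa using this
  subst hY0
  rw [e]; rfl

lemma eqn_Q2 {r : F} (hr : r ^ 2 = 2) : (2 + r) ^ 2 = (1 + r) ^ 3 - (1 + r) := by
  linear_combination (-2 - r) * hr

lemma eqn_Q2' {r : F} (hr : r ^ 2 = 2) : (2 - r) ^ 2 = (1 - r) ^ 3 - (1 - r) := by
  linear_combination (-2 + r) * hr

lemma Q2_y_ne {r : F} (hr : r ^ 2 = 2) : (2 + r) ≠ 0 := by
  have : CharZero F := algebraRat.charZero F
  intro e
  have e1 : r = -2 := by linear_combination e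
  rw [e1] at hr
  norm_num at hr

lemma Q2_add_T1 {r : F} (hr : r ^ 2 = 2) :
    pt (1 + r) (2 + r) (eqn_Q2 hr) + T1 = pt (1 - r) (2 - r) (eqn_Q2' hr) := by
  have : CharZero F := algebraRat.charZero F
  rw [add_T1 _ (Q2_y_ne hr)]
  obtain ⟨h0, h1, h3⟩ := x_ne_of_y_ne (eqn_Q2 hr) (Q2_y_ne hr)
  apply pt_eq_pt
  · field_simp
    linear_combination hr
  · field_simp
    linear_combination (r) * hr

lemma Q2_add_Q2 {r : F} (hr : r ^ 2 = 2) :
    pt (1 + r) (2 + r) (eqn_Q2 hr) + pt (1 + r) (2 + r) (eqn_Q2 hr) = T2 := by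
  have : CharZero F := algebraRat.charZero F
  obtain ⟨X, Y, h₃, e, hX⟩ := two_pt (eqn_Q2 hr) (Q2_y_ne hr)
  have hX0 : X = 1 := by
    rw [hX, g1]
    have : (1 + r) ^ 2 + 1 = 2 * (2 + r) := by linear_combination hr
    rw [this, div_self (mul_ne_zero two_ne_zero (Q2_y_ne hr))]
    ring
  subst hX0
  have hY0 : Y = 0 := by
    have : Y ^ 2 = 0 := by rw [h₃]; ring
    simpa using this
  subst hY0
  rw [e]; rfl

end Field

end Claimed.Open.R002
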