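import Mathlib

/-!
# Result 002: the full Birch–Swinnerton-Dyer formula from low Selmer corank

The main theorem (`MainStatement`) is Theorem 1.1 of *Exact Birch–Swinnerton-Dyer Formula from Low
Selmer Corank*:

> Let `E/ℚ` be an elliptic curve and let `q` be any prime.  If
> `s_q(E) = corank_{ℤ_q} Sel_{q^∞}(E/ℚ) ∈ {0, 1}`, then `r(E) = a(E) = s_q(E)`, `#Ш(E/ℚ) < ∞` and,
> with `r = r(E)`,
> `L^{(r)}(E,1) / r! = Ω_E · Reg_E · #Ш(E/ℚ) · ∏_ℓ c_ℓ(E) / #E(ℚ)_tors ^ 2`.

It contains the main theorems of the two companion papers (*The Selmer converse for elliptic curves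
at every prime*, *The two-primary Birch–Swinnerton-Dyer formula in Selmer corank at most one*).
`Statement` is the conjunction of `MainStatement` with the two applications which the abstracts of
the companion papers announce and which do not follow from it alone: Sylvester's positive prime
cube-sum cases (`SylvesterStatement`) and the density `1/2` of the quadratic twists of `2^∞`-Selmer
corank `0` and `1` (`TwistDensityStatement`).

All normalisations are those of Section 1.1 of the first paper.  Mathlib supplies Weierstrass curves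
and their groups of points, minimal Weierstrass equations and their reductions over a discrete
valuation ring, and the Hasse–Weil `L`-series `WeierstrassCurve.LSeries`.  Everything else
(Galois cohomology, `Ш`, the Selmer group and its corank, the real period, the Tamagawa numbers,
the canonical height and the regulator) is defined below.  See `CLAIM.md` for the dictionary.
-/

set_option autoImplicit false

namespace Claimed.Open.R002

open WeierstrassCurve
open scoped Classical

noncomputable section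

/-! ## 1. Continuous first cohomology with discrete coefficients -/

section H1

variable (G M : Type*) [Group G] [TopologicalSpace G] [AddCommGroup M] [DistribMulAction G M]

/-- Continuous `1`-cocycles (crossed homomorphisms) `G → M`, where `M` is a discrete `G`-module:
continuity for the discrete topology of `M` is local constancy. -/
def Z1 : AddSubgroup (G → M) where
  carrier := {f | IsLocallyConstant f ∧ ∀ g h, f (g * h) = f g + g • f h}
  zero_mem' := ⟨IsLocallyConstant.const 0, fun g h => by simp⟩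
  add_mem' := by
    rintro a b ⟨ha, ha'⟩ ⟨hb, hb'⟩
    refine ⟨ha.add hb, fun g h => ?_⟩
    simp only [Pi.add_apply, ha', hb', smul_add]
    abel
  neg_mem' := by
    rintro a ⟨ha, ha'⟩
    refine ⟨ha.neg, fun g h => ?_⟩
    simp only [Pi.neg_apply, ha', smul_neg, neg_add]

/-- `1`-coboundaries `g ↦ g • m - m`. -/
def B1 : AddSubgroup (G → M) where
  carrier := {f | ∃ m : M, ∀ g, f g = g • m - m}
  zero_mem' := ⟨0, fun g => by simp⟩
  add_mem' := by
    rintro a b ⟨m, hm⟩ ⟨n, hn⟩
    refine ⟨m + n, fun g => ?_⟩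
    simp only [Pi.add_apply, hm, hn, smul_add]
    abel
  neg_mem' := by
    rintro a ⟨m, hm⟩
    refine ⟨-m, fun g => ?_⟩
    simp only [Pi.neg_apply, hm, smul_neg]
    abel

/-- `H¹(G, M)`: continuous `1`-cocycles modulo `1`-coboundaries. -/
def H1 : Type _ := Z1 G M ⧸ (B1 G M).addSubgroupOf (Z1 G M)

instance H1.instAddCommGroup : AddCommGroup (H1 G M) :=
  inferInstanceAs (AddCommGroup (Z1 G M ⧸ (B1 G M).addSubgroupOf (Z1 G M)))

end H1

section H1map

variable {G M G' M' : Type*} [Group G] [TopologicalSpace G] [AddCommGroup M] [DistribMulAction G M]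
  [Group G'] [TopologicalSpace G'] [AddCommGroup M'] [DistribMulAction G' M']

/-- Functoriality of `H¹` for a compatible pair: a continuous homomorphism `φ : G' → G` and an
additive map `f : M → M'` with `f (φ g' • m) = g' • f m`.  A cocycle `ξ` goes to `f ∘ ξ ∘ φ`. -/
def H1.map (φ : G' →* G) (hφ : Continuous φ) (f : M →+ M')
    (hf : ∀ (g : G') (m : M), f (φ g • m) = g • f m) : H1 G M →+ H1 G' M' :=
  QuotientAddGroup.map _ _
    ({ toFun := fun ξ => ⟨fun g => f (ξ.1 (φ g)),
          (ξ.2.1.comp_continuous hφ).comp f, fun g h => by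
            show f (ξ.1 (φ (g * h))) = f (ξ.1 (φ g)) + g • f (ξ.1 (φ h))
            rw [map_mul, ξ.2.2, map_add, hf]⟩
       map_zero' := by ext g; simp
       map_add' := fun a b => by ext g; simp } : Z1 G M →+ Z1 G' M')
    (by
      rintro ⟨ξ, hξ⟩ ⟨m, hm⟩
      refine ⟨f m, fun g => ?_⟩
      have hm' : ξ (φ g) = φ g • m - m := hm (φ g)
      show f (ξ (φ g)) = g • f m - f m
      rw [hm', map_sub, hf])

end H1map

/-! ## 2. `p`-primary torsion as a `G`-module -/

section PrimaryTorsion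

variable (p : ℕ) (G M : Type*) [Group G] [AddCommGroup M] [DistribMulAction G M]

/-- `M[p^∞]`: the elements of `M` killed by a power of `p`. -/
def primaryTorsion : AddSubgroup M where
  carrier := {x | ∃ n : ℕ, p ^ n • x = 0}
  zero_mem' := ⟨0, by simp⟩
  add_mem' := by
    rintro a b ⟨m, hm⟩ ⟨n, hn⟩
    refine ⟨m + n, ?_⟩
    have h1 : p ^ (m + n) • a = 0 := by rw [pow_add, mul_comm, mul_smul, hm, smul_zero]
    have h2 : p ^ (m + n) • b = 0 := by rw [pow_add, mul_smul, hn, smul_zero]
    rw [smul_add, h1, h2, add_zero]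
  neg_mem' := by
    rintro a ⟨m, hm⟩
    exact ⟨m, by rw [smul_neg, hm, neg_zero]⟩

/-- `M[p^∞]` is stable under `G`. -/
instance primaryTorsion.instDistribMulAction : DistribMulAction G (primaryTorsion p M) where
  smul g x := ⟨g • x.1, by
    obtain ⟨n, hn⟩ := x.2
    exact ⟨n, by rw [← smul_comm, hn, smul_zero]⟩⟩
  one_smul x := Subtype.ext (one_smul G x.1)
  mul_smul g h x := Subtype.ext (mul_smul g h x.1)
  smul_zero g := Subtype.ext (smul_zero g)
  smul_add g x y := Subtype.ext (smul_add g x.1 y.1)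

end PrimaryTorsion

/-! ## 3. The Galois action on the points of a Weierstrass curve -/

section GaloisAction

variable {R : Type*} [CommRing R] (E : WeierstrassCurve R) (S L : Type*) [CommRing S] [Field L]
  [Algebra R S] [Algebra R L] [Algebra S L] [IsScalarTower R S L]

/-- `Aut(L/S)` acts on `E(L)` through the coordinates, for a Weierstrass curve `E` over a subring
`R` of `S`. -/
instance galoisActionOnPoints : DistribMulAction (L ≃ₐ[S] L) (E⁄L).toAffine.Point where
  smul σ P := Affine.Point.map (W' := E) (σ : L →ₐ[S] L) P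
  one_smul P := by
    cases P <;> rfl
  mul_smul σ τ P := by
    cases P <;> rfl
  smul_zero σ := rfl
  smul_add σ P Q := map_add _ P Q

end GaloisAction

/-! ## 4. Restriction to a decomposition group -/

section Restriction

variable {K : Type*} [Field K] (Kv : Type*) [Field Kv] [Algebra K Kv]

/-- The restriction homomorphism `Gal(K̄ᵥ/Kᵥ) → Gal(K̄/K)` attached to an embedding
`ι : K̄ → K̄ᵥ` over `K`: `resGal Kv ι σ` is the unique `τ` with `ι ∘ τ = σ ∘ ι`
(see `resGal_commutes`). -/
def resGal (ι : AlgebraicClosure K →ₐ[K] AlgebraicClosure Kv) :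
    (AlgebraicClosure Kv ≃ₐ[Kv] AlgebraicClosure Kv) →*
      (AlgebraicClosure K ≃ₐ[K] AlgebraicClosure K) :=
  letI : Algebra (AlgebraicClosure K) (AlgebraicClosure Kv) := ι.toRingHom.toAlgebra
  haveI : IsScalarTower K (AlgebraicClosure K) (AlgebraicClosure Kv) :=
    IsScalarTower.of_algebraMap_eq' ι.comp_algebraMap.symm
  (AlgEquiv.restrictNormalHom (F := K) (K₁ := AlgebraicClosure Kv) (AlgebraicClosure K)).comp
    (AlgEquiv.restrictScalarsHom K)

theorem resGal_commutes (ι : AlgebraicClosure K →ₐ[K] AlgebraicClosure Kv)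
    (σ : AlgebraicClosure Kv ≃ₐ[Kv] AlgebraicClosure Kv) (x : AlgebraicClosure K) :
    ι (resGal Kv ι σ x) = σ (ι x) := by
  let _ : Algebra (AlgebraicClosure K) (AlgebraicClosure Kv) := ι.toRingHom.toAlgebra
  have : IsScalarTower K (AlgebraicClosure K) (AlgebraicClosure Kv) :=
    IsScalarTower.of_algebraMap_eq' ι.comp_algebraMap.symm
  exact AlgEquiv.restrictNormal_commutes (σ.restrictScalars K) (AlgebraicClosure K) x

/-- The restriction homomorphism is continuous for the Krull topologies (needed to restrict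
continuous cocycles). -/
theorem resGal_continuous (ι : AlgebraicClosure K →ₐ[K] AlgebraicClosure Kv) :
    Continuous (resGal Kv ι) := by
  apply continuous_of_continuousAt_one _ (continuousAt_def.mpr _)
  intro N hN
  rw [map_one, krullTopology_mem_nhds_one_iff] at hN
  obtain ⟨F, hF, hO⟩ := hN
  obtain ⟨S, hS⟩ : F.FG := F.fg_of_fg_toSubalgebra
    (Subalgebra.fg_of_fg_toSubmodule (Module.Finite.iff_fg.mp hF))
  let F' : IntermediateField Kv (AlgebraicClosure Kv) :=
    IntermediateField.adjoin Kv (ι '' (S : Set (AlgebraicClosure K)))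
  have hfin : Finite (ι '' (S : Set (AlgebraicClosure K))) := (S.finite_toSet.image ι)
  have hF' : FiniteDimensional Kv F' :=
    IntermediateField.finiteDimensional_adjoin fun x _ => Algebra.IsIntegral.isIntegral x
  apply mem_nhds_iff.mpr
  refine ⟨F'.fixingSubgroup, ?_, F'.fixingSubgroup_isOpen, one_mem _⟩
  intro σ hσ
  apply hO
  simp only [SetLike.mem_coe, IntermediateField.mem_fixingSubgroup_iff] at hσ ⊢
  rw [← hS]
  refine (IntermediateField.forall_mem_adjoin_smul_eq_self_iff K (resGal Kv ι σ)).mpr ?_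
  intro x hx
  apply ι.injective
  show ι (resGal Kv ι σ x) = ι x
  rw [resGal_commutes]
  exact hσ _ (IntermediateField.subset_adjoin _ _ ⟨x, hx, rfl⟩)

end Restriction

/-! ## 5. `H¹(F, E)`, `H¹(F, E[p^∞])` and the localisation maps -/

section WC

variable {K : Type*} [Field K] (E : WeierstrassCurve K)

/-- `H¹(F, E) = H¹(Gal(F̄/F), E(F̄))` (continuous cochains, `E(F̄)` discrete) for a field
extension `F` of the field of definition `K` of `E`: the Weil–Châtelet group of `E` over `F`. -/
abbrev WC (F : Type*) [Field F] [Algebra K F] : Type _ :=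
  H1 (AlgebraicClosure F ≃ₐ[F] AlgebraicClosure F) (E⁄(AlgebraicClosure F)).toAffine.Point

variable (Kv : Type*) [Field Kv] [Algebra K Kv]

/-- The localisation (restriction) map `H¹(K, E) → H¹(Kᵥ, E)` attached to an embedding
`ι : K̄ → K̄ᵥ`: the cocycle `ξ` goes to `σ ↦ ι (ξ (σ|K̄))`. -/
def locRes (ι : AlgebraicClosure K →ₐ[K] AlgebraicClosure Kv) : WC E K →+ WC E Kv :=
  H1.map (resGal Kv ι) (resGal_continuous Kv ι) (Affine.Point.map (W' := E) ι) (by
    intro σ P
    rcases P with _ | ⟨x, y, h⟩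
    · rfl
    · show Affine.Point.map (W' := E) ι (Affine.Point.map (W' := E) _ (.some x y h)) =
        Affine.Point.map (W' := E) _ (Affine.Point.map (W' := E) ι (.some x y h))
      simp only [Affine.Point.map_some, Affine.Point.some.injEq]
      exact ⟨resGal_commutes Kv ι σ x, resGal_commutes Kv ι σ y⟩)

/-- The kernel of the localisation `H¹(K, E) → H¹(Kᵥ, E)`.  It does not depend on the embedding
`K̄ → K̄ᵥ`; to avoid a choice we intersect over all embeddings. -/
def locKer : AddSubgroup (WC E K) :=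
  ⨅ ι : AlgebraicClosure K →ₐ[K] AlgebraicClosure Kv, (locRes E Kv ι).ker

/-- `H¹(F, E[p^∞]) = H¹(Gal(F̄/F), E(F̄)[p^∞])`. -/
abbrev H1Tors (p : ℕ) (F : Type*) [Field F] [Algebra K F] : Type _ :=
  H1 (AlgebraicClosure F ≃ₐ[F] AlgebraicClosure F)
    (primaryTorsion p (E⁄(AlgebraicClosure F)).toAffine.Point)

/-- The map `H¹(F, E[p^∞]) → H¹(F, E)` induced by the inclusion `E(F̄)[p^∞] ⊆ E(F̄)`. -/
def torsToWC (p : ℕ) (F : Type*) [Field F] [Algebra K F] : H1Tors E p F →+ WC E F :=
  H1.map (MonoidHom.id _) continuous_id (AddSubgroup.subtype _) (fun _ _ => rfl)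

end WC

/-! ## 6. The Tate–Shafarevich group, the `p^∞`-Selmer group and its corank -/

section Global

variable (E : WeierstrassCurve ℚ)

/-- The Tate–Shafarevich group
`Ш(E/ℚ) = ker (H¹(ℚ, E) → ∏ᵥ H¹(ℚᵥ, E))`, `v` running over all primes and the real place. -/
def Sha : AddSubgroup (WC E ℚ) :=
  (⨅ (ℓ : ℕ) (_ : Fact ℓ.Prime), locKer E ℚ_[ℓ]) ⊓ locKer E ℝ

/-- The full `p^∞`-Selmer group
`Sel_{p^∞}(E/ℚ) = ker (H¹(ℚ, E[p^∞]) → ∏ᵥ H¹(ℚᵥ, E))`, all places `v` (finite and real) included.
By the local Kummer sequences `0 → E(ℚᵥ) ⊗ ℚ_p/ℤ_p → H¹(ℚᵥ, E[p^∞]) → H¹(ℚᵥ, E)` this is the group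
of classes whose localisation lies in the local Kummer image at every place. -/
def Selmer (p : ℕ) : AddSubgroup (H1Tors E p ℚ) :=
  (Sha E).comap (torsToWC E p ℚ)

/-- `ℚ_p/ℤ_p` as a `ℤ_p`-module. -/
abbrev QpModZp (p : ℕ) [Fact p.Prime] : Type :=
  ℚ_[p] ⧸ (1 : Submodule ℤ_[p] ℚ_[p])

/-- The Pontryagin dual `Hom(A, ℚ_p/ℤ_p)` of a discrete (`p`-primary) abelian group `A`;
it is a `ℤ_p`-module through the values. -/
abbrev PontryaginDual (p : ℕ) [Fact p.Prime] (A : Type*) [AddCommGroup A] : Type _ :=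
  A →+ QpModZp p

/-- `corank_{ℤ_p} A`, the `ℤ_p`-rank of the Pontryagin dual, as a cardinal. -/
def corank (p : ℕ) [Fact p.Prime] (A : Type*) [AddCommGroup A] : Cardinal :=
  Module.rank ℤ_[p] (PontryaginDual p A)

/-- `s_p(E) = corank_{ℤ_p} Sel_{p^∞}(E/ℚ)`. -/
def selmerCorank (p : ℕ) [Fact p.Prime] : Cardinal :=
  corank p (Selmer E p)

end Global

/-! ## 7. The Hasse–Weil `L`-function -/

/-- `L` is the Hasse–Weil `L`-function `L(E, s)` of `E/ℚ`: the (unique) entire function which, on
the half-plane `Re s > 3/2` of absolute convergence, is the uncompleted Hasse–Weil `L`-series with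
all its finite Euler factors (Mathlib's `WeierstrassCurve.LSeries`: the Dirichlet series of the
Euler product `WeierstrassCurve.LFunction` over all primes `p` of `1 / f_p(p⁻ˢ)`, where, for a
minimal equation at `p`, `f_p = 1 - a_p T + p T²`, `1 - T`, `1 + T`, `1` for good, split
multiplicative, nonsplit multiplicative and additive reduction).  The absolute convergence of the
Dirichlet series on `Re s > 3/2` is part of the predicate, so that `LSeries` is a genuine sum. -/
def IsLFunction (E : WeierstrassCurve ℚ) (L : ℂ → ℂ) : Prop :=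
  Differentiable ℂ L ∧ ∀ s : ℂ, 3 / 2 < s.re →
    LSeriesSummable (fun n => (E.LFunction n : ℂ)) s ∧ L s = E.LSeries s

/-! ## 8. The real period -/

/-- The Mordell–Weil group `E(ℚ)`. -/
abbrev MW (E : WeierstrassCurve ℚ) : Type := E.toAffine.Point

/-- `E` is a global minimal Weierstrass equation: it is a minimal (in particular integral)
Weierstrass equation at every prime `p`. -/
def IsGlobalMinimal (E : WeierstrassCurve ℚ) : Prop :=
  ∀ (p : ℕ) [Fact p.Prime], IsMinimal ℤ_[p] (E⁄ℚ_[p])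

/-- The cubic `4x³ + b₂x² + 2b₄x + b₆`, which equals `(2y + a₁x + a₃)²` on the curve. -/
def twoTorsionCubic (E : WeierstrassCurve ℚ) (x : ℝ) : ℝ :=
  4 * x ^ 3 + (E.b₂ : ℝ) * x ^ 2 + 2 * (E.b₄ : ℝ) * x + (E.b₆ : ℝ)

/-- `∫_{E(ℝ)} |ω|` for the invariant differential `ω = dx / (2y + a₁x + a₃)` of the Weierstrass
equation `E`, written out in the coordinate `x`: over every real `x` with
`g(x) = 4x³ + b₂x² + 2b₄x + b₆ > 0` lie exactly two real points, and at both
`|2y + a₁x + a₃| = √g(x)`.  All connected components of `E(ℝ)` are included. -/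
def periodIntegral (E : WeierstrassCurve ℚ) : ℝ :=
  2 * ∫ x in {x : ℝ | 0 < twoTorsionCubic E x}, (Real.sqrt (twoTorsionCubic E x))⁻¹

/-- `Ω` is the real period `Ω_E = ∫_{E(ℝ)} |ω_E|`, where `ω_E` is the Néron differential, i.e. the
invariant differential of a global minimal Weierstrass equation `C • E` of `E`. -/
def IsRealPeriod (E : WeierstrassCurve ℚ) (Ω : ℝ) : Prop :=
  ∃ C : VariableChange ℚ, IsGlobalMinimal (C • E) ∧ Ω = periodIntegral (C • E)

/-! ## 9. The canonical height and the regulator -/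

/-- The naive height `h_x`: `h_x(O) = 0`, and `h_x(P) = log max {|a|, b}` if `x(P) = a / b` in
lowest terms with `b > 0`. -/
def naiveHeight {E : WeierstrassCurve ℚ} : MW E → ℝ
  | .zero => 0
  | .some x _ _ => Real.log (max (|x.num| : ℝ) (x.den : ℝ))

/-- The canonical height `H(P) = lim_{n → ∞} 4⁻ⁿ h_x([2ⁿ] P)`. -/
def canonicalHeight {E : WeierstrassCurve ℚ} (P : MW E) : ℝ :=
  Filter.limUnder Filter.atTop fun n : ℕ => naiveHeight ((2 ^ n : ℕ) • P) / 4 ^ n

/-- The height pairing `B(P, Q) = (H(P + Q) - H(P) - H(Q)) / 2`. -/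
def heightPairing {E : WeierstrassCurve ℚ} (P Q : MW E) : ℝ :=
  (canonicalHeight (P + Q) - canonicalHeight P - canonicalHeight Q) / 2

/-- The classes of `P₁, …, P_n` form a `ℤ`-basis of the full free group `E(ℚ) / E(ℚ)_tors`. -/
def IsBasisModTorsion {E : WeierstrassCurve ℚ} {n : ℕ} (P : Fin n → MW E) : Prop :=
  ∃ b : Module.Basis (Fin n) ℤ (MW E ⧸ AddCommGroup.torsion (MW E)),
    ∀ i, b i = QuotientAddGroup.mk (P i)

/-- `R` is the regulator `Reg_E = det (B(P_i, P_j))` of a basis `P₁, …, P_n` of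
`E(ℚ) / E(ℚ)_tors` (so `R = 1`, the determinant of the empty matrix, in rank zero). -/
def IsRegulator (E : WeierstrassCurve ℚ) (R : ℝ) : Prop :=
  ∃ (n : ℕ) (P : Fin n → MW E), IsBasisModTorsion P ∧
    R = (Matrix.of fun i j => heightPairing (P i) (P j)).det

/-! ## 10. The Tamagawa numbers -/

section Tamagawa

variable (E : WeierstrassCurve ℚ) (p : ℕ) [Fact p.Prime]

/-- A minimal Weierstrass equation of `E` over `ℚ_p`. -/
def localMinimalModel : WeierstrassCurve ℚ_[p] := (E⁄ℚ_[p]).minimal ℤ_[p]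

instance localMinimalModel.instIsMinimal : IsMinimal ℤ_[p] (localMinimalModel E p) :=
  inferInstanceAs (IsMinimal ℤ_[p] ((E⁄ℚ_[p]).minimal ℤ_[p]))

/-- The set `E₀(ℚ_p)` of points of `E(ℚ_p)` (on a minimal equation) with nonsingular reduction.
The point `O` and the points with non-integral coordinates reduce to the nonsingular point `Õ`;
a point `(x, y)` with `x, y ∈ ℤ_p` reduces to `(x̄, ȳ)`. -/
def nonsingularReductionSet : Set (localMinimalModel E p).toAffine.Point :=
  {P | ∀ (x y : ℤ_[p]) (h : (localMinimalModel E p).toAffine.Nonsingular (x : ℚ_[p]) (y : ℚ_[p])),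
    P = .some _ _ h →
      ((localMinimalModel E p).reduction ℤ_[p]).toAffine.Nonsingular
        (IsLocalRing.residue ℤ_[p] x) (IsLocalRing.residue ℤ_[p] y)}

/-- The Tamagawa number `c_p(E) = [E(ℚ_p) : E₀(ℚ_p)]`.  (`E₀(ℚ_p)` is a subgroup, so it is equal to
the subgroup that it generates.) -/
def tamagawaNumber : ℕ := (AddSubgroup.closure (nonsingularReductionSet E p)).index

end Tamagawa

/-- `∏_ℓ c_ℓ(E)`, the product over all primes `ℓ` (almost all factors are `1`). -/
def tamagawaProduct (E : WeierstrassCurve ℚ) : ℕ :=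
  ∏ᶠ ℓ : Nat.Primes, haveI : Fact ℓ.1.Prime := ⟨ℓ.2⟩; tamagawaNumber E ℓ.1

/-! ## 11. The main theorem -/

/-- **Theorem 1.1** of *Exact Birch–Swinnerton-Dyer Formula from Low Selmer Corank*.

Let `E/ℚ` be an elliptic curve and `q` a prime with `s_q(E) = r ∈ {0, 1}`.  Then
* `rank E(ℚ) = r`;
* `Ш(E/ℚ)` is finite;
* the Hasse–Weil `L`-series converges absolutely on `Re s > 3/2`, it has an entire continuation `L`
  and `ord_{s=1} L = r`;
* a global minimal equation (hence `Ω_E`) and a basis of `E(ℚ)/E(ℚ)_tors` (hence `Reg_E`) exist, and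
  for every choice of them
  `L^{(r)}(1) / r! = Ω_E · Reg_E · #Ш(E/ℚ) · ∏_ℓ c_ℓ(E) / (#E(ℚ)_tors)²`. -/
def MainStatement : Prop :=
  ∀ (E : WeierstrassCurve ℚ) [E.IsElliptic] (q : ℕ) [Fact q.Prime] (r : ℕ),
    r ≤ 1 → selmerCorank E q = (r : Cardinal) →
      Module.rank ℤ (MW E) = (r : Cardinal) ∧
      Finite (Sha E) ∧
      (∃ Ω, IsRealPeriod E Ω) ∧
      (∃ R, IsRegulator E R) ∧
      ∃ L : ℂ → ℂ, IsLFunction E L ∧ analyticOrderAt L 1 = (r : ℕ∞) ∧
        ∀ Ω R : ℝ, IsRealPeriod E Ω → IsRegulator E R →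
          iteratedDeriv r L 1 / (r.factorial : ℂ) =
            ((Ω * R * (Nat.card (Sha E) : ℝ) * (tamagawaProduct E : ℝ) /
              (Nat.card (AddCommGroup.torsion (MW E)) : ℝ) ^ 2 : ℝ) : ℂ)

/-! ## 12. Sylvester's positive prime cube-sum cases -/

/-- The Weierstrass equation `y² = x³ - 27 (4ℓ)² = x³ - 432 ℓ²` of the plane cubic
`E_ℓ : X³ + Y³ = ℓ Z³` with origin `(1 : -1 : 0)` (the model used in the paper).  The isomorphism is
`(x, y) ↦ (X, Y) = ((36 ℓ + y) / (6 x), (36 ℓ - y) / (6 x))`, with inverse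
`(X, Y) ↦ (12 ℓ / (X + Y), 36 ℓ (X - Y) / (X + Y))`. -/
def cubeSumCurve (ℓ : ℚ) : WeierstrassCurve ℚ := ⟨0, 0, 0, 0, -432 * ℓ ^ 2⟩

/-- **Corollary `cor:sylvester`** of *The Selmer converse for elliptic curves at every prime*: for
every prime `ℓ ≡ 4, 7, 8 mod 9` the curve `E_ℓ : X³ + Y³ = ℓ Z³` has
`ord_{s=1} L(E_ℓ, s) = rank E_ℓ(ℚ) = 1` and `#Ш(E_ℓ/ℚ) < ∞`; in particular `ℓ` is a sum of two
rational cubes. -/
def SylvesterStatement : Prop :=
  ∀ ℓ : ℕ, ℓ.Prime → (ℓ % 9 = 4 ∨ ℓ % 9 = 7 ∨ ℓ % 9 = 8) →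
    (∃ L : ℂ → ℂ, IsLFunction (cubeSumCurve ℓ) L ∧ analyticOrderAt L 1 = 1) ∧
    Module.rank ℤ (MW (cubeSumCurve ℓ)) = 1 ∧
    Finite (Sha (cubeSumCurve ℓ)) ∧
    ∃ x y : ℚ, x ^ 3 + y ^ 3 = ℓ

/-! ## 13. Quadratic twists -/

/-- The quadratic twist `E^d`.  Completing the square, `E` is
`y² = x³ + (b₂/4) x² + (b₄/2) x + b₆/4`; `E^d` is `d y² = x³ + (b₂/4) x² + (b₄/2) x + b₆/4`, i.e.
`y² = x³ + d (b₂/4) x² + d² (b₄/2) x + d³ (b₆/4)`. -/
def quadraticTwist (E : WeierstrassCurve ℚ) (d : ℚ) : WeierstrassCurve ℚ :=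
  ⟨0, d * E.b₂ / 4, 0, d ^ 2 * E.b₄ / 2, d ^ 3 * E.b₆ / 4⟩

/-- `𝒟(X) = {d ∈ ℤ : 0 < |d| ≤ X, d squarefree}`. -/
def squarefreeUpTo (X : ℝ) : Set ℤ := {d | 0 < |d| ∧ ((|d| : ℤ) : ℝ) ≤ X ∧ Squarefree d}

/-- `𝒟_j(E; X) = {d ∈ 𝒟(X) : s₂(E^d) = j}`. -/
def twistsOfCorank (E : WeierstrassCurve ℚ) (j : ℕ) (X : ℝ) : Set ℤ :=
  {d | d ∈ squarefreeUpTo X ∧ selmerCorank (quadraticTwist E d) 2 = (j : Cardinal)}

/-- The density limits of **Corollary `cor:quadratic-twist-density`** of *The two-primary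
Birch–Swinnerton-Dyer formula in Selmer corank at most one*: for every elliptic curve `E/ℚ`,
`lim_{X → ∞} #𝒟_j(E; X) / #𝒟(X) = 1/2` for `j = 0, 1`.  (The remaining, pointwise assertions of
that corollary are `MainStatement` for the curves `E^d`.) -/
def TwistDensityStatement : Prop :=
  ∀ (E : WeierstrassCurve ℚ) [E.IsElliptic] (j : ℕ), j ≤ 1 →
    Filter.Tendsto
      (fun X : ℝ => (Nat.card (twistsOfCorank E j X) : ℝ) / (Nat.card (squarefreeUpTo X) : ℝ))
      Filter.atTop (nhds (1 / 2))

/-! ## 14. The statement -/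

/-- The main theorem of the result, together with the two applications announced in the abstracts
of its companion papers. -/
def Statement : Prop :=
  MainStatement ∧ SylvesterStatement ∧ TwistDensityStatement

end

end Claimed.Open.R002
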