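import Claimed.Open.R002.SanityFermatRT
import Claimed.Open.R002.SanityCurve
import Claimed.Open.R002.Statement

/-!
# Sanity for R002: the Mordell–Weil group of `E₀ : y² = x³ - x`

By Fermat's right triangle theorem, `E₀(ℚ) = {O, (0,0), (1,0), (-1,0)}`.  Hence, with the
definitions of `Statement.lean`: `rank E₀(ℚ) = 0`, `#E₀(ℚ)_tors = 4` and `Reg_{E₀} = 1`.
-/

set_option autoImplicit false

namespace Claimed.Open.R002

open WeierstrassCurve
open scoped Classical

/-- For coprime integers `a`, `b` with `b > 0`, the integer `a b (a² - b²)` is not a nonzero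
square. -/
lemma not_sq_mul_mul {a b c : ℤ} (hab : IsCoprime a b) (hb : 0 < b) (hc : c ≠ 0)
    (h : c ^ 2 = a * b * (a ^ 2 - b ^ 2)) : False := by
  have hc1 : IsCoprime a (a ^ 2 - b ^ 2) := by
    have : a ^ 2 - b ^ 2 = -(b ^ 2) + a * a := by ring
    rw [this]
    exact (hab.pow_right.neg_right).add_mul_left_right a
  have hc2 : IsCoprime b (a ^ 2 - b ^ 2) := by
    have : a ^ 2 - b ^ 2 = a ^ 2 + b * (-b) := by ring
    rw [this]
    exact (hab.symm.pow_right).add_mul_left_right (-b)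
  have hcop : IsCoprime (a * b) (a ^ 2 - b ^ 2) := hc1.mul_left hc2
  have hc2pos : 0 < c ^ 2 := by positivity
  have ha0 : a ≠ 0 := by
    rintro rfl
    simp at h
    exact hc h
  have e4 : ∀ z : ℤ, (z ^ 2) ^ 2 = z ^ 4 := fun z => by ring
  rcases lt_or_gt_of_ne ha0 with ha | ha
  · -- `a < 0`
    have hab' : IsCoprime (-a) b := hab.neg_left
    have hneg : a * b < 0 := mul_neg_of_neg_of_pos ha hb
    have hpos2 : 0 < b ^ 2 - a ^ 2 := by
      by_contra hcon
      rw [not_lt] at hcon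
      have : a * b * (a ^ 2 - b ^ 2) ≤ 0 := mul_nonpos_of_nonpos_of_nonneg hneg.le (by omega)
      omega
    have h' : c ^ 2 = (-a * b) * (b ^ 2 - a ^ 2) := by rw [h]; ring
    have hcop' : IsCoprime (-a * b) (b ^ 2 - a ^ 2) := by
      have e1 : -a * b = -(a * b) := by ring
      have e2 : b ^ 2 - a ^ 2 = -(a ^ 2 - b ^ 2) := by ring
      rw [e1, e2]
      exact hcop.neg_neg
    obtain ⟨e, he⟩ := Int.sq_of_isCoprime hcop' h'.symm
    have he' : -a * b = e ^ 2 := eq_sq_of_pos (by nlinarith) he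
    obtain ⟨t, ht⟩ := Int.sq_of_isCoprime hcop'.symm (by rw [mul_comm]; exact h'.symm)
    have ht' : b ^ 2 - a ^ 2 = t ^ 2 := eq_sq_of_pos hpos2 ht
    obtain ⟨r, hr⟩ := Int.sq_of_isCoprime hab' he'
    have hr' : -a = r ^ 2 := eq_sq_of_pos (by omega) hr
    obtain ⟨s, hs⟩ := Int.sq_of_isCoprime hab'.symm (by rw [mul_comm]; exact he')
    have hs' : b = s ^ 2 := eq_sq_of_pos hb hs
    have hr0 : r ≠ 0 := by rintro rfl; simp at hr'; omega
    have ht0 : t ≠ 0 := by rintro rfl; simp at ht'; omega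
    refine fermat_right_triangle (a := s) hr0 ht0 ?_
    have ea : a ^ 2 = r ^ 4 := by rw [← e4, ← hr']; ring
    rw [hs', e4, ea] at ht'
    linear_combination ht'
  · -- `a > 0`
    have hpos : 0 < a * b := mul_pos ha hb
    have hpos2 : 0 < a ^ 2 - b ^ 2 := by
      by_contra hcon
      rw [not_lt] at hcon
      have : a * b * (a ^ 2 - b ^ 2) ≤ 0 := mul_nonpos_of_nonneg_of_nonpos hpos.le hcon
      omega
    obtain ⟨e, he⟩ := Int.sq_of_isCoprime hcop h.symm
    have he' : a * b = e ^ 2 := eq_sq_of_pos hpos he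
    obtain ⟨t, ht⟩ := Int.sq_of_isCoprime hcop.symm (by rw [mul_comm]; exact h.symm)
    have ht' : a ^ 2 - b ^ 2 = t ^ 2 := eq_sq_of_pos hpos2 ht
    obtain ⟨r, hr⟩ := Int.sq_of_isCoprime hab he'
    have hr' : a = r ^ 2 := eq_sq_of_pos ha hr
    obtain ⟨s, hs⟩ := Int.sq_of_isCoprime hab.symm (by rw [mul_comm]; exact he')
    have hs' : b = s ^ 2 := eq_sq_of_pos hb hs
    have hs0 : s ≠ 0 := by rintro rfl; simp at hs'; omega
    have ht0 : t ≠ 0 := by rintro rfl; simp at ht'; omega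
    refine fermat_right_triangle (a := r) hs0 ht0 ?_
    rw [hr', hs', e4, e4] at ht'
    linear_combination ht'

/-- The only rational solutions of `y² = x³ - x` have `y = 0`. -/
theorem y_eq_zero_of_E₀ {x y : ℚ} (h : y ^ 2 = x ^ 3 - x) : y = 0 := by
  by_contra hy
  obtain ⟨a, ha⟩ : ∃ a : ℤ, a = x.num := ⟨_, rfl⟩
  obtain ⟨b, hb⟩ : ∃ b : ℤ, b = (x.den : ℤ) := ⟨_, rfl⟩
  have hb0 : 0 < b := by rw [hb]; exact_mod_cast x.den_pos
  have hbq : (b : ℚ) ≠ 0 := by exact_mod_cast hb0.ne'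
  have hx : x = (a : ℚ) / (b : ℚ) := by
    rw [ha, hb]
    exact_mod_cast (Rat.num_div_den x).symm
  have hab : IsCoprime a b := by
    rw [Int.isCoprime_iff_gcd_eq_one, ha, hb]
    exact x.reduced
  obtain ⟨w, hw⟩ : ∃ w : ℚ, w = y * (b : ℚ) ^ 2 := ⟨_, rfl⟩
  have hw0 : w ≠ 0 := by rw [hw]; exact mul_ne_zero hy (pow_ne_zero 2 hbq)
  have hw2 : w ^ 2 = ((a * b * (a ^ 2 - b ^ 2) : ℤ) : ℚ) := by
    rw [hw, mul_pow, h, hx]
    push_cast
    field_simp
  have hwden : w.den = 1 := by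
    have h1 : (w ^ 2).den = 1 := by rw [hw2]; exact Rat.den_intCast _
    rw [Rat.den_pow] at h1
    exact (pow_eq_one_iff.mp h1).resolve_right (by norm_num)
  have hwnum : (w.num : ℚ) = w := (Rat.den_eq_one_iff w).mp hwden
  have hc : w.num ≠ 0 := Rat.num_ne_zero.mpr hw0
  refine not_sq_mul_mul hab hb0 hc ?_
  rw [← hwnum] at hw2
  exact_mod_cast hw2

/-! ### The four points -/

lemma E₀_nonsingular_iff' (x y : ℚ) : E₀.toAffine.Nonsingular x y ↔ y ^ 2 = x ^ 3 - x := by
  rw [← Affine.equation_iff_nonsingular, Affine.equation_iff]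
  simp
  ring_nf

/-- The points `O`, `(0,0)`, `(1,0)`, `(-1,0)` of `E₀(ℚ)`. -/
def E₀pts : Fin 4 → MW E₀ :=
  ![.zero, .some 0 0 ((E₀_nonsingular_iff' 0 0).mpr (by norm_num)),
    .some 1 0 ((E₀_nonsingular_iff' 1 0).mpr (by norm_num)),
    .some (-1) 0 ((E₀_nonsingular_iff' (-1) 0).mpr (by norm_num))]

lemma E₀pts_injective : Function.Injective E₀pts := by
  intro i j h
  fin_cases i <;> fin_cases j <;> first | rfl | (exfalso; simp [E₀pts] at h; done) | (exfalso; simp [E₀pts] at h; norm_num at h)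

lemma E₀pts_surjective : Function.Surjective E₀pts := by
  rintro (_ | ⟨x, y, h⟩)
  · exact ⟨0, rfl⟩
  · have h' := (E₀_nonsingular_iff' x y).mp h
    have hy := y_eq_zero_of_E₀ h'
    subst hy
    have : x * (x - 1) * (x + 1) = 0 := by linear_combination -h'
    rcases mul_eq_zero.mp this with h1 | h1
    · rcases mul_eq_zero.mp h1 with h2 | h2
      · subst h2; exact ⟨1, rfl⟩
      · have : x = 1 := by linarith
        subst this; exact ⟨2, rfl⟩
    · have : x = -1 := by linarith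
      subst this; exact ⟨3, rfl⟩

/-- `E₀(ℚ) = {O, (0,0), (1,0), (-1,0)}`. -/
noncomputable def E₀ptsEquiv : Fin 4 ≃ MW E₀ :=
  Equiv.ofBijective E₀pts ⟨E₀pts_injective, E₀pts_surjective⟩

instance E₀.finite_MW : Finite (MW E₀) := Finite.of_equiv _ E₀ptsEquiv

theorem card_MW_E₀ : Nat.card (MW E₀) = 4 := by
  rw [← Nat.card_congr E₀ptsEquiv]
  simp

lemma torsion_MW_E₀ : AddCommGroup.torsion (MW E₀) = ⊤ := by
  ext P
  simp only [AddSubgroup.mem_top, iff_true]
  exact isOfFinAddOrder_of_finite P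

/-- `#E₀(ℚ)_tors = 4`. -/
theorem card_torsion_E₀ : Nat.card (AddCommGroup.torsion (MW E₀)) = 4 := by
  rw [torsion_MW_E₀, ← card_MW_E₀]
  exact Nat.card_congr AddSubgroup.topEquiv.toEquiv

/-- `rank E₀(ℚ) = 0`. -/
theorem rank_MW_E₀ : Module.rank ℤ (MW E₀) = 0 := by
  rw [rank_eq_zero_iff]
  intro P
  obtain ⟨n, hn, h⟩ := isOfFinAddOrder_iff_nsmul_eq_zero.mp (isOfFinAddOrder_of_finite P)
  exact ⟨(n : ℤ), by exact_mod_cast hn.ne', by simpa using h⟩

/-- `Reg_{E₀} = 1`: the empty family is a basis of `E₀(ℚ)/E₀(ℚ)_tors = 0`. -/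
theorem isRegulator_E₀ : IsRegulator E₀ 1 := by
  have hsub : Subsingleton (MW E₀ ⧸ AddCommGroup.torsion (MW E₀)) := by
    rw [torsion_MW_E₀]
    exact QuotientAddGroup.subsingleton_quotient_top
  refine ⟨0, Fin.elim0, ⟨Module.Basis.empty _, fun i => i.elim0⟩, ?_⟩
  simp

/-- Every regulator of `E₀` in the sense of `Statement.lean` is `1`. -/
theorem isRegulator_E₀_iff (R : ℝ) : IsRegulator E₀ R ↔ R = 1 := by
  constructor
  · rintro ⟨n, P, ⟨b, -⟩, rfl⟩
    have hsub : Subsingleton (MW E₀ ⧸ AddCommGroup.torsion (MW E₀)) := by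
      rw [torsion_MW_E₀]
      exact QuotientAddGroup.subsingleton_quotient_top
    have hn : n = 0 := by
      have h1 : Module.finrank ℤ (MW E₀ ⧸ AddCommGroup.torsion (MW E₀)) = n := by
        rw [Module.finrank_eq_card_basis b]; simp
      rw [← h1]
      exact Module.finrank_zero_of_subsingleton
    subst hn
    simp
  · rintro rfl
    exact isRegulator_E₀

end Claimed.Open.R002
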