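import Claimed.Open.R002.SanityE0Minimal
import Claimed.Open.R002.SanityLocal

/-!
# Sanity for R002: `c₂(y² = x³ - x) = 2`

The curve `E₀ : y² = x³ - x` has additive reduction (Kodaira type III) at `2`, with Tamagawa number
`2`.  We check this with the definition of `Statement.lean`:

* `pt_mem_E0Set_iff`: a point `(x, y) ∈ E₀(ℚ₂)` has nonsingular reduction iff `|x - 1|₂ ≥ 1` (the
  singular point of the reduction is `(1, 0)`);
* `evenSubgroup`: the points `(x, y)` with `v₂(x - 1)` even, together with `O`, form a subgroup (the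
  kernel of `P ↦ v₂(x(P) - 1) mod 2`), which contains `E₀,₀(ℚ₂)` and does not contain `(1, 0)`;
* `tamagawaNumber_E₀_two : tamagawaNumber E₀ 2 = 2` and `tamagawaProduct_E₀_eq : tamagawaProduct E₀ = 2`.
-/

set_option autoImplicit false
set_option linter.unusedSectionVars false

namespace Claimed.Open.R002

open WeierstrassCurve
open scoped Classical

/-! ### Algebra of the group law, over any field of characteristic zero -/

section Field

variable {F : Type*} [Field F] [Algebra ℚ F] [DecidableEq F]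

lemma add_pt_of_X_ne {x₁ y₁ x₂ y₂ : F} (h₁ : y₁ ^ 2 = x₁ ^ 3 - x₁) (h₂ : y₂ ^ 2 = x₂ ^ 3 - x₂)
    (hx : x₁ ≠ x₂) :
    ∃ (X Y : F) (h₃ : Y ^ 2 = X ^ 3 - X), pt x₁ y₁ h₁ + pt x₂ y₂ h₂ = pt X Y h₃ ∧
      X = ((y₁ - y₂) / (x₁ - x₂)) ^ 2 - x₁ - x₂ := by
  have hs : (E₀⁄F).toAffine.slope x₁ x₂ y₁ y₂ = (y₁ - y₂) / (x₁ - x₂) := Affine.slope_of_X_ne hx
  refine ⟨_, _, (E₀_nonsingular_iff _ _).mp (Affine.nonsingular_add ((E₀_nonsingular_iff x₁ y₁).mpr h₁)
    ((E₀_nonsingular_iff x₂ y₂).mpr h₂) fun hxy => hx hxy.left), ?_, ?_⟩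
  · unfold pt
    rw [Affine.Point.add_of_X_ne hx]
  · rw [hs]
    simp [Affine.addX]

/-- `(x₁ - 1)(x₂ - 1)(x₃ - 1)` is a square if `P₁ + P₂ = ± P₃`. -/
lemma X_sub_one_mul {x₁ y₁ x₂ y₂ : F} (h₁ : y₁ ^ 2 = x₁ ^ 3 - x₁) (h₂ : y₂ ^ 2 = x₂ ^ 3 - x₂)
    (hx : x₁ ≠ x₂) :
    (x₁ - 1) * (x₂ - 1) * ((((y₁ - y₂) / (x₁ - x₂)) ^ 2 - x₁ - x₂) - 1) =
      ((y₁ * (1 - x₂) - y₂ * (1 - x₁)) / (x₁ - x₂)) ^ 2 := by
  have hd : x₁ - x₂ ≠ 0 := sub_ne_zero.mpr hx
  field_simp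
  linear_combination (x₁ - x₂) * (x₂ - 1) * h₁ - (x₁ - x₂) * (x₁ - 1) * h₂

/-- If `P₁`, `P₂` and `(1, 0)` are collinear then `(x₁ - 1)(x₂ - 1) = 2`. -/
lemma X_sub_one_mul_eq_two {x₁ y₁ x₂ y₂ : F} (h₁ : y₁ ^ 2 = x₁ ^ 3 - x₁)
    (h₂ : y₂ ^ 2 = x₂ ^ 3 - x₂) (hx : x₁ ≠ x₂) (h1 : x₁ - 1 ≠ 0) (h2 : x₂ - 1 ≠ 0)
    (hc : y₁ * (1 - x₂) - y₂ * (1 - x₁) = 0) : (x₁ - 1) * (x₂ - 1) = 2 := by
  have hd : x₁ - x₂ ≠ 0 := sub_ne_zero.mpr hx
  have key : (x₁ - 1) * (x₂ - 1) * (x₁ - x₂) * ((x₁ - 1) * (x₂ - 1) - 2) = 0 := by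
    linear_combination (y₁ * (1 - x₂) + y₂ * (1 - x₁)) * hc - (1 - x₂) ^ 2 * h₁
      + (1 - x₁) ^ 2 * h₂
  have := (mul_eq_zero.mp key).resolve_left (mul_ne_zero (mul_ne_zero h1 h2) hd)
  linear_combination this

end Field

/-! ### Points with nonsingular reduction at `2` -/

section Two

lemma residue_two_eq_zero : (2 : IsLocalRing.ResidueField ℤ_[2]) = 0 := by
  have h : IsLocalRing.residue ℤ_[2] 2 = 0 := by
    rw [IsLocalRing.residue_eq_zero_iff, IsLocalRing.mem_maximalIdeal]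
    exact_mod_cast PadicInt.p_nonunit (p := 2)
  rw [← h, map_ofNat]

lemma residue_sub_one_eq_zero_iff (x : ℤ_[2]) :
    IsLocalRing.residue ℤ_[2] x - 1 = 0 ↔ ‖(x : ℚ_[2]) - 1‖ < 1 := by
  have : IsLocalRing.residue ℤ_[2] x - 1 = IsLocalRing.residue ℤ_[2] (x - 1) := by simp
  rw [this, IsLocalRing.residue_eq_zero_iff, IsLocalRing.mem_maximalIdeal, PadicInt.mem_nonunits,
    PadicInt.norm_def]
  simp

/-- A point `(x, y)` of `E₀(ℚ₂)` has nonsingular reduction iff `|x - 1|₂ ≥ 1`. -/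
theorem pt_mem_E0Set_iff {x y : ℚ_[2]} (h : y ^ 2 = x ^ 3 - x) :
    pt x y h ∈ E0Set ℤ_[2] (E₀⁄ℚ_[2]) ↔ 1 ≤ ‖x - 1‖ := by
  have hred : (E₀⁄ℚ_[2]).reduction ℤ_[2] = (E₀over ℤ_[2]).map (IsLocalRing.residue ℤ_[2]) := by
    rw [reduction, E₀_integralModel]
  have h2 := residue_two_eq_zero
  unfold pt
  rw [some_mem_E0Set_iff, hred]
  constructor
  · intro H
    by_contra hlt
    rw [not_le] at hlt
    have hx : ‖x‖ ≤ 1 := by
      have : x = (x - 1) + 1 := by ring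
      rw [this]
      refine (Padic.nonarchimedean _ _).trans (max_le hlt.le (by simp))
    have hy : ‖y‖ ≤ 1 := by
      have h3 : ‖y‖ ^ 2 ≤ 1 := by
        rw [← norm_pow, h]
        rw [sub_eq_add_neg]
        refine (Padic.nonarchimedean _ _).trans (max_le ?_ (by rw [norm_neg]; exact hx))
        rw [norm_pow]
        exact pow_le_one₀ (norm_nonneg _) hx
      exact (pow_le_one_iff_of_nonneg (norm_nonneg _) (by norm_num)).mp h3
    have := H ⟨x, hx⟩ ⟨y, hy⟩ rfl rfl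
    rw [Affine.nonsingular_iff'] at this
    have hx1 : IsLocalRing.residue ℤ_[2] ⟨x, hx⟩ = 1 :=
      sub_eq_zero.mp ((residue_sub_one_eq_zero_iff ⟨x, hx⟩).mpr hlt)
    rcases this.2 with h' | h'
    · apply h'
      simp only [E₀over, WeierstrassCurve.map, hx1]
      simp only [map_zero, map_neg, map_one]
      linear_combination (-1 : IsLocalRing.ResidueField ℤ_[2]) * h2
    · apply h'
      simp only [E₀over, WeierstrassCurve.map]
      simp only [map_zero]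
      linear_combination (IsLocalRing.residue ℤ_[2] ⟨y, hy⟩) * h2
  · intro hle x₀ y₀ hx hy
    subst hx hy
    rw [Affine.nonsingular_iff']
    constructor
    · have h1 : ((E₀over ℤ_[2])⁄ℚ_[2]).toAffine.Equation (algebraMap ℤ_[2] ℚ_[2] x₀)
          (algebraMap ℤ_[2] ℚ_[2] y₀) := by
        rw [← E₀_baseChange_eq ℤ_[2] ℚ_[2], E₀_equation_iff]; exact h
      have h2' : (E₀over ℤ_[2]).toAffine.Equation x₀ y₀ :=
        (Affine.map_equation (W := (E₀over ℤ_[2]).toAffine)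
          (IsFractionRing.injective ℤ_[2] ℚ_[2]) x₀ y₀).mp h1
      exact Affine.Equation.map (IsLocalRing.residue ℤ_[2]) h2'
    · left
      have hne : IsLocalRing.residue ℤ_[2] x₀ - 1 ≠ 0 := fun e =>
        absurd ((residue_sub_one_eq_zero_iff x₀).mp e) (not_lt.mpr hle)
      simp only [E₀over, WeierstrassCurve.map]
      simp only [map_zero, map_neg, map_one]
      intro e
      apply pow_ne_zero 2 hne
      set X := IsLocalRing.residue ℤ_[2] x₀
      linear_combination (-1 : IsLocalRing.ResidueField ℤ_[2]) * e - (X ^ 2 + X - 1) * h2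

/-- `P = O`, or `P = (x, y)` with `x ≠ 1` and `v₂(x - 1)` even. -/
def EvenPt (P : (E₀⁄ℚ_[2]).toAffine.Point) : Prop :=
  P = 0 ∨ ∃ (x y : ℚ_[2]) (h : y ^ 2 = x ^ 3 - x), P = pt x y h ∧ x - 1 ≠ 0 ∧
    Even (x - 1).valuation

lemma val_two : (2 : ℚ_[2]).valuation = 1 := by
  simp

lemma not_even_add_eq_one {a b : ℤ} (ha : Even a) (hb : Even b) : a + b ≠ 1 := by
  obtain ⟨m, rfl⟩ := ha
  obtain ⟨n, rfl⟩ := hb
  omega

lemma EvenPt.neg {P : (E₀⁄ℚ_[2]).toAffine.Point} (hP : EvenPt P) : EvenPt (-P) := by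
  rcases hP with rfl | ⟨x, y, h, rfl, h1, hv⟩
  · exact Or.inl neg_zero
  · exact Or.inr ⟨x, -y, _, neg_pt h, h1, hv⟩

lemma EvenPt.add {P Q : (E₀⁄ℚ_[2]).toAffine.Point} (hP : EvenPt P) (hQ : EvenPt Q) :
    EvenPt (P + Q) := by
  rcases hP with rfl | ⟨x₁, y₁, h₁, rfl, h1, hv1⟩
  · rw [zero_add]; exact hQ
  rcases hQ with rfl | ⟨x₂, y₂, h₂, rfl, h2, hv2⟩
  · rw [add_zero]; exact Or.inr ⟨x₁, y₁, h₁, rfl, h1, hv1⟩
  by_cases hx : x₁ = x₂
  · subst hx
    have hyy : (y₁ - y₂) * (y₁ + y₂) = 0 := by linear_combination h₁ - h₂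
    rcases mul_eq_zero.mp hyy with e | e
    · have e' : y₁ = y₂ := sub_eq_zero.mp e
      subst e'
      by_cases hy : y₁ = 0
      · subst hy
        exact Or.inl (pt_add_self_of_y_eq_zero _)
      · obtain ⟨X, Y, h₃, e3, hX⟩ := two_pt h₁ hy
        have hsq := g2_sq h₁ hy
        rw [← hX] at hsq
        refine Or.inr ⟨X, Y, h₃, e3, ?_⟩
        by_cases hg : g2 x₁ y₁ = 0
        · exfalso
          have h0 : x₁ ^ 2 - 2 * x₁ - 1 = 0 := by
            unfold g2 at hg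
            rcases div_eq_zero_iff.mp hg with h' | h'
            · exact h'
            · exact absurd h' (mul_ne_zero two_ne_zero hy)
          have h3 : (x₁ - 1) ^ 2 = 2 := by linear_combination h0
          have := congrArg Padic.valuation h3
          rw [Padic.valuation_pow, val_two] at this
          push_cast at this
          omega
        · rw [← hsq]
          refine ⟨pow_ne_zero 2 hg, ?_⟩
          rw [Padic.valuation_pow]
          exact ⟨(g2 x₁ y₁).valuation, by push_cast; ring⟩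
    · have e' : y₂ = -y₁ := by linear_combination e
      subst e'
      left
      have := neg_pt h₁
      rw [show pt x₁ (-y₁) h₂ = -pt x₁ y₁ h₁ from this.symm, add_neg_cancel]
  · obtain ⟨X, Y, h₃, e3, hX⟩ := add_pt_of_X_ne h₁ h₂ hx
    have hmul := X_sub_one_mul h₁ h₂ hx
    rw [← hX] at hmul
    refine Or.inr ⟨X, Y, h₃, e3, ?_⟩
    have hd : x₁ - x₂ ≠ 0 := sub_ne_zero.mpr hx
    by_cases hc : y₁ * (1 - x₂) - y₂ * (1 - x₁) = 0
    · exfalso
      have h3 := X_sub_one_mul_eq_two h₁ h₂ hx h1 h2 hc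
      have := congrArg Padic.valuation h3
      rw [Padic.valuation_mul h1 h2, val_two] at this
      exact not_even_add_eq_one hv1 hv2 this
    · set w := (y₁ * (1 - x₂) - y₂ * (1 - x₁)) / (x₁ - x₂) with hw
      have hw0 : w ≠ 0 := div_ne_zero hc hd
      have hX1 : X - 1 ≠ 0 := by
        intro e
        rw [e, mul_zero] at hmul
        exact pow_ne_zero 2 hw0 hmul.symm
      refine ⟨hX1, ?_⟩
      have := congrArg Padic.valuation hmul
      rw [Padic.valuation_mul (mul_ne_zero h1 h2) hX1, Padic.valuation_mul h1 h2,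
        Padic.valuation_pow] at this
      obtain ⟨m, hm⟩ := hv1
      obtain ⟨n, hn⟩ := hv2
      exact ⟨w.valuation - m - n, by push_cast at this; omega⟩

/-- The subgroup of `E₀(ℚ₂)` of the points `(x, y)` with `v₂(x - 1)` even (and `O`). -/
noncomputable def evenSubgroup : AddSubgroup (E₀⁄ℚ_[2]).toAffine.Point where
  carrier := {P | EvenPt P}
  zero_mem' := Or.inl rfl
  add_mem' := EvenPt.add
  neg_mem' := EvenPt.neg

lemma T2_not_evenPt : ¬ EvenPt (T2 : (E₀⁄ℚ_[2]).toAffine.Point) := by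
  rintro (h | ⟨x, y, h, e, h1, -⟩)
  · exact T2_ne_zero h
  · have := (pt_inj e).1
    exact h1 (by rw [← this]; ring)

lemma E0Set_subset_even : E0Set ℤ_[2] (E₀⁄ℚ_[2]) ⊆ {P | EvenPt P} := by
  intro P hP
  by_cases h0 : P = 0
  · exact Or.inl h0
  obtain ⟨x, y, h, rfl⟩ := exists_pt P h0
  rw [pt_mem_E0Set_iff] at hP
  have h1 : x - 1 ≠ 0 := by
    intro e
    rw [e, norm_zero] at hP
    norm_num at hP
  refine Or.inr ⟨x, y, h, rfl, h1, ?_⟩
  have hv : (x - 1).valuation ≤ 0 := by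
    by_contra hlt
    rw [not_le] at hlt
    have : ‖x - 1‖ < 1 := by
      rw [Padic.norm_eq_zpow_neg_valuation h1]
      exact zpow_lt_one_of_neg₀ (by norm_num) (by omega)
    linarith
  rcases hv.lt_or_eq with hv | hv
  · have := padic_val_add_of_lt h1 (one_ne_zero) (by rw [Padic.valuation_one]; exact hv)
    rw [sub_add_cancel] at this
    rw [← this.2]
    exact even_val_X h this.1
  · rw [hv]; exact Even.zero

lemma mem_or_add_T2_mem (P : (E₀⁄ℚ_[2]).toAffine.Point) :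
    P ∈ E0Set ℤ_[2] (E₀⁄ℚ_[2]) ∨ P + T2 ∈ E0Set ℤ_[2] (E₀⁄ℚ_[2]) := by
  by_cases h0 : P = 0
  · left; rw [h0]; exact zero_mem_E0Set _ _
  obtain ⟨x, y, h, rfl⟩ := exists_pt P h0
  by_cases hle : 1 ≤ ‖x - 1‖
  · exact Or.inl ((pt_mem_E0Set_iff h).mpr hle)
  right
  rw [not_le] at hle
  by_cases hy : y = 0
  · subst hy
    have : x * (x - 1) * (x + 1) = 0 := by linear_combination -h
    rcases mul_eq_zero.mp this with h' | h'
    · rcases mul_eq_zero.mp h' with h'' | h''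
      · subst h''
        simp at hle
      · have e : pt x 0 h = T2 := pt_eq_pt (sub_eq_zero.mp h'') rfl
        rw [e, T2_add_T2]
        exact zero_mem_E0Set _ _
    · have e : pt x 0 h = T3 := pt_eq_pt (eq_neg_of_add_eq_zero_left h') rfl
      rw [e, add_comm, T2_add_T3]
      unfold T1
      rw [pt_mem_E0Set_iff]
      simp
  · rw [add_T2 h hy, pt_mem_E0Set_iff]
    obtain ⟨-, h1, -⟩ := x_ne_of_y_ne h hy
    have e : (x + 1) / (x - 1) - 1 = 2 / (x - 1) := by field_simp; ring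
    rw [e, norm_div]
    have hn2 : ‖(2 : ℚ_[2])‖ = 2⁻¹ := by
      have := Padic.norm_p (p := 2)
      simpa using this
    have hle' : ‖x - 1‖ ≤ 2⁻¹ := by
      have := (Padic.norm_le_pow_iff_norm_lt_pow_add_one (p := 2) (x - 1) (-1)).mpr
        (by simpa using hle)
      simpa using this
    rw [hn2, le_div_iff₀ (norm_pos_iff.mpr h1), one_mul]
    exact hle'

/-- `[E₀(ℚ₂) : E₀,₀(ℚ₂)] = 2` on the equation `y² = x³ - x`. -/
theorem tamagawaOf_E₀_two : tamagawaOf ℤ_[2] (E₀⁄ℚ_[2]) = 2 := by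
  rw [tamagawaOf, AddSubgroup.index_eq_two_iff]
  have hle : AddSubgroup.closure (E0Set ℤ_[2] (E₀⁄ℚ_[2])) ≤ evenSubgroup :=
    (AddSubgroup.closure_le _).mpr E0Set_subset_even
  refine ⟨T2, fun P => ?_⟩
  have hnot : ¬ (P + T2 ∈ AddSubgroup.closure (E0Set ℤ_[2] (E₀⁄ℚ_[2])) ∧
      P ∈ AddSubgroup.closure (E0Set ℤ_[2] (E₀⁄ℚ_[2]))) := by
    rintro ⟨h1, h2⟩
    have := AddSubgroup.sub_mem _ h1 h2
    rw [add_sub_cancel_left] at this
    exact T2_not_evenPt (hle this)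
  rcases mem_or_add_T2_mem P with h | h
  · have h' := AddSubgroup.subset_closure h
    exact Or.inr ⟨h', fun h'' => hnot ⟨h'', h'⟩⟩
  · have h' := AddSubgroup.subset_closure h
    exact Or.inl ⟨h', fun h'' => hnot ⟨h', h''⟩⟩

/-- **`c₂(E₀) = 2`** (Kodaira type III), with the definition of `Statement.lean`. -/
theorem tamagawaNumber_E₀_two : tamagawaNumber E₀ 2 = 2 := by
  rw [tamagawaNumber_eq_of_isMinimal, tamagawaOf_E₀_two]

/-- **`∏_ℓ c_ℓ(E₀) = 2`.** -/
theorem tamagawaProduct_E₀_eq : tamagawaProduct E₀ = 2 := by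
  rw [tamagawaProduct_E₀, tamagawaNumber_E₀_two]

end Two

end Claimed.Open.R002
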