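import Claimed.Open.R002.SanityE0Selmer
import Claimed.Open.R002.SanityE0Tamagawa
import Claimed.Open.R002.SanityE0Points

/-!
# Sanity for R002: what `Statement` says for `E₀ : y² = x³ - x` (Cremona 32a2, LMFDB 32.a3)

All hypotheses of `Statement` are checked for `E₀` and `q = 2` (`selmerCorank_E₀_two`), and all
arithmetic invariants in the formula except `#Ш` are computed with the definitions of
`Statement.lean`:

* `E₀` is a global minimal equation, so `Ω = periodIntegral E₀ = 2 ∫_{4x³-4x>0} dx/√(4x³-4x)`;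
* `Reg = 1`, `#E₀(ℚ)_tors = 4`, `∏ c_ℓ = c₂ = 2`.

Hence `Statement` specialises to: `Ш(E₀/ℚ)` is finite, the `L`-series has an entire continuation
`L` with `L(1) ≠ 0`, and `L(1) = Ω · #Ш / 8`.

Numerically (LMFDB 32.a3): `Ω = 5.2441151…`, `L(E₀,1) = 0.6555143…= Ω/8`, `#Ш = 1`.  So the
normalisations of `Statement.lean` (total real period, `c_ℓ`, torsion squared) are the ones for
which the Birch–Swinnerton-Dyer formula is numerically true.
-/

set_option autoImplicit false

namespace Claimed.Open.R002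

open WeierstrassCurve
open scoped Classical

lemma twoTorsionCubic_E₀ (x : ℝ) : twoTorsionCubic E₀ x = 4 * x ^ 3 - 4 * x := by
  simp [twoTorsionCubic, WeierstrassCurve.b₂, WeierstrassCurve.b₄, WeierstrassCurve.b₆]
  ring

/-- `Ω_{E₀} = 2 ∫_{4x³-4x>0} dx/√(4x³-4x)`. -/
lemma periodIntegral_E₀ :
    periodIntegral E₀ = 2 * ∫ x in {x : ℝ | 0 < 4 * x ^ 3 - 4 * x}, (Real.sqrt (4 * x ^ 3 - 4 * x))⁻¹ := by
  simp only [periodIntegral, twoTorsionCubic_E₀]

/-- `periodIntegral E₀` is a real period of `E₀` in the sense of `Statement.lean`. -/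
theorem isRealPeriod_E₀ : IsRealPeriod E₀ (periodIntegral E₀) :=
  ⟨1, by rw [one_smul]; exact E₀_isGlobalMinimal, by rw [one_smul]⟩

/-- **`Statement` for `y² = x³ - x`**: `Ш` is finite, `L(E₀, s)` is entire with `L(E₀, 1) ≠ 0`, and
`L(E₀, 1) = Ω · #Ш / 8`. -/
theorem statement_E₀ (h : Statement) :
    Finite (Sha E₀) ∧ ∃ L : ℂ → ℂ, IsLFunction E₀ L ∧ L 1 ≠ 0 ∧
      L 1 = ((periodIntegral E₀ * (Nat.card (Sha E₀) : ℝ) / 8 : ℝ) : ℂ) := by
  obtain ⟨-, hSha, -, -, L, hL, hord, hformula⟩ :=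
    h.1 E₀ 2 0 (by norm_num) (by rw [selmerCorank_E₀_two]; simp)
  refine ⟨hSha, L, hL, ?_, ?_⟩
  · have ha : AnalyticAt ℂ L 1 := hL.1.analyticAt 1
    exact ha.analyticOrderAt_eq_zero.mp (by simpa using hord)
  · have := hformula (periodIntegral E₀) 1 isRealPeriod_E₀ isRegulator_E₀
    rw [tamagawaProduct_E₀_eq, card_torsion_E₀] at this
    simp only [iteratedDeriv_zero, Nat.factorial_zero, Nat.cast_one, div_one] at this
    rw [this]
    congr 1
    push_cast
    ring

end Claimed.Open.R002
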