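import Claimed.Open.R002.SanityTamagawa

/-!
# Sanity for R002: `E₀` is a subgroup

`Statement.lean` defines `c_p(E)` as the index of `AddSubgroup.closure E₀(ℚ_p)`, where `E₀(ℚ_p)` is
the set of points with nonsingular reduction on a minimal equation.  Here we prove (Silverman, *AEC*
VII.2.1) that this set **is** a subgroup, so the closure does nothing and
`c_p(E) = [E(ℚ_p) : E₀(ℚ_p)]` literally.

The proof is by valuations.  Write `F(x, y) = 0` for the Weierstrass equation.  An affine point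
`(x, y)` is *bad* if `x, y` are integral and `F_x(x, y)`, `F_y(x, y)` are in the maximal ideal.  Let
`P₁, P₂, P₃` be the three points of the curve on a line `y = ℓ x + ν`.  Differentiating
`F(x, ℓ x + ν) = -(x - x₁)(x - x₂)(x - x₃)` at `x₃` gives
`F_x(P₃) + ℓ F_y(P₃) = -(x₃ - x₁)(x₃ - x₂)`.
If `P₃` is bad, this shows that `P₁` or `P₂` has the same reduction as `P₃`, hence is bad
(`vbad_of_vbad_negAdd`; the cases `v(ℓ) ≤ 1` and `v(ℓ) > 1` are treated separately).
-/

set_option autoImplicit false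

namespace Claimed.Open.R002

open WeierstrassCurve

section Abstract

variable {K : Type*} [Field K] {Γ₀ : Type*} [LinearOrderedCommGroupWithZero Γ₀]
  (v : Valuation K Γ₀) (W : WeierstrassCurve K)

/-- The coefficients of the Weierstrass equation are integral for the valuation `v`. -/
structure VIntegral : Prop where
  a₁ : v W.a₁ ≤ 1
  a₂ : v W.a₂ ≤ 1
  a₃ : v W.a₃ ≤ 1
  a₄ : v W.a₄ ≤ 1

/-- The partial derivative `F_x`. -/
def wX (x y : K) : K := W.a₁ * y - (3 * x ^ 2 + 2 * W.a₂ * x + W.a₄)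

/-- The partial derivative `F_y`. -/
def wY (x y : K) : K := 2 * y + W.a₁ * x + W.a₃

/-- `(x, y)` is integral and both partial derivatives are in the maximal ideal. -/
def VBad (x y : K) : Prop := v x ≤ 1 ∧ v y ≤ 1 ∧ v (wX W x y) < 1 ∧ v (wY W x y) < 1

variable {v W}

lemma v_natCast_le_one (n : ℕ) : v (n : K) ≤ 1 :=
  (v.mem_integer_iff _).1 (natCast_mem v.integer n)

lemma v_mul_le_one {a b : K} (ha : v a ≤ 1) (hb : v b ≤ 1) : v (a * b) ≤ 1 := by
  rw [map_mul]; exact mul_le_one' ha hb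

lemma v_mul_lt_one {a b : K} (ha : v a ≤ 1) (hb : v b < 1) : v (a * b) < 1 := by
  rw [map_mul]; exact mul_lt_of_le_one_of_lt ha hb

lemma v_mul_lt_one' {a b : K} (ha : v a < 1) (hb : v b ≤ 1) : v (a * b) < 1 := by
  rw [mul_comm]; exact v_mul_lt_one hb ha

lemma v_lt_one_or_of_mul {a b : K} (h : v (a * b) < 1) : v a < 1 ∨ v b < 1 := by
  by_contra hc
  push Not at hc
  rw [map_mul] at h
  exact absurd (one_le_mul hc.1 hc.2) (not_le.2 h)

/-- A point with the same reduction as a bad point is bad. -/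
lemma VBad.of_close (hW : VIntegral v W) {x₃ y₃ x y : K} (h : VBad v W x₃ y₃)
    (hs : v (x - x₃) < 1) (ht : v (y - y₃) < 1) : VBad v W x y := by
  obtain ⟨hx, hy, hX, hY⟩ := h
  have ex : x = x₃ + (x - x₃) := by ring
  have ey : y = y₃ + (y - y₃) := by ring
  have hx' : v x ≤ 1 := by rw [ex]; exact v.map_add_le hx hs.le
  have hy' : v y ≤ 1 := by rw [ey]; exact v.map_add_le hy ht.le
  refine ⟨hx', hy', ?_, ?_⟩
  · have e : wX W x y = wX W x₃ y₃ + (W.a₁ * (y - y₃) -
        (((3 : ℕ) : K) * (x + x₃) + ((2 : ℕ) : K) * W.a₂) * (x - x₃)) := by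
      simp only [wX]; push_cast; ring
    rw [e]
    refine v.map_add_lt hX (v.map_sub_lt (v_mul_lt_one hW.a₁ ht) (v_mul_lt_one ?_ hs))
    exact v.map_add_le (v_mul_le_one (v_natCast_le_one 3) (v.map_add_le hx' hx))
      (v_mul_le_one (v_natCast_le_one 2) hW.a₂)
  · have e : wY W x y = wY W x₃ y₃ + (((2 : ℕ) : K) * (y - y₃) + W.a₁ * (x - x₃)) := by
      simp only [wY]; push_cast; ring
    rw [e]
    exact v.map_add_lt hY (v.map_add_lt (v_mul_lt_one (v_natCast_le_one 2) ht)
      (v_mul_lt_one hW.a₁ hs))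

/-- The negative of a bad point is bad. -/
lemma VBad.neg (hW : VIntegral v W) {x y : K} (h : VBad v W x y) :
    VBad v W x (W.toAffine.negY x y) := by
  refine h.of_close hW (by simp) ?_
  have e : W.toAffine.negY x y - y = -wY W x y := by
    simp only [Affine.negY, wY]; ring
  rw [e, Valuation.map_neg]
  exact h.2.2.2

/-- The steep case: `(x, y)` and the bad point `(x₃, y₃)` lie on a line `x - x₃ = μ (y - y₃)` with
`v(μ) < 1`, and `y - y₃` is not too large. -/
lemma VBad.close_of_steep (hW : VIntegral v W) {x₃ y₃ x y μ : K} (h : VBad v W x₃ y₃)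
    (e₃ : W.toAffine.Equation x₃ y₃) (e : W.toAffine.Equation x y) (hl : x - x₃ = μ * (y - y₃))
    (hμ : v μ < 1) (hT : v (μ ^ 3 * (y - y₃)) < 1) : VBad v W x y := by
  obtain ⟨hx, hy, hX, hY⟩ := id h
  have key : v (y - y₃) < 1 := by
    by_cases hT0 : y - y₃ = 0
    · rw [hT0, map_zero]; exact zero_lt_one
    set T := y - y₃ with hTdef
    have hx' : x = x₃ + μ * T := by linear_combination hl
    have hy' : y = y₃ + T := by rw [hTdef]; ring
    rw [Affine.equation_iff] at e₃ e
    have id1 : T * (1 + (W.a₁ * μ - (((3 : ℕ) : K) * x₃ + W.a₂) * μ ^ 2 - μ ^ 3 * T)) =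
        -(μ * wX W x₃ y₃ + wY W x₃ y₃) := by
      apply mul_left_cancel₀ hT0
      rw [hx', hy'] at e
      simp only [wX, wY]
      push_cast
      linear_combination e - e₃
    have hu : v (1 + (W.a₁ * μ - (((3 : ℕ) : K) * x₃ + W.a₂) * μ ^ 2 - μ ^ 3 * T)) = 1 := by
      apply v.map_one_add_of_lt
      refine v.map_sub_lt (v.map_sub_lt (v_mul_lt_one hW.a₁ hμ) (v_mul_lt_one ?_ ?_)) hT
      · exact v.map_add_le (v_mul_le_one (v_natCast_le_one 3) hx) hW.a₂
      · rw [pow_two]; exact v_mul_lt_one hμ.le hμ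
    have := congrArg v id1
    rw [map_mul, hu, mul_one, Valuation.map_neg] at this
    rw [this]
    exact v.map_add_lt (v_mul_lt_one hμ.le hX) hY
  exact h.of_close hW (by rw [hl]; exact v_mul_lt_one hμ.le key) key

variable [DecidableEq K]

/-- `F_x(P₃) + ℓ F_y(P₃) = -(x₃ - x₁)(x₃ - x₂)` for the third point `P₃` of the line through
`P₁`, `P₂`. -/
lemma wX_add_slope_mul_wY {x₁ y₁ x₂ y₂ : K} (h₁ : W.toAffine.Equation x₁ y₁)
    (h₂ : W.toAffine.Equation x₂ y₂) (hxy : ¬(x₁ = x₂ ∧ y₁ = W.toAffine.negY x₂ y₂)) :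
    wX W (W.toAffine.addX x₁ x₂ (W.toAffine.slope x₁ x₂ y₁ y₂))
        (W.toAffine.negAddY x₁ x₂ y₁ (W.toAffine.slope x₁ x₂ y₁ y₂)) +
      W.toAffine.slope x₁ x₂ y₁ y₂ *
        wY W (W.toAffine.addX x₁ x₂ (W.toAffine.slope x₁ x₂ y₁ y₂))
          (W.toAffine.negAddY x₁ x₂ y₁ (W.toAffine.slope x₁ x₂ y₁ y₂)) =
      -((W.toAffine.addX x₁ x₂ (W.toAffine.slope x₁ x₂ y₁ y₂) - x₁) *
        (W.toAffine.addX x₁ x₂ (W.toAffine.slope x₁ x₂ y₁ y₂) - x₂)) := by
  have hd := congrArg (Polynomial.eval (W.toAffine.addX x₁ x₂ (W.toAffine.slope x₁ x₂ y₁ y₂)))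
    (Affine.derivative_addPolynomial_slope h₁ h₂ hxy)
  set ℓ := W.toAffine.slope x₁ x₂ y₁ y₂ with hℓ
  set x₃ := W.toAffine.addX x₁ x₂ ℓ with hx₃
  rw [Affine.addPolynomial_eq, Cubic.toPoly] at hd
  simp only [Polynomial.derivative_neg, Polynomial.derivative_add, Polynomial.derivative_mul,
    Polynomial.derivative_C, Polynomial.derivative_X_pow, Polynomial.derivative_X,
    Polynomial.eval_neg, Polynomial.eval_add, Polynomial.eval_mul, Polynomial.eval_C,
    Polynomial.eval_pow, Polynomial.eval_X, Polynomial.eval_sub, sub_self, mul_zero, add_zero,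
    zero_mul, zero_add, mul_one, Polynomial.eval_natCast, Polynomial.C_eq_natCast] at hd
  simp only [wX, wY, Affine.negAddY, ← hx₃]
  push_cast at hd
  linear_combination hd

/-- The second point also lies on the line through the first point with the slope `ℓ`. -/
lemma sub_eq_slope_mul_sub {x₁ y₁ x₂ y₂ : K} (h₁ : W.toAffine.Equation x₁ y₁)
    (h₂ : W.toAffine.Equation x₂ y₂) (hxy : ¬(x₁ = x₂ ∧ y₁ = W.toAffine.negY x₂ y₂)) :
    y₁ - y₂ = W.toAffine.slope x₁ x₂ y₁ y₂ * (x₁ - x₂) := by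
  by_cases hx : x₁ = x₂
  · have hy : y₁ = y₂ := Affine.Y_eq_of_Y_ne h₁ h₂ hx fun h => hxy ⟨hx, h⟩
    rw [hx, hy, sub_self, sub_self, mul_zero]
  · rw [Affine.slope_of_X_ne hx, div_mul_cancel₀ _ (sub_ne_zero.2 hx)]

/-- **Key lemma.**  If the third point of the line through `P₁` and `P₂` is bad, then `P₁` or `P₂`
is bad. -/
theorem vbad_of_vbad_negAdd (hW : VIntegral v W) {x₁ y₁ x₂ y₂ : K}
    (h₁ : W.toAffine.Equation x₁ y₁) (h₂ : W.toAffine.Equation x₂ y₂)
    (hxy : ¬(x₁ = x₂ ∧ y₁ = W.toAffine.negY x₂ y₂))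
    (h : VBad v W (W.toAffine.addX x₁ x₂ (W.toAffine.slope x₁ x₂ y₁ y₂))
      (W.toAffine.negAddY x₁ x₂ y₁ (W.toAffine.slope x₁ x₂ y₁ y₂))) :
    VBad v W x₁ y₁ ∨ VBad v W x₂ y₂ := by
  have star := wX_add_slope_mul_wY h₁ h₂ hxy
  have e₃ := Affine.equation_negAdd h₁ h₂ hxy
  have l12 := sub_eq_slope_mul_sub h₁ h₂ hxy
  have l1 : y₁ - W.toAffine.negAddY x₁ x₂ y₁ (W.toAffine.slope x₁ x₂ y₁ y₂) =
      W.toAffine.slope x₁ x₂ y₁ y₂ *
        (x₁ - W.toAffine.addX x₁ x₂ (W.toAffine.slope x₁ x₂ y₁ y₂)) := by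
    simp only [Affine.negAddY]; ring
  set ℓ := W.toAffine.slope x₁ x₂ y₁ y₂ with hℓ
  set x₃ := W.toAffine.addX x₁ x₂ ℓ with hx₃
  set y₃ := W.toAffine.negAddY x₁ x₂ y₁ ℓ with hy₃
  have l2 : y₂ - y₃ = ℓ * (x₂ - x₃) := by linear_combination l1 - l12
  obtain ⟨hx, hy, hX, hY⟩ := id h
  rcases le_or_gt (v ℓ) 1 with hl | hl
  · -- the slope is integral
    have hprod : v ((x₁ - x₃) * (x₂ - x₃)) < 1 := by
      have e : (x₁ - x₃) * (x₂ - x₃) = -(wX W x₃ y₃ + ℓ * wY W x₃ y₃) := by
        rw [star]; ring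
      rw [e, Valuation.map_neg]
      exact v.map_add_lt hX (v_mul_lt_one hl hY)
    rcases v_lt_one_or_of_mul hprod with hs | hs
    · exact Or.inl (h.of_close hW hs (by rw [l1]; exact v_mul_lt_one hl hs))
    · exact Or.inr (h.of_close hW hs (by rw [l2]; exact v_mul_lt_one hl hs))
  · -- the slope is not integral
    have hℓ0 : ℓ ≠ 0 := by
      rintro h0
      rw [h0, map_zero] at hl
      exact absurd hl (by simp)
    have hμ : v ℓ⁻¹ < 1 := (v.one_lt_val_iff hℓ0).1 hl
    have m1 : x₁ - x₃ = ℓ⁻¹ * (y₁ - y₃) := by rw [l1]; field_simp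
    have m2 : x₂ - x₃ = ℓ⁻¹ * (y₂ - y₃) := by rw [l2]; field_simp
    have hprod : v ((ℓ⁻¹ ^ 3 * (y₁ - y₃)) * (ℓ⁻¹ ^ 3 * (y₂ - y₃))) < 1 := by
      have e : (ℓ⁻¹ ^ 3 * (y₁ - y₃)) * (ℓ⁻¹ ^ 3 * (y₂ - y₃)) =
          ℓ⁻¹ ^ 3 * -(ℓ⁻¹ * wX W x₃ y₃ + wY W x₃ y₃) := by
        have e1 : ℓ⁻¹ * wX W x₃ y₃ + wY W x₃ y₃ = ℓ⁻¹ * (wX W x₃ y₃ + ℓ * wY W x₃ y₃) := by
          field_simp
        rw [e1, star]
        have e2 : (x₃ - x₁) * (x₃ - x₂) = (x₁ - x₃) * (x₂ - x₃) := by ring
        rw [e2, m1, m2]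
        ring
      rw [e]
      refine v_mul_lt_one ?_ ?_
      · rw [map_pow]; exact pow_le_one' hμ.le 3
      · rw [Valuation.map_neg]
        exact v.map_add_lt (v_mul_lt_one hμ.le hX) hY
    rcases v_lt_one_or_of_mul hprod with hs | hs
    · exact Or.inl (h.close_of_steep hW e₃ h₁ m1 hμ hs)
    · exact Or.inr (h.close_of_steep hW e₃ h₂ m2 hμ hs)

end Abstract

section DVR

open IsDiscreteValuationRing IsDedekindDomain.HeightOneSpectrum

variable (R : Type*) [CommRing R] [IsDomain R] [IsDiscreteValuationRing R]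
variable {K : Type*} [Field K] [Algebra R K] [IsFractionRing R K]

/-- The valuation of the discrete valuation ring `R` on its fraction field. -/
local notation "𝓋" => valuation K (IsDiscreteValuationRing.maximalIdeal R)

lemma val_algebraMap_lt_one_iff (a : R) :
    𝓋 (algebraMap R K a) < 1 ↔ IsLocalRing.residue R a = 0 := by
  rw [valuation_lt_one_iff_mem, IsLocalRing.residue_eq_zero_iff]
  rfl

lemma vIntegral_of_isIntegral (W : WeierstrassCurve K) [IsIntegral R W] : VIntegral 𝓋 W where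
  a₁ := by rw [← integralModel_a₁_eq R W]; exact valuation_le_one _ _
  a₂ := by rw [← integralModel_a₂_eq R W]; exact valuation_le_one _ _
  a₃ := by rw [← integralModel_a₃_eq R W]; exact valuation_le_one _ _
  a₄ := by rw [← integralModel_a₄_eq R W]; exact valuation_le_one _ _

omit [IsDomain R] [IsDiscreteValuationRing R] [IsFractionRing R K] in
lemma wX_algebraMap (W : WeierstrassCurve K) [IsIntegral R W] (x y : R) :
    wX W (algebraMap R K x) (algebraMap R K y) =
      algebraMap R K ((integralModel R W).a₁ * y -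
        (3 * x ^ 2 + 2 * (integralModel R W).a₂ * x + (integralModel R W).a₄)) := by
  simp only [wX, map_sub, map_add, map_mul, map_pow, integralModel_a₁_eq, integralModel_a₂_eq,
    integralModel_a₄_eq, map_ofNat]

omit [IsDomain R] [IsDiscreteValuationRing R] [IsFractionRing R K] in
lemma wY_algebraMap (W : WeierstrassCurve K) [IsIntegral R W] (x y : R) :
    wY W (algebraMap R K x) (algebraMap R K y) =
      algebraMap R K (2 * y + (integralModel R W).a₁ * x + (integralModel R W).a₃) := by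
  simp only [wY, map_add, map_mul, integralModel_a₁_eq, integralModel_a₃_eq, map_ofNat]

/-- The reduction of an integral point of `W` is nonsingular iff the point is not bad. -/
lemma reduction_nonsingular_iff (W : WeierstrassCurve K) [IsMinimal R W] {x y : R}
    (h : W.toAffine.Equation (algebraMap R K x) (algebraMap R K y)) :
    (W.reduction R).toAffine.Nonsingular (IsLocalRing.residue R x) (IsLocalRing.residue R y) ↔
      ¬ VBad 𝓋 W (algebraMap R K x) (algebraMap R K y) := by
  have heq : (W.reduction R).toAffine.Equation (IsLocalRing.residue R x)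
      (IsLocalRing.residue R y) := by
    have h0 : (integralModel R W).toAffine.Equation x y := by
      rw [← Affine.map_equation (W := (integralModel R W).toAffine)
        (IsFractionRing.injective R K)]
      have e : (integralModel R W).map (algebraMap R K) = W := baseChange_integralModel_eq R W
      show ((integralModel R W).map (algebraMap R K)).toAffine.Equation _ _
      rw [e]
      exact h
    exact Affine.Equation.map (IsLocalRing.residue R) h0
  rw [Affine.nonsingular_iff', and_iff_right heq, VBad, wX_algebraMap, wY_algebraMap,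
    val_algebraMap_lt_one_iff, val_algebraMap_lt_one_iff]
  simp only [valuation_le_one, true_and, reduction, map_a₁, map_a₂, map_a₃, map_a₄, map_sub,
    map_add, map_mul, map_pow, map_ofNat]
  tauto

/-- A point is in `E₀` iff it is not bad. -/
lemma some_mem_E0Set_iff_not_vbad (W : WeierstrassCurve K) [IsMinimal R W] {x y : K}
    (h : W.toAffine.Nonsingular x y) :
    (Affine.Point.some x y h : W.toAffine.Point) ∈ E0Set R W ↔ ¬ VBad 𝓋 W x y := by
  rw [some_mem_E0Set_iff]
  constructor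
  · intro hP hb
    obtain ⟨x₀, rfl⟩ := (val_le_one_iff R x).1 hb.1
    obtain ⟨y₀, rfl⟩ := (val_le_one_iff R y).1 hb.2.1
    exact (reduction_nonsingular_iff R W h.1).1 (hP x₀ y₀ rfl rfl) hb
  · rintro hb x₀ y₀ rfl rfl
    exact (reduction_nonsingular_iff R W h.1).2 hb

theorem neg_mem_E0Set (W : WeierstrassCurve K) [IsMinimal R W] {P : W.toAffine.Point}
    (hP : P ∈ E0Set R W) : -P ∈ E0Set R W := by
  rcases P with _ | ⟨x, y, h⟩
  · exact hP
  · rw [Affine.Point.neg_some, some_mem_E0Set_iff_not_vbad]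
    rw [some_mem_E0Set_iff_not_vbad] at hP
    intro hb
    have := hb.neg (vIntegral_of_isIntegral R W)
    rw [Affine.negY_negY] at this
    exact hP this

variable [DecidableEq K]

/-- **`E₀` is closed under addition** (*AEC* VII.2.1). -/
theorem add_mem_E0Set (W : WeierstrassCurve K) [IsMinimal R W] {P Q : W.toAffine.Point}
    (hP : P ∈ E0Set R W) (hQ : Q ∈ E0Set R W) : P + Q ∈ E0Set R W := by
  rcases P with _ | ⟨x₁, y₁, h₁⟩
  · exact hQ
  rcases Q with _ | ⟨x₂, y₂, h₂⟩
  · exact hP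
  by_cases hxy : x₁ = x₂ ∧ y₁ = W.toAffine.negY x₂ y₂
  · rw [Affine.Point.add_of_Y_eq hxy.1 hxy.2]
    exact zero_mem_E0Set R W
  · rw [Affine.Point.add_some hxy, some_mem_E0Set_iff_not_vbad]
    rw [some_mem_E0Set_iff_not_vbad] at hP hQ
    intro hb
    have hb' := hb.neg (vIntegral_of_isIntegral R W)
    rw [Affine.addY, Affine.negY_negY] at hb'
    rcases vbad_of_vbad_negAdd (vIntegral_of_isIntegral R W) h₁.1 h₂.1 hxy hb' with h | h
    · exact hP h
    · exact hQ h

/-- The subgroup `W₀(K)` of points with nonsingular reduction. -/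
def E0Subgroup (W : WeierstrassCurve K) [IsMinimal R W] : AddSubgroup W.toAffine.Point where
  carrier := E0Set R W
  zero_mem' := zero_mem_E0Set R W
  add_mem' := add_mem_E0Set R W
  neg_mem' := neg_mem_E0Set R W

/-- The closure in the definition of the Tamagawa number does nothing. -/
theorem closure_E0Set (W : WeierstrassCurve K) [IsMinimal R W] :
    AddSubgroup.closure (E0Set R W) = E0Subgroup R W :=
  AddSubgroup.closure_eq (E0Subgroup R W)

theorem coe_closure_E0Set (W : WeierstrassCurve K) [IsMinimal R W] :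
    (AddSubgroup.closure (E0Set R W) : Set W.toAffine.Point) = E0Set R W := by
  rw [closure_E0Set]; rfl

theorem tamagawaOf_eq_index (W : WeierstrassCurve K) [IsMinimal R W] :
    tamagawaOf R W = (E0Subgroup R W).index := by
  rw [tamagawaOf, closure_E0Set]

end DVR

section Padic

open scoped Classical

variable (E : WeierstrassCurve ℚ) (p : ℕ) [Fact p.Prime]

/-- `E₀(ℚ_p)`, the set of `Statement.lean`, is a subgroup: it equals the subgroup it generates. -/
theorem coe_closure_nonsingularReductionSet :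
    (AddSubgroup.closure (nonsingularReductionSet E p) :
      Set (localMinimalModel E p).toAffine.Point) = nonsingularReductionSet E p :=
  coe_closure_E0Set ℤ_[p] (localMinimalModel E p)

/-- `c_p(E) = [E(ℚ_p) : E₀(ℚ_p)]`, the index of the subgroup whose underlying set is
`nonsingularReductionSet E p`. -/
theorem tamagawaNumber_eq_index :
    tamagawaNumber E p = (E0Subgroup ℤ_[p] (localMinimalModel E p)).index ∧
      ((E0Subgroup ℤ_[p] (localMinimalModel E p) :
        Set (localMinimalModel E p).toAffine.Point) = nonsingularReductionSet E p) :=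
  ⟨tamagawaOf_eq_index ℤ_[p] (localMinimalModel E p), rfl⟩

end Padic

end Claimed.Open.R002
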