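import Mathlib

/-!
# Sanity, part E5.1: the curve `E₅ : y² = x³ - 25 x`

Group law computations over an arbitrary field of characteristic zero: translation by the three
points of order two, the duplication formula, the functions `g₁, g₂, g₃` with
`gᵢ(Q)² = x(2Q) - eᵢ` and their signs under translation by `E₅[2]` (the Weil pairing in disguise),
and divisibility by `2` over an algebraically closed field.
(`SanityCurve.lean` with `x³ - x` replaced by `x³ - 25 x`.)  Used for the checked example `SanityE5Selmer.lean`.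
-/

set_option autoImplicit false
set_option linter.unusedSectionVars false

namespace Claimed.Open.R002

open WeierstrassCurve Polynomial

/-- The congruent number curve `y² = x³ - 25 x` (Cremona label 800a). -/
def E₅ : WeierstrassCurve ℚ := ⟨0, 0, 0, -25, 0⟩

@[simp] lemma E₅_a₁ : E₅.a₁ = 0 := rfl
@[simp] lemma E₅_a₂ : E₅.a₂ = 0 := rfl
@[simp] lemma E₅_a₃ : E₅.a₃ = 0 := rfl
@[simp] lemma E₅_a₄ : E₅.a₄ = -25 := rfl
@[simp] lemma E₅_a₆ : E₅.a₆ = 0 := rfl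

instance E₅.isElliptic : E₅.IsElliptic := by
  rw [WeierstrassCurve.isElliptic_iff]
  simp [WeierstrassCurve.Δ, WeierstrassCurve.b₂, WeierstrassCurve.b₄, WeierstrassCurve.b₆,
    WeierstrassCurve.b₈]

section Field

variable {F : Type*} [Field F] [Algebra ℚ F]

instance E₅.isElliptic_baseChange : (E₅⁄F).IsElliptic :=
  inferInstanceAs (E₅.map (algebraMap ℚ F)).IsElliptic

lemma E₅_equation_iff (x y : F) : (E₅⁄F).toAffine.Equation x y ↔ y ^ 2 = x ^ 3 - 25 * x := by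
  rw [Affine.equation_iff]
  simp
  ring_nf

lemma E₅_nonsingular_iff (x y : F) : (E₅⁄F).toAffine.Nonsingular x y ↔ y ^ 2 = x ^ 3 - 25 * x := by
  rw [← E₅_equation_iff]
  exact (Affine.equation_iff_nonsingular (W := (E₅⁄F))).symm

variable [DecidableEq F]

/-- The affine point `(x, y)` of `y² = x³ - x`. -/
def pt₅ (x y : F) (h : y ^ 2 = x ^ 3 - 25 * x) : (E₅⁄F).toAffine.Point :=
  .some x y ((E₅_nonsingular_iff x y).mpr h)

lemma pt_eq_pt₅ {x y x' y' : F} {h : y ^ 2 = x ^ 3 - 25 * x} {h' : y' ^ 2 = x' ^ 3 - 25 * x'}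
    (hx : x = x') (hy : y = y') : pt₅ x y h = pt₅ x' y' h' := by
  subst hx hy; rfl

lemma pt_inj₅ {x y x' y' : F} {h : y ^ 2 = x ^ 3 - 25 * x} {h' : y' ^ 2 = x' ^ 3 - 25 * x'}
    (e : pt₅ x y h = pt₅ x' y' h') : x = x' ∧ y = y' := by
  simpa [pt₅] using e

lemma pt_ne_zero₅ {x y : F} {h : y ^ 2 = x ^ 3 - 25 * x} : pt₅ x y h ≠ 0 := by
  intro e; cases e

lemma exists_pt₅ (P : (E₅⁄F).toAffine.Point) (hP : P ≠ 0) :
    ∃ (x y : F) (h : y ^ 2 = x ^ 3 - 25 * x), P = pt₅ x y h := by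
  rcases P with _ | ⟨x, y, h⟩
  · exact absurd rfl hP
  · exact ⟨x, y, (E₅_nonsingular_iff x y).mp h, rfl⟩

lemma neg_pt₅ {x y : F} (h : y ^ 2 = x ^ 3 - 25 * x) :
    -pt₅ x y h = pt₅ x (-y) (by rw [neg_sq, h]) := by
  simp [pt₅, Affine.Point.neg_some, Affine.negY]

lemma pt_add_of_X_ne₅ {x₁ y₁ x₂ y₂ x₃ y₃ : F} (h₁ : y₁ ^ 2 = x₁ ^ 3 - 25 * x₁)
    (h₂ : y₂ ^ 2 = x₂ ^ 3 - 25 * x₂) (h₃ : y₃ ^ 2 = x₃ ^ 3 - 25 * x₃) (hx : x₁ ≠ x₂)
    (hX : x₃ = ((y₁ - y₂) / (x₁ - x₂)) ^ 2 - x₁ - x₂)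
    (hY : y₃ = -((y₁ - y₂) / (x₁ - x₂) * (x₃ - x₁) + y₁)) :
    pt₅ x₁ y₁ h₁ + pt₅ x₂ y₂ h₂ = pt₅ x₃ y₃ h₃ := by
  unfold pt₅
  rw [Affine.Point.add_of_X_ne hx]
  have hs : (E₅⁄F).toAffine.slope x₁ x₂ y₁ y₂ = (y₁ - y₂) / (x₁ - x₂) :=
    Affine.slope_of_X_ne hx
  have e1₅ : (E₅⁄F).toAffine.addX x₁ x₂ ((E₅⁄F).toAffine.slope x₁ x₂ y₁ y₂) = x₃ := by
    rw [hs, hX]; simp [Affine.addX]
  have e2 : (E₅⁄F).toAffine.addY x₁ x₂ y₁ ((E₅⁄F).toAffine.slope x₁ x₂ y₁ y₂) = y₃ := by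
    rw [Affine.addY, Affine.negAddY, e1₅, hs, hY]; simp [Affine.negY]
  simp only [Affine.Point.some.injEq]
  exact ⟨e1₅, e2⟩

lemma pt_add_self₅ {x y x₃ y₃ : F} (h : y ^ 2 = x ^ 3 - 25 * x) (h₃ : y₃ ^ 2 = x₃ ^ 3 - 25 * x₃) (hy : y ≠ 0)
    (hX : x₃ = ((3 * x ^ 2 - 25) / (2 * y)) ^ 2 - x - x)
    (hY : y₃ = -((3 * x ^ 2 - 25) / (2 * y) * (x₃ - x) + y)) :
    pt₅ x y h + pt₅ x y h = pt₅ x₃ y₃ h₃ := by
  unfold pt₅
  have : CharZero F := algebraRat.charZero F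
  have h2 : (2 : F) ≠ 0 := two_ne_zero
  have hne : y ≠ (E₅⁄F).toAffine.negY x y := by
    simp only [Affine.negY]
    simp
    intro e
    apply hy
    have : 2 * y = 0 := by linear_combination e
    exact (mul_eq_zero.mp this).resolve_left h2
  rw [Affine.Point.add_self_of_Y_ne hne]
  have hs : (E₅⁄F).toAffine.slope x x y y = (3 * x ^ 2 - 25) / (2 * y) := by
    rw [Affine.slope_of_Y_ne rfl hne]
    simp [Affine.negY]
    ring_nf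
  have e1₅ : (E₅⁄F).toAffine.addX x x ((E₅⁄F).toAffine.slope x x y y) = x₃ := by
    rw [hs, hX]; simp [Affine.addX]
  have e2 : (E₅⁄F).toAffine.addY x x y ((E₅⁄F).toAffine.slope x x y y) = y₃ := by
    rw [Affine.addY, Affine.negAddY, e1₅, hs, hY]; simp [Affine.negY]
  simp only [Affine.Point.some.injEq]
  exact ⟨e1₅, e2⟩

def T1₅ : (E₅⁄F).toAffine.Point := pt₅ 0 0 (by ring)
def T2₅ : (E₅⁄F).toAffine.Point := pt₅ 5 0 (by ring)
def T3₅ : (E₅⁄F).toAffine.Point := pt₅ (-5) 0 (by ring)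

lemma x_ne_of_y_ne₅ {x y : F} (h : y ^ 2 = x ^ 3 - 25 * x) (hy : y ≠ 0) : x ≠ 0 ∧ x - 5 ≠ 0 ∧ x + 5 ≠ 0 := by
  have : x * (x - 5) * (x + 5) ≠ 0 := by
    have e : x * (x - 5) * (x + 5) = y ^ 2 := by rw [h]; ring
    rw [e]; exact pow_ne_zero 2 hy
  exact ⟨left_ne_zero_of_mul (left_ne_zero_of_mul this), right_ne_zero_of_mul (left_ne_zero_of_mul this),
    right_ne_zero_of_mul this⟩

lemma eqn_T1₅ {x y : F} (h : y ^ 2 = x ^ 3 - 25 * x) (hy : y ≠ 0) :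
    (25 * y / x ^ 2) ^ 2 = (-25 / x) ^ 3 - 25 * (-25 / x) := by
  obtain ⟨h0, h1, h3⟩ := x_ne_of_y_ne₅ h hy
  field_simp
  linear_combination 625 * h

lemma add_T1₅ {x y : F} (h : y ^ 2 = x ^ 3 - 25 * x) (hy : y ≠ 0) :
    pt₅ x y h + T1₅ = pt₅ (-25 / x) (25 * y / x ^ 2) (eqn_T1₅ h hy) := by
  obtain ⟨h0, h1, h3⟩ := x_ne_of_y_ne₅ h hy
  refine pt_add_of_X_ne₅ _ _ _ h0 ?_ ?_
  · field_simp
    linear_combination (-x) * h
  · field_simp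
    ring

lemma eqn_T2₅ {x y : F} (h : y ^ 2 = x ^ 3 - 25 * x) (hy : y ≠ 0) :
    (-50 * y / (x - 5) ^ 2) ^ 2 = (5 * (x + 5) / (x - 5)) ^ 3 - 25 * (5 * (x + 5) / (x - 5)) := by
  obtain ⟨h0, h1, h3⟩ := x_ne_of_y_ne₅ h hy
  field_simp
  linear_combination 2500 * h

lemma add_T2₅ {x y : F} (h : y ^ 2 = x ^ 3 - 25 * x) (hy : y ≠ 0) :
    pt₅ x y h + T2₅ = pt₅ (5 * (x + 5) / (x - 5)) (-50 * y / (x - 5) ^ 2) (eqn_T2₅ h hy) := by
  obtain ⟨h0, h1, h3⟩ := x_ne_of_y_ne₅ h hy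
  refine pt_add_of_X_ne₅ _ _ _ (sub_ne_zero.mp h1) ?_ ?_
  · field_simp
    linear_combination (-1 : F) * h
  · field_simp
    ring

lemma eqn_T3₅ {x y : F} (h : y ^ 2 = x ^ 3 - 25 * x) (hy : y ≠ 0) :
    (-50 * y / (x + 5) ^ 2) ^ 2 = (5 * (5 - x) / (x + 5)) ^ 3 - 25 * (5 * (5 - x) / (x + 5)) := by
  obtain ⟨h0, h1, h3⟩ := x_ne_of_y_ne₅ h hy
  field_simp
  linear_combination 2500 * h

lemma add_T3₅ {x y : F} (h : y ^ 2 = x ^ 3 - 25 * x) (hy : y ≠ 0) :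
    pt₅ x y h + T3₅ = pt₅ (5 * (5 - x) / (x + 5)) (-50 * y / (x + 5) ^ 2) (eqn_T3₅ h hy) := by
  obtain ⟨h0, h1, h3⟩ := x_ne_of_y_ne₅ h hy
  refine pt_add_of_X_ne₅ _ _ _ (fun e => h3 (by rw [e]; ring)) ?_ ?_
  · have : x - -5 = x + 5 := by ring
    rw [this]
    field_simp
    linear_combination (-1 : F) * h
  · have : x - -5 = x + 5 := by ring
    rw [this]
    field_simp
    ring

def g1₅ (x y : F) : F := (x ^ 2 + 25) / (2 * y)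
def g2₅ (x y : F) : F := (x ^ 2 - 10 * x - 25) / (2 * y)
def g3₅ (x y : F) : F := (x ^ 2 + 10 * x - 25) / (2 * y)

lemma g2_sq₅ {x y : F} (h : y ^ 2 = x ^ 3 - 25 * x) (hy : y ≠ 0) : g2₅ x y ^ 2 = g1₅ x y ^ 2 - 5 := by
  have : CharZero F := algebraRat.charZero F
  unfold g1₅ g2₅
  field_simp
  linear_combination 20 * h

lemma g3_sq₅ {x y : F} (h : y ^ 2 = x ^ 3 - 25 * x) (hy : y ≠ 0) : g3₅ x y ^ 2 = g1₅ x y ^ 2 + 5 := by
  have : CharZero F := algebraRat.charZero F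
  unfold g1₅ g3₅
  field_simp
  linear_combination (-20 : F) * h

lemma two_pt₅ {x y : F} (h : y ^ 2 = x ^ 3 - 25 * x) (hy : y ≠ 0) :
    ∃ (X Y : F) (h₃ : Y ^ 2 = X ^ 3 - 25 * X), pt₅ x y h + pt₅ x y h = pt₅ X Y h₃ ∧ X = g1₅ x y ^ 2 := by
  have : CharZero F := algebraRat.charZero F
  have h2 : (2 : F) ≠ 0 := two_ne_zero
  have hne : y ≠ (E₅⁄F).toAffine.negY x y := by
    simp only [Affine.negY]
    simp
    intro e
    apply hy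
    have : 2 * y = 0 := by linear_combination e
    exact (mul_eq_zero.mp this).resolve_left h2
  have hs : (E₅⁄F).toAffine.slope x x y y = (3 * x ^ 2 - 25) / (2 * y) := by
    rw [Affine.slope_of_Y_ne rfl hne]
    simp [Affine.negY]
    ring_nf
  refine ⟨_, _, (E₅_nonsingular_iff _ _).mp (Affine.nonsingular_add ((E₅_nonsingular_iff x y).mpr h)
    ((E₅_nonsingular_iff x y).mpr h) fun hxy => hne hxy.right), ?_, ?_⟩
  · unfold pt₅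
    rw [Affine.Point.add_self_of_Y_ne hne]
  · rw [hs]
    simp [Affine.addX, g1₅]
    field_simp
    linear_combination (-8 * x) * h

-- signs
lemma g1_T1₅ {x y : F} (h : y ^ 2 = x ^ 3 - 25 * x) (hy : y ≠ 0) : g1₅ (-25 / x) (25 * y / x ^ 2) = g1₅ x y := by
  have : CharZero F := algebraRat.charZero F
  obtain ⟨h0, h1, h3⟩ := x_ne_of_y_ne₅ h hy
  unfold g1₅; field_simp; ring
lemma g2_T1₅ {x y : F} (h : y ^ 2 = x ^ 3 - 25 * x) (hy : y ≠ 0) : g2₅ (-25 / x) (25 * y / x ^ 2) = - g2₅ x y := by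
  have : CharZero F := algebraRat.charZero F
  obtain ⟨h0, h1, h3⟩ := x_ne_of_y_ne₅ h hy
  unfold g2₅; field_simp; ring
lemma g3_T1₅ {x y : F} (h : y ^ 2 = x ^ 3 - 25 * x) (hy : y ≠ 0) : g3₅ (-25 / x) (25 * y / x ^ 2) = - g3₅ x y := by
  have : CharZero F := algebraRat.charZero F
  obtain ⟨h0, h1, h3⟩ := x_ne_of_y_ne₅ h hy
  unfold g3₅; field_simp; ring
lemma g1_T2₅ {x y : F} (h : y ^ 2 = x ^ 3 - 25 * x) (hy : y ≠ 0) :
    g1₅ (5 * (x + 5) / (x - 5)) (-50 * y / (x - 5) ^ 2) = - g1₅ x y := by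
  have : CharZero F := algebraRat.charZero F
  obtain ⟨h0, h1, h3⟩ := x_ne_of_y_ne₅ h hy
  unfold g1₅; field_simp; ring
lemma g2_T2₅ {x y : F} (h : y ^ 2 = x ^ 3 - 25 * x) (hy : y ≠ 0) :
    g2₅ (5 * (x + 5) / (x - 5)) (-50 * y / (x - 5) ^ 2) = g2₅ x y := by
  have : CharZero F := algebraRat.charZero F
  obtain ⟨h0, h1, h3⟩ := x_ne_of_y_ne₅ h hy
  unfold g2₅; field_simp; ring
lemma g3_T2₅ {x y : F} (h : y ^ 2 = x ^ 3 - 25 * x) (hy : y ≠ 0) :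
    g3₅ (5 * (x + 5) / (x - 5)) (-50 * y / (x - 5) ^ 2) = - g3₅ x y := by
  have : CharZero F := algebraRat.charZero F
  obtain ⟨h0, h1, h3⟩ := x_ne_of_y_ne₅ h hy
  unfold g3₅; field_simp; ring
lemma g1_T3₅ {x y : F} (h : y ^ 2 = x ^ 3 - 25 * x) (hy : y ≠ 0) :
    g1₅ (5 * (5 - x) / (x + 5)) (-50 * y / (x + 5) ^ 2) = - g1₅ x y := by
  have : CharZero F := algebraRat.charZero F
  obtain ⟨h0, h1, h3⟩ := x_ne_of_y_ne₅ h hy
  unfold g1₅; field_simp; ring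
lemma g2_T3₅ {x y : F} (h : y ^ 2 = x ^ 3 - 25 * x) (hy : y ≠ 0) :
    g2₅ (5 * (5 - x) / (x + 5)) (-50 * y / (x + 5) ^ 2) = - g2₅ x y := by
  have : CharZero F := algebraRat.charZero F
  obtain ⟨h0, h1, h3⟩ := x_ne_of_y_ne₅ h hy
  unfold g2₅; field_simp; ring
lemma g3_T3₅ {x y : F} (h : y ^ 2 = x ^ 3 - 25 * x) (hy : y ≠ 0) :
    g3₅ (5 * (5 - x) / (x + 5)) (-50 * y / (x + 5) ^ 2) = g3₅ x y := by
  have : CharZero F := algebraRat.charZero F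
  obtain ⟨h0, h1, h3⟩ := x_ne_of_y_ne₅ h hy
  unfold g3₅; field_simp; ring

/-! group table of the 2-torsion -/
lemma pt_add_self_of_y_eq_zero₅ {x : F} (h : (0 : F) ^ 2 = x ^ 3 - 25 * x) : pt₅ x 0 h + pt₅ x 0 h = 0 := by
  unfold pt₅
  apply Affine.Point.add_self_of_Y_eq
  simp [Affine.negY]

lemma T1_add_T1₅ : (T1₅ + T1₅ : (E₅⁄F).toAffine.Point) = 0 := pt_add_self_of_y_eq_zero₅ _
lemma T2_add_T2₅ : (T2₅ + T2₅ : (E₅⁄F).toAffine.Point) = 0 := pt_add_self_of_y_eq_zero₅ _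
lemma T3_add_T3₅ : (T3₅ + T3₅ : (E₅⁄F).toAffine.Point) = 0 := pt_add_self_of_y_eq_zero₅ _

lemma T1_add_T2₅ : (T1₅ + T2₅ : (E₅⁄F).toAffine.Point) = T3₅ := by
  have : CharZero F := algebraRat.charZero F
  refine pt_add_of_X_ne₅ _ _ _ (by norm_num) ?_ ?_ <;> norm_num

lemma T1_add_T3₅ : (T1₅ + T3₅ : (E₅⁄F).toAffine.Point) = T2₅ := by
  rw [← T1_add_T2₅, ← add_assoc, T1_add_T1₅, zero_add]

lemma T2_add_T3₅ : (T2₅ + T3₅ : (E₅⁄F).toAffine.Point) = T1₅ := by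
  rw [← T1_add_T2₅, add_comm T1₅, ← add_assoc, T2_add_T2₅, zero_add]

lemma T1_ne_zero₅ : (T1₅ : (E₅⁄F).toAffine.Point) ≠ 0 := pt_ne_zero₅
lemma T2_ne_zero₅ : (T2₅ : (E₅⁄F).toAffine.Point) ≠ 0 := pt_ne_zero₅
lemma T3_ne_zero₅ : (T3₅ : (E₅⁄F).toAffine.Point) ≠ 0 := pt_ne_zero₅
lemma T1_ne_T2₅ : (T1₅ : (E₅⁄F).toAffine.Point) ≠ T2₅ := fun e => by
  have : CharZero F := algebraRat.charZero F
  have := (pt_inj₅ e).1; norm_num at this
lemma T1_ne_T3₅ : (T1₅ : (E₅⁄F).toAffine.Point) ≠ T3₅ := fun e => by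
  have : CharZero F := algebraRat.charZero F
  have := (pt_inj₅ e).1; norm_num at this
lemma T2_ne_T3₅ : (T2₅ : (E₅⁄F).toAffine.Point) ≠ T3₅ := fun e => by
  have : CharZero F := algebraRat.charZero F
  have := (pt_inj₅ e).1; norm_num at this

/-- classification of the 2-torsion -/
lemma two_torsion₅ (T : (E₅⁄F).toAffine.Point) (hT : T + T = 0) :
    T = 0 ∨ T = T1₅ ∨ T = T2₅ ∨ T = T3₅ := by
  by_cases h0 : T = 0
  · exact Or.inl h0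
  obtain ⟨x, y, h, rfl⟩ := exists_pt₅ T h0
  by_cases hy : y = 0
  · subst hy
    have : x * (x - 5) * (x + 5) = 0 := by linear_combination -h
    rcases mul_eq_zero.mp this with h' | h'
    · rcases mul_eq_zero.mp h' with h'' | h''
      · exact Or.inr (Or.inl (pt_eq_pt₅ h'' rfl))
      · exact Or.inr (Or.inr (Or.inl (pt_eq_pt₅ (sub_eq_zero.mp h'') rfl)))
    · exact Or.inr (Or.inr (Or.inr (pt_eq_pt₅ (eq_neg_of_add_eq_zero_left h') rfl)))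
  · obtain ⟨X, Y, h₃, e, -⟩ := two_pt₅ h hy
    rw [e] at hT
    exact absurd hT pt_ne_zero₅

/-- the "Weil pairing with `T1₅`" -/
def e1₅ (T : (E₅⁄F).toAffine.Point) : ℤˣ := if T = 0 ∨ T = T1₅ then 1 else -1
/-- the "Weil pairing with `T3₅`" -/
def e3₅ (T : (E₅⁄F).toAffine.Point) : ℤˣ := if T = 0 ∨ T = T3₅ then 1 else -1

@[simp] lemma e1_zero₅ : e1₅ (0 : (E₅⁄F).toAffine.Point) = 1 := by simp [e1₅]
@[simp] lemma e1_T1₅ : e1₅ (T1₅ : (E₅⁄F).toAffine.Point) = 1 := by simp [e1₅]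
@[simp] lemma e1_T2₅ : e1₅ (T2₅ : (E₅⁄F).toAffine.Point) = -1 := by
  simp [e1₅, T2_ne_zero₅, T1_ne_T2₅.symm]
@[simp] lemma e1_T3₅ : e1₅ (T3₅ : (E₅⁄F).toAffine.Point) = -1 := by
  simp [e1₅, T3_ne_zero₅, T1_ne_T3₅.symm]
@[simp] lemma e3_zero₅ : e3₅ (0 : (E₅⁄F).toAffine.Point) = 1 := by simp [e3₅]
@[simp] lemma e3_T1₅ : e3₅ (T1₅ : (E₅⁄F).toAffine.Point) = -1 := by
  simp [e3₅, T1_ne_zero₅, T1_ne_T3₅]
@[simp] lemma e3_T2₅ : e3₅ (T2₅ : (E₅⁄F).toAffine.Point) = -1 := by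
  simp [e3₅, T2_ne_zero₅, T2_ne_T3₅]
@[simp] lemma e3_T3₅ : e3₅ (T3₅ : (E₅⁄F).toAffine.Point) = 1 := by simp [e3₅]

lemma e1_add₅ (S T : (E₅⁄F).toAffine.Point) (hS : S + S = 0) (hT : T + T = 0) :
    e1₅ (S + T) = e1₅ S * e1₅ T := by
  rcases two_torsion₅ S hS with rfl | rfl | rfl | rfl <;>
  rcases two_torsion₅ T hT with rfl | rfl | rfl | rfl <;>
  simp [T1_add_T1₅, T2_add_T2₅, T3_add_T3₅, T1_add_T2₅, T1_add_T3₅, T2_add_T3₅, add_comm T2₅ T1₅,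
    add_comm T3₅ T1₅, add_comm T3₅ T2₅]

lemma e3_add₅ (S T : (E₅⁄F).toAffine.Point) (hS : S + S = 0) (hT : T + T = 0) :
    e3₅ (S + T) = e3₅ S * e3₅ T := by
  rcases two_torsion₅ S hS with rfl | rfl | rfl | rfl <;>
  rcases two_torsion₅ T hT with rfl | rfl | rfl | rfl <;>
  simp [T1_add_T1₅, T2_add_T2₅, T3_add_T3₅, T1_add_T2₅, T1_add_T3₅, T2_add_T3₅, add_comm T2₅ T1₅,
    add_comm T3₅ T1₅, add_comm T3₅ T2₅]

/-- a 2-torsion point is determined by its two signs -/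
lemma eq_of_e1_e3₅ (S T : (E₅⁄F).toAffine.Point) (hS : S + S = 0) (hT : T + T = 0)
    (h1 : e1₅ S = e1₅ T) (h3 : e3₅ S = e3₅ T) : S = T := by
  rcases two_torsion₅ S hS with rfl | rfl | rfl | rfl <;>
  rcases two_torsion₅ T hT with rfl | rfl | rfl | rfl <;>
  simp_all

/-- transformation of `g₁, g₂, g₃` under translation by a 2-torsion point -/
lemma g_add₅ (T : (E₅⁄F).toAffine.Point) (hT : T + T = 0) {x y x' y' : F}
    (h : y ^ 2 = x ^ 3 - 25 * x) (hy : y ≠ 0) (h' : y' ^ 2 = x' ^ 3 - 25 * x')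
    (e : pt₅ x' y' h' = pt₅ x y h + T) :
    g1₅ x' y' = ((e1₅ T : ℤ) : F) * g1₅ x y ∧
    g2₅ x' y' = ((e1₅ T : ℤ) : F) * ((e3₅ T : ℤ) : F) * g2₅ x y ∧
    g3₅ x' y' = ((e3₅ T : ℤ) : F) * g3₅ x y := by
  rcases two_torsion₅ T hT with rfl | rfl | rfl | rfl
  · rw [add_zero] at e
    obtain ⟨rfl, rfl⟩ := pt_inj₅ e
    simp
  · rw [add_T1₅ h hy] at e
    obtain ⟨rfl, rfl⟩ := pt_inj₅ e
    rw [g1_T1₅ h hy, g2_T1₅ h hy, g3_T1₅ h hy]
    simp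
  · rw [add_T2₅ h hy] at e
    obtain ⟨rfl, rfl⟩ := pt_inj₅ e
    rw [g1_T2₅ h hy, g2_T2₅ h hy, g3_T2₅ h hy]
    simp
  · rw [add_T3₅ h hy] at e
    obtain ⟨rfl, rfl⟩ := pt_inj₅ e
    rw [g1_T3₅ h hy, g2_T3₅ h hy, g3_T3₅ h hy]
    simp

/-- Over an algebraically closed field every point is divisible by `2`. -/
lemma exists_half₅ [IsAlgClosed F] (P : (E₅⁄F).toAffine.Point) : ∃ Q, Q + Q = P := by
  have : CharZero F := algebraRat.charZero F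
  by_cases h0 : P = 0
  · exact ⟨0, by rw [h0, add_zero]⟩
  obtain ⟨x₀, y₀, h, rfl⟩ := exists_pt₅ P h0
  let f : F[X] := X ^ 4 - C (4 * x₀) * X ^ 3 + C 50 * X ^ 2 + C (100 * x₀) * X + C 625
  have hdeg : f.degree ≠ 0 := by
    have : f.degree = 4 := by
      simp only [f]
      compute_degree!
    rw [this]; norm_num
  obtain ⟨x, hx⟩ := IsAlgClosed.exists_root f hdeg
  have hx' : (x ^ 2 + 25) ^ 2 = 4 * x₀ * (x ^ 3 - 25 * x) := by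
    simp only [f, IsRoot.def, eval_add, eval_sub, eval_mul, eval_pow, eval_X, eval_C] at hx
    linear_combination hx
  obtain ⟨y, hy⟩ := IsAlgClosed.exists_pow_nat_eq (x ^ 3 - 25 * x) (n := 2) (by norm_num)
  have hy0 : y ≠ 0 := by
    rintro rfl
    have e1₅ : x ^ 3 - 25 * x = 0 := by rw [← hy]; ring
    have e2 : (x ^ 2 + 25) ^ 2 = 0 := by rw [hx', e1₅, mul_zero]
    have e3₅ : x ^ 2 + 25 = 0 := by simpa using e2
    have e4 : 50 * x = 0 := by linear_combination x * e3₅ - e1₅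
    have e5 : x = 0 := by simpa using e4
    rw [e5] at e3₅
    norm_num at e3₅
  obtain ⟨X', Y', h₃, e, hX⟩ := two_pt₅ hy hy0
  have hXx : X' = x₀ := by
    rw [hX, g1₅, div_pow, hx', mul_pow, hy]
    have : x ^ 3 - 25 * x ≠ 0 := by rw [← hy]; exact pow_ne_zero 2 hy0
    rw [div_eq_iff (mul_ne_zero (by norm_num) this)]
    ring
  subst hXx
  have hYY : (Y' - y₀) * (Y' + y₀) = 0 := by linear_combination h₃ - h
  rcases mul_eq_zero.mp hYY with h' | h'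
  · exact ⟨pt₅ x y hy, by rw [e]; exact pt_eq_pt₅ rfl (sub_eq_zero.mp h')⟩
  · refine ⟨-pt₅ x y hy, ?_⟩
    rw [← neg_add, e, neg_pt₅]
    exact pt_eq_pt₅ rfl (by linear_combination -h')

end Field

end Claimed.Open.R002
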