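import Claimed.Open.R002.SanityIntegral

/-!
# Sanity for R002: what Mathlib's `IsMinimal` says

Let `R` be a discrete valuation ring with fraction field `K` and `W` an elliptic curve over `K`.

* `isMinimal_iff_forall_inv_u`: `IsMinimal R W` holds iff `W` is integral and every change of
  variables `C` with `C • W` integral has `u⁻¹ ∈ R`.
* `vc_of_isMinimal`: between two minimal equations, `u, u⁻¹, r, s, t ∈ R`.
* `isMinimal_of_Δ_notMem`: an integral equation whose discriminant is not in `𝔪 ^ 12` is minimal.
-/

set_option autoImplicit false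

namespace Claimed.Open.R002

open WeierstrassCurve
open IsDiscreteValuationRing IsDedekindDomain.HeightOneSpectrum
open scoped WithZero

section Minimal

variable (R : Type*) [CommRing R] [IsDomain R] [IsDiscreteValuationRing R]
variable {K : Type*} [Field K] [Algebra R K] [IsFractionRing R K]

lemma val_le_one_iff (x : K) :
    valuation K (IsDiscreteValuationRing.maximalIdeal R) x ≤ 1 ↔ x ∈ intRange R (K := K) := by
  constructor
  · intro h
    obtain ⟨a, ha⟩ := exists_lift_of_le_one h
    exact ⟨a, ha⟩
  · rintro ⟨a, rfl⟩
    exact valuation_le_one _ a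

/-- Mathlib's `IsMinimal`, unfolded: `W` is integral, and the discriminant of every integral
equation `C • W` has valuation (multiplicative notation) at most that of the discriminant of `W`. -/
lemma isMinimal_iff_val (W : WeierstrassCurve K) :
    IsMinimal R W ↔ IsIntegral R W ∧ ∀ C : VariableChange K, IsIntegral R (C • W) →
      valuation K (IsDiscreteValuationRing.maximalIdeal R) (C • W).Δ ≤
        valuation K (IsDiscreteValuationRing.maximalIdeal R) W.Δ := by
  rw [isMinimal_iff, MaximalFor]
  simp only [one_smul]
  refine and_congr_right fun hW => forall_congr' fun C => ?_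
  refine imp_congr_right fun hC => ?_
  have e1 := valuation_Δ_aux_eq_of_isIntegral R W
  have e2 := valuation_Δ_aux_eq_of_isIntegral R (C • W)
  rw [← e1, ← e2, Subtype.coe_le_coe]
  constructor
  · intro h
    rcases le_total (valuation_Δ_aux R W) (valuation_Δ_aux R (C • W)) with h' | h'
    · exact h h'
    · exact h'
  · intro h _
    exact h

/-- For an elliptic curve: `W` is minimal iff it is integral and every change of variables to an
integral equation has `u⁻¹ ∈ R`. -/
theorem isMinimal_iff_forall_inv_u (W : WeierstrassCurve K) [W.IsElliptic] :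
    IsMinimal R W ↔ IsIntegral R W ∧ ∀ C : VariableChange K, IsIntegral R (C • W) →
      ((C.u⁻¹ : Kˣ) : K) ∈ intRange R (K := K) := by
  rw [isMinimal_iff_val]
  refine and_congr_right fun hW => forall_congr' fun C => imp_congr_right fun hC => ?_
  have hΔ : W.Δ ≠ 0 := W.isUnit_Δ.ne_zero
  have hv : 0 < valuation K (IsDiscreteValuationRing.maximalIdeal R) W.Δ :=
    zero_lt_iff.mpr ((Valuation.ne_zero_iff _).mpr hΔ)
  rw [variableChange_Δ, map_mul, map_pow, mul_le_iff_le_one_left hv,
    pow_le_one_iff (by norm_num), val_le_one_iff]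

/-- Between two minimal equations of an elliptic curve, `u` and `u⁻¹` are in `R` (so `u` is a unit
of `R`), and `r, s, t ∈ R`. -/
theorem vc_of_isMinimal {W : WeierstrassCurve K} [W.IsElliptic] {C : VariableChange K}
    (hW : IsMinimal R W) (hCW : IsMinimal R (C • W)) :
    (C.u : K) ∈ intRange R (K := K) ∧ ((C.u⁻¹ : Kˣ) : K) ∈ intRange R (K := K) ∧
      C.r ∈ intRange R (K := K) ∧ C.s ∈ intRange R (K := K) ∧ C.t ∈ intRange R (K := K) := by
  have h1 := ((isMinimal_iff_forall_inv_u R W).mp hW).2 C inferInstance
  have h2 := ((isMinimal_iff_forall_inv_u R (C • W)).mp hCW).2 C⁻¹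
    (by rw [inv_smul_smul]; infer_instance)
  have h2' : (C.u : K) ∈ intRange R (K := K) := by
    simpa [VariableChange.inv_def] using h2
  have i1 : IsIntegral R W := inferInstance
  have i2 : IsIntegral R (C • W) := inferInstance
  exact ⟨h2', h1, vc_integral i1 i2 h2'⟩

/-- An integral Weierstrass equation of an elliptic curve whose discriminant is not in `𝔪 ^ 12` is
minimal. -/
theorem isMinimal_of_Δ_notMem (W : WeierstrassCurve K) [W.IsElliptic] [hW : IsIntegral R W]
    (h : (integralModel R W).Δ ∉ IsLocalRing.maximalIdeal R ^ 12) : IsMinimal R W := by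
  rw [isMinimal_iff_forall_inv_u]
  refine ⟨hW, fun C hC => ?_⟩
  by_contra hu
  -- `u ∈ R` and `u` is not a unit
  obtain ⟨a, ha⟩ : (C.u : K) ∈ intRange R (K := K) := by
    rcases ValuationRing.isInteger_or_isInteger R (C.u : K) with ⟨a, ha⟩ | ⟨a, ha⟩
    · exact ⟨a, ha⟩
    · exact absurd ⟨a, by rw [ha, Units.val_inv_eq_inv_val]⟩ hu
  have ha_mem : a ∈ IsLocalRing.maximalIdeal R := by
    rw [IsLocalRing.mem_maximalIdeal, mem_nonunits_iff]
    intro hunit
    obtain ⟨b, hb⟩ := hunit.exists_right_inv
    apply hu
    refine ⟨b, ?_⟩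
    have : algebraMap R K a * algebraMap R K b = 1 := by rw [← map_mul, hb, map_one]
    rw [ha] at this
    rw [Units.val_inv_eq_inv_val]
    exact eq_inv_of_mul_eq_one_right this
  apply h
  have e : (integralModel R W).Δ = a ^ 12 * (integralModel R (C • W)).Δ := by
    apply IsFractionRing.injective R K
    rw [map_mul, map_pow, integralModel_Δ_eq, integralModel_Δ_eq, ha, variableChange_Δ,
      Units.val_inv_eq_inv_val]
    have := C.u.ne_zero
    field_simp
  rw [e]
  exact Ideal.mul_mem_right _ _ (Ideal.pow_mem_pow ha_mem 12)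

end Minimal

end Claimed.Open.R002
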