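import Mathlib

/-!
# Integrability of `1 / √g` on `{g > 0}` for a real cubic `g` without multiple roots

Analytic part of the sanity checks for the real period, see `SanityPeriod.lean`.
For `g = 4x³ + bx² + cx + d` such that `g` and `g'` have no common real zero, the function
`invSqrtPos g = 1_{g > 0} / √g` is integrable on `ℝ` and its integral is positive.
-/

set_option autoImplicit false
open MeasureTheory Set Filter Topology

namespace Claimed.Open.R002


/-- cubic -/
def realCubic (b c d x : ℝ) : ℝ := 4 * x ^ 3 + b * x ^ 2 + c * x + d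

/-- the integrand, extended by zero -/
noncomputable def invSqrtPos (g : ℝ → ℝ) : ℝ → ℝ :=
  {x | 0 < g x}.indicator fun x => (Real.sqrt (g x))⁻¹

theorem realCubic_continuous (b c d : ℝ) : Continuous (realCubic b c d) := by
  unfold realCubic; fun_prop

theorem realCubic_disc_eq_zero {b c d x : ℝ} (h : realCubic b c d x = 0) (h' : 12 * x ^ 2 + 2 * b * x + c = 0) :
    b ^ 2 * c ^ 2 - 16 * c ^ 3 - 4 * b ^ 3 * d - 432 * d ^ 2 + 72 * b * c * d = 0 := by
  unfold realCubic at h
  grind

theorem invSqrtPos_nonneg (g : ℝ → ℝ) (x : ℝ) : 0 ≤ invSqrtPos g x := by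
  unfold invSqrtPos
  exact indicator_nonneg (fun x _ => inv_nonneg.2 (Real.sqrt_nonneg _)) x

theorem invSqrtPos_measurable {g : ℝ → ℝ} (hg : Continuous g) : Measurable (invSqrtPos g) := by
  unfold invSqrtPos
  refine Measurable.indicator ?_ (isOpen_lt continuous_const hg).measurableSet
  exact (hg.measurable.sqrt).inv

theorem invSqrtPos_continuousAt {g : ℝ → ℝ} (hg : Continuous g) {x₀ : ℝ} (h0 : g x₀ ≠ 0) :
    ContinuousAt (invSqrtPos g) x₀ := by
  rcases lt_or_gt_of_ne h0 with h | h
  · have : invSqrtPos g =ᶠ[𝓝 x₀] fun _ => 0 := by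
      filter_upwards [(isOpen_lt hg continuous_const).mem_nhds h] with x hx
      unfold invSqrtPos
      exact indicator_of_notMem (by simpa using le_of_lt hx) _
    exact (continuousAt_const).congr this.symm
  · have : invSqrtPos g =ᶠ[𝓝 x₀] fun x => (Real.sqrt (g x))⁻¹ := by
      filter_upwards [(isOpen_lt continuous_const hg).mem_nhds h] with x hx
      unfold invSqrtPos
      exact indicator_of_mem (by simpa using hx) _
    refine ContinuousAt.congr ?_ this.symm
    exact (hg.continuousAt.sqrt).inv₀ (Real.sqrt_ne_zero'.2 h)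

theorem invSqrtPos_le {g : ℝ → ℝ} {x m : ℝ} (hm : 0 < m) (h : 0 < g x → m ≤ g x) :
    invSqrtPos g x ≤ (Real.sqrt m)⁻¹ := by
  unfold invSqrtPos
  by_cases hx : 0 < g x
  · rw [indicator_of_mem (by simpa using hx)]
    exact inv_anti₀ (Real.sqrt_pos.2 hm) (Real.sqrt_le_sqrt (h hx))
  · rw [indicator_of_notMem (by simpa using hx)]
    exact inv_nonneg.2 (Real.sqrt_nonneg _)

theorem integrableOn_ball_invSqrtPos {g : ℝ → ℝ} (hg : Continuous g) {x₀ c₀ r : ℝ}
    (hc₀ : 0 < c₀) (hx₀ : g x₀ = 0) (h : ∀ x ∈ Metric.ball x₀ r, c₀ * |x - x₀| ≤ |g x|) :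
    IntegrableOn (invSqrtPos g) (Metric.ball x₀ r) := by
  have key : IntegrableOn (fun y => invSqrtPos g (y + x₀)) (Metric.ball 0 r) := by
    refine integrableOn_ball_of_norm_le_rpow (μ := volume) (C := (Real.sqrt c₀)⁻¹) (α := 1 / 2)
      (by simp) (by simp; norm_num) ?_ ?_
    · refine (ae_restrict_iff' Metric.isOpen_ball.measurableSet).2 (ae_of_all _ fun y hy => ?_)
      rw [Real.norm_eq_abs, abs_of_nonneg (invSqrtPos_nonneg _ _), Real.norm_eq_abs]
      have hy' : y + x₀ ∈ Metric.ball x₀ r := by
        simpa [Real.dist_eq] using hy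
      have h1 := h _ hy'
      rw [add_sub_cancel_right] at h1
      by_cases hy0 : y = 0
      · subst hy0
        have : invSqrtPos g (0 + x₀) = 0 := by
          unfold invSqrtPos
          exact indicator_of_notMem (by simp [hx₀]) _
        rw [this]
        exact mul_nonneg (inv_nonneg.2 (Real.sqrt_nonneg _)) (Real.rpow_nonneg (abs_nonneg _) _)
      · have hpos : 0 < c₀ * |y| := mul_pos hc₀ (abs_pos.2 hy0)
        refine (invSqrtPos_le hpos fun hg0 => ?_).trans (le_of_eq ?_)
        · rwa [abs_of_pos hg0] at h1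
        · rw [Real.sqrt_mul hc₀.le, mul_inv, Real.rpow_neg (abs_nonneg _), Real.sqrt_eq_rpow |y|]
    · exact ((invSqrtPos_measurable hg).comp (measurable_id.add_const x₀)).aestronglyMeasurable
  have := (measurePreserving_add_right volume x₀).integrableOn_comp_preimage
    (measurableEmbedding_addRight x₀) (f := invSqrtPos g) (s := Metric.ball x₀ r)
  have hpre : (fun x => x + x₀) ⁻¹' Metric.ball x₀ r = Metric.ball 0 r := by
    ext y
    simp
  rw [hpre] at this
  exact this.1 key

theorem locallyIntegrable_invSqrtPos_realCubic {b c d : ℝ}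
    (H : ∀ x, realCubic b c d x = 0 → 12 * x ^ 2 + 2 * b * x + c ≠ 0) :
    LocallyIntegrable (invSqrtPos (realCubic b c d)) := by
  intro x₀
  have hg := realCubic_continuous b c d
  by_cases h0 : realCubic b c d x₀ = 0
  · set q : ℝ → ℝ := fun x => 4 * (x ^ 2 + x * x₀ + x₀ ^ 2) + b * (x + x₀) + c with hq
    have hqc : Continuous q := by rw [hq]; fun_prop
    have hq0 : q x₀ ≠ 0 := by
      have := H x₀ h0
      intro h; apply this; rw [← h, hq]; ring
    have hev : ∀ᶠ x in 𝓝 x₀, |q x₀| / 2 < |q x| :=
      (hqc.abs.continuousAt).eventually_const_lt (by have := abs_pos.2 hq0; linarith)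
    obtain ⟨r, hr, hball⟩ := Metric.eventually_nhds_iff_ball.1 hev
    refine ⟨Metric.ball x₀ r, Metric.ball_mem_nhds _ hr, ?_⟩
    refine integrableOn_ball_invSqrtPos hg (c₀ := |q x₀| / 2) (by have := abs_pos.2 hq0; linarith)
      h0 fun x hx => ?_
    have e : realCubic b c d x = (x - x₀) * q x := by
      have : realCubic b c d x = realCubic b c d x - realCubic b c d x₀ := by rw [h0, sub_zero]
      rw [this, hq]; unfold realCubic; ring
    rw [e, abs_mul, mul_comm]
    exact mul_le_mul_of_nonneg_left (hball x hx).le (abs_nonneg _)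
  · exact Filter.Tendsto.integrableAtFilter
      (invSqrtPos_measurable hg).aestronglyMeasurable.stronglyMeasurableAtFilter
      (Measure.finiteAt_nhds _ _) (invSqrtPos_continuousAt hg h0)

theorem realCubic_ge {b c d x : ℝ} (h1 : 1 ≤ x) (hS : |b| + |c| + |d| ≤ x) : x ^ 3 ≤ realCubic b c d x := by
  have hb : -|b| * x ^ 2 ≤ b * x ^ 2 := by
    have := neg_abs_le b; nlinarith [sq_nonneg x]
  have hx2 : x ≤ x ^ 2 := by nlinarith
  have hc : -|c| * x ^ 2 ≤ c * x := by
    have := neg_abs_le c; have := abs_nonneg c; nlinarith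
  have hd : -|d| * x ^ 2 ≤ d := by
    have := neg_abs_le d; have := abs_nonneg d; nlinarith
  have hS' : (|b| + |c| + |d|) * x ^ 2 ≤ x * x ^ 2 :=
    mul_le_mul_of_nonneg_right hS (sq_nonneg x)
  have hx3 : 0 ≤ x ^ 3 := by positivity
  unfold realCubic
  nlinarith

theorem realCubic_neg {b c d x : ℝ} (h1 : x ≤ -1) (hS : x ≤ -(|b| + |c| + |d|)) : realCubic b c d x < 0 := by
  have := realCubic_ge (b := -b) (c := c) (d := -d) (x := -x) (by linarith) (by simpa using by linarith)
  have hx0 : 0 < -x := by linarith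
  have hx3 : 0 < (-x) ^ 3 := by positivity
  unfold realCubic at *
  nlinarith

theorem integrable_invSqrtPos_realCubic {b c d : ℝ}
    (H : ∀ x, realCubic b c d x = 0 → 12 * x ^ 2 + 2 * b * x + c ≠ 0) :
    Integrable (invSqrtPos (realCubic b c d)) := by
  have hg := realCubic_continuous b c d
  set M : ℝ := max 1 (|b| + |c| + |d|) with hM
  have hM1 : 1 ≤ M := le_max_left _ _
  have hMS : |b| + |c| + |d| ≤ M := le_max_right _ _
  have h1 : IntegrableOn (invSqrtPos (realCubic b c d)) (Iic (-M)) := by
    refine (integrableOn_zero (s := Iic (-M))).congr_fun (fun x hx => ?_) measurableSet_Iic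
    have hx' : x ≤ -M := hx
    have := realCubic_neg (b := b) (c := c) (d := d) (x := x) (by linarith) (by linarith)
    unfold invSqrtPos
    exact (indicator_of_notMem (by simpa using this.le) _).symm
  have h2 : IntegrableOn (invSqrtPos (realCubic b c d)) (Icc (-M) M) :=
    (locallyIntegrable_invSqrtPos_realCubic H).integrableOn_isCompact isCompact_Icc
  have h3 : IntegrableOn (invSqrtPos (realCubic b c d)) (Ioi M) := by
    refine Integrable.mono' (integrableOn_Ioi_rpow_of_lt (a := -(3 / 2)) (by norm_num)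
      (by linarith : (0 : ℝ) < M)) (invSqrtPos_measurable hg).aestronglyMeasurable.restrict ?_
    refine (ae_restrict_iff' measurableSet_Ioi).2 (ae_of_all _ fun x hx => ?_)
    have hx' : M < x := hx
    have hx0 : 0 < x := by linarith
    rw [Real.norm_eq_abs, abs_of_nonneg (invSqrtPos_nonneg _ _)]
    refine (invSqrtPos_le (m := x ^ 3) (by positivity) fun _ =>
      realCubic_ge (by linarith) (by linarith)).trans (le_of_eq ?_)
    rw [Real.rpow_neg hx0.le, Real.sqrt_eq_rpow, ← Real.rpow_natCast, ← Real.rpow_mul hx0.le]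
    norm_num
  have := (h1.union h2).union h3
  rwa [Iic_union_Icc_eq_Iic (by linarith), Iic_union_Ioi, integrableOn_univ] at this

theorem integral_invSqrtPos_realCubic_pos {b c d : ℝ}
    (H : ∀ x, realCubic b c d x = 0 → 12 * x ^ 2 + 2 * b * x + c ≠ 0) :
    0 < ∫ x, invSqrtPos (realCubic b c d) x := by
  rw [integral_pos_iff_support_of_nonneg (invSqrtPos_nonneg _) (integrable_invSqrtPos_realCubic H)]
  set M : ℝ := max 1 (|b| + |c| + |d|) with hM
  have hM1 : 1 ≤ M := le_max_left _ _
  have hMS : |b| + |c| + |d| ≤ M := le_max_right _ _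
  have hsub : Ioi M ⊆ Function.support (invSqrtPos (realCubic b c d)) := by
    intro x hx
    have hx' : M < x := hx
    have h3 : x ^ 3 ≤ realCubic b c d x := realCubic_ge (by linarith) (by linarith)
    have hx0 : 0 < x := by linarith
    have hpos : 0 < realCubic b c d x := lt_of_lt_of_le (by positivity) h3
    rw [Function.mem_support]
    unfold invSqrtPos
    rw [indicator_of_mem (by simpa using hpos)]
    exact inv_ne_zero (Real.sqrt_ne_zero'.2 hpos)
  refine lt_of_lt_of_le ?_ (measure_mono hsub)
  simp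

end Claimed.Open.R002
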