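import Claimed.Open.R002.Statement
import Claimed.Open.R002.SanityPeriodAnalysis
import Claimed.Open.R002.SanityMinimal

/-!
# Sanity checks for the real period

For every elliptic curve `E/ℚ` (any Weierstrass equation):

* the integrand of `periodIntegral E` is integrable (`integrableOn_periodIntegrand`), so `∫` does not
  take its junk value, and `periodIntegral E > 0`;
* `periodIntegral (C • E) = |u| * periodIntegral E` for a change of variables `C = (u, r, s, t)`,
  which is the transformation rule `ω' = u ω` of the invariant differential;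
* two global minimal equations differ by `u = ± 1`, hence the real period `Ω_E` does not depend on
  the choice of the global minimal equation (`IsRealPeriod.unique`), and it is positive.
-/

set_option autoImplicit false

namespace Claimed.Open.R002

open WeierstrassCurve MeasureTheory Set
open scoped Classical

noncomputable section

theorem twoTorsionCubic_eq_realCubic (E : WeierstrassCurve ℚ) :
    twoTorsionCubic E = realCubic (E.b₂ : ℝ) (2 * (E.b₄ : ℝ)) (E.b₆ : ℝ) := by
  ext x; unfold twoTorsionCubic realCubic; ring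

theorem periodIntegral_eq (E : WeierstrassCurve ℚ) :
    periodIntegral E = 2 * ∫ x, invSqrtPos (twoTorsionCubic E) x := by
  unfold periodIntegral invSqrtPos
  rw [integral_indicator]
  rw [twoTorsionCubic_eq_realCubic]
  exact (isOpen_lt continuous_const (realCubic_continuous _ _ _)).measurableSet

/-- The cubic `4x³ + b₂x² + 2b₄x + b₆` of an elliptic curve has no multiple real root. -/
theorem twoTorsionCubic_simple_roots (E : WeierstrassCurve ℚ) [E.IsElliptic] (x : ℝ)
    (h : realCubic (E.b₂ : ℝ) (2 * (E.b₄ : ℝ)) (E.b₆ : ℝ) x = 0) :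
    12 * x ^ 2 + 2 * (E.b₂ : ℝ) * x + 2 * (E.b₄ : ℝ) ≠ 0 := by
  intro h'
  have hd := realCubic_disc_eq_zero h h'
  have hΔ : E.Δ ≠ 0 := E.isUnit_Δ.ne_zero
  apply hΔ
  have hb := E.b_relation
  have e : (16 * E.Δ : ℚ) = E.b₂ ^ 2 * (2 * E.b₄) ^ 2 - 16 * (2 * E.b₄) ^ 3 - 4 * E.b₂ ^ 3 * E.b₆ -
      432 * E.b₆ ^ 2 + 72 * E.b₂ * (2 * E.b₄) * E.b₆ := by
    rw [WeierstrassCurve.Δ]
    linear_combination (-4 * E.b₂ ^ 2) * hb
  have e' : ((16 * E.Δ : ℚ) : ℝ) = 0 := by
    rw [e]; push_cast; linarith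
  have : (16 * E.Δ : ℚ) = 0 := by exact_mod_cast e'
  linarith

theorem integrable_invSqrtPos_twoTorsionCubic (E : WeierstrassCurve ℚ) [E.IsElliptic] :
    Integrable (invSqrtPos (twoTorsionCubic E)) := by
  rw [twoTorsionCubic_eq_realCubic]
  exact integrable_invSqrtPos_realCubic (twoTorsionCubic_simple_roots E)

/-- The integrand in the definition of `periodIntegral` is integrable. -/
theorem integrableOn_periodIntegrand (E : WeierstrassCurve ℚ) [E.IsElliptic] :
    IntegrableOn (fun x => (Real.sqrt (twoTorsionCubic E x))⁻¹) {x : ℝ | 0 < twoTorsionCubic E x} := by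
  have h := integrable_invSqrtPos_twoTorsionCubic E
  unfold invSqrtPos at h
  rwa [integrable_indicator_iff] at h
  rw [twoTorsionCubic_eq_realCubic]
  exact (isOpen_lt continuous_const (realCubic_continuous _ _ _)).measurableSet

/-- `∫_{E(ℝ)} |ω| > 0`. -/
theorem periodIntegral_pos (E : WeierstrassCurve ℚ) [E.IsElliptic] : 0 < periodIntegral E := by
  rw [periodIntegral_eq, twoTorsionCubic_eq_realCubic]
  have := integral_invSqrtPos_realCubic_pos (twoTorsionCubic_simple_roots E)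
  linarith

/-- The real period is positive. -/
theorem IsRealPeriod.pos {E : WeierstrassCurve ℚ} [E.IsElliptic] {Ω : ℝ} (h : IsRealPeriod E Ω) :
    0 < Ω := by
  obtain ⟨C, -, rfl⟩ := h
  exact periodIntegral_pos _

/-! ### Change of variables -/

theorem twoTorsionCubic_smul (E : WeierstrassCurve ℚ) (C : VariableChange ℚ) (x : ℝ) :
    twoTorsionCubic (C • E) x =
      (((C.u : ℚ) : ℝ)⁻¹) ^ 6 * twoTorsionCubic E (((C.u : ℚ) : ℝ) ^ 2 * x + (C.r : ℝ)) := by
  have hu : ((C.u : ℚ) : ℝ) ≠ 0 := by exact_mod_cast C.u.ne_zero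
  unfold twoTorsionCubic
  rw [variableChange_b₂, variableChange_b₄, variableChange_b₆]
  push_cast [Units.val_inv_eq_inv_val]
  field_simp
  ring

theorem invSqrtPos_twoTorsionCubic_smul (E : WeierstrassCurve ℚ) (C : VariableChange ℚ) (x : ℝ) :
    invSqrtPos (twoTorsionCubic (C • E)) x =
      |((C.u : ℚ) : ℝ)| ^ 3 *
        invSqrtPos (twoTorsionCubic E) (((C.u : ℚ) : ℝ) ^ 2 * x + (C.r : ℝ)) := by
  have hu : ((C.u : ℚ) : ℝ) ≠ 0 := by exact_mod_cast C.u.ne_zero
  have hu6 : 0 < (((C.u : ℚ) : ℝ)⁻¹) ^ 6 := by positivity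
  unfold invSqrtPos
  by_cases h : 0 < twoTorsionCubic E (((C.u : ℚ) : ℝ) ^ 2 * x + (C.r : ℝ))
  · have h' : 0 < twoTorsionCubic (C • E) x := by
      rw [twoTorsionCubic_smul]; exact mul_pos hu6 h
    rw [indicator_of_mem (by simpa using h'), indicator_of_mem (by simpa using h),
      twoTorsionCubic_smul, Real.sqrt_mul hu6.le, mul_inv]
    congr 1
    have : (((C.u : ℚ) : ℝ)⁻¹) ^ 6 = ((|((C.u : ℚ) : ℝ)| ^ 3)⁻¹) ^ 2 := by
      rw [inv_pow, inv_pow, ← pow_mul, ← abs_pow,
        abs_of_nonneg (Even.pow_nonneg (by decide) _)]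
    rw [this, Real.sqrt_sq (by positivity), inv_inv]
  · have h' : ¬ 0 < twoTorsionCubic (C • E) x := by
      rw [twoTorsionCubic_smul]
      intro h''
      exact h ((mul_pos_iff_of_pos_left hu6).1 h'')
    rw [indicator_of_notMem (by simpa using h'), indicator_of_notMem (by simpa using h), mul_zero]

/-- The transformation rule of `∫_{E(ℝ)} |ω|`: the invariant differential of `C • E` is `u ω`. -/
theorem periodIntegral_smul (E : WeierstrassCurve ℚ) (C : VariableChange ℚ) :
    periodIntegral (C • E) = |((C.u : ℚ) : ℝ)| * periodIntegral E := by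
  have hu : ((C.u : ℚ) : ℝ) ≠ 0 := by exact_mod_cast C.u.ne_zero
  rw [periodIntegral_eq, periodIntegral_eq]
  simp_rw [invSqrtPos_twoTorsionCubic_smul]
  rw [integral_const_mul]
  have h1 : ∫ x : ℝ, invSqrtPos (twoTorsionCubic E) (((C.u : ℚ) : ℝ) ^ 2 * x + (C.r : ℝ)) =
      |(((C.u : ℚ) : ℝ) ^ 2)⁻¹| • ∫ y : ℝ, invSqrtPos (twoTorsionCubic E) (y + (C.r : ℝ)) :=
    Measure.integral_comp_mul_left (fun y => invSqrtPos (twoTorsionCubic E) (y + (C.r : ℝ))) _
  rw [h1, integral_add_right_eq_self (fun y => invSqrtPos (twoTorsionCubic E) y), smul_eq_mul,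
    abs_inv, abs_pow]
  have : |((C.u : ℚ) : ℝ)| ≠ 0 := abs_ne_zero.2 hu
  field_simp

/-! ### Independence of the global minimal equation -/

theorem abs_eq_one_of_padicValRat_eq_zero {u : ℚ} (hu : u ≠ 0)
    (h : ∀ p : ℕ, p.Prime → padicValRat p u = 0) : |u| = 1 := by
  have hnum : u.num ≠ 0 := Rat.num_ne_zero.2 hu
  have hden : u.den = 1 := by
    rw [Nat.eq_one_iff_not_exists_prime_dvd]
    intro p hp hpd
    have : Fact p.Prime := ⟨hp⟩
    have h1 : 1 ≤ padicValNat p u.den := one_le_padicValNat_of_dvd u.den_nz hpd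
    have h2 : padicValInt p u.num = 0 := by
      apply padicValInt.eq_zero_of_not_dvd
      intro hd
      have hd' : p ∣ u.num.natAbs := Int.natCast_dvd.1 hd
      have := Nat.Coprime.eq_one_of_dvd
        ((Nat.Coprime.coprime_dvd_left hd' u.reduced).coprime_dvd_right hpd) (dvd_refl p)
      exact hp.one_lt.ne' this
    have h3 := h p hp
    rw [padicValRat.eq_1, h2] at h3
    omega
  have hnum1 : u.num.natAbs = 1 := by
    rw [Nat.eq_one_iff_not_exists_prime_dvd]
    intro p hp hpd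
    have : Fact p.Prime := ⟨hp⟩
    have h1 : 1 ≤ padicValNat p u.num.natAbs :=
      one_le_padicValNat_of_dvd (Int.natAbs_ne_zero.2 hnum) hpd
    have h3 := h p hp
    rw [padicValRat.eq_1, hden, padicValNat_one_right, padicValInt.eq_1] at h3
    omega
  have e : u = u.num := by
    conv_lhs => rw [← Rat.num_div_den u, hden]
    simp
  rw [e, ← Int.cast_abs, Int.abs_eq_natAbs, hnum1]
  simp

/-- Two global minimal equations of an elliptic curve over `ℚ` differ by `u = ± 1`. -/
theorem abs_u_eq_one_of_isGlobalMinimal {E : WeierstrassCurve ℚ} [E.IsElliptic]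
    {C : VariableChange ℚ} (h1 : IsGlobalMinimal E) (h2 : IsGlobalMinimal (C • E)) :
    |(C.u : ℚ)| = 1 := by
  refine abs_eq_one_of_padicValRat_eq_zero C.u.ne_zero fun p hp => ?_
  have : Fact p.Prime := ⟨hp⟩
  have m1 : IsMinimal ℤ_[p] (E⁄ℚ_[p]) := h1 p
  have m2 : IsMinimal ℤ_[p] ((C.map (algebraMap ℚ ℚ_[p])) • (E⁄ℚ_[p])) := by
    have := h2 p
    rwa [WeierstrassCurve.baseChange, ← map_variableChange] at this
  have : (E⁄ℚ_[p]).IsElliptic := inferInstanceAs (E.map (algebraMap ℚ ℚ_[p])).IsElliptic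
  obtain ⟨⟨a, ha⟩, ⟨b, hb⟩, -⟩ := vc_of_isMinimal ℤ_[p] m1 m2
  have hu0 : ((C.u : ℚ) : ℚ_[p]) ≠ 0 := by exact_mod_cast C.u.ne_zero
  have ha' : ‖((C.u : ℚ) : ℚ_[p])‖ ≤ 1 := by
    have : ((C.u : ℚ) : ℚ_[p]) = (a : ℚ_[p]) := by
      rw [← PadicInt.algebraMap_apply, ha]; simp
    rw [this]; exact a.norm_le_one
  have hb' : ‖(((C.u : ℚ) : ℚ_[p]))⁻¹‖ ≤ 1 := by
    have : (((C.u : ℚ) : ℚ_[p]))⁻¹ = (b : ℚ_[p]) := by
      rw [← PadicInt.algebraMap_apply, hb]; simp
    rw [this]; exact b.norm_le_one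
  rw [Padic.norm_le_one_iff_val_nonneg] at ha' hb'
  rw [Padic.valuation_inv] at hb'
  rw [Padic.valuation_ratCast] at ha' hb'
  omega

/-- The real period does not depend on the choice of the global minimal equation. -/
theorem IsRealPeriod.unique {E : WeierstrassCurve ℚ} [E.IsElliptic] {Ω₁ Ω₂ : ℝ}
    (h₁ : IsRealPeriod E Ω₁) (h₂ : IsRealPeriod E Ω₂) : Ω₁ = Ω₂ := by
  obtain ⟨C₁, m₁, rfl⟩ := h₁
  obtain ⟨C₂, m₂, rfl⟩ := h₂
  have e : C₂ • E = (C₂ * C₁⁻¹) • (C₁ • E) := by
    rw [← mul_smul, inv_mul_cancel_right]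
  rw [e] at m₂ ⊢
  have hu := abs_u_eq_one_of_isGlobalMinimal m₁ m₂
  rw [periodIntegral_smul (C₁ • E)]
  have : |(((C₂ * C₁⁻¹).u : ℚ) : ℝ)| = 1 := by
    rw [← Rat.cast_abs, hu]; simp
  rw [this, one_mul]

end

end Claimed.Open.R002
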