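import Claimed.Open.R002.SanityE0BSD
import Claimed.Open.R002.SanityPeriod
import Claimed.Open.R002.SanityE5Curve

/-!
# Sanity for R002: the real period of the rank one example `E₅ : y² = x³ - 25 x`

The clause `∃ Ω, IsRealPeriod E Ω` of the conclusion of `MainStatement` at the example with `s₂(E₅) = 1`:

* `E₅_isGlobalMinimal`: the equation `y² = x³ - 25 x` (discriminant `10⁶`) is minimal at every prime;
* `periodIntegral_E₅`: `∫_{E₅(ℝ)} |ω| = (∫_{E₀(ℝ)} |ω|) / √5` (substitution `x = 5 u`): the period of the quadratic twist by `5`;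
* `periodIntegral_quadraticTwist`: the same for **every** `E` and every rational `d > 0`: `periodIntegral (quadraticTwist E d) = periodIntegral E / √d`;
* `isRealPeriod_E₅_iff`: `Ω` is the real period of `E₅` if and only if `Ω = periodIntegral E₀ / √5` (true value `2.3452…`).
-/

set_option autoImplicit false

namespace Claimed.Open.R002

open WeierstrassCurve MeasureTheory Set
open scoped Classical

/-- The equation `y² = x³ - 25 x` over any commutative ring. -/
def E₅model (A : Type*) [CommRing A] : WeierstrassCurve A := ⟨0, 0, 0, -25, 0⟩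

lemma e5p_baseChange_eq (A F : Type*) [CommRing A] [Field F] [Algebra ℚ F] [Algebra A F] :
    E₅⁄F = (E₅model A)⁄F := by
  ext <;> simp [E₅model, WeierstrassCurve.baseChange, map_ofNat]

lemma e5p_Δ (A : Type*) [CommRing A] : (E₅model A).Δ = 1000000 := by
  simp [E₅model, WeierstrassCurve.Δ, WeierstrassCurve.b₂, WeierstrassCurve.b₄, WeierstrassCurve.b₆,
    WeierstrassCurve.b₈]
  norm_num

section Prime

variable (p : ℕ) [Fact p.Prime]

instance E₅.isIntegral_padic : IsIntegral ℤ_[p] (E₅⁄ℚ_[p]) :=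
  ⟨E₅model ℤ_[p], e5p_baseChange_eq ℤ_[p] ℚ_[p]⟩

lemma e5p_integralModel : integralModel ℤ_[p] (E₅⁄ℚ_[p]) = E₅model ℤ_[p] := by
  apply WeierstrassCurve.map_injective (IsFractionRing.injective ℤ_[p] ℚ_[p])
  show (integralModel ℤ_[p] (E₅⁄ℚ_[p]))⁄ℚ_[p] = (E₅model ℤ_[p])⁄ℚ_[p]
  rw [baseChange_integralModel_eq, e5p_baseChange_eq ℤ_[p] ℚ_[p]]

/-- `y² = x³ - 25 x` is minimal at every prime: its discriminant `10⁶` is not divisible by `p¹²`. -/
instance E₅.isMinimal_padic : IsMinimal ℤ_[p] (E₅⁄ℚ_[p]) := by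
  apply isMinimal_of_Δ_notMem
  rw [e5p_integralModel, e5p_Δ, PadicInt.maximalIdeal_eq_span_p, Ideal.span_singleton_pow,
    Ideal.mem_span_singleton]
  intro h
  have h' : ((p : ℤ_[p]) ^ 12) ∣ ((1000000 : ℤ) : ℤ_[p]) := by simpa using h
  rw [PadicInt.pow_p_dvd_int_iff] at h'
  have h2 : 2 ≤ p := (Fact.out : p.Prime).two_le
  have h4 := Int.le_of_dvd (by norm_num) h'
  have h5 : p < 4 := by
    by_contra hc
    have h6 : (4 : ℤ) ≤ p := by exact_mod_cast not_lt.1 hc
    have h7 : (4 : ℤ) ^ 12 ≤ (p : ℤ) ^ 12 := pow_le_pow_left₀ (by norm_num) h6 12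
    norm_num at h7
    linarith
  interval_cases p
  · norm_num at h'
  · norm_num at h'

end Prime

/-- `y² = x³ - 25 x` is a global minimal Weierstrass equation. -/
theorem E₅_isGlobalMinimal : IsGlobalMinimal E₅ := fun p _ => E₅.isMinimal_padic p

lemma twoTorsionCubic_E₅ (x : ℝ) : twoTorsionCubic E₅ x = 4 * x ^ 3 - 100 * x := by
  simp [twoTorsionCubic, WeierstrassCurve.b₂, WeierstrassCurve.b₄, WeierstrassCurve.b₆]
  ring

/-- `g₅(5 u) = 125 g₀(u)`. -/
lemma twoTorsionCubic_E₅_five_mul (u : ℝ) :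
    twoTorsionCubic E₅ (5 * u) = 125 * twoTorsionCubic E₀ u := by
  rw [twoTorsionCubic_E₅, twoTorsionCubic_E₀]
  ring

lemma invSqrtPos_E₅_five_mul (u : ℝ) :
    invSqrtPos (twoTorsionCubic E₅) (5 * u) =
      (Real.sqrt 125)⁻¹ * invSqrtPos (twoTorsionCubic E₀) u := by
  unfold invSqrtPos
  by_cases h : 0 < twoTorsionCubic E₀ u
  · have h' : 0 < twoTorsionCubic E₅ (5 * u) := by
      rw [twoTorsionCubic_E₅_five_mul]; positivity
    rw [indicator_of_mem (by simpa using h'), indicator_of_mem (by simpa using h),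
      twoTorsionCubic_E₅_five_mul, Real.sqrt_mul (by norm_num), mul_inv]
  · have h' : ¬ 0 < twoTorsionCubic E₅ (5 * u) := by
      rw [twoTorsionCubic_E₅_five_mul]
      intro h''
      exact h ((mul_pos_iff_of_pos_left (by norm_num)).1 h'')
    rw [indicator_of_notMem (by simpa using h'), indicator_of_notMem (by simpa using h), mul_zero]

/-- **The period integral of the quadratic twist by `5`**: `∫_{E₅(ℝ)} |ω| = (∫_{E₀(ℝ)} |ω|) / √5`. -/
theorem periodIntegral_E₅ : periodIntegral E₅ = periodIntegral E₀ / Real.sqrt 5 := by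
  rw [periodIntegral_eq, periodIntegral_eq]
  have h1 : ∫ u : ℝ, invSqrtPos (twoTorsionCubic E₅) (5 * u) =
      |(5 : ℝ)⁻¹| • ∫ y : ℝ, invSqrtPos (twoTorsionCubic E₅) y :=
    Measure.integral_comp_mul_left (fun y => invSqrtPos (twoTorsionCubic E₅) y) 5
  simp_rw [invSqrtPos_E₅_five_mul] at h1
  rw [integral_const_mul, smul_eq_mul, abs_of_pos (by norm_num : (0 : ℝ) < 5⁻¹)] at h1
  have h125 : Real.sqrt 125 = 5 * Real.sqrt 5 := by
    rw [show (125 : ℝ) = 5 ^ 2 * 5 by norm_num, Real.sqrt_mul (by norm_num),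
      Real.sqrt_sq (by norm_num)]
  have h5 : 0 < Real.sqrt 5 := Real.sqrt_pos.2 (by norm_num)
  rw [h125] at h1
  have h2 : ∫ y : ℝ, invSqrtPos (twoTorsionCubic E₅) y =
      (∫ u : ℝ, invSqrtPos (twoTorsionCubic E₀) u) / Real.sqrt 5 := by
    field_simp at h1 ⊢
    linarith
  rw [h2]
  ring

/-! ### The same for every curve and every positive twist -/

/-- `g_{E^d}(d u) = d³ g_E(u)`. -/
lemma twoTorsionCubic_quadraticTwist (E : WeierstrassCurve ℚ) (d : ℚ) (u : ℝ) :
    twoTorsionCubic (quadraticTwist E d) ((d : ℝ) * u) = (d : ℝ) ^ 3 * twoTorsionCubic E u := by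
  have e2 : (quadraticTwist E d).b₂ = d * E.b₂ := by
    simp only [quadraticTwist, WeierstrassCurve.b₂]; ring
  have e4 : (quadraticTwist E d).b₄ = d ^ 2 * E.b₄ := by
    simp only [quadraticTwist, WeierstrassCurve.b₄]; ring
  have e6 : (quadraticTwist E d).b₆ = d ^ 3 * E.b₆ := by
    simp only [quadraticTwist, WeierstrassCurve.b₆]; ring
  unfold twoTorsionCubic
  rw [e2, e4, e6]
  push_cast
  ring

lemma invSqrtPos_quadraticTwist (E : WeierstrassCurve ℚ) {d : ℚ} (hd : 0 < d) (u : ℝ) :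
    invSqrtPos (twoTorsionCubic (quadraticTwist E d)) ((d : ℝ) * u) =
      (Real.sqrt ((d : ℝ) ^ 3))⁻¹ * invSqrtPos (twoTorsionCubic E) u := by
  have hd' : (0 : ℝ) < (d : ℝ) ^ 3 := by
    have : (0 : ℝ) < d := by exact_mod_cast hd
    positivity
  unfold invSqrtPos
  by_cases h : 0 < twoTorsionCubic E u
  · have h' : 0 < twoTorsionCubic (quadraticTwist E d) ((d : ℝ) * u) := by
      rw [twoTorsionCubic_quadraticTwist]; positivity
    rw [indicator_of_mem (by simpa using h'), indicator_of_mem (by simpa using h),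
      twoTorsionCubic_quadraticTwist, Real.sqrt_mul hd'.le, mul_inv]
  · have h' : ¬ 0 < twoTorsionCubic (quadraticTwist E d) ((d : ℝ) * u) := by
      rw [twoTorsionCubic_quadraticTwist]
      intro h''
      exact h ((mul_pos_iff_of_pos_left hd').1 h'')
    rw [indicator_of_notMem (by simpa using h'), indicator_of_notMem (by simpa using h), mul_zero]

/-- **The period integral of a quadratic twist**: for every Weierstrass equation `E` over `ℚ` and every `d > 0`,
`∫_{E^d(ℝ)} |ω| = (∫_{E(ℝ)} |ω|) / √d`. -/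
theorem periodIntegral_quadraticTwist (E : WeierstrassCurve ℚ) {d : ℚ} (hd : 0 < d) :
    periodIntegral (quadraticTwist E d) = periodIntegral E / Real.sqrt d := by
  have hd0 : (0 : ℝ) < d := by exact_mod_cast hd
  rw [periodIntegral_eq, periodIntegral_eq]
  have h1 : ∫ u : ℝ, invSqrtPos (twoTorsionCubic (quadraticTwist E d)) ((d : ℝ) * u) =
      |(d : ℝ)⁻¹| • ∫ y : ℝ, invSqrtPos (twoTorsionCubic (quadraticTwist E d)) y :=
    Measure.integral_comp_mul_left (fun y => invSqrtPos (twoTorsionCubic (quadraticTwist E d)) y) d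
  simp_rw [invSqrtPos_quadraticTwist E hd] at h1
  rw [integral_const_mul, smul_eq_mul, abs_of_pos (inv_pos.2 hd0)] at h1
  have h3 : Real.sqrt ((d : ℝ) ^ 3) = d * Real.sqrt d := by
    rw [show (d : ℝ) ^ 3 = (d : ℝ) ^ 2 * d by ring, Real.sqrt_mul (by positivity),
      Real.sqrt_sq hd0.le]
  have h5 : 0 < Real.sqrt d := Real.sqrt_pos.2 hd0
  rw [h3] at h1
  have h2 : ∫ y : ℝ, invSqrtPos (twoTorsionCubic (quadraticTwist E d)) y =
      (∫ u : ℝ, invSqrtPos (twoTorsionCubic E) u) / Real.sqrt d := by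
    field_simp at h1 ⊢
    linarith
  rw [h2]
  ring

/-- `E₅` is the quadratic twist of `E₀` by `5`, in the sense of `Statement.lean`. -/
theorem e5p_quadraticTwist_E₀_five : quadraticTwist E₀ 5 = E₅ := by
  ext <;> simp [quadraticTwist, E₅, WeierstrassCurve.b₂, WeierstrassCurve.b₄, WeierstrassCurve.b₆]
  norm_num

/-- `periodIntegral_E₅` once more, from the general rule. -/
example : periodIntegral E₅ = periodIntegral E₀ / Real.sqrt 5 := by
  have h := periodIntegral_quadraticTwist E₀ (d := 5) (by norm_num)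
  rw [e5p_quadraticTwist_E₀_five] at h
  simpa using h

/-- `periodIntegral E₅` is a real period of `E₅` in the sense of `Statement.lean`. -/
theorem isRealPeriod_E₅ : IsRealPeriod E₅ (periodIntegral E₅) :=
  ⟨1, by rw [one_smul]; exact E₅_isGlobalMinimal, by rw [one_smul]⟩

/-- **The clause `∃ Ω, IsRealPeriod E Ω` of `MainStatement` at the rank one example.** -/
theorem exists_isRealPeriod_E₅ : ∃ Ω, IsRealPeriod E₅ Ω := ⟨_, isRealPeriod_E₅⟩

/-- **The real period of `E₅` is `Ω(E₀) / √5`**, and nothing else. -/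
theorem isRealPeriod_E₅_iff (Ω : ℝ) : IsRealPeriod E₅ Ω ↔ Ω = periodIntegral E₀ / Real.sqrt 5 := by
  rw [← periodIntegral_E₅]
  exact ⟨fun h => h.unique isRealPeriod_E₅, fun h => h ▸ isRealPeriod_E₅⟩

/-- **Non-example**: the real period of `E₀` is not a real period of its twist `E₅`. -/
theorem not_isRealPeriod_E₅_periodIntegral_E₀ : ¬ IsRealPeriod E₅ (periodIntegral E₀) := by
  rw [isRealPeriod_E₅_iff]
  intro h
  have hΩ : 0 < periodIntegral E₀ := periodIntegral_pos E₀
  have h5 : 0 < Real.sqrt 5 := Real.sqrt_pos.2 (by norm_num)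
  rw [eq_div_iff h5.ne'] at h
  have h1 : Real.sqrt 5 = 1 := by
    have : periodIntegral E₀ * (Real.sqrt 5 - 1) = 0 := by linarith
    rcases mul_eq_zero.1 this with h0 | h0
    · exact absurd h0 hΩ.ne'
    · linarith
  have h2 : Real.sqrt 5 ^ 2 = 5 := Real.sq_sqrt (by norm_num)
  rw [h1] at h2
  norm_num at h2

end Claimed.Open.R002
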