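import Claimed.Open.R002.SanityTwist
import Claimed.Open.R002.SanityE5Period

/-!
# Sanity for R002: what is left of `MainStatement` at the rank one example `E₅ : y² = x³ - 25 x`

The hypothesis of `MainStatement` holds at `(E₅, q = 2, r = 1)` (`selmerCorank_E₅_two`).  In its conclusion, copied verbatim, the clauses on the real period (`SanityE5Period.lean`) and on the
`L`-function (`SanityTwist.lean`: entire continuation, simple zero at `s = 1`) are theorems, and `L'(E₅, 1) = π ∫_{t₀}^∞ θ₅(t) log (200 t²) dt`, `Ω = Ω(E₀) / √5`.  So the conclusion is equivalent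
to: rank one, `Ш` finite, a regulator exists, and one identity between real numbers.
-/

set_option autoImplicit false

namespace Claimed.Open.R002

open Real Set MeasureTheory

/-- the identity theorem: `twistL` is the only `L`-function of `E₅` -/
theorem e5m_eq_twistL {L : ℂ → ℂ} (h₁ : IsLFunction E₅ L) : L = twistL := by
  have h₂ := isLFunction_E₅_twistL
  have a₁ : AnalyticOnNhd ℂ L Set.univ := fun z _ => h₁.1.analyticAt z
  have a₂ : AnalyticOnNhd ℂ twistL Set.univ := fun z _ => h₂.1.analyticAt z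
  refine a₁.eq_of_eventuallyEq a₂ (z₀ := 2) ?_
  have hopen : IsOpen {s : ℂ | 3 / 2 < s.re} := isOpen_lt continuous_const Complex.continuous_re
  have hmem : (2 : ℂ) ∈ {s : ℂ | 3 / 2 < s.re} := by
    simp only [Set.mem_ofPred_eq, Complex.re_ofNat]; norm_num
  filter_upwards [hopen.mem_nhds hmem] with s hs
  rw [(h₁.2 s hs).2, (h₂.2 s hs).2]

/-- **Every** `L`-function of `E₅` vanishes at `1`, to the order exactly `1`, and its derivative there is a positive real number. -/
theorem IsLFunction.order_E₅ {L : ℂ → ℂ} (h : IsLFunction E₅ L) :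
    L 1 = 0 ∧ analyticOrderAt L 1 = 1 ∧
      deriv L 1 = ((π * ∫ t in Ioi t5, Real.log (200 * t ^ 2) * theta5 t : ℝ) : ℂ) ∧
      0 < π * ∫ t in Ioi t5, Real.log (200 * t ^ 2) * theta5 t := by
  rw [e5m_eq_twistL h]
  exact ⟨twistL_one, analyticOrderAt_twistL_one, hasDerivAt_twistL_one.deriv,
    mul_pos Real.pi_pos integral_w_mul_theta5_pos⟩

/-- **What is left of `MainStatement` at `(E₅, q = 2, r = 1)`**: its conclusion, copied verbatim, is equivalent to: `rank E₅(ℚ) = 1`, `Ш(E₅/ℚ)` is finite, a regulator exists, and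
`π ∫_{t₀}^∞ θ₅(t) log (200 t²) dt = (Ω(E₀) / √5) · Reg · #Ш · ∏ c_ℓ / #tors²`. -/
theorem mainStatement_conclusion_E₅_iff :
    (Module.rank ℤ (MW E₅) = ((1 : ℕ) : Cardinal) ∧
      Finite (Sha E₅) ∧
      (∃ Ω, IsRealPeriod E₅ Ω) ∧
      (∃ R, IsRegulator E₅ R) ∧
      ∃ L : ℂ → ℂ, IsLFunction E₅ L ∧ analyticOrderAt L 1 = ((1 : ℕ) : ℕ∞) ∧
        ∀ Ω R : ℝ, IsRealPeriod E₅ Ω → IsRegulator E₅ R →
          iteratedDeriv 1 L 1 / ((1 : ℕ).factorial : ℂ) =
            ((Ω * R * (Nat.card (Sha E₅) : ℝ) * (tamagawaProduct E₅ : ℝ) /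
              (Nat.card (AddCommGroup.torsion (MW E₅)) : ℝ) ^ 2 : ℝ) : ℂ)) ↔
    (Module.rank ℤ (MW E₅) = ((1 : ℕ) : Cardinal) ∧
      Finite (Sha E₅) ∧
      (∃ R, IsRegulator E₅ R) ∧
      ∀ R : ℝ, IsRegulator E₅ R →
        π * ∫ t in Ioi t5, Real.log (200 * t ^ 2) * theta5 t =
          periodIntegral E₀ / Real.sqrt 5 * R * (Nat.card (Sha E₅) : ℝ) * (tamagawaProduct E₅ : ℝ) /
            (Nat.card (AddCommGroup.torsion (MW E₅)) : ℝ) ^ 2) := by
  constructor
  · rintro ⟨hr, hSha, -, hR, L, hL, -, hf⟩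
    refine ⟨hr, hSha, hR, fun R hR' => ?_⟩
    have h := hf _ R ((isRealPeriod_E₅_iff _).2 rfl) hR'
    simp only [iteratedDeriv_one, Nat.factorial_one, Nat.cast_one, div_one] at h
    rw [hL.order_E₅.2.2.1] at h
    exact Complex.ofReal_injective h
  · rintro ⟨hr, hSha, hR, hf⟩
    refine ⟨hr, hSha, exists_isRealPeriod_E₅, hR, twistL, isLFunction_E₅_twistL,
      by rw [analyticOrderAt_twistL_one]; rfl, ?_⟩
    intro Ω R hΩ hR'
    rw [(isRealPeriod_E₅_iff Ω).1 hΩ]
    simp only [iteratedDeriv_one, Nat.factorial_one, Nat.cast_one, div_one]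
    rw [hasDerivAt_twistL_one.deriv, hf R hR']

end Claimed.Open.R002
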