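import Mathlib

/-!
# The addition-and-subtraction map on `x`-coordinates

Mathlib defines the endomorphism `WeierstrassCurve.addSubMap` of `ℙ²` and proves that it is a
morphism (hence changes heights by a factor `2` up to `O(1)`), but leaves as a TODO that it sends
`(x(P) x(Q) : x(P) + x(Q) : 1)` to `(x(P+Q) x(P-Q) : x(P+Q) + x(P-Q) : 1)`.  We prove this here
(`addSubMap_sym2x`), for all pairs of points, including the degenerate ones.  It is the geometric
input of the approximate parallelogram law for the naive height, see `SanityHeight.lean`.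
-/

set_option autoImplicit false
open WeierstrassCurve

namespace Claimed.Open.R002
variable {F : Type*} [Field F] [DecidableEq F] (W : WeierstrassCurve F)

theorem addX_add_addX_formula {x₁ y₁ x₂ y₂ : F} (h₁ : W.toAffine.Equation x₁ y₁) (h₂ : W.toAffine.Equation x₂ y₂)
    (hx : x₁ ≠ x₂) :
    (x₁ - x₂) ^ 2 * (W.toAffine.addX x₁ x₂ (W.toAffine.slope x₁ x₂ y₁ y₂) +
      W.toAffine.addX x₁ x₂ (W.toAffine.slope x₁ x₂ y₁ (W.toAffine.negY x₂ y₂))) =
      2 * (x₁ + x₂) * (x₁ * x₂) + W.b₂ * (x₁ * x₂) + W.b₄ * (x₁ + x₂) + W.b₆ := by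
  rw [Affine.slope_of_X_ne hx, Affine.slope_of_X_ne hx]
  rw [Affine.equation_iff] at h₁ h₂
  have hd : x₁ - x₂ ≠ 0 := sub_ne_zero.2 hx
  simp only [Affine.addX, Affine.negY, b₂, b₄, b₆]
  field_simp
  linear_combination 2 * h₁ + 2 * h₂

theorem addX_mul_addX_formula {x₁ y₁ x₂ y₂ : F} (h₁ : W.toAffine.Equation x₁ y₁) (h₂ : W.toAffine.Equation x₂ y₂)
    (hx : x₁ ≠ x₂) :
    (x₁ - x₂) ^ 2 * (W.toAffine.addX x₁ x₂ (W.toAffine.slope x₁ x₂ y₁ y₂) *
      W.toAffine.addX x₁ x₂ (W.toAffine.slope x₁ x₂ y₁ (W.toAffine.negY x₂ y₂))) =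
      (x₁ * x₂) ^ 2 - W.b₄ * (x₁ * x₂) - W.b₆ * (x₁ + x₂) - W.b₈ := by
  rw [Affine.slope_of_X_ne hx, Affine.slope_of_X_ne hx]
  rw [Affine.equation_iff] at h₁ h₂
  have hd : x₁ - x₂ ≠ 0 := sub_ne_zero.2 hx
  simp only [Affine.addX, Affine.negY, b₄, b₆, b₈]
  field_simp
  grind

omit [DecidableEq F] in
theorem sub_negY_sq_formula {x y : F} (h : W.toAffine.Equation x y) :
    (y - W.toAffine.negY x y) ^ 2 = 4 * x ^ 3 + W.b₂ * x ^ 2 + 2 * W.b₄ * x + W.b₆ := by
  rw [Affine.equation_iff] at h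
  simp only [Affine.negY, b₂, b₄, b₆]
  linear_combination 4 * h

theorem addX_self_formula {x y : F} (h : W.toAffine.Equation x y) (hy : y ≠ W.toAffine.negY x y) :
    (4 * x ^ 3 + W.b₂ * x ^ 2 + 2 * W.b₄ * x + W.b₆) *
      W.toAffine.addX x x (W.toAffine.slope x x y y) =
      x ^ 4 - W.b₄ * x ^ 2 - 2 * W.b₆ * x - W.b₈ := by
  rw [← sub_negY_sq_formula W h, Affine.slope_of_Y_ne rfl hy]
  have hd : y - W.toAffine.negY x y ≠ 0 := sub_ne_zero.2 hy
  rw [Affine.equation_iff] at h
  simp only [Affine.addX]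
  field_simp
  simp only [Affine.negY, b₄, b₆, b₈]
  grind

omit [DecidableEq F] in
theorem eval_addSubMap_vec (s t u : F) :
    (fun i => (addSubMap W i).eval ![s, t, u]) =
      ![s ^ 2 - W.b₄ * s * u - W.b₆ * t * u - W.b₈ * u ^ 2,
        2 * t * s + W.b₂ * s * u + W.b₄ * t * u + W.b₆ * u ^ 2, t ^ 2 - 4 * s * u] := by
  ext i; fin_cases i <;> simp [addSubMap]

/-- doubling case -/
theorem addSubMap_sym2x_self [W.IsElliptic] (P : W.toAffine.Point) :
    ∃ c : F, c ≠ 0 ∧ (fun i => (addSubMap W i).eval (P.sym2x P)) = c • (P + P).sym2x 0 := by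
  rcases P with _ | ⟨x, y, h⟩
  · refine ⟨1, one_ne_zero, ?_⟩
    rw [← Affine.Point.zero_def, add_zero, Affine.Point.sym2x_zero_zero, eval_addSubMap_vec]
    ext i; fin_cases i <;> simp
  · rw [Affine.Point.sym2x_some_some, eval_addSubMap_vec]
    by_cases hy : y = W.toAffine.negY x y
    · rw [Affine.Point.add_self_of_Y_eq hy, Affine.Point.sym2x_zero_zero]
      have h0 : 4 * x ^ 3 + W.b₂ * x ^ 2 + 2 * W.b₄ * x + W.b₆ = 0 := by
        rw [← sub_negY_sq_formula W h.1, ← hy, sub_self]; simp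
      have hne := addSubMap_ne_zero W (x := ![x * x, x + x, 1]) (by
        intro h; simpa using congrFun h 2)
      rw [eval_addSubMap_vec] at hne
      refine ⟨(x * x) ^ 2 - W.b₄ * (x * x) * 1 - W.b₆ * (x + x) * 1 - W.b₈ * 1 ^ 2, ?_, ?_⟩
      · intro hc
        apply hne
        ext i; fin_cases i
        · simpa using hc
        · simp; linear_combination h0
        · simp; ring
      · ext i; fin_cases i
        · simp
        · simp; linear_combination h0
        · simp; ring
    · rw [Affine.Point.add_of_Y_ne hy, Affine.Point.sym2x_some_zero]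
      refine ⟨4 * x ^ 3 + W.b₂ * x ^ 2 + 2 * W.b₄ * x + W.b₆, ?_, ?_⟩
      · rw [← sub_negY_sq_formula W h.1]; exact pow_ne_zero 2 (sub_ne_zero.2 hy)
      · ext i; fin_cases i
        · have e := addX_self_formula W h.1 hy
          simp only [Affine.addX] at e
          simp
          linear_combination -e
        · simp; ring
        · simp; ring

/-- The map `addSubMap` does what it is meant to do. -/
theorem addSubMap_sym2x [W.IsElliptic] (P Q : W.toAffine.Point) :
    ∃ c : F, c ≠ 0 ∧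
      (fun i => (addSubMap W i).eval (P.sym2x Q)) = c • (P + Q).sym2x (P - Q) := by
  by_cases hPQ : P = Q
  · subst hPQ
    rw [sub_self]
    exact addSubMap_sym2x_self W P
  by_cases hPQ' : P = -Q
  · subst hPQ'
    obtain ⟨c, hc, h⟩ := addSubMap_sym2x_self W Q
    refine ⟨c, hc, ?_⟩
    rw [Affine.Point.sym2x_neg_left, h, neg_add_cancel, ← neg_add', Affine.Point.sym2x_neg_right,
      Affine.Point.sym2x_comm]
  rcases P with _ | ⟨x₁, y₁, h₁⟩
  · rcases Q with _ | ⟨x₂, y₂, h₂⟩
    · exact absurd rfl hPQ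
    · refine ⟨1, one_ne_zero, ?_⟩
      rw [← Affine.Point.zero_def, zero_add, zero_sub, Affine.Point.sym2x_neg_right,
        Affine.Point.sym2x_zero_some, Affine.Point.sym2x_some_some, eval_addSubMap_vec]
      ext i; fin_cases i <;> simp <;> ring
  · rcases Q with _ | ⟨x₂, y₂, h₂⟩
    · refine ⟨1, one_ne_zero, ?_⟩
      rw [← Affine.Point.zero_def, add_zero, sub_zero,
        Affine.Point.sym2x_some_zero, Affine.Point.sym2x_some_some, eval_addSubMap_vec]
      ext i; fin_cases i <;> simp <;> ring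
    · have hx : x₁ ≠ x₂ := by
        intro hx
        rcases Affine.Point.X_eq_iff.1 hx with h | h
        · exact hPQ h
        · exact hPQ' h
      refine ⟨(x₁ - x₂) ^ 2, pow_ne_zero 2 (sub_ne_zero.2 hx), ?_⟩
      rw [sub_eq_add_neg (Affine.Point.some x₁ y₁ h₁), Affine.Point.neg_some,
        Affine.Point.add_some (fun h => hx h.1),
        Affine.Point.add_some (fun h => hx h.1), Affine.Point.sym2x_some_some,
        Affine.Point.sym2x_some_some, eval_addSubMap_vec]
      have e1 := addX_add_addX_formula W h₁.1 h₂.1 hx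
      have e2 := addX_mul_addX_formula W h₁.1 h₂.1 hx
      ext i; fin_cases i
      · simp only [Fin.zero_eta, Matrix.cons_val_zero, Pi.smul_apply, smul_eq_mul]
        rw [e2]; ring
      · simp only [Fin.mk_one, Matrix.cons_val_one, Matrix.cons_val_zero, Pi.smul_apply, smul_eq_mul]
        rw [e1]; ring
      · simp; ring

end Claimed.Open.R002
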