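import Mathlib

/-!
# Tate's limit and quadratic functions on abelian groups

Abstract part of the theory of canonical heights.  Let `A` be an abelian group and `h : A → ℝ` a
function satisfying the approximate parallelogram law
`|h (P + Q) + h (P - Q) - 2 (h P + h Q)| ≤ C`.  Then

* the limit `tateLimit h P = lim 4⁻ⁿ h (2ⁿ P)` exists (`tendsto_tateLimit`) and differs from `h` by
  a bounded function (`abs_tateLimit_sub_le`);
* it satisfies the exact parallelogram law (`tateLimit_parallelogram`);
* for a function `t` with the exact parallelogram law, `quadPairing t P Q = (t(P+Q) - t P - t Q)/2`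
  is symmetric and biadditive, `quadPairing t P P = t P`, `t (n P) = n² t P`, torsion is in the
  kernel, and the Gram determinant of a basis of `A / A_tors` does not depend on the basis
  (`det_gram_eq`);
* if `h` has the Northcott property then `tateLimit h P = 0` iff `P` is torsion.
-/

set_option autoImplicit false
open Filter Topology

namespace Claimed.Open.R002

section Tate
variable {A : Type*} [AddCommGroup A] (h : A → ℝ)

/-- Tate's limit -/
noncomputable def tateLimit (P : A) : ℝ := limUnder atTop fun n : ℕ => h ((2 ^ n : ℕ) • P) / 4 ^ n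

variable {h} {C : ℝ} (hC : ∀ P Q, |h (P + Q) + h (P - Q) - 2 * (h P + h Q)| ≤ C)
include hC

theorem abs_two_nsmul_sub_le (P : A) : |h (2 • P) - 4 * h P| ≤ C + |h 0| := by
  have := hC P P
  rw [sub_self, ← two_nsmul] at this
  have h2 : h (2 • P) - 4 * h P = (h (2 • P) + h 0 - 2 * (h P + h P)) - h 0 := by ring
  rw [h2]
  calc _ ≤ |h (2 • P) + h 0 - 2 * (h P + h P)| + |h 0| := abs_sub _ _
    _ ≤ _ := by linarith

theorem dist_tate_step_le (P : A) (n : ℕ) :
    dist (h ((2 ^ n : ℕ) • P) / 4 ^ n) (h ((2 ^ (n + 1) : ℕ) • P) / 4 ^ (n + 1)) ≤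
      ((C + |h 0|) / 4) * (1 / 4) ^ n := by
  have := abs_two_nsmul_sub_le hC ((2 ^ n : ℕ) • P)
  rw [← mul_nsmul', ← pow_succ'] at this
  rw [Real.dist_eq, abs_sub_comm]
  have h4 : (0 : ℝ) < 4 ^ n := by positivity
  have e : h ((2 ^ (n + 1) : ℕ) • P) / 4 ^ (n + 1) - h ((2 ^ n : ℕ) • P) / 4 ^ n =
      (h ((2 ^ (n + 1) : ℕ) • P) - 4 * h ((2 ^ n : ℕ) • P)) / 4 ^ (n + 1) := by
    field_simp
    ring
  rw [e, abs_div, abs_of_pos (by positivity : (0 : ℝ) < 4 ^ (n + 1))]
  rw [div_le_iff₀ (by positivity)]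
  calc _ ≤ C + |h 0| := this
    _ = _ := by
      rw [one_div, inv_pow]; field_simp; ring

theorem tendsto_tateLimit (P : A) :
    Tendsto (fun n : ℕ => h ((2 ^ n : ℕ) • P) / 4 ^ n) atTop (𝓝 (tateLimit h P)) := by
  have hc : CauchySeq (fun n : ℕ => h ((2 ^ n : ℕ) • P) / 4 ^ n) :=
    cauchySeq_of_le_geometric (1 / 4) ((C + |h 0|) / 4) (by norm_num) (dist_tate_step_le hC P)
  obtain ⟨a, ha⟩ := cauchySeq_tendsto_of_complete hc
  rw [tateLimit, ha.limUnder_eq]
  exact ha

theorem abs_tateLimit_sub_le (P : A) : |tateLimit h P - h P| ≤ (C + |h 0|) / 3 := by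
  have := dist_le_of_le_geometric_of_tendsto₀ (1 / 4) ((C + |h 0|) / 4) (by norm_num)
    (dist_tate_step_le hC P) (tendsto_tateLimit hC P)
  simp only [pow_zero, one_smul, div_one] at this
  rw [Real.dist_eq, abs_sub_comm] at this
  calc _ ≤ _ := this
    _ = _ := by ring

theorem tateLimit_parallelogram (P Q : A) :
    tateLimit h (P + Q) + tateLimit h (P - Q) = 2 * (tateLimit h P + tateLimit h Q) := by
  have t := (((tendsto_tateLimit hC (P + Q)).add (tendsto_tateLimit hC (P - Q))).sub
    (((tendsto_tateLimit hC P).add (tendsto_tateLimit hC Q)).const_mul 2))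
  have t0 : Tendsto (fun n : ℕ => C * (1 / 4 : ℝ) ^ n) atTop (𝓝 0) := by
    simpa using (tendsto_pow_atTop_nhds_zero_of_lt_one (by norm_num : (0 : ℝ) ≤ 1 / 4)
      (by norm_num)).const_mul C
  have t1 : Tendsto (fun n : ℕ => h ((2 ^ n : ℕ) • (P + Q)) / 4 ^ n +
      h ((2 ^ n : ℕ) • (P - Q)) / 4 ^ n -
        2 * (h ((2 ^ n : ℕ) • P) / 4 ^ n + h ((2 ^ n : ℕ) • Q) / 4 ^ n)) atTop (𝓝 0) :=
    squeeze_zero_norm (a := fun n : ℕ => C * (1 / 4 : ℝ) ^ n) (fun n => ?_) t0
  · have := tendsto_nhds_unique t t1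
    linarith
  · have := hC ((2 ^ n : ℕ) • P) ((2 ^ n : ℕ) • Q)
    rw [← nsmul_add, ← nsmul_sub] at this
    have h4 : (0 : ℝ) < 4 ^ n := by positivity
    rw [Real.norm_eq_abs]
    have e : h ((2 ^ n : ℕ) • (P + Q)) / 4 ^ n + h ((2 ^ n : ℕ) • (P - Q)) / 4 ^ n -
        2 * (h ((2 ^ n : ℕ) • P) / 4 ^ n + h ((2 ^ n : ℕ) • Q) / 4 ^ n) =
        (h ((2 ^ n : ℕ) • (P + Q)) + h ((2 ^ n : ℕ) • (P - Q)) -
        2 * (h ((2 ^ n : ℕ) • P) + h ((2 ^ n : ℕ) • Q))) / 4 ^ n := by
      field_simp
    rw [e, abs_div, abs_of_pos h4, div_le_iff₀ h4]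
    calc _ ≤ C := this
      _ = _ := by rw [one_div, inv_pow]; field_simp

end Tate

section Quad
variable {A : Type*} [AddCommGroup A] (t : A → ℝ)

/-- quadPairing -/
noncomputable def quadPairing (P Q : A) : ℝ := (t (P + Q) - t P - t Q) / 2

variable {t} (ht : ∀ P Q, t (P + Q) + t (P - Q) = 2 * (t P + t Q))
include ht

theorem quad_zero : t 0 = 0 := by
  have := ht 0 0
  simp at this
  linarith

theorem quad_neg (P : A) : t (-P) = t P := by
  have := ht 0 P
  have h0 := quad_zero ht
  simp only [zero_add, zero_sub, h0] at this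
  linarith

theorem quad_sub_comm (P Q : A) : t (P - Q) = t (Q - P) := by
  rw [← neg_sub, quad_neg ht]

omit ht in
theorem quadPairing_comm (P Q : A) : quadPairing t P Q = quadPairing t Q P := by
  unfold quadPairing; rw [add_comm]; ring

theorem quadPairing_self (P : A) : quadPairing t P P = t P := by
  have := ht P P
  rw [sub_self, quad_zero ht] at this
  unfold quadPairing; linarith

theorem quadPairing_add_left (P Q R : A) : quadPairing t (P + Q) R = quadPairing t P R + quadPairing t Q R := by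
  have e1 := ht (P + R) Q
  have e2 := ht P (R - Q)
  have e3 := ht (P + Q) R
  have e4 := ht R Q
  have a1 : P + R + Q = P + Q + R := by abel
  have a2 : P + (R - Q) = P + R - Q := by abel
  have a3 : P - (R - Q) = P + Q - R := by abel
  have a4 : R + Q = Q + R := by abel
  rw [a1] at e1
  rw [a2, a3] at e2
  rw [a4] at e4
  unfold quadPairing
  linarith

theorem quadPairing_add_right (P Q R : A) : quadPairing t P (Q + R) = quadPairing t P Q + quadPairing t P R := by
  rw [quadPairing_comm, quadPairing_add_left ht, quadPairing_comm Q, quadPairing_comm R]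

/-- the quadPairing as a biadditive map -/
noncomputable def quadPairingHom : A →+ A →+ ℝ :=
  AddMonoidHom.mk' (fun P => AddMonoidHom.mk' (fun Q => quadPairing t P Q) (quadPairing_add_right ht P))
    (fun P Q => by ext R; exact quadPairing_add_left ht P Q R)

theorem quadPairingHom_apply (P Q : A) : quadPairingHom ht P Q = quadPairing t P Q := rfl

theorem quad_zsmul (n : ℤ) (P : A) : t (n • P) = (n : ℝ) ^ 2 * t P := by
  rw [← quadPairing_self ht, ← quadPairingHom_apply ht, map_zsmul (quadPairingHom ht (n • P)),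
    map_zsmul (quadPairingHom ht), AddMonoidHom.zsmul_apply, quadPairingHom_apply, quadPairing_self ht]
  simp only [zsmul_eq_mul]
  ring

theorem quad_nsmul (n : ℕ) (P : A) : t (n • P) = (n : ℝ) ^ 2 * t P := by
  have := quad_zsmul ht n P
  simpa using this

theorem quadPairing_torsion_left {T : A} (hT : T ∈ AddCommGroup.torsion A) (Q : A) :
    quadPairing t T Q = 0 := by
  obtain ⟨n, hn, hnT⟩ := isOfFinAddOrder_iff_nsmul_eq_zero.1 hT
  have : (n : ℝ) * quadPairing t T Q = 0 := by
    rw [← quadPairingHom_apply ht, ← nsmul_eq_mul, ← AddMonoidHom.nsmul_apply, ← map_nsmul, hnT,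
      map_zero, AddMonoidHom.zero_apply]
  rcases mul_eq_zero.1 this with h | h
  · exact absurd (Nat.cast_eq_zero.1 h) hn.ne'
  · exact h

theorem quadPairing_congr {P P' Q Q' : A} (hP : P - P' ∈ AddCommGroup.torsion A)
    (hQ : Q - Q' ∈ AddCommGroup.torsion A) : quadPairing t P Q = quadPairing t P' Q' := by
  have e1 : quadPairing t P Q = quadPairing t P' Q := by
    have := quadPairing_add_left ht (P - P') P' Q
    rw [sub_add_cancel, quadPairing_torsion_left ht hP, zero_add] at this
    exact this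
  have e2 : quadPairing t P' Q = quadPairing t P' Q' := by
    have := quadPairing_add_right ht P' (Q - Q') Q'
    rw [sub_add_cancel, quadPairing_comm P' (Q - Q'), quadPairing_torsion_left ht hQ, zero_add] at this
    exact this
  rw [e1, e2]

theorem det_gram_eq {n : ℕ} (P P' : Fin n → A)
    (b b' : Module.Basis (Fin n) ℤ (A ⧸ AddCommGroup.torsion A))
    (hb : ∀ i, b i = QuotientAddGroup.mk (P i)) (hb' : ∀ i, b' i = QuotientAddGroup.mk (P' i)) :
    (Matrix.of fun i j => quadPairing t (P' i) (P' j)).det =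
      (Matrix.of fun i j => quadPairing t (P i) (P j)).det := by
  set U : Matrix (Fin n) (Fin n) ℤ := b.toMatrix b' with hU
  have hS : ∀ j, P' j - ∑ i, U i j • P i ∈ AddCommGroup.torsion A := by
    intro j
    rw [← QuotientAddGroup.eq_zero_iff, QuotientAddGroup.mk_sub, sub_eq_zero, ← hb']
    have : (QuotientAddGroup.mk (∑ i, U i j • P i) : A ⧸ AddCommGroup.torsion A) =
        ∑ i, U i j • b i := by
      rw [← QuotientAddGroup.mk'_apply, map_sum]
      refine Finset.sum_congr rfl fun i _ => ?_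
      rw [map_zsmul, hb]; rfl
    rw [this, hU]
    exact (b.sum_toMatrix_smul_self b' j).symm
  have hG : (Matrix.of fun i j => quadPairing t (P' i) (P' j)) =
      (U.map (Int.cast : ℤ → ℝ)).transpose * (Matrix.of fun i j => quadPairing t (P i) (P j)) *
        (U.map (Int.cast : ℤ → ℝ)) := by
    ext j l
    rw [Matrix.of_apply, quadPairing_congr ht (hS j) (hS l), ← quadPairingHom_apply ht]
    simp only [Matrix.mul_apply, Matrix.transpose_apply, Matrix.map_apply, Matrix.of_apply,
      map_sum, map_zsmul, AddMonoidHom.finsetSum_apply, AddMonoidHom.zsmul_apply,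
      quadPairingHom_apply, zsmul_eq_mul, Finset.sum_mul, Finset.mul_sum]
    refine Finset.sum_congr rfl fun i _ => Finset.sum_congr rfl fun k _ => ?_
    ring
  have hdet : (U.map (Int.cast : ℤ → ℝ)).det ^ 2 = 1 := by
    have h1 : U.det * (b'.toMatrix b).det = 1 := by
      rw [← Matrix.det_mul, hU, Module.Basis.toMatrix_mul_toMatrix_flip, Matrix.det_one]
    have h2 : IsUnit U.det := IsUnit.of_mul_eq_one _ h1
    have h3 : (U.map (Int.cast : ℤ → ℝ)).det = (U.det : ℝ) := by
      exact ((Int.castRingHom ℝ).map_det U).symm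
    rw [h3]
    rcases Int.isUnit_iff.1 h2 with h | h <;> rw [h] <;> norm_num
  rw [hG, Matrix.det_mul, Matrix.det_mul, Matrix.det_transpose]
  linear_combination (Matrix.of fun i j => quadPairing t (P i) (P j)).det * hdet

end Quad

section TateNorthcott
variable {A : Type*} [AddCommGroup A] {h : A → ℝ} {C : ℝ}
  (hC : ∀ P Q, |h (P + Q) + h (P - Q) - 2 * (h P + h Q)| ≤ C)
include hC

theorem tateLimit_nonneg (h0 : ∀ P, 0 ≤ h P) (P : A) : 0 ≤ tateLimit h P :=
  ge_of_tendsto' (tendsto_tateLimit hC P) fun n => div_nonneg (h0 _) (by positivity)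

theorem tateLimit_eq_zero_of_torsion {P : A} (hP : IsOfFinAddOrder P) : tateLimit h P = 0 := by
  obtain ⟨n, hn, hnP⟩ := isOfFinAddOrder_iff_nsmul_eq_zero.1 hP
  have ht := tateLimit_parallelogram hC
  have := quad_nsmul ht n P
  rw [hnP, quad_zero ht] at this
  have hn' : ((n : ℝ) ^ 2) ≠ 0 := pow_ne_zero 2 (Nat.cast_ne_zero.2 hn.ne')
  exact (mul_eq_zero.1 this.symm).resolve_left hn'

theorem finite_tateLimit_le [Northcott h] (B : ℝ) : {P : A | tateLimit h P ≤ B}.Finite := by
  refine (Northcott.finite_le (h := h) (B + (C + |h 0|) / 3)).subset fun P hP => ?_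
  have := abs_tateLimit_sub_le hC P
  have h2 := (abs_le.1 this).1
  have hP' : tateLimit h P ≤ B := hP
  show h P ≤ _
  linarith

theorem tateLimit_eq_zero_iff [Northcott h] {P : A} :
    tateLimit h P = 0 ↔ IsOfFinAddOrder P := by
  refine ⟨fun h0 => ?_, tateLimit_eq_zero_of_torsion hC⟩
  by_contra hP
  have hinj := injective_nsmul_iff_not_isOfFinAddOrder.2 hP
  refine Set.infinite_of_injective_forall_mem hinj (s := {P : A | tateLimit h P ≤ 0}) (fun n => ?_)
    (finite_tateLimit_le hC 0)
  show tateLimit h (n • P) ≤ 0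
  rw [quad_nsmul (tateLimit_parallelogram hC), h0, mul_zero]

end TateNorthcott

end Claimed.Open.R002
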