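import Claimed.Open.R002.Statement
import Claimed.Open.R002.SanityHeightAddSub
import Claimed.Open.R002.SanityHeightTate

/-!
# Sanity checks for the height, the height pairing and the regulator

For every elliptic curve `E/ℚ` (any Weierstrass equation):

* `naiveHeight` is Mathlib's logarithmic height of the `x`-coordinate, it has the Northcott property
  and satisfies the approximate parallelogram law (`exists_approx_parallelogram`);
* the limit defining `canonicalHeight` exists (`tendsto_canonicalHeight`), so `limUnder` does not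
  take a junk value, and `canonicalHeight - naiveHeight` is bounded;
* `canonicalHeight` satisfies the parallelogram law, `H(nP) = n² H(P)`, `H ≥ 0`, and
  `H(P) = 0 ↔ P` is torsion;
* `heightPairing` is symmetric and biadditive and `B(P,P) = H(P)`;
* `E(ℚ)_tors` is finite, so `Nat.card` of it is not a junk value;
* the regulator does not depend on the basis (`IsRegulator.unique`), it is `1` in rank `0` and
  positive in rank `1`.
-/

set_option autoImplicit false

namespace Claimed.Open.R002

open WeierstrassCurve Filter Topology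
open scoped Classical

noncomputable section

variable {E : WeierstrassCurve ℚ}

theorem naiveHeight_eq_logHeight (P : MW E) : naiveHeight P = Height.logHeight P.xRep := by
  rcases P with _ | ⟨x, y, h⟩
  · show (0 : ℝ) = Height.logHeight (Affine.Point.xRep (0 : MW E))
    rw [Affine.Point.xRep_zero, Height.logHeight_swap, ← Height.logHeight₁_eq_logHeight,
      Height.logHeight₁_zero]
  · rw [Affine.Point.xRep_some, ← Height.logHeight₁_eq_logHeight, Rat.logHeight₁_eq_log_max]
    show Real.log (max (|x.num| : ℝ) (x.den : ℝ)) = _
    rw [Nat.cast_max, Nat.cast_natAbs, Int.cast_abs]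

theorem naiveHeight_nonneg (P : MW E) : 0 ≤ naiveHeight P := by
  rw [naiveHeight_eq_logHeight]; exact Height.logHeight_nonneg _

theorem vec_xRep (P : MW E) : ![P.xRep 0, P.xRep 1] = P.xRep := by
  ext i; fin_cases i <;> rfl

/-- The **approximate parallelogram law** for the naive height. -/
theorem exists_approx_parallelogram (E : WeierstrassCurve ℚ) [E.IsElliptic] :
    ∃ C, ∀ P Q : MW E,
      |naiveHeight (P + Q) + naiveHeight (P - Q) - 2 * (naiveHeight P + naiveHeight Q)| ≤ C := by
  obtain ⟨C₁, h₁⟩ := Height.abs_logHeight_sym2_sub_le ℚ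
  obtain ⟨C₂, h₂⟩ := abs_logHeight_addSubMap_sub_two_mul_logHeight_le E
  have key : ∀ P Q : MW E,
      |Height.logHeight (P.sym2x Q) - (naiveHeight P + naiveHeight Q)| ≤ C₁ := by
    intro P Q
    have := h₁ (a := P.xRep 0) (b := P.xRep 1) (c := Q.xRep 0) (d := Q.xRep 1)
      (by rw [vec_xRep]; exact Affine.Point.xRep_ne_zero P)
      (by rw [vec_xRep]; exact Affine.Point.xRep_ne_zero Q)
    rw [vec_xRep, vec_xRep, ← naiveHeight_eq_logHeight, ← naiveHeight_eq_logHeight] at this
    exact this
  refine ⟨3 * C₁ + C₂, fun P Q => ?_⟩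
  obtain ⟨c, hc, hcPQ⟩ := addSubMap_sym2x E P Q
  have e1 := key P Q
  have e2 := key (P + Q) (P - Q)
  have e3 := h₂ (P.sym2x Q)
  rw [hcPQ, Height.logHeight_smul_eq_logHeight _ hc] at e3
  rw [abs_le] at e1 e2 e3 ⊢
  constructor <;> linarith [e1.1, e1.2, e2.1, e2.2, e3.1, e3.2]

/-- Passing to the quotient by the torsion subgroup does not change the rank. -/
theorem rank_quotient_torsion (M : Type*) [AddCommGroup M] :
    Module.rank ℤ (M ⧸ AddCommGroup.torsion M) = Module.rank ℤ M := by
  let T' : Submodule ℤ M := AddSubgroup.toIntSubmodule (AddCommGroup.torsion M)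
  have h := rank_quotient_add_rank_of_isDomain T'
  have h0 : Module.rank ℤ T' = 0 := by
    rw [rank_eq_zero_iff]
    rintro ⟨x, hx⟩
    obtain ⟨n, hn, hnx⟩ := isOfFinAddOrder_iff_nsmul_eq_zero.1 (show IsOfFinAddOrder x from hx)
    refine ⟨n, by exact_mod_cast hn.ne', ?_⟩
    ext
    simpa using hnx
  rw [h0, add_zero] at h
  rw [← h]
  let e : (M ⧸ T') ≃+ (M ⧸ AddCommGroup.torsion M) := AddEquiv.refl _
  exact (e.toIntLinearEquiv.rank_eq).symm

theorem canonicalHeight_eq_tateLimit (P : MW E) :
    canonicalHeight P = tateLimit naiveHeight P := rfl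

theorem heightPairing_eq_quadPairing (P Q : MW E) :
    heightPairing P Q = quadPairing canonicalHeight P Q := rfl

/-- The naive height has the Northcott property. -/
instance northcott_naiveHeight : Northcott (naiveHeight : MW E → ℝ) where
  finite_le B := by
    have hS : {x : ℚ | Height.logHeight₁ x ≤ B}.Finite :=
      NumberField.finite_setOfPred_logHeight₁_le ℚ B
    refine Set.Finite.of_finite_fibers (fun P : MW E => P.xRep) ?_ ?_
    · refine ((hS.image fun x => ![x, 1]).union (Set.finite_singleton ![1, 0])).subset ?_
      rintro _ ⟨P, hP, rfl⟩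
      rcases P with _ | ⟨x, y, h⟩
      · right; rfl
      · left
        refine ⟨x, ?_, rfl⟩
        have hP' : naiveHeight (Affine.Point.some x y h : MW E) ≤ B := hP
        rw [naiveHeight_eq_logHeight, Affine.Point.xRep_some,
          ← Height.logHeight₁_eq_logHeight] at hP'
        exact hP'
    · rintro _ ⟨P, -, rfl⟩
      refine (Set.toFinite {P, -P}).subset ?_
      rintro Q ⟨-, hQ⟩
      rcases Affine.Point.xRep_eq_xRep_iff.1 hQ with h | h
      · left; exact h
      · right; exact h

section Elliptic

variable [E.IsElliptic]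

/-- The limit in the definition of the canonical height exists. -/
theorem tendsto_canonicalHeight (P : MW E) :
    Tendsto (fun n : ℕ => naiveHeight ((2 ^ n : ℕ) • P) / 4 ^ n) atTop (𝓝 (canonicalHeight P)) := by
  obtain ⟨C, hC⟩ := exists_approx_parallelogram E
  exact tendsto_tateLimit hC P

/-- The canonical height differs from the naive height by a bounded function. -/
theorem exists_abs_canonicalHeight_sub_naiveHeight_le (E : WeierstrassCurve ℚ) [E.IsElliptic] :
    ∃ C, ∀ P : MW E, |canonicalHeight P - naiveHeight P| ≤ C := by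
  obtain ⟨C, hC⟩ := exists_approx_parallelogram E
  exact ⟨_, abs_tateLimit_sub_le hC⟩

/-- The **parallelogram law** for the canonical height. -/
theorem canonicalHeight_parallelogram (P Q : MW E) :
    canonicalHeight (P + Q) + canonicalHeight (P - Q) =
      2 * (canonicalHeight P + canonicalHeight Q) := by
  obtain ⟨C, hC⟩ := exists_approx_parallelogram E
  exact tateLimit_parallelogram hC P Q

theorem canonicalHeight_zero : canonicalHeight (0 : MW E) = 0 :=
  quad_zero canonicalHeight_parallelogram

theorem canonicalHeight_neg (P : MW E) : canonicalHeight (-P) = canonicalHeight P :=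
  quad_neg canonicalHeight_parallelogram P

theorem canonicalHeight_nsmul (n : ℕ) (P : MW E) :
    canonicalHeight (n • P) = (n : ℝ) ^ 2 * canonicalHeight P :=
  quad_nsmul canonicalHeight_parallelogram n P

theorem canonicalHeight_zsmul (n : ℤ) (P : MW E) :
    canonicalHeight (n • P) = (n : ℝ) ^ 2 * canonicalHeight P :=
  quad_zsmul canonicalHeight_parallelogram n P

theorem canonicalHeight_nonneg (P : MW E) : 0 ≤ canonicalHeight P := by
  obtain ⟨C, hC⟩ := exists_approx_parallelogram E
  exact tateLimit_nonneg hC naiveHeight_nonneg P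

/-- The canonical height vanishes exactly on the torsion points. -/
theorem canonicalHeight_eq_zero_iff {P : MW E} :
    canonicalHeight P = 0 ↔ P ∈ AddCommGroup.torsion (MW E) := by
  obtain ⟨C, hC⟩ := exists_approx_parallelogram E
  exact tateLimit_eq_zero_iff hC

/-- The canonical height has the Northcott property. -/
theorem finite_canonicalHeight_le (B : ℝ) : {P : MW E | canonicalHeight P ≤ B}.Finite := by
  obtain ⟨C, hC⟩ := exists_approx_parallelogram E
  exact finite_tateLimit_le hC B

omit [E.IsElliptic] in
theorem heightPairing_comm (P Q : MW E) : heightPairing P Q = heightPairing Q P :=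
  quadPairing_comm P Q

theorem heightPairing_self (P : MW E) : heightPairing P P = canonicalHeight P :=
  quadPairing_self canonicalHeight_parallelogram P

theorem heightPairing_add_left (P Q R : MW E) :
    heightPairing (P + Q) R = heightPairing P R + heightPairing Q R :=
  quadPairing_add_left canonicalHeight_parallelogram P Q R

theorem heightPairing_add_right (P Q R : MW E) :
    heightPairing P (Q + R) = heightPairing P Q + heightPairing P R :=
  quadPairing_add_right canonicalHeight_parallelogram P Q R

/-- `E(ℚ)_tors` is finite. -/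
instance finite_torsion_MW : Finite (AddCommGroup.torsion (MW E)) := by
  obtain ⟨C, hC⟩ := exists_approx_parallelogram E
  exact AddCommGroup.finite_torsion_of_descent' hC

theorem card_torsion_MW_ne_zero : Nat.card (AddCommGroup.torsion (MW E)) ≠ 0 :=
  Nat.card_pos.ne'

/-- The regulator does not depend on the choice of the basis of `E(ℚ)/E(ℚ)_tors`. -/
theorem IsRegulator.unique {R₁ R₂ : ℝ} (h₁ : IsRegulator E R₁) (h₂ : IsRegulator E R₂) :
    R₁ = R₂ := by
  obtain ⟨n, P, ⟨b, hb⟩, rfl⟩ := h₁
  obtain ⟨m, P', ⟨b', hb'⟩, rfl⟩ := h₂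
  obtain rfl : n = m := by
    simpa using Fintype.card_congr (b.indexEquiv b')
  exact det_gram_eq canonicalHeight_parallelogram P' P b' b hb' hb

omit [E.IsElliptic] in
/-- The number of elements of a basis of `E(ℚ)/E(ℚ)_tors` is the rank of `E(ℚ)`. -/
theorem IsBasisModTorsion.rank_eq {n : ℕ} {P : Fin n → MW E} (h : IsBasisModTorsion P) :
    Module.rank ℤ (MW E) = (n : Cardinal) := by
  obtain ⟨b, -⟩ := h
  rw [← rank_quotient_torsion, rank_eq_card_basis b]
  simp

omit [E.IsElliptic] in
/-- In rank `0` the regulator is `1`. -/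
theorem IsRegulator.eq_one_of_rank_eq_zero {R : ℝ} (h : IsRegulator E R)
    (hr : Module.rank ℤ (MW E) = ((0 : ℕ) : Cardinal)) : R = 1 := by
  obtain ⟨n, P, hP, rfl⟩ := h
  obtain rfl : n = 0 := by
    have := hP.rank_eq
    rw [hr] at this
    exact (Nat.cast_injective this).symm
  exact Matrix.det_isEmpty

/-- In rank `1` the regulator is the canonical height of a generator modulo torsion; it is
positive. -/
theorem IsRegulator.pos_of_rank_eq_one {R : ℝ} (h : IsRegulator E R)
    (hr : Module.rank ℤ (MW E) = ((1 : ℕ) : Cardinal)) : 0 < R := by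
  obtain ⟨n, P, hP, rfl⟩ := h
  obtain rfl : n = 1 := by
    have := hP.rank_eq
    rw [hr] at this
    exact (Nat.cast_injective this).symm
  obtain ⟨b, hb⟩ := hP
  rw [Matrix.det_fin_one, Matrix.of_apply, heightPairing_self]
  refine lt_of_le_of_ne (canonicalHeight_nonneg _) (Ne.symm fun h0 => ?_)
  have := canonicalHeight_eq_zero_iff.1 h0
  rw [← QuotientAddGroup.eq_zero_iff, ← hb] at this
  exact b.ne_zero 0 this

/-- In rank at most `1` (the range of `Statement`) the regulator is positive. -/
theorem IsRegulator.pos_of_rank_le_one {R : ℝ} (h : IsRegulator E R) {r : ℕ} (hr1 : r ≤ 1)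
    (hr : Module.rank ℤ (MW E) = (r : Cardinal)) : 0 < R := by
  interval_cases r
  · rw [h.eq_one_of_rank_eq_zero hr]; exact one_pos
  · exact h.pos_of_rank_eq_one hr

end Elliptic

end

end Claimed.Open.R002
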