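import Claimed.Open.R002.SanityE5Selmer
import Claimed.Open.R002.SanityHeight

/-!
# Sanity, part E5.R: `E₅(ℚ)` is finitely generated of rank `1`, and `Ш(E₅/ℚ)[2^∞] = 0`

`SanityE5Selmer.lean` shows that the hypothesis of `MainStatement` is met at `(E₅, q = 2, r = 1)`,
`E₅ : y² = x³ - 25 x`.  Here two clauses of its conclusion are proved at this point, without any hypothesis:

* `rank_MW_E₅ : Module.rank ℤ (MW E₅) = 1`;
* `exists_isRegulator_E₅ : ∃ R, IsRegulator E₅ R ∧ 0 < R` (a basis of `E₅(ℚ)/E₅(ℚ)_tors` exists: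
  `exists_isBasisModTorsion_E₅`);

and `sha_E₅_primaryTorsion_two : primaryTorsion 2 (Sha E₅) = ⊥`, in accordance with `#Ш(E₅/ℚ) = 1` in the tables.

The proof is the Mordell–Weil theorem for this curve:
* the complete `2`-descent `two_descent₅`, applied to the Kummer cocycle of a rational point, gives
  `E₅(ℚ) = ⟨P⟩ + E₅(ℚ)[2] + 2 E₅(ℚ)`, `P = (-4, 6)` (`weak_mordellWeil_E₅`), so `E₅(ℚ)/2E₅(ℚ)` is finite;
* Mathlib's descent theorem `AddCommGroup.fg_of_descent'` with the naive height of `Statement.lean` (approximate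
  parallelogram law and Northcott property: `SanityHeight.lean`) gives that `E₅(ℚ)` is finitely generated (`fg_MW_E₅`);
* `E₅(ℚ)/tors` is then free of finite rank `n`; every element is a multiple of `P` modulo `2`, so `n ≤ 1`;
* `P` is not a torsion point (`not_isOfFinAddOrder_P₅`, `mwP₅_notMem_torsion`, `canonicalHeight_mwP₅_pos`), so `n ≠ 0`.

Not proved here: the finiteness of `Ш(E₅/ℚ)`, the value of the regulator, the torsion subgroup of `E₅(ℚ)`.
-/

set_option autoImplicit false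

namespace Claimed.Open.R002

open WeierstrassCurve
open scoped Classical

noncomputable section

attribute [-instance] DivisionRing.toRatAlgebra

/-! ## 1. Pure algebra -/

/-- A free abelian group in which every element is a multiple of `p` modulo `2` has rank at most `1`. -/
theorem e5r_card_le_one {M : Type*} [AddCommGroup M] [Module ℤ M] {n : ℕ}
    (b : Module.Basis (Fin n) ℤ M) (p : M)
    (h : ∀ x : M, ∃ (k : ℕ) (y : M), x = k • p + 2 • y) : n ≤ 1 := by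
  by_contra hn
  have hn2 : 2 ≤ n := by omega
  let i : Fin n := ⟨0, by omega⟩
  let j : Fin n := ⟨1, by omega⟩
  have hij : i ≠ j := by
    intro e
    have := congrArg Fin.val e
    simp [i, j] at this
  obtain ⟨k1, y1, h1⟩ := h (b i)
  obtain ⟨k2, y2, h2⟩ := h (b j)
  have c11 := congrArg (fun x => ((b.coord i x : ℤ) : ZMod 2)) h1
  have c12 := congrArg (fun x => ((b.coord j x : ℤ) : ZMod 2)) h1
  have c22 := congrArg (fun x => ((b.coord j x : ℤ) : ZMod 2)) h2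
  have e2 : ((2 : ℕ) : ZMod 2) = 0 := by decide
  simp only [map_add, map_nsmul, Module.Basis.coord_apply, Module.Basis.repr_self,
    Finsupp.single_eq_same, Finsupp.single_eq_of_ne hij.symm,
    Int.cast_add, Int.cast_one, Int.cast_zero, nsmul_eq_mul, Int.cast_mul, Int.cast_natCast,
    e2, zero_mul, add_zero] at c11 c12 c22
  generalize ((b.repr p i : ℤ) : ZMod 2) = u at *
  generalize ((b.repr p j : ℤ) : ZMod 2) = v at *
  generalize ((k1 : ℕ) : ZMod 2) = a1 at *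
  generalize ((k2 : ℕ) : ZMod 2) = a2 at *
  clear h1 h2 h
  revert c11 c12 c22
  revert u v a1 a2
  decide

/-- A finitely generated torsion-free abelian group has a finite basis, for any `ℤ`-module structure. -/
theorem e5r_exists_basis (M : Type*) [AddCommGroup M] [inst : Module ℤ M] [IsAddTorsionFree M]
    [AddGroup.FG M] : ∃ n : ℕ, Nonempty (Module.Basis (Fin n) ℤ M) := by
  obtain rfl : inst = AddCommGroup.toIntModule M := Subsingleton.elim _ _
  have : Module.Finite ℤ M := Module.Finite.iff_addGroup_fg.mpr inferInstance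
  have : Module.Free ℤ M := Module.free_of_finite_type_torsion_free'
  exact ⟨_, ⟨Module.finBasis ℤ M⟩⟩

/-! ## 2. From `E(ℚ)` to `E(ℚ̄)` -/

/-- The inclusion `E(ℚ) → E(ℚ̄)`. -/
def mwToBar (E : WeierstrassCurve ℚ) : MW E →+ PointsBar E ℚ :=
  Affine.Point.baseChange (W' := E) ℚ (AlgebraicClosure ℚ)

theorem mwToBar_injective (E : WeierstrassCurve ℚ) : Function.Injective (mwToBar E) :=
  Affine.Point.map_injective (W' := E) _

theorem mem_rationalPoints_iff_mwToBar (E : WeierstrassCurve ℚ) (Q : PointsBar E ℚ) :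
    Q ∈ rationalPoints E ℚ ↔ ∃ Q₀ : MW E, mwToBar E Q₀ = Q := Iff.rfl

theorem mwToBar_mem (E : WeierstrassCurve ℚ) (Q : MW E) : mwToBar E Q ∈ rationalPoints E ℚ :=
  ⟨Q, rfl⟩

theorem exists_mwToBar_eq {E : WeierstrassCurve ℚ} {Q : PointsBar E ℚ}
    (h : ∀ τ : GalBar ℚ, τ • Q = Q) : ∃ Q₀ : MW E, mwToBar E Q₀ = Q :=
  mem_rationalPoints_of_fixed E ℚ Q h

theorem smul_mwToBar (E : WeierstrassCurve ℚ) (τ : GalBar ℚ) (Q : MW E) :
    τ • mwToBar E Q = mwToBar E Q :=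
  smul_eq_of_mem_rationalPoints E ℚ (mwToBar_mem E Q) τ

/-! ## 3. The weak Mordell–Weil theorem for `E₅`, from the complete `2`-descent -/

/-- The point `(-4, 6)` as an element of `E₅(ℚ)`. -/
def mwP₅ : MW E₅ := pt₅ (F := ℚ) (-4) 6 (by norm_num)

theorem mwP₅_eq : ∃ h, mwP₅ = Affine.Point.some (-4) 6 h := ⟨_, rfl⟩

theorem mwToBar_mwP₅ : mwToBar E₅ mwP₅ = P₅ := rfl

theorem exists_P₅ : ∃ P₀ : MW E₅, mwToBar E₅ P₀ = P₅ := ⟨mwP₅, mwToBar_mwP₅⟩

/-- **Weak Mordell–Weil for `E₅`**: `E₅(ℚ) = ⟨P⟩ + E₅(ℚ)[2] + 2 E₅(ℚ)`. -/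
theorem weak_mordellWeil_E₅ {P₀ : MW E₅} (hP₀ : mwToBar E₅ P₀ = P₅) (Q : MW E₅) :
    ∃ (b : ℕ) (T Q₁ : MW E₅), T + T = 0 ∧ Q = b • P₀ + T + 2 • Q₁ := by
  obtain ⟨R', hR'⟩ := exists_half₅ (mwToBar E₅ Q)
  obtain ⟨R, T, b, hT, hR, hξ⟩ := two_descent₅ (cob E₅ ℚ R')
    (fun τ => by
      rw [cob_apply]
      have : τ • R' - R' + (τ • R' - R') = τ • (R' + R') - (R' + R') := by
        rw [smul_add]; abel
      rw [this, hR', smul_mwToBar, sub_self])
    (LocTriv.cob E₅ R')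
  have hfix : ∀ τ : GalBar ℚ, τ • (R' - R) = R' - R := fun τ => by
    have h := hξ τ
    rw [cob_apply] at h
    rw [smul_sub]
    have : τ • R' - τ • R = (τ • R' - R') - (τ • R - R) + (R' - R) := by abel
    rw [this, h, sub_self, zero_add]
  obtain ⟨Q₁, hQ₁⟩ := exists_mwToBar_eq hfix
  have hTeq : T = mwToBar E₅ (Q - b • P₀ - 2 • Q₁) := by
    rw [map_sub, map_sub, map_nsmul, map_nsmul, hP₀, hQ₁, ← hR', two_nsmul]
    have : T = (R + R) - b • P₅ := by rw [hR]; abel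
    rw [this]; abel
  refine ⟨b, Q - b • P₀ - 2 • Q₁, Q₁, ?_, by abel⟩
  apply mwToBar_injective E₅
  rw [map_add, ← hTeq, hT, map_zero]

/-! ## 4. `P` has infinite order -/

/-- `P = (-4, 6)` is not a torsion point: there is no rational point of order `4`, and `P + T` is not the double of a
rational point for `T ∈ E₅[2]`. -/
theorem not_isOfFinAddOrder_P₅ {P₀ : MW E₅} (hP₀ : mwToBar E₅ P₀ = P₅) : ¬ IsOfFinAddOrder P₀ := by
  intro h
  obtain ⟨k, hk, hkP⟩ := isOfFinAddOrder_iff_nsmul_eq_zero.1 h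
  obtain ⟨a, m, ⟨j, rfl⟩, rfl⟩ := Nat.exists_eq_two_pow_mul_odd hk.ne'
  have hfix : ∀ (c : ℕ) (τ : GalBar ℚ), τ • (c • P₅) = c • P₅ := fun c τ => by
    rw [smul_nsmul_comm, smul_P₅]
  have h0 : 2 ^ a • ((2 * j + 1) • P₅) = 0 := by
    rw [← mul_nsmul', ← hP₀, ← map_nsmul, hkP, map_zero]
  have hS := two_torsion_of_rat₅ a _ (hfix _) h0
  refine P₅_add_ne_double ((j + 1) • P₅) ((2 * j + 1) • P₅) (hfix _) hS ?_
  rw [← two_nsmul, ← mul_nsmul', add_comm P₅, ← succ_nsmul]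
  congr 1

/-- The point `(-4, 6)` of `E₅(ℚ)` has infinite order. -/
theorem mwP₅_notMem_torsion : mwP₅ ∉ AddCommGroup.torsion (MW E₅) :=
  not_isOfFinAddOrder_P₅ mwToBar_mwP₅

/-- The canonical height of `Statement.lean` is positive at `(-4, 6)`. -/
theorem canonicalHeight_mwP₅_pos : 0 < canonicalHeight mwP₅ :=
  lt_of_le_of_ne (canonicalHeight_nonneg _)
    (Ne.symm fun h => mwP₅_notMem_torsion (canonicalHeight_eq_zero_iff.1 h))

/-! ## 5. Mordell–Weil for `E₅` -/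

theorem mem_torsion_of_add_self {G : Type*} [AddCommGroup G] {T : G} (hT : T + T = 0) :
    T ∈ AddCommGroup.torsion G :=
  isOfFinAddOrder_iff_nsmul_eq_zero.2 ⟨2, by norm_num, by rw [two_nsmul]; exact hT⟩

/-- `E₅(ℚ) / 2 E₅(ℚ)` is finite. -/
theorem finiteIndex_two_MW_E₅ : (nsmulAddMonoidHom (α := MW E₅) 2).range.FiniteIndex := by
  obtain ⟨P₀, hP₀⟩ := exists_P₅
  have hsurj : Function.Surjective (fun x : Fin 2 × AddCommGroup.torsion (MW E₅) =>
      (QuotientAddGroup.mk (x.1.1 • P₀ + x.2.1) :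
        MW E₅ ⧸ (nsmulAddMonoidHom (α := MW E₅) 2).range)) := by
    intro x
    obtain ⟨Q, rfl⟩ := QuotientAddGroup.mk_surjective x
    obtain ⟨b, T, Q₁, hT, hQ⟩ := weak_mordellWeil_E₅ hP₀ Q
    refine ⟨(⟨b % 2, Nat.mod_lt _ (by norm_num)⟩, ⟨T, mem_torsion_of_add_self hT⟩), ?_⟩
    rw [QuotientAddGroup.eq]
    refine ⟨(b / 2) • P₀ + Q₁, ?_⟩
    have hb : b • P₀ = (b % 2) • P₀ + 2 • ((b / 2) • P₀) := by
      rw [← mul_nsmul', ← add_nsmul, Nat.mod_add_div]
    show 2 • ((b / 2) • P₀ + Q₁) = -((b % 2) • P₀ + T) + Q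
    rw [hQ, hb, nsmul_add]
    abel
  have : Finite (MW E₅ ⧸ (nsmulAddMonoidHom (α := MW E₅) 2).range) := Finite.of_surjective _ hsurj
  exact AddSubgroup.finiteIndex_of_finite_quotient

/-- **The Mordell–Weil theorem for `E₅ : y² = x³ - 25 x`.** -/
instance fg_MW_E₅ : AddGroup.FG (MW E₅) := by
  obtain ⟨C, hC⟩ := exists_approx_parallelogram E₅
  exact AddCommGroup.fg_of_descent' finiteIndex_two_MW_E₅ naiveHeight_nonneg hC

/-- `E₅(ℚ)/E₅(ℚ)_tors` is free of rank `1`. -/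
theorem exists_isBasisModTorsion_E₅ : ∃ Q : Fin 1 → MW E₅, IsBasisModTorsion Q := by
  obtain ⟨P₀, hP₀⟩ := exists_P₅
  obtain ⟨n, ⟨b⟩⟩ := e5r_exists_basis (MW E₅ ⧸ AddCommGroup.torsion (MW E₅))
  have h1 : n ≤ 1 := by
    refine e5r_card_le_one b (QuotientAddGroup.mk P₀) fun x => ?_
    obtain ⟨Q, rfl⟩ := QuotientAddGroup.mk_surjective x
    obtain ⟨k, T, Q₁, hT, hQ⟩ := weak_mordellWeil_E₅ hP₀ Q
    refine ⟨k, QuotientAddGroup.mk Q₁, ?_⟩
    have hT0 : (QuotientAddGroup.mk T : MW E₅ ⧸ AddCommGroup.torsion (MW E₅)) = 0 :=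
      (QuotientAddGroup.eq_zero_iff T).2 (mem_torsion_of_add_self hT)
    rw [hQ, QuotientAddGroup.mk_add, QuotientAddGroup.mk_add, hT0, add_zero,
      QuotientAddGroup.mk_nsmul, QuotientAddGroup.mk_nsmul]
  have h0 : n ≠ 0 := by
    rintro rfl
    have hsub : Subsingleton (MW E₅ ⧸ AddCommGroup.torsion (MW E₅)) :=
      b.repr.toEquiv.subsingleton
    have : (QuotientAddGroup.mk P₀ : MW E₅ ⧸ AddCommGroup.torsion (MW E₅)) = 0 :=
      Subsingleton.elim _ _
    exact not_isOfFinAddOrder_P₅ hP₀ ((QuotientAddGroup.eq_zero_iff P₀).1 this)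
  obtain rfl : n = 1 := by omega
  choose Q hQ using fun i => QuotientAddGroup.mk_surjective (b i)
  exact ⟨Q, b, fun i => (hQ i).symm⟩

/-- **`rank E₅(ℚ) = 1`**: the clause `rank E(ℚ) = r` of `MainStatement` at `(E₅, q = 2, r = 1)`. -/
theorem rank_MW_E₅ : Module.rank ℤ (MW E₅) = ((1 : ℕ) : Cardinal) := by
  obtain ⟨Q, hQ⟩ := exists_isBasisModTorsion_E₅
  exact hQ.rank_eq

/-- **The regulator of `E₅` exists** (and is positive): the clause `∃ R, IsRegulator E R` of `MainStatement` at `E₅`. -/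
theorem exists_isRegulator_E₅ : ∃ R, IsRegulator E₅ R ∧ 0 < R := by
  obtain ⟨Q, hQ⟩ := exists_isBasisModTorsion_E₅
  have h : IsRegulator E₅ (Matrix.of fun i j => heightPairing (Q i) (Q j)).det := ⟨1, Q, hQ, rfl⟩
  exact ⟨_, h, h.pos_of_rank_eq_one rank_MW_E₅⟩

/-! ## 6. `Ш(E₅/ℚ)[2^∞] = 0` -/

/-- **The `2`-primary part of `Ш(E₅/ℚ)` is trivial**: a class of `Ш(E₅/ℚ)` killed by a power of `2` is zero.  (An everywhere
locally trivial cocycle with values in `E₅[2ⁿ]` is a multiple of a Kummer cocycle of `P`, up to a coboundary: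
`descent_induction_rankOne`; and a Kummer cocycle is a coboundary in `E₅(ℚ̄)`.) -/
theorem sha_E₅_two_primary {c : WC E₅ ℚ} (hc : c ∈ Sha E₅) {n : ℕ} (h : 2 ^ n • c = 0) : c = 0 := by
  obtain ⟨ξ, rfl⟩ := H1.mk_surjective c
  rw [mem_Sha_iff] at hc
  rw [← map_nsmul, H1.mk_eq_zero_iff] at h
  obtain ⟨R, hR⟩ := h
  obtain ⟨R', hR'⟩ := exists_div_two_pow_of_half exists_half₅ n R
  have hξ : ∀ τ, (2 ^ n • ξ).1 τ = 2 ^ n • ξ.1 τ := fun τ => rfl
  obtain ⟨Rc, h0, hs⟩ := exists_chain_of_half exists_half₅ P₅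
  obtain ⟨a, k, T, -, hT⟩ := descent_induction_rankOne exists_half₅ two_descent₅ h0 hs n
    (ξ - cob E₅ ℚ R')
    (fun τ => by
      show 2 ^ n • (ξ.1 τ - (τ • R' - R')) = 0
      rw [nsmul_sub, ← hξ, hR, nsmul_sub, ← smul_nsmul_comm, hR', sub_self])
    (hc.sub E₅ (LocTriv.cob E₅ R'))
  rw [H1.mk_eq_zero_iff]
  refine ⟨R' + (a • Rc k + T), fun τ => ?_⟩
  have : ξ.1 τ - (τ • R' - R') = a • (τ • Rc k - Rc k) + (τ • T - T) := hT τ
  rw [smul_add, smul_add, smul_nsmul_comm]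
  calc ξ.1 τ = (ξ.1 τ - (τ • R' - R')) + (τ • R' - R') := by abel
    _ = τ • R' + (a • τ • Rc k + τ • T) - (R' + (a • Rc k + T)) := by
      rw [this, nsmul_sub]; abel

/-- The same with the definition `primaryTorsion` of `Statement.lean`: `Ш(E₅/ℚ)[2^∞] = 0`. -/
theorem sha_E₅_primaryTorsion_two : primaryTorsion 2 (Sha E₅) = ⊥ := by
  rw [eq_bot_iff]
  rintro ⟨c, hc⟩ ⟨n, hn⟩
  rw [AddSubgroup.mem_bot]
  apply Subtype.ext
  exact sha_E₅_two_primary hc (congrArg Subtype.val hn)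

/-- **`MainStatement` at `(E₅, q = 2, r = 1)`**: the hypothesis `s₂(E₅) = 1` holds, and so do, without any hypothesis, the
clauses `rank E₅(ℚ) = 1` and `∃ R, IsRegulator E₅ R` of the conclusion; and `Ш(E₅/ℚ)[2^∞] = 0`, in accordance with
`#Ш(E₅/ℚ) = 1`. -/
theorem mainStatement_clauses_E₅ :
    selmerCorank E₅ 2 = ((1 : ℕ) : Cardinal) ∧ Module.rank ℤ (MW E₅) = ((1 : ℕ) : Cardinal) ∧
      (∃ R, IsRegulator E₅ R) ∧ primaryTorsion 2 (Sha E₅) = ⊥ := by
  obtain ⟨R, hR, -⟩ := exists_isRegulator_E₅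
  exact ⟨by rw [selmerCorank_E₅_two, Nat.cast_one], rank_MW_E₅, ⟨R, hR⟩, sha_E₅_primaryTorsion_two⟩

end

end Claimed.Open.R002
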