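import Claimed.Open.R002.SanityTamagawaGood
import Claimed.Open.R002.SanityE5Curve

/-!
# Sanity, part E5.C: the Tamagawa product of `E₅ : y² = x³ - 25 x` is `c₂ · c₅`

The discriminant of `E₅` is `10⁶`, so `c_p(E₅) = 1` for every prime `p ≠ 2, 5` (`tamagawaNumber_E₅_of_ne`) and the product
`∏_ℓ c_ℓ(E₅)` over all primes of `Statement.lean` has two factors (`tamagawaProduct_E₅`).
The two numbers `c₂(E₅)`, `c₅(E₅)` are not evaluated.
-/

set_option autoImplicit false

namespace Claimed.Open.R002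

open WeierstrassCurve
open scoped Classical

lemma e5c_Δ : E₅.Δ = 1000000 := by
  simp [WeierstrassCurve.Δ, WeierstrassCurve.b₂, WeierstrassCurve.b₄, WeierstrassCurve.b₆,
    WeierstrassCurve.b₈]
  norm_num

lemma badNumber_E₅ : badNumber E₅ = 1000000 := by
  simp [badNumber, e5c_Δ]

lemma e5c_eq_of_dvd {p : ℕ} (hp : p.Prime) (h : p ∣ badNumber E₅) : p = 2 ∨ p = 5 := by
  rw [badNumber_E₅, show (1000000 : ℕ) = 2 ^ 6 * 5 ^ 6 by norm_num] at h
  rcases (Nat.Prime.dvd_mul hp).1 h with h | h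
  · exact Or.inl ((Nat.prime_dvd_prime_iff_eq hp Nat.prime_two).mp (hp.dvd_of_dvd_pow h))
  · exact Or.inr ((Nat.prime_dvd_prime_iff_eq hp Nat.prime_five).mp (hp.dvd_of_dvd_pow h))

/-- `c_p(E₅) = 1` for every prime `p ≠ 2, 5`. -/
theorem tamagawaNumber_E₅_of_ne (p : ℕ) [Fact p.Prime] (h2 : p ≠ 2) (h5 : p ≠ 5) :
    tamagawaNumber E₅ p = 1 := by
  apply tamagawaNumber_eq_one_of_not_dvd
  intro h
  rcases e5c_eq_of_dvd Fact.out h with h | h
  · exact h2 h
  · exact h5 h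

/-- `∏_ℓ c_ℓ(E₅) = c₂(E₅) · c₅(E₅)`. -/
theorem tamagawaProduct_E₅ :
    tamagawaProduct E₅ =
      (haveI : Fact (Nat.Prime 2) := ⟨Nat.prime_two⟩; tamagawaNumber E₅ 2) *
        (haveI : Fact (Nat.Prime 5) := ⟨Nat.prime_five⟩; tamagawaNumber E₅ 5) := by
  let two : Nat.Primes := ⟨2, Nat.prime_two⟩
  let five : Nat.Primes := ⟨5, Nat.prime_five⟩
  have hne : two ≠ five := fun h => by
    have := congrArg Subtype.val h
    exact absurd this (by norm_num [two, five])
  rw [tamagawaProduct_eq_prod E₅ {two, five}]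
  · rw [Finset.prod_pair hne]
    rfl
  · intro ℓ hℓ
    rcases e5c_eq_of_dvd ℓ.2 hℓ with h | h
    · exact Finset.mem_insert.mpr (Or.inl (Subtype.ext h))
    · exact Finset.mem_insert.mpr (Or.inr (Finset.mem_singleton.mpr (Subtype.ext h)))

end Claimed.Open.R002
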