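import Claimed.Open.R002.SanityE5TamagawaTwo
import Claimed.Open.R002.SanityE5Tamagawa

/-!
# Sanity, part E5.C5: `c₅(y² = x³ - 25 x) = 4`, hence `∏_ℓ c_ℓ(E₅) = 8`

The curve `E₅ : y² = x³ - 25 x` has additive reduction at `5` (Kodaira type `I₀*`), with Tamagawa number `4`:

* `pt_mem_E0Set_five_iff`: a point `(x, y) ∈ E₅(ℚ₅)` has nonsingular reduction iff `|x|₅ ≥ 1` (the singular point is `(0, 0)`);
* `evenAtSubgroup`: for `e = 0, 5` the points with `v₅(x - e)` even, together with `O`, form a subgroup (`EvenAt.add`); both contain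
  the points of nonsingular reduction; `(0,0)` is not in the second one, `(±5, 0)` are not in the first one;
* `exists_add_mem_E0Set_five`: every point becomes a point of nonsingular reduction after adding one of `O, (0,0), (5,0), (-5,0)`;
* `tamagawaNumber_E₅_five`, `tamagawaProduct_E₅_eq : tamagawaProduct E₅ = 8`.
-/

set_option autoImplicit false
set_option linter.unusedSectionVars false

namespace Claimed.Open.R002

open WeierstrassCurve
open scoped Classical

theorem e5f_fact : Fact (Nat.Prime 5) := ⟨Nat.prime_five⟩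

attribute [local instance] e5f_fact

section Five

lemma residue_five_eq_zero : (5 : IsLocalRing.ResidueField ℤ_[5]) = 0 := by
  have h : IsLocalRing.residue ℤ_[5] 5 = 0 := by
    rw [IsLocalRing.residue_eq_zero_iff, IsLocalRing.mem_maximalIdeal]
    exact_mod_cast PadicInt.p_nonunit (p := 5)
  rw [← h, map_ofNat]

lemma residue_eq_zero_iff_five (x : ℤ_[5]) :
    IsLocalRing.residue ℤ_[5] x = 0 ↔ ‖(x : ℚ_[5])‖ < 1 := by
  rw [IsLocalRing.residue_eq_zero_iff, IsLocalRing.mem_maximalIdeal, PadicInt.mem_nonunits,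
    PadicInt.norm_def]

/-- A point `(x, y)` of `E₅(ℚ₅)` has nonsingular reduction iff `|x|₅ ≥ 1`. -/
theorem pt_mem_E0Set_five_iff {x y : ℚ_[5]} (h : y ^ 2 = x ^ 3 - 25 * x) :
    pt₅ x y h ∈ E0Set ℤ_[5] (E₅⁄ℚ_[5]) ↔ 1 ≤ ‖x‖ := by
  have hred : (E₅⁄ℚ_[5]).reduction ℤ_[5] = (E₅model ℤ_[5]).map (IsLocalRing.residue ℤ_[5]) := by
    rw [reduction, e5p_integralModel]
  have h5 := residue_five_eq_zero
  have n25 : ‖(25 : ℚ_[5])‖ ≤ 1 := by
    have := Padic.norm_int_le_one (p := 5) (25 : ℤ)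
    exact_mod_cast this
  unfold pt₅
  rw [some_mem_E0Set_iff, hred]
  constructor
  · intro H
    by_contra hlt
    rw [not_le] at hlt
    have hx : ‖x‖ ≤ 1 := hlt.le
    have hy : ‖y‖ ≤ 1 := by
      have h3 : ‖y‖ ^ 2 ≤ 1 := by
        rw [← norm_pow, h]
        rw [sub_eq_add_neg]
        refine (Padic.nonarchimedean _ _).trans (max_le ?_ ?_)
        · rw [norm_pow]
          exact pow_le_one₀ (norm_nonneg _) hx
        · rw [norm_neg, norm_mul]
          exact mul_le_one₀ n25 (norm_nonneg _) hx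
      exact (pow_le_one_iff_of_nonneg (norm_nonneg _) (by norm_num)).mp h3
    have := H ⟨x, hx⟩ ⟨y, hy⟩ rfl rfl
    rw [Affine.nonsingular_iff'] at this
    have hx0 : IsLocalRing.residue ℤ_[5] ⟨x, hx⟩ = 0 := (residue_eq_zero_iff_five ⟨x, hx⟩).mpr hlt
    have he := this.1
    rw [Affine.equation_iff] at he
    simp only [E₅model, WeierstrassCurve.map, hx0] at he
    simp only [map_zero] at he
    have hY2 : (IsLocalRing.residue ℤ_[5] ⟨y, hy⟩) ^ 2 = 0 := by linear_combination he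
    have hY : IsLocalRing.residue ℤ_[5] ⟨y, hy⟩ = 0 := by simpa using hY2
    rcases this.2 with h' | h'
    · apply h'
      simp only [E₅model, WeierstrassCurve.map, hx0]
      simp only [map_zero, map_neg, map_ofNat]
      linear_combination (5 : IsLocalRing.ResidueField ℤ_[5]) * h5
    · apply h'
      simp only [E₅model, WeierstrassCurve.map, hY]
      simp only [map_zero]
      ring
  · intro hle x₀ y₀ hx hy
    subst hx hy
    rw [Affine.nonsingular_iff']
    constructor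
    · have h1 : ((E₅model ℤ_[5])⁄ℚ_[5]).toAffine.Equation (algebraMap ℤ_[5] ℚ_[5] x₀)
          (algebraMap ℤ_[5] ℚ_[5] y₀) := by
        rw [← e5p_baseChange_eq ℤ_[5] ℚ_[5], E₅_equation_iff]; exact h
      have h2' : (E₅model ℤ_[5]).toAffine.Equation x₀ y₀ :=
        (Affine.map_equation (W := (E₅model ℤ_[5]).toAffine)
          (IsFractionRing.injective ℤ_[5] ℚ_[5]) x₀ y₀).mp h1
      exact Affine.Equation.map (IsLocalRing.residue ℤ_[5]) h2'
    · left
      have hne : IsLocalRing.residue ℤ_[5] x₀ ≠ 0 := fun e =>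
        absurd ((residue_eq_zero_iff_five x₀).mp e) (not_lt.mpr hle)
      simp only [E₅model, WeierstrassCurve.map]
      simp only [map_zero, map_neg, map_ofNat]
      intro e
      apply pow_ne_zero 2 hne
      set X := IsLocalRing.residue ℤ_[5] x₀
      linear_combination (-2 : IsLocalRing.ResidueField ℤ_[5]) * e + (10 - X ^ 2) * h5

/-! ### Valuations of constants -/

lemma val_five : (5 : ℚ_[5]).valuation = 1 := by
  have := Padic.valuation_p (p := 5)
  exact_mod_cast this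

lemma val_neg_five : (-5 : ℚ_[5]).valuation = 1 := by
  have h : (-5 : ℚ_[5]) * (-5) = 5 * 5 := by ring
  have := congrArg Padic.valuation h
  rw [Padic.valuation_mul (by norm_num) (by norm_num), Padic.valuation_mul (by norm_num) (by norm_num),
    val_five] at this
  omega

lemma val_neg_twentyfive : (-25 : ℚ_[5]).valuation = 2 := by
  have h : (-25 : ℚ_[5]) = (-5) * 5 := by ring
  rw [h, Padic.valuation_mul (by norm_num) (by norm_num), val_five, val_neg_five]
  rfl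

lemma val_two_five : (2 : ℚ_[5]).valuation = 0 := by simp

lemma val_div_five {a b : ℚ_[5]} (ha : a ≠ 0) (hb : b ≠ 0) :
    (a / b).valuation = a.valuation - b.valuation := by
  have h : a / b * b = a := div_mul_cancel₀ a hb
  have := congrArg Padic.valuation h
  rw [Padic.valuation_mul (div_ne_zero ha hb) hb] at this
  omega

lemma val_fifty_five : (50 : ℚ_[5]).valuation = 2 := by
  have h : (50 : ℚ_[5]) = 2 * (5 * 5) := by ring
  rw [h, Padic.valuation_mul (by norm_num) (by norm_num), Padic.valuation_mul (by norm_num) (by norm_num),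
    val_five, val_two_five]
  rfl

lemma val_ten_five : (10 : ℚ_[5]).valuation = 1 := by
  have h : (10 : ℚ_[5]) = 2 * 5 := by ring
  rw [h, Padic.valuation_mul (by norm_num) (by norm_num), val_five, val_two_five]
  rfl

/-! ### The two subgroups -/

/-- What is used of a root `e` of `x³ - 25 x`; `c = 3 e² - 25`. -/
structure E5Root (e c : ℚ_[5]) : Prop where
  root : e ^ 3 = 25 * e
  c_ne : c ≠ 0
  c_even : Even c.valuation
  mul : ∀ {x₁ y₁ x₂ y₂ : ℚ_[5]}, y₁ ^ 2 = x₁ ^ 3 - 25 * x₁ → y₂ ^ 2 = x₂ ^ 3 - 25 * x₂ → x₁ ≠ x₂ →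
    ∃ w, (x₁ - e) * (x₂ - e) * ((((y₁ - y₂) / (x₁ - x₂)) ^ 2 - x₁ - x₂) - e) = w ^ 2
  dbl : ∀ {x y : ℚ_[5]}, y ^ 2 = x ^ 3 - 25 * x → y ≠ 0 → ∃ g, g1₅ x y ^ 2 - e = g ^ 2
  tor : ∀ {x y : ℚ_[5]}, y ^ 2 = x ^ 3 - 25 * x → x ≠ e →
    ((((0 - y) / (e - x)) ^ 2 - e - x) - e) * (x - e) = c

/-- `P = O`, or `P = (x, y)` with `v₅(x - e)` even (`x = e` is allowed). -/
def EvenAt (e : ℚ_[5]) (P : (E₅⁄ℚ_[5]).toAffine.Point) : Prop :=
  P = 0 ∨ ∃ (x y : ℚ_[5]) (h : y ^ 2 = x ^ 3 - 25 * x), P = pt₅ x y h ∧ Even (x - e).valuation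

lemma EvenAt.neg {e : ℚ_[5]} {P : (E₅⁄ℚ_[5]).toAffine.Point} (hP : EvenAt e P) : EvenAt e (-P) := by
  rcases hP with rfl | ⟨x, y, h, rfl, hv⟩
  · exact Or.inl neg_zero
  · exact Or.inr ⟨x, -y, _, neg_pt₅ h, hv⟩

lemma EvenAt.tor_add {e c : ℚ_[5]} (R : E5Root e c) (h0 : (0 : ℚ_[5]) ^ 2 = e ^ 3 - 25 * e)
    {x y : ℚ_[5]} (h : y ^ 2 = x ^ 3 - 25 * x) (hx : e ≠ x) (hv : Even (x - e).valuation) :
    EvenAt e (pt₅ e 0 h0 + pt₅ x y h) := by
  obtain ⟨X, Y, h₃, e3, hX⟩ := add_pt_of_X_ne₅ h0 h hx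
  refine Or.inr ⟨X, Y, h₃, e3, ?_⟩
  have ht := R.tor h (Ne.symm hx)
  rw [← hX] at ht
  have h2 : x - e ≠ 0 := sub_ne_zero.mpr (Ne.symm hx)
  have hXe : X - e ≠ 0 := by
    intro h'
    rw [h', zero_mul] at ht
    exact R.c_ne ht.symm
  have := congrArg Padic.valuation ht
  rw [Padic.valuation_mul hXe h2] at this
  obtain ⟨m, hm⟩ := R.c_even
  obtain ⟨n, hn⟩ := hv
  exact ⟨m - n, by omega⟩

lemma EvenAt.add {e c : ℚ_[5]} (R : E5Root e c) {P Q : (E₅⁄ℚ_[5]).toAffine.Point}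
    (hP : EvenAt e P) (hQ : EvenAt e Q) : EvenAt e (P + Q) := by
  rcases hP with rfl | ⟨x₁, y₁, h₁, rfl, hv1⟩
  · rw [zero_add]; exact hQ
  rcases hQ with rfl | ⟨x₂, y₂, h₂, rfl, hv2⟩
  · rw [add_zero]; exact Or.inr ⟨x₁, y₁, h₁, rfl, hv1⟩
  have hzero : ∀ {x y : ℚ_[5]}, y ^ 2 = x ^ 3 - 25 * x → x - e = 0 → x = e ∧ y = 0 := by
    intro x y h hxe
    have hx' : x = e := sub_eq_zero.mp hxe
    refine ⟨hx', ?_⟩
    have : y ^ 2 = 0 := by rw [h, hx', R.root]; ring
    simpa using this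
  by_cases hx : x₁ = x₂
  · subst hx
    have hyy : (y₁ - y₂) * (y₁ + y₂) = 0 := by linear_combination h₁ - h₂
    rcases mul_eq_zero.mp hyy with e' | e'
    · have e'' : y₁ = y₂ := sub_eq_zero.mp e'
      subst e''
      by_cases hy : y₁ = 0
      · subst hy
        exact Or.inl (pt_add_self_of_y_eq_zero₅ _)
      · obtain ⟨X, Y, h₃, e3, hX⟩ := two_pt₅ h₁ hy
        obtain ⟨g, hg⟩ := R.dbl h₁ hy
        refine Or.inr ⟨X, Y, h₃, e3, ?_⟩
        rw [hX, hg, Padic.valuation_pow]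
        exact ⟨g.valuation, by push_cast; ring⟩
    · have e'' : y₂ = -y₁ := by linear_combination e'
      subst e''
      left
      have := neg_pt₅ h₁
      rw [show pt₅ x₁ (-y₁) h₂ = -pt₅ x₁ y₁ h₁ from this.symm, add_neg_cancel]
  · by_cases h1 : x₁ - e = 0
    · obtain ⟨rfl, rfl⟩ := hzero h₁ h1
      exact EvenAt.tor_add R h₁ h₂ hx hv2
    by_cases h2 : x₂ - e = 0
    · obtain ⟨rfl, rfl⟩ := hzero h₂ h2
      rw [add_comm]
      exact EvenAt.tor_add R h₂ h₁ (Ne.symm hx) hv1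
    obtain ⟨X, Y, h₃, e3, hX⟩ := add_pt_of_X_ne₅ h₁ h₂ hx
    refine Or.inr ⟨X, Y, h₃, e3, ?_⟩
    obtain ⟨w, hw⟩ := R.mul h₁ h₂ hx
    rw [← hX] at hw
    by_cases hXe : X - e = 0
    · rw [hXe]; simp
    · have := congrArg Padic.valuation hw
      rw [Padic.valuation_mul (mul_ne_zero h1 h2) hXe, Padic.valuation_mul h1 h2,
        Padic.valuation_pow] at this
      obtain ⟨m, hm⟩ := hv1
      obtain ⟨n, hn⟩ := hv2
      exact ⟨w.valuation - m - n, by push_cast at this; omega⟩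

/-- The subgroup of the points with `v₅(x - e)` even. -/
noncomputable def evenAtSubgroup {e c : ℚ_[5]} (R : E5Root e c) :
    AddSubgroup (E₅⁄ℚ_[5]).toAffine.Point where
  carrier := {P | EvenAt e P}
  zero_mem' := Or.inl rfl
  add_mem' := EvenAt.add R
  neg_mem' := EvenAt.neg

lemma e5Root_zero : E5Root 0 (-25) where
  root := by ring
  c_ne := by norm_num
  c_even := by rw [val_neg_twentyfive]; exact ⟨1, rfl⟩
  mul := by
    intro x₁ y₁ x₂ y₂ h₁ h₂ hx
    refine ⟨(y₁ * x₂ - y₂ * x₁) / (x₁ - x₂), ?_⟩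
    have hd : x₁ - x₂ ≠ 0 := sub_ne_zero.mpr hx
    simp only [sub_zero]
    field_simp
    linear_combination (x₁ - x₂) * x₂ * h₁ - (x₁ - x₂) * x₁ * h₂
  dbl := fun {x y} _ _ => ⟨g1₅ x y, by ring⟩
  tor := by
    intro x y h hx
    simp only [sub_zero, zero_sub]
    field_simp
    linear_combination h

lemma e5Root_five : E5Root 5 50 where
  root := by norm_num
  c_ne := by norm_num
  c_even := by rw [val_fifty_five]; exact ⟨1, rfl⟩
  mul := fun h₁ h₂ hx => ⟨_, X_sub_five_mul h₁ h₂ hx⟩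
  dbl := fun {x y} h hy => ⟨g2₅ x y, (g2_sq₅ h hy).symm⟩
  tor := by
    intro x y h hx
    have h1 : (5 : ℚ_[5]) - x ≠ 0 := sub_ne_zero.mpr (Ne.symm hx)
    simp only [zero_sub]
    field_simp
    linear_combination (x - 5) * h

/-- On `Y² = X³ - 25 X` over `ℚ₅`, a negative valuation of `X` is even. -/
lemma even_val_X_five {X Y : ℚ_[5]} (h : Y ^ 2 = X ^ 3 - 25 * X) (hX : X ≠ 0)
    (hv : X.valuation < 0) : Even X.valuation := by
  have hm1 : (-25 : ℚ_[5]) ≠ 0 := by norm_num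
  have hX2 : X ^ 2 ≠ 0 := pow_ne_zero 2 hX
  have vX2 : (X ^ 2).valuation = 2 * X.valuation := by simp
  have hfac : Y ^ 2 = X * (X ^ 2 + -25) := by rw [h]; ring
  obtain ⟨hne, hval⟩ := padic_val_add_of_lt hX2 hm1 (by rw [vX2, val_neg_twentyfive]; omega)
  have := congrArg Padic.valuation hfac
  rw [Padic.valuation_mul hX hne, hval, vX2, Padic.valuation_pow] at this
  exact ⟨Y.valuation - X.valuation, by push_cast at this; omega⟩

lemma val_le_zero_of_one_le_norm {x : ℚ_[5]} (hx : x ≠ 0) (h : 1 ≤ ‖x‖) : x.valuation ≤ 0 := by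
  by_contra hlt
  rw [not_le] at hlt
  have : ‖x‖ < 1 := by
    rw [Padic.norm_eq_zpow_neg_valuation hx]
    exact zpow_lt_one_of_neg₀ (by norm_num) (by omega)
  linarith

lemma one_le_norm_of_val_le_zero {x : ℚ_[5]} (hx : x ≠ 0) (h : x.valuation ≤ 0) : 1 ≤ ‖x‖ := by
  rw [Padic.norm_eq_zpow_neg_valuation hx]
  exact one_le_zpow₀ (by norm_num) (by omega)

lemma E0Set_five_subset : ∀ P ∈ E0Set ℤ_[5] (E₅⁄ℚ_[5]), EvenAt 0 P ∧ EvenAt 5 P := by
  intro P hP
  by_cases h0 : P = 0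
  · exact ⟨Or.inl h0, Or.inl h0⟩
  obtain ⟨x, y, h, rfl⟩ := exists_pt₅ P h0
  rw [pt_mem_E0Set_five_iff] at hP
  have hx : x ≠ 0 := by
    rintro rfl
    rw [norm_zero] at hP
    norm_num at hP
  have hv := val_le_zero_of_one_le_norm hx hP
  have hev : Even x.valuation := by
    rcases hv.lt_or_eq with hv | hv
    · exact even_val_X_five h hx hv
    · rw [hv]; exact Even.zero
  have h5 := padic_val_add_of_lt hx (by norm_num : (-5 : ℚ_[5]) ≠ 0) (by rw [val_neg_five]; omega)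
  refine ⟨Or.inr ⟨x, y, h, rfl, by rw [sub_zero]; exact hev⟩, Or.inr ⟨x, y, h, rfl, ?_⟩⟩
  rw [sub_eq_add_neg, h5.2]
  exact hev

lemma not_even_one : ¬ Even (1 : ℤ) := by decide

lemma T1_not_evenAt_five : ¬ EvenAt 5 (T1₅ : (E₅⁄ℚ_[5]).toAffine.Point) := by
  rintro (h | ⟨x, y, h, e, hv⟩)
  · exact T1_ne_zero₅ h
  · have := (pt_inj₅ e).1
    rw [← this, zero_sub, val_neg_five] at hv
    exact not_even_one hv

lemma T2_not_evenAt_zero : ¬ EvenAt 0 (T2₅ : (E₅⁄ℚ_[5]).toAffine.Point) := by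
  rintro (h | ⟨x, y, h, e, hv⟩)
  · exact T2_ne_zero₅ h
  · have := (pt_inj₅ e).1
    rw [← this, sub_zero, val_five] at hv
    exact not_even_one hv

lemma T3_not_evenAt_zero : ¬ EvenAt 0 (T3₅ : (E₅⁄ℚ_[5]).toAffine.Point) := by
  rintro (h | ⟨x, y, h, e, hv⟩)
  · exact T3_ne_zero₅ h
  · have := (pt_inj₅ e).1
    rw [← this, sub_zero, val_neg_five] at hv
    exact not_even_one hv

/-- Every point of `E₅(ℚ₅)` has nonsingular reduction after adding a point of order at most two. -/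
lemma exists_add_mem_E0Set_five (P : (E₅⁄ℚ_[5]).toAffine.Point) :
    P + 0 ∈ E0Set ℤ_[5] (E₅⁄ℚ_[5]) ∨ P + T1₅ ∈ E0Set ℤ_[5] (E₅⁄ℚ_[5]) ∨
      P + T2₅ ∈ E0Set ℤ_[5] (E₅⁄ℚ_[5]) ∨ P + T3₅ ∈ E0Set ℤ_[5] (E₅⁄ℚ_[5]) := by
  by_cases h0 : P = 0
  · left; rw [h0, add_zero]; exact zero_mem_E0Set _ _
  obtain ⟨x, y, h, rfl⟩ := exists_pt₅ P h0
  by_cases hle : 1 ≤ ‖x‖
  · left; rw [add_zero]; exact (pt_mem_E0Set_five_iff h).mpr hle
  right
  by_cases hy : y = 0
  · subst hy
    have : x * (x - 5) * (x + 5) = 0 := by linear_combination -h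
    rcases mul_eq_zero.mp this with h' | h'
    · rcases mul_eq_zero.mp h' with h'' | h''
      · left
        have e : pt₅ x 0 h = T1₅ := pt_eq_pt₅ h'' rfl
        rw [e, T1_add_T1₅]
        exact zero_mem_E0Set _ _
      · right; left
        have e : pt₅ x 0 h = T2₅ := pt_eq_pt₅ (sub_eq_zero.mp h'') rfl
        rw [e, T2_add_T2₅]
        exact zero_mem_E0Set _ _
    · right; right
      have e : pt₅ x 0 h = T3₅ := pt_eq_pt₅ (eq_neg_of_add_eq_zero_left h') rfl
      rw [e, T3_add_T3₅]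
      exact zero_mem_E0Set _ _
  obtain ⟨hx0, hx5, hx5'⟩ := x_ne_of_y_ne₅ h hy
  have hv1 : 1 ≤ x.valuation := by
    by_contra hc
    exact hle (one_le_norm_of_val_le_zero hx0 (by omega))
  by_cases hv2 : 2 ≤ x.valuation
  · left
    rw [add_T1₅ h hy, pt_mem_E0Set_five_iff]
    apply one_le_norm_of_val_le_zero (div_ne_zero (by norm_num) hx0)
    rw [val_div_five (by norm_num) hx0, val_neg_twentyfive]
    omega
  right
  have hv : x.valuation = 1 := by omega
  -- parity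
  have hfac : y ^ 2 = x * ((x - 5) * (x + 5)) := by rw [h]; ring
  have hpar := congrArg Padic.valuation hfac
  rw [Padic.valuation_pow, Padic.valuation_mul hx0 (mul_ne_zero hx5 hx5'),
    Padic.valuation_mul hx5 hx5', hv] at hpar
  push_cast at hpar
  -- `v (x - 5) ≥ 1`, `v (x + 5) ≥ 1`
  have norm_le : ∀ z : ℚ_[5], z ≠ 0 → ‖z‖ < 1 → 1 ≤ z.valuation := by
    intro z hz hlt
    by_contra hc
    exact absurd (one_le_norm_of_val_le_zero hz (by omega)) (not_le.mpr hlt)
  have n5 : ‖(5 : ℚ_[5])‖ < 1 := by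
    rw [Padic.norm_eq_zpow_neg_valuation (by norm_num), val_five]
    norm_num
  have nx : ‖x‖ < 1 := not_le.mp hle
  have a1 : 1 ≤ (x - 5).valuation := norm_le _ hx5 (by
    rw [sub_eq_add_neg]
    exact lt_of_le_of_lt (Padic.nonarchimedean _ _) (max_lt nx (by rw [norm_neg]; exact n5)))
  have a2 : 1 ≤ (x + 5).valuation := norm_le _ hx5'
    (lt_of_le_of_lt (Padic.nonarchimedean _ _) (max_lt nx n5))
  by_cases hb : 2 ≤ (x - 5).valuation
  · left
    rw [add_T2₅ h hy, pt_mem_E0Set_five_iff]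
    have h10 := padic_val_add_of_lt (by norm_num : (10 : ℚ_[5]) ≠ 0) hx5 (by rw [val_ten_five]; omega)
    have e10 : (10 : ℚ_[5]) + (x - 5) = x + 5 := by ring
    rw [e10, val_ten_five] at h10
    apply one_le_norm_of_val_le_zero (div_ne_zero (mul_ne_zero (by norm_num) hx5') hx5)
    rw [val_div_five (mul_ne_zero (by norm_num) hx5') hx5,
      Padic.valuation_mul (by norm_num) hx5', val_five, h10.2]
    omega
  · right
    have hb' : (x - 5).valuation = 1 := by omega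
    have hc : 2 ≤ (x + 5).valuation := by omega
    rw [add_T3₅ h hy, pt_mem_E0Set_five_iff]
    have e3 : 5 * (5 - x) / (x + 5) = (-5) * (x - 5) / (x + 5) := by ring
    rw [e3]
    apply one_le_norm_of_val_le_zero (div_ne_zero (mul_ne_zero (by norm_num) hx5) hx5')
    rw [val_div_five (mul_ne_zero (by norm_num) hx5) hx5',
      Padic.valuation_mul (by norm_num) hx5, val_neg_five, hb']
    omega

/-- `[E₅(ℚ₅) : E₅,₀(ℚ₅)] = 4` on the equation `y² = x³ - 25 x`. -/
theorem tamagawaOf_E₅_five : tamagawaOf ℤ_[5] (E₅⁄ℚ_[5]) = 4 := by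
  rw [tamagawaOf, AddSubgroup.index_eq_card]
  set H := AddSubgroup.closure (E0Set ℤ_[5] (E₅⁄ℚ_[5])) with hH
  have hle0 : H ≤ evenAtSubgroup e5Root_zero :=
    (AddSubgroup.closure_le _).mpr fun P hP => (E0Set_five_subset P hP).1
  have hle5 : H ≤ evenAtSubgroup e5Root_five :=
    (AddSubgroup.closure_le _).mpr fun P hP => (E0Set_five_subset P hP).2
  let T : Fin 4 → (E₅⁄ℚ_[5]).toAffine.Point := ![0, T1₅, T2₅, T3₅]
  have hT2 : ∀ i, T i + T i = 0 := by
    intro i
    fin_cases i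
    · exact add_zero 0
    · exact T1_add_T1₅
    · exact T2_add_T2₅
    · exact T3_add_T3₅
  have hneg : ∀ i, -T i = T i := fun i => neg_eq_of_add_eq_zero_left (hT2 i)
  have hsum : ∀ i j : Fin 4, i ≠ j → T i + T j = T1₅ ∨ T i + T j = T2₅ ∨ T i + T j = T3₅ := by
    intro i j hij
    fin_cases i <;> fin_cases j
    · exact absurd rfl hij
    · exact Or.inl (zero_add _)
    · exact Or.inr (Or.inl (zero_add _))
    · exact Or.inr (Or.inr (zero_add _))
    · exact Or.inl (add_zero _)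
    · exact absurd rfl hij
    · exact Or.inr (Or.inr T1_add_T2₅)
    · exact Or.inr (Or.inl T1_add_T3₅)
    · exact Or.inr (Or.inl (add_zero _))
    · exact Or.inr (Or.inr (by rw [add_comm]; exact T1_add_T2₅))
    · exact absurd rfl hij
    · exact Or.inl T2_add_T3₅
    · exact Or.inr (Or.inr (add_zero _))
    · exact Or.inr (Or.inl (by rw [add_comm]; exact T1_add_T3₅))
    · exact Or.inl (by rw [add_comm]; exact T2_add_T3₅)
    · exact absurd rfl hij
  let f : Fin 4 → (E₅⁄ℚ_[5]).toAffine.Point ⧸ H := fun i => QuotientAddGroup.mk (T i)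
  have hinj : Function.Injective f := by
    intro i j hij
    by_contra hne
    have h1 : -T i + T j ∈ H := QuotientAddGroup.eq.mp hij
    rw [hneg] at h1
    rcases hsum i j hne with e | e | e
    · rw [e] at h1; exact T1_not_evenAt_five (hle5 h1)
    · rw [e] at h1; exact T2_not_evenAt_zero (hle0 h1)
    · rw [e] at h1; exact T3_not_evenAt_zero (hle0 h1)
  have hsurj : Function.Surjective f := by
    intro q
    obtain ⟨P, rfl⟩ := QuotientAddGroup.mk_surjective q
    have key : ∀ i, P + T i ∈ E0Set ℤ_[5] (E₅⁄ℚ_[5]) → f i = QuotientAddGroup.mk P := by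
      intro i hi
      apply QuotientAddGroup.eq.mpr
      rw [hneg, add_comm]
      exact AddSubgroup.subset_closure hi
    rcases exists_add_mem_E0Set_five P with h | h | h | h
    · exact ⟨0, key 0 h⟩
    · exact ⟨1, key 1 h⟩
    · exact ⟨2, key 2 h⟩
    · exact ⟨3, key 3 h⟩
  rw [← Nat.card_eq_of_bijective f ⟨hinj, hsurj⟩]
  simp

/-- **`c₅(E₅) = 4`**, with the definition of `Statement.lean`. -/
theorem tamagawaNumber_E₅_five : tamagawaNumber E₅ 5 = 4 := by
  rw [tamagawaNumber_eq_of_isMinimal, tamagawaOf_E₅_five]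

/-- **`∏_ℓ c_ℓ(E₅) = 8`.** -/
theorem tamagawaProduct_E₅_eq : tamagawaProduct E₅ = 8 := by
  have h := tamagawaProduct_E₅
  have h2 : (haveI : Fact (Nat.Prime 2) := ⟨Nat.prime_two⟩; tamagawaNumber E₅ 2) = 2 :=
    tamagawaNumber_E₅_two
  have h5 : (haveI : Fact (Nat.Prime 5) := ⟨Nat.prime_five⟩; tamagawaNumber E₅ 5) = 4 :=
    tamagawaNumber_E₅_five
  rw [h, h2, h5]

end Five

end Claimed.Open.R002
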