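import Claimed.Open.R002.SanityE0Tamagawa
import Claimed.Open.R002.SanityE5Period

/-!
# Sanity, part E5.C2: `c₂(y² = x³ - 25 x) = 2`

The curve `E₅ : y² = x³ - 25 x` has additive reduction at `2`, with Tamagawa number `2`.  The proof follows
`SanityE0Tamagawa.lean`, with the point `(5, 0)` of order two in the place of `(1, 0)`:

* `pt_mem_E0Set_iff₅`: a point `(x, y) ∈ E₅(ℚ₂)` has nonsingular reduction iff `|x - 5|₂ ≥ 1` (the singular point of the
  reduction is `(1, 0)`);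
* `evenSubgroup₅`: the points `(x, y)` with `v₂(x - 5)` even, together with `O`, form a subgroup which contains the points of
  nonsingular reduction and does not contain `(5, 0)`;
* `tamagawaNumber_E₅_two : tamagawaNumber E₅ 2 = 2`.
-/

set_option autoImplicit false
set_option linter.unusedSectionVars false

namespace Claimed.Open.R002

open WeierstrassCurve
open scoped Classical

section Field

variable {F : Type*} [Field F] [Algebra ℚ F] [DecidableEq F]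

lemma add_pt_of_X_ne₅ {x₁ y₁ x₂ y₂ : F} (h₁ : y₁ ^ 2 = x₁ ^ 3 - 25 * x₁)
    (h₂ : y₂ ^ 2 = x₂ ^ 3 - 25 * x₂) (hx : x₁ ≠ x₂) :
    ∃ (X Y : F) (h₃ : Y ^ 2 = X ^ 3 - 25 * X), pt₅ x₁ y₁ h₁ + pt₅ x₂ y₂ h₂ = pt₅ X Y h₃ ∧
      X = ((y₁ - y₂) / (x₁ - x₂)) ^ 2 - x₁ - x₂ := by
  have hs : (E₅⁄F).toAffine.slope x₁ x₂ y₁ y₂ = (y₁ - y₂) / (x₁ - x₂) := Affine.slope_of_X_ne hx
  refine ⟨_, _, (E₅_nonsingular_iff _ _).mp (Affine.nonsingular_add ((E₅_nonsingular_iff x₁ y₁).mpr h₁)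
    ((E₅_nonsingular_iff x₂ y₂).mpr h₂) fun hxy => hx hxy.left), ?_, ?_⟩
  · unfold pt₅
    rw [Affine.Point.add_of_X_ne hx]
  · rw [hs]
    simp [Affine.addX]

/-- `(x₁ - 5)(x₂ - 5)(x₃ - 5)` is a square if `P₁ + P₂ = ± P₃`. -/
lemma X_sub_five_mul {x₁ y₁ x₂ y₂ : F} (h₁ : y₁ ^ 2 = x₁ ^ 3 - 25 * x₁)
    (h₂ : y₂ ^ 2 = x₂ ^ 3 - 25 * x₂) (hx : x₁ ≠ x₂) :
    (x₁ - 5) * (x₂ - 5) * ((((y₁ - y₂) / (x₁ - x₂)) ^ 2 - x₁ - x₂) - 5) =
      ((y₁ * (5 - x₂) - y₂ * (5 - x₁)) / (x₁ - x₂)) ^ 2 := by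
  have hd : x₁ - x₂ ≠ 0 := sub_ne_zero.mpr hx
  field_simp
  linear_combination (x₁ - x₂) * (x₂ - 5) * h₁ - (x₁ - x₂) * (x₁ - 5) * h₂

/-- If `P₁`, `P₂` and `(5, 0)` are collinear then `(x₁ - 5)(x₂ - 5) = 50`. -/
lemma X_sub_five_mul_eq {x₁ y₁ x₂ y₂ : F} (h₁ : y₁ ^ 2 = x₁ ^ 3 - 25 * x₁)
    (h₂ : y₂ ^ 2 = x₂ ^ 3 - 25 * x₂) (hx : x₁ ≠ x₂) (h1 : x₁ - 5 ≠ 0) (h2 : x₂ - 5 ≠ 0)
    (hc : y₁ * (5 - x₂) - y₂ * (5 - x₁) = 0) : (x₁ - 5) * (x₂ - 5) = 50 := by
  have hd : x₁ - x₂ ≠ 0 := sub_ne_zero.mpr hx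
  have key : (x₁ - 5) * (x₂ - 5) * (x₁ - x₂) * ((x₁ - 5) * (x₂ - 5) - 50) = 0 := by
    linear_combination (y₁ * (5 - x₂) + y₂ * (5 - x₁)) * hc - (5 - x₂) ^ 2 * h₁
      + (5 - x₁) ^ 2 * h₂
  have := (mul_eq_zero.mp key).resolve_left (mul_ne_zero (mul_ne_zero h1 h2) hd)
  linear_combination this

end Field

section Two

lemma residue_sub_five_eq_zero_iff (x : ℤ_[2]) :
    IsLocalRing.residue ℤ_[2] x - 1 = 0 ↔ ‖(x : ℚ_[2]) - 5‖ < 1 := by
  rw [residue_sub_one_eq_zero_iff]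
  have h4 : ‖(4 : ℚ_[2])‖ < 1 := by
    have h2 : ‖(2 : ℚ_[2])‖ = 2⁻¹ := by
      have := Padic.norm_p (p := 2)
      simpa using this
    have : (4 : ℚ_[2]) = 2 * 2 := by norm_num
    rw [this, norm_mul, h2]
    norm_num
  constructor
  · intro h
    have e : (x : ℚ_[2]) - 5 = ((x : ℚ_[2]) - 1) + -4 := by ring
    rw [e]
    exact lt_of_le_of_lt (Padic.nonarchimedean _ _) (max_lt h (by rw [norm_neg]; exact h4))
  · intro h
    have e : (x : ℚ_[2]) - 1 = ((x : ℚ_[2]) - 5) + 4 := by ring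
    rw [e]
    exact lt_of_le_of_lt (Padic.nonarchimedean _ _) (max_lt h h4)

/-- A point `(x, y)` of `E₅(ℚ₂)` has nonsingular reduction iff `|x - 5|₂ ≥ 1`. -/
theorem pt_mem_E0Set_iff₅ {x y : ℚ_[2]} (h : y ^ 2 = x ^ 3 - 25 * x) :
    pt₅ x y h ∈ E0Set ℤ_[2] (E₅⁄ℚ_[2]) ↔ 1 ≤ ‖x - 5‖ := by
  have hred : (E₅⁄ℚ_[2]).reduction ℤ_[2] = (E₅model ℤ_[2]).map (IsLocalRing.residue ℤ_[2]) := by
    rw [reduction, e5p_integralModel]
  have h2 := residue_two_eq_zero
  have n5 : ‖(5 : ℚ_[2])‖ ≤ 1 := by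
    have := Padic.norm_int_le_one (p := 2) (5 : ℤ)
    exact_mod_cast this
  have n25 : ‖(25 : ℚ_[2])‖ ≤ 1 := by
    have := Padic.norm_int_le_one (p := 2) (25 : ℤ)
    exact_mod_cast this
  unfold pt₅
  rw [some_mem_E0Set_iff, hred]
  constructor
  · intro H
    by_contra hlt
    rw [not_le] at hlt
    have hx : ‖x‖ ≤ 1 := by
      have : x = (x - 5) + 5 := by ring
      rw [this]
      refine (Padic.nonarchimedean _ _).trans (max_le hlt.le n5)
    have hy : ‖y‖ ≤ 1 := by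
      have h3 : ‖y‖ ^ 2 ≤ 1 := by
        rw [← norm_pow, h]
        rw [sub_eq_add_neg]
        refine (Padic.nonarchimedean _ _).trans (max_le ?_ ?_)
        · rw [norm_pow]
          exact pow_le_one₀ (norm_nonneg _) hx
        · rw [norm_neg, norm_mul]
          exact mul_le_one₀ n25 (norm_nonneg _) hx
      exact (pow_le_one_iff_of_nonneg (norm_nonneg _) (by norm_num)).mp h3
    have := H ⟨x, hx⟩ ⟨y, hy⟩ rfl rfl
    rw [Affine.nonsingular_iff'] at this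
    have hx1 : IsLocalRing.residue ℤ_[2] ⟨x, hx⟩ = 1 :=
      sub_eq_zero.mp ((residue_sub_five_eq_zero_iff ⟨x, hx⟩).mpr hlt)
    rcases this.2 with h' | h'
    · apply h'
      simp only [E₅model, WeierstrassCurve.map, hx1]
      simp only [map_zero, map_neg, map_ofNat]
      linear_combination (11 : IsLocalRing.ResidueField ℤ_[2]) * h2
    · apply h'
      simp only [E₅model, WeierstrassCurve.map]
      simp only [map_zero]
      linear_combination (IsLocalRing.residue ℤ_[2] ⟨y, hy⟩) * h2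
  · intro hle x₀ y₀ hx hy
    subst hx hy
    rw [Affine.nonsingular_iff']
    constructor
    · have h1 : ((E₅model ℤ_[2])⁄ℚ_[2]).toAffine.Equation (algebraMap ℤ_[2] ℚ_[2] x₀)
          (algebraMap ℤ_[2] ℚ_[2] y₀) := by
        rw [← e5p_baseChange_eq ℤ_[2] ℚ_[2], E₅_equation_iff]; exact h
      have h2' : (E₅model ℤ_[2]).toAffine.Equation x₀ y₀ :=
        (Affine.map_equation (W := (E₅model ℤ_[2]).toAffine)
          (IsFractionRing.injective ℤ_[2] ℚ_[2]) x₀ y₀).mp h1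
      exact Affine.Equation.map (IsLocalRing.residue ℤ_[2]) h2'
    · left
      have hne : IsLocalRing.residue ℤ_[2] x₀ - 1 ≠ 0 := fun e =>
        absurd ((residue_sub_five_eq_zero_iff x₀).mp e) (not_lt.mpr hle)
      simp only [E₅model, WeierstrassCurve.map]
      simp only [map_zero, map_neg, map_ofNat]
      intro e
      apply pow_ne_zero 2 hne
      set X := IsLocalRing.residue ℤ_[2] x₀
      linear_combination (-1 : IsLocalRing.ResidueField ℤ_[2]) * e - (X ^ 2 + X - 13) * h2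

/-- `P = O`, or `P = (x, y)` with `x ≠ 5` and `v₂(x - 5)` even. -/
def EvenPt₅ (P : (E₅⁄ℚ_[2]).toAffine.Point) : Prop :=
  P = 0 ∨ ∃ (x y : ℚ_[2]) (h : y ^ 2 = x ^ 3 - 25 * x), P = pt₅ x y h ∧ x - 5 ≠ 0 ∧
    Even (x - 5).valuation

lemma val_fifty : (50 : ℚ_[2]).valuation = 1 := by
  have h : ((50 : ℚ) : ℚ_[2]).valuation = padicValRat 2 50 := Padic.valuation_ratCast _
  have h2 : padicValRat 2 50 = 1 := by
    have : (50 : ℚ) = ((50 : ℕ) : ℚ) := by norm_num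
    rw [this, padicValRat.of_nat]
    have : padicValNat 2 50 = 1 := by
      have e : (50 : ℕ) = 2 * 25 := by norm_num
      rw [e, padicValNat.mul (by norm_num) (by norm_num), padicValNat.self (by norm_num),
        padicValNat.eq_zero_of_not_dvd (by norm_num)]
    rw [this]; rfl
  rw [h2] at h
  simpa using h

lemma EvenPt₅.neg {P : (E₅⁄ℚ_[2]).toAffine.Point} (hP : EvenPt₅ P) : EvenPt₅ (-P) := by
  rcases hP with rfl | ⟨x, y, h, rfl, h1, hv⟩
  · exact Or.inl neg_zero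
  · exact Or.inr ⟨x, -y, _, neg_pt₅ h, h1, hv⟩

lemma EvenPt₅.add {P Q : (E₅⁄ℚ_[2]).toAffine.Point} (hP : EvenPt₅ P) (hQ : EvenPt₅ Q) :
    EvenPt₅ (P + Q) := by
  rcases hP with rfl | ⟨x₁, y₁, h₁, rfl, h1, hv1⟩
  · rw [zero_add]; exact hQ
  rcases hQ with rfl | ⟨x₂, y₂, h₂, rfl, h2, hv2⟩
  · rw [add_zero]; exact Or.inr ⟨x₁, y₁, h₁, rfl, h1, hv1⟩
  by_cases hx : x₁ = x₂
  · subst hx
    have hyy : (y₁ - y₂) * (y₁ + y₂) = 0 := by linear_combination h₁ - h₂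
    rcases mul_eq_zero.mp hyy with e | e
    · have e' : y₁ = y₂ := sub_eq_zero.mp e
      subst e'
      by_cases hy : y₁ = 0
      · subst hy
        exact Or.inl (pt_add_self_of_y_eq_zero₅ _)
      · obtain ⟨X, Y, h₃, e3, hX⟩ := two_pt₅ h₁ hy
        have hsq := g2_sq₅ h₁ hy
        rw [← hX] at hsq
        refine Or.inr ⟨X, Y, h₃, e3, ?_⟩
        by_cases hg : g2₅ x₁ y₁ = 0
        · exfalso
          have h0 : x₁ ^ 2 - 10 * x₁ - 25 = 0 := by
            unfold g2₅ at hg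
            rcases div_eq_zero_iff.mp hg with h' | h'
            · exact h'
            · exact absurd h' (mul_ne_zero two_ne_zero hy)
          have h3 : (x₁ - 5) ^ 2 = 50 := by linear_combination h0
          have := congrArg Padic.valuation h3
          rw [Padic.valuation_pow, val_fifty] at this
          push_cast at this
          omega
        · rw [← hsq]
          refine ⟨pow_ne_zero 2 hg, ?_⟩
          rw [Padic.valuation_pow]
          exact ⟨(g2₅ x₁ y₁).valuation, by push_cast; ring⟩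
    · have e' : y₂ = -y₁ := by linear_combination e
      subst e'
      left
      have := neg_pt₅ h₁
      rw [show pt₅ x₁ (-y₁) h₂ = -pt₅ x₁ y₁ h₁ from this.symm, add_neg_cancel]
  · obtain ⟨X, Y, h₃, e3, hX⟩ := add_pt_of_X_ne₅ h₁ h₂ hx
    have hmul := X_sub_five_mul h₁ h₂ hx
    rw [← hX] at hmul
    refine Or.inr ⟨X, Y, h₃, e3, ?_⟩
    have hd : x₁ - x₂ ≠ 0 := sub_ne_zero.mpr hx
    by_cases hc : y₁ * (5 - x₂) - y₂ * (5 - x₁) = 0
    · exfalso
      have h3 := X_sub_five_mul_eq h₁ h₂ hx h1 h2 hc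
      have := congrArg Padic.valuation h3
      rw [Padic.valuation_mul h1 h2, val_fifty] at this
      exact not_even_add_eq_one hv1 hv2 this
    · set w := (y₁ * (5 - x₂) - y₂ * (5 - x₁)) / (x₁ - x₂) with hw
      have hw0 : w ≠ 0 := div_ne_zero hc hd
      have hX1 : X - 5 ≠ 0 := by
        intro e
        rw [e, mul_zero] at hmul
        exact pow_ne_zero 2 hw0 hmul.symm
      refine ⟨hX1, ?_⟩
      have := congrArg Padic.valuation hmul
      rw [Padic.valuation_mul (mul_ne_zero h1 h2) hX1, Padic.valuation_mul h1 h2,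
        Padic.valuation_pow] at this
      obtain ⟨m, hm⟩ := hv1
      obtain ⟨n, hn⟩ := hv2
      exact ⟨w.valuation - m - n, by push_cast at this; omega⟩

/-- The subgroup of `E₅(ℚ₂)` of the points `(x, y)` with `v₂(x - 5)` even (and `O`). -/
noncomputable def evenSubgroup₅ : AddSubgroup (E₅⁄ℚ_[2]).toAffine.Point where
  carrier := {P | EvenPt₅ P}
  zero_mem' := Or.inl rfl
  add_mem' := EvenPt₅.add
  neg_mem' := EvenPt₅.neg

lemma T2_not_evenPt₅ : ¬ EvenPt₅ (T2₅ : (E₅⁄ℚ_[2]).toAffine.Point) := by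
  rintro (h | ⟨x, y, h, e, h1, -⟩)
  · exact T2_ne_zero₅ h
  · have := (pt_inj₅ e).1
    exact h1 (by rw [← this]; ring)

/-- On `Y² = X³ - 25 X` over `ℚ₂`, a negative valuation of `X` is even. -/
lemma even_val_X₅ {X Y : ℚ_[2]} (h : Y ^ 2 = X ^ 3 - 25 * X) (hX : X ≠ 0) (hv : X.valuation < 0) :
    Even X.valuation := by
  have hm1 : (-25 : ℚ_[2]) ≠ 0 := by norm_num
  have vm1 : 0 ≤ (-25 : ℚ_[2]).valuation := by
    have : ((-25 : ℚ) : ℚ_[2]).valuation = padicValRat 2 (-25) := Padic.valuation_ratCast _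
    have h2 : (0 : ℤ) ≤ padicValRat 2 (-25) := by
      rw [padicValRat.neg]
      have : (25 : ℚ) = ((25 : ℕ) : ℚ) := by norm_num
      rw [this, padicValRat.of_nat]
      positivity
    rw [← this] at h2
    simpa using h2
  have hX2 : X ^ 2 ≠ 0 := pow_ne_zero 2 hX
  have vX2 : (X ^ 2).valuation = 2 * X.valuation := by simp
  have hfac : Y ^ 2 = X * (X ^ 2 + -25) := by rw [h]; ring
  obtain ⟨hne, hval⟩ := padic_val_add_of_lt hX2 hm1 (by rw [vX2]; omega)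
  have := congrArg Padic.valuation hfac
  rw [Padic.valuation_mul hX hne, hval, vX2, Padic.valuation_pow] at this
  exact ⟨Y.valuation - X.valuation, by push_cast at this; omega⟩

lemma E0Set_subset_even₅ : E0Set ℤ_[2] (E₅⁄ℚ_[2]) ⊆ {P | EvenPt₅ P} := by
  intro P hP
  by_cases h0 : P = 0
  · exact Or.inl h0
  obtain ⟨x, y, h, rfl⟩ := exists_pt₅ P h0
  rw [pt_mem_E0Set_iff₅] at hP
  have h1 : x - 5 ≠ 0 := by
    intro e
    rw [e, norm_zero] at hP
    norm_num at hP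
  refine Or.inr ⟨x, y, h, rfl, h1, ?_⟩
  have hv : (x - 5).valuation ≤ 0 := by
    by_contra hlt
    rw [not_le] at hlt
    have : ‖x - 5‖ < 1 := by
      rw [Padic.norm_eq_zpow_neg_valuation h1]
      exact zpow_lt_one_of_neg₀ (by norm_num) (by omega)
    linarith
  rcases hv.lt_or_eq with hv | hv
  · have v5 : (0 : ℤ) ≤ (5 : ℚ_[2]).valuation := by simp
    have := padic_val_add_of_lt h1 (by norm_num : (5 : ℚ_[2]) ≠ 0) (lt_of_lt_of_le hv v5)
    rw [sub_add_cancel] at this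
    rw [← this.2]
    exact even_val_X₅ h this.1 (by rw [this.2]; exact hv)
  · rw [hv]; exact Even.zero

lemma mem_or_add_T2_mem₅ (P : (E₅⁄ℚ_[2]).toAffine.Point) :
    P ∈ E0Set ℤ_[2] (E₅⁄ℚ_[2]) ∨ P + T2₅ ∈ E0Set ℤ_[2] (E₅⁄ℚ_[2]) := by
  have hn2 : ‖(2 : ℚ_[2])‖ = 2⁻¹ := by
    have := Padic.norm_p (p := 2)
    simpa using this
  have hn5 : ‖(5 : ℚ_[2])‖ = 1 := by
    have h : ‖((5 : ℤ) : ℚ_[2])‖ = 1 := by
      refine le_antisymm (Padic.norm_int_le_one (p := 2) 5) (not_lt.1 fun hlt => ?_)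
      have := (Padic.norm_intCast_lt_one_iff (p := 2) (k := 5)).1 hlt
      norm_num at this
    exact_mod_cast h
  by_cases h0 : P = 0
  · left; rw [h0]; exact zero_mem_E0Set _ _
  obtain ⟨x, y, h, rfl⟩ := exists_pt₅ P h0
  by_cases hle : 1 ≤ ‖x - 5‖
  · exact Or.inl ((pt_mem_E0Set_iff₅ h).mpr hle)
  right
  rw [not_le] at hle
  by_cases hy : y = 0
  · subst hy
    have : x * (x - 5) * (x + 5) = 0 := by linear_combination -h
    rcases mul_eq_zero.mp this with h' | h'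
    · rcases mul_eq_zero.mp h' with h'' | h''
      · subst h''
        rw [zero_sub, norm_neg, hn5] at hle
        exact absurd hle (lt_irrefl _)
      · have e : pt₅ x 0 h = T2₅ := pt_eq_pt₅ (sub_eq_zero.mp h'') rfl
        rw [e, T2_add_T2₅]
        exact zero_mem_E0Set _ _
    · have e : pt₅ x 0 h = T3₅ := pt_eq_pt₅ (eq_neg_of_add_eq_zero_left h') rfl
      rw [e, add_comm, T2_add_T3₅]
      unfold T1₅
      rw [pt_mem_E0Set_iff₅, zero_sub, norm_neg, hn5]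
  · rw [add_T2₅ h hy, pt_mem_E0Set_iff₅]
    obtain ⟨-, h1, -⟩ := x_ne_of_y_ne₅ h hy
    have e : 5 * (x + 5) / (x - 5) - 5 = 50 / (x - 5) := by field_simp; ring
    rw [e, norm_div]
    have hn50 : ‖(50 : ℚ_[2])‖ = 2⁻¹ := by
      have : (50 : ℚ_[2]) = 2 * (5 * 5) := by norm_num
      rw [this, norm_mul, norm_mul, hn2, hn5]
      norm_num
    have hle' : ‖x - 5‖ ≤ 2⁻¹ := by
      have := (Padic.norm_le_pow_iff_norm_lt_pow_add_one (p := 2) (x - 5) (-1)).mpr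
        (by simpa using hle)
      simpa using this
    rw [hn50, le_div_iff₀ (norm_pos_iff.mpr h1), one_mul]
    exact hle'

/-- `[E₅(ℚ₂) : E₅,₀(ℚ₂)] = 2` on the equation `y² = x³ - 25 x`. -/
theorem tamagawaOf_E₅_two : tamagawaOf ℤ_[2] (E₅⁄ℚ_[2]) = 2 := by
  rw [tamagawaOf, AddSubgroup.index_eq_two_iff]
  have hle : AddSubgroup.closure (E0Set ℤ_[2] (E₅⁄ℚ_[2])) ≤ evenSubgroup₅ :=
    (AddSubgroup.closure_le _).mpr E0Set_subset_even₅
  refine ⟨T2₅, fun P => ?_⟩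
  have hnot : ¬ (P + T2₅ ∈ AddSubgroup.closure (E0Set ℤ_[2] (E₅⁄ℚ_[2])) ∧
      P ∈ AddSubgroup.closure (E0Set ℤ_[2] (E₅⁄ℚ_[2]))) := by
    rintro ⟨h1, h2⟩
    have := AddSubgroup.sub_mem _ h1 h2
    rw [add_sub_cancel_left] at this
    exact T2_not_evenPt₅ (hle this)
  rcases mem_or_add_T2_mem₅ P with h | h
  · have h' := AddSubgroup.subset_closure h
    exact Or.inr ⟨h', fun h'' => hnot ⟨h'', h'⟩⟩
  · have h' := AddSubgroup.subset_closure h
    exact Or.inl ⟨h', fun h'' => hnot ⟨h', h''⟩⟩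

/-- **`c₂(E₅) = 2`**, with the definition of `Statement.lean`. -/
theorem tamagawaNumber_E₅_two : tamagawaNumber E₅ 2 = 2 := by
  rw [tamagawaNumber_eq_of_isMinimal, tamagawaOf_E₅_two]

end Two

end Claimed.Open.R002
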