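import Claimed.Open.R002.SanityE5Rank

/-!
# Sanity, part E5.T: the torsion subgroup of `E₅(ℚ)`, `E₅ : y² = x³ - 25 x`

`card_torsion_MW_E₅ : Nat.card (AddCommGroup.torsion (MW E₅)) = 4`: the denominator `(#E(ℚ)_tors)²` of the formula of
`MainStatement` is `16` at the example `(E₅, q = 2, r = 1)`; `mem_torsion_MW_E₅_iff`: the torsion points are the points killed by `2`.

The proof is elementary (no reduction modulo a prime).
* `two_torsion_of_rat₅` (`SanityE5NonZero.lean`): a rational point of `2`-power order is killed by `2`.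
* A rational point `S` of odd order `n` is zero (`e5t_odd`). Otherwise all `S_k = 2^k S` are non-zero and `S_{k + φ(n)} = S_k`.
  For `Q = (x, y)` with `y ≠ 0` one has `x(2Q) = ((x² + 25) / 2y)²`, and `x(2Q) ∓ 5 = ((x² ∓ 10x - 25) / 2y)²` (`e5t_double`).
  - If `A² - 5`, `A²`, `A² + 5` are rational squares, then the denominator of `A` is divisible by `2` (modulo `4`) and by `3`,
    so the numerator of `A²` is at least `5 · 36` (`e5t_num_ge`).
  - With `x = a / b` in lowest terms, `x(2Q) = N / D`, `N = (a² + 25 b²)²`, `D = 4ab(a² - 25b²)`, and two explicit identities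
    `250000 a⁷, 250000 b⁷ ∈ (N, D)` bound the common factor: `a⁴ ≤ 250000 · num x(2Q)` (`e5t_num_pow_le`).
  So the numerators of `x(S_k)`, `k ≥ 1`, are `≥ 63` and strictly increasing (`63³ > 250000`), against periodicity.
-/

set_option autoImplicit false

namespace Claimed.Open.R002

open WeierstrassCurve
open scoped Classical

noncomputable section

attribute [-instance] DivisionRing.toRatAlgebra

/-! ## 1. Arithmetic -/

/-- modulo `4`. -/
theorem e5t_mod4 : ∀ s t β γ : ZMod 4, β * β = s * s - 5 * (t * t) → γ * γ = s * s + 5 * (t * t) →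
    2 * t = 0 := by decide

/-- modulo `3`. -/
theorem e5t_mod3 : ∀ s t β γ : ZMod 3, β * β = s * s - 5 * (t * t) → γ * γ = s * s + 5 * (t * t) →
    t = 0 := by decide

/-- If `A² - 5`, `A²`, `A² + 5` are rational squares, the numerator of `A²` is at least `180`. -/
theorem e5t_num_ge {A B C : ℚ} (hB : B ^ 2 = A ^ 2 - 5) (hC : C ^ 2 = A ^ 2 + 5) :
    63 ≤ (A ^ 2).num := by
  have ht0 : (A.den : ℚ) ≠ 0 := by exact_mod_cast A.den_nz
  have hA : A = (A.num : ℚ) / (A.den : ℚ) := (Rat.num_div_den A).symm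
  have hA' : A * (A.den : ℚ) = (A.num : ℚ) := by
    rw [eq_div_iff ht0] at hA
    exact hA
  have h1 : IsSquare (((A.num * A.num - 5 * ((A.den : ℤ) * (A.den : ℤ)) : ℤ)) : ℚ) := by
    refine ⟨B * A.den, ?_⟩
    push_cast
    rw [← hA']
    linear_combination (-(A.den : ℚ) ^ 2) * hB
  have h2 : IsSquare (((A.num * A.num + 5 * ((A.den : ℤ) * (A.den : ℤ)) : ℤ)) : ℚ) := by
    refine ⟨C * A.den, ?_⟩
    push_cast
    rw [← hA']
    linear_combination (-(A.den : ℚ) ^ 2) * hC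
  rw [Rat.isSquare_intCast_iff] at h1 h2
  obtain ⟨β, hβ⟩ := h1
  obtain ⟨γ, hγ⟩ := h2
  have m4 : (2 : ZMod 4) * ((A.den : ℤ) : ZMod 4) = 0 :=
    e5t_mod4 (A.num : ZMod 4) ((A.den : ℤ) : ZMod 4) (β : ZMod 4) (γ : ZMod 4)
      (by have := congrArg (Int.cast : ℤ → ZMod 4) hβ; push_cast at this; exact this.symm)
      (by have := congrArg (Int.cast : ℤ → ZMod 4) hγ; push_cast at this; exact this.symm)
  have m3 : ((A.den : ℤ) : ZMod 3) = 0 :=
    e5t_mod3 (A.num : ZMod 3) ((A.den : ℤ) : ZMod 3) (β : ZMod 3) (γ : ZMod 3)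
      (by have := congrArg (Int.cast : ℤ → ZMod 3) hβ; push_cast at this; exact this.symm)
      (by have := congrArg (Int.cast : ℤ → ZMod 3) hγ; push_cast at this; exact this.symm)
  have d3 : (3 : ℤ) ∣ (A.den : ℤ) := by
    have := (ZMod.intCast_zmod_eq_zero_iff_dvd (A.den : ℤ) 3).1 m3
    exact_mod_cast this
  have d4 : (4 : ℤ) ∣ 2 * (A.den : ℤ) := by
    have h : ((2 * (A.den : ℤ) : ℤ) : ZMod 4) = 0 := by push_cast; exact m4
    have := (ZMod.intCast_zmod_eq_zero_iff_dvd (2 * (A.den : ℤ)) 4).1 h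
    exact_mod_cast this
  have hpos : (0 : ℤ) < (A.den : ℤ) := by exact_mod_cast A.den_pos
  have h6 : (6 : ℤ) ≤ (A.den : ℤ) := by omega
  rw [Rat.num_pow]
  nlinarith [mul_self_nonneg β]

/-- The height inequality for the duplication on `y² = x³ - 25 x`, on numerators. -/
theorem e5t_num_pow_le {x y : ℚ} (hy : y ≠ 0) (h : y ^ 2 = x ^ 3 - 25 * x) :
    x.num ^ 4 ≤ 250000 * (((x ^ 2 + 25) / (2 * y)) ^ 2).num := by
  set a : ℤ := x.num with ha
  set b : ℤ := (x.den : ℤ) with hb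
  have hb0 : (b : ℚ) ≠ 0 := by rw [hb]; exact_mod_cast x.den_nz
  have hx : x = (a : ℚ) / (b : ℚ) := by rw [ha, hb]; exact_mod_cast (Rat.num_div_den x).symm
  have hcop : IsCoprime a b := by
    rw [Int.isCoprime_iff_gcd_eq_one, ha, hb]
    exact x.reduced
  set N : ℤ := (a ^ 2 + 25 * b ^ 2) ^ 2 with hN
  set D : ℤ := 4 * a * b * (a ^ 2 - 25 * b ^ 2) with hD
  have hy2 : (4 * y ^ 2) * (b : ℚ) ^ 4 = (D : ℚ) := by
    rw [h, hx, hD]
    push_cast
    field_simp
  have hD0 : D ≠ 0 := by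
    intro h0
    rw [h0] at hy2
    have : (4 * y ^ 2) * (b : ℚ) ^ 4 ≠ 0 := by positivity
    exact this (by simpa using hy2)
  have hX : ((x ^ 2 + 25) / (2 * y)) ^ 2 = (N : ℚ) / (D : ℚ) := by
    rw [← hy2, hN, hx]
    push_cast
    field_simp
    norm_num
  obtain ⟨c, hc1, hc2⟩ := Rat.exists_eq_mul_div_num_and_eq_mul_div_den N hD0
  rw [hX]
  set n : ℤ := ((N : ℚ) / (D : ℚ)).num with hn
  have cN : c ∣ N := ⟨_, hc1⟩
  have cD : c ∣ D := ⟨_, hc2⟩
  have ca : c ∣ 250000 * a ^ 7 := by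
    have e : 250000 * a ^ 7 = 15625 * (4 * a * (4 * a ^ 2 - 75 * b ^ 2)) * N
        - 15625 * (125 * b * (a ^ 2 + 15 * b ^ 2)) * D := by rw [hN, hD]; ring
    rw [e]
    exact dvd_sub (cN.mul_left _) (cD.mul_left _)
  have cb : c ∣ 250000 * b ^ 7 := by
    have e : 250000 * b ^ 7 = (4 * b * (100 * b ^ 2 - 3 * a ^ 2)) * N
        + (a * (3 * a ^ 2 + 125 * b ^ 2)) * D := by rw [hN, hD]; ring
    rw [e]
    exact dvd_add (cN.mul_left _) (cD.mul_left _)
  have cC : c ∣ 250000 := by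
    obtain ⟨u, v, huv⟩ := (hcop.pow (m := 7) (n := 7))
    have e : (250000 : ℤ) = u * (250000 * a ^ 7) + v * (250000 * b ^ 7) := by
      linear_combination (-250000 : ℤ) * huv
    rw [e]
    exact dvd_add (ca.mul_left _) (cb.mul_left _)
  have hcle : |c| ≤ 250000 := by
    have := Int.le_of_dvd (by norm_num) ((abs_dvd c 250000).2 cC)
    exact this
  have hn0 : 0 ≤ n := by
    rw [hn, ← hX]
    exact Rat.num_nonneg.2 (sq_nonneg _)
  have hNle : N ≤ 250000 * n := by
    calc N = c * n := hc1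
      _ ≤ |c| * n := mul_le_mul_of_nonneg_right (le_abs_self c) hn0
      _ ≤ 250000 * n := mul_le_mul_of_nonneg_right hcle hn0
  have haN : a ^ 4 ≤ N := by
    rw [hN]
    nlinarith [sq_nonneg a, sq_nonneg b, mul_nonneg (sq_nonneg a) (sq_nonneg b), sq_nonneg (b ^ 2)]
  exact haN.trans hNle

/-! ## 2. Points -/

/-- The `x`-coordinate of a rational point (`0` at the origin). -/
def e5tX : MW E₅ → ℚ
  | .zero => 0
  | .some x _ _ => x

/-- Duplication on `E₅(ℚ)`. -/
theorem e5t_double (Q : MW E₅) (h2 : Q + Q ≠ 0) :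
    ∃ x y : ℚ, y ≠ 0 ∧ y ^ 2 = x ^ 3 - 25 * x ∧ e5tX Q = x ∧
      e5tX (Q + Q) = ((x ^ 2 + 25) / (2 * y)) ^ 2 := by
  rcases Q with _ | ⟨x, y, h⟩
  · exact absurd (add_zero (0 : MW E₅)) h2
  have heq : y ^ 2 = x ^ 3 - 25 * x := by
    have := h.1
    rw [Affine.equation_iff] at this
    simp only [E₅_a₁, E₅_a₂, E₅_a₃, E₅_a₄, E₅_a₆] at this
    linarith
  have hy : y ≠ 0 := by
    rintro rfl
    apply h2
    apply Affine.Point.add_self_of_Y_eq
    simp [Affine.negY]
  have hne : y ≠ E₅.toAffine.negY x y := by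
    simp only [Affine.negY, E₅_a₁, E₅_a₃]
    intro e
    apply hy
    linarith
  refine ⟨x, y, hy, heq, rfl, ?_⟩
  rw [Affine.Point.add_self_of_Y_ne hne]
  show E₅.toAffine.addX x x (E₅.toAffine.slope x x y y) = _
  rw [Affine.slope_of_Y_ne rfl hne]
  simp only [Affine.addX, Affine.negY, E₅_a₁, E₅_a₂, E₅_a₃, E₅_a₄]
  rw [show y - (-y - 0 * x - 0) = 2 * y by ring]
  field_simp
  linear_combination (-8 * x) * heq

/-- A rational point of odd order of `E₅` is zero. -/
theorem e5t_odd (S : MW E₅) (n : ℕ) (hn : Odd n) (hS : n • S = 0) : S = 0 := by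
  by_contra hS0
  have hcop : ∀ k : ℕ, Nat.Coprime (2 ^ k) n := fun k =>
    Nat.Coprime.pow_left k (Nat.coprime_two_left.2 hn)
  have hne : ∀ k : ℕ, 2 ^ k • S ≠ 0 := by
    intro k hk
    apply hS0
    have h1 : addOrderOf S ∣ 2 ^ k := addOrderOf_dvd_of_nsmul_eq_zero hk
    have h2 : addOrderOf S ∣ n := addOrderOf_dvd_of_nsmul_eq_zero hS
    have h3 : addOrderOf S = 1 := Nat.eq_one_of_dvd_coprimes (hcop k) h1 h2
    exact AddMonoid.addOrderOf_eq_one_iff.1 h3
  have hsucc : ∀ k : ℕ, 2 ^ (k + 1) • S = 2 ^ k • S + 2 ^ k • S := fun k => by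
    rw [pow_succ, mul_comm, mul_nsmul', two_nsmul]
  have hge : ∀ k : ℕ, 63 ≤ (e5tX (2 ^ (k + 1) • S)).num := by
    intro k
    obtain ⟨x, y, hy, heq, -, hX⟩ := e5t_double (2 ^ k • S) (by rw [← hsucc]; exact hne _)
    rw [hsucc, hX]
    refine e5t_num_ge (B := (x ^ 2 - 10 * x - 25) / (2 * y)) (C := (x ^ 2 + 10 * x - 25) / (2 * y)) ?_ ?_
    · field_simp
      linear_combination (20 : ℚ) * heq
    · field_simp
      linear_combination (-20 : ℚ) * heq
  have hlt : ∀ k : ℕ, (e5tX (2 ^ (k + 1) • S)).num < (e5tX (2 ^ (k + 1 + 1) • S)).num := by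
    intro k
    obtain ⟨x, y, hy, heq, hx, hX⟩ := e5t_double (2 ^ (k + 1) • S) (by rw [← hsucc]; exact hne _)
    have h1 := e5t_num_pow_le hy heq
    have h2 := hge k
    rw [hsucc (k + 1), hX, hx]
    rw [hx] at h2
    by_contra hc
    have hc' := not_lt.1 hc
    have h3 : x.num ^ 4 ≤ 250000 * x.num := h1.trans (by linarith)
    have h4 : (250047 : ℤ) ≤ x.num ^ 3 := by
      calc (250047 : ℤ) = 63 ^ 3 := by norm_num
        _ ≤ x.num ^ 3 := pow_le_pow_left₀ (by norm_num) h2 3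
    nlinarith
  have hmono : StrictMono fun k : ℕ => (e5tX (2 ^ (k + 1) • S)).num := strictMono_nat_of_lt_succ hlt
  have hn0 : 0 < n := hn.pos
  have hper : 2 ^ (n.totient + 1) • S = 2 ^ (0 + 1) • S := by
    have h1 : 2 ^ n.totient ≡ 1 [MOD n] := Nat.ModEq.pow_totient (Nat.coprime_two_left.2 hn)
    have h2 : 2 ^ n.totient • S = 1 • S := by
      rw [nsmul_eq_nsmul_iff_modEq]
      exact h1.of_dvd (addOrderOf_dvd_of_nsmul_eq_zero hS)
    rw [pow_succ, mul_comm, mul_nsmul', h2]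
    simp
  have := hmono (Nat.totient_pos.2 hn0)
  simp only [hper] at this
  exact lt_irrefl _ this

/-- Every torsion point of `E₅(ℚ)` is killed by `2`. -/
theorem e5t_add_self_of_torsion {T : MW E₅} (hT : IsOfFinAddOrder T) : T + T = 0 := by
  obtain ⟨k, hk, hkT⟩ := isOfFinAddOrder_iff_nsmul_eq_zero.1 hT
  obtain ⟨a, m, hm, rfl⟩ := Nat.exists_eq_two_pow_mul_odd hk.ne'
  have h0 : 2 ^ a • T = 0 := e5t_odd _ m hm (by rw [← mul_nsmul', mul_comm]; exact hkT)
  apply mwToBar_injective E₅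
  rw [map_add, map_zero]
  exact two_torsion_of_rat₅ a (mwToBar E₅ T) (fun τ => smul_mwToBar E₅ τ T)
    (by rw [← map_nsmul, h0, map_zero])

/-- The torsion subgroup of `E₅(ℚ)` is `E₅(ℚ)[2]`. -/
theorem mem_torsion_MW_E₅_iff {T : MW E₅} : T ∈ AddCommGroup.torsion (MW E₅) ↔ T + T = 0 :=
  ⟨fun h => e5t_add_self_of_torsion h, mem_torsion_of_add_self⟩

/-- **The torsion subgroup of `E₅(ℚ)` has order `4`**. -/
theorem card_torsion_MW_E₅ : Nat.card (AddCommGroup.torsion (MW E₅)) = 4 := by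
  let f : Fin 4 → PointsBar E₅ ℚ := ![0, T1₅, T2₅, T3₅]
  let φ : AddCommGroup.torsion (MW E₅) → PointsBar E₅ ℚ := fun T => mwToBar E₅ T.1
  have hf : Function.Injective f := by
    intro i j hij
    fin_cases i <;> fin_cases j
    · rfl
    · exact absurd hij (Ne.symm T1_ne_zero₅)
    · exact absurd hij (Ne.symm T2_ne_zero₅)
    · exact absurd hij (Ne.symm T3_ne_zero₅)
    · exact absurd hij T1_ne_zero₅
    · rfl
    · exact absurd hij T1_ne_T2₅
    · exact absurd hij T1_ne_T3₅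
    · exact absurd hij T2_ne_zero₅
    · exact absurd hij (Ne.symm T1_ne_T2₅)
    · rfl
    · exact absurd hij T2_ne_T3₅
    · exact absurd hij T3_ne_zero₅
    · exact absurd hij (Ne.symm T1_ne_T3₅)
    · exact absurd hij (Ne.symm T2_ne_T3₅)
    · rfl
  have hφ : Function.Injective φ := fun a b h => Subtype.ext (mwToBar_injective E₅ h)
  have hrange : Set.range φ = Set.range f := by
    ext R
    constructor
    · rintro ⟨T, rfl⟩
      have h2 : mwToBar E₅ T.1 + mwToBar E₅ T.1 = 0 := by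
        rw [← map_add, e5t_add_self_of_torsion T.2, map_zero]
      rcases two_torsion₅ _ h2 with h | h | h | h
      · exact ⟨0, h.symm⟩
      · exact ⟨1, h.symm⟩
      · exact ⟨2, h.symm⟩
      · exact ⟨3, h.symm⟩
    · rintro ⟨i, rfl⟩
      have key : ∀ R : PointsBar E₅ ℚ, (∀ τ : GalBar ℚ, τ • R = R) → R + R = 0 → R ∈ Set.range φ := by
        intro R hR h2
        obtain ⟨Q, rfl⟩ := exists_mwToBar_eq hR
        have : Q + Q = 0 := mwToBar_injective E₅ (by rw [map_add, h2, map_zero])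
        exact ⟨⟨Q, mem_torsion_of_add_self this⟩, rfl⟩
      fin_cases i
      · exact key 0 (fun τ => smul_zero τ) (add_zero 0)
      · exact key T1₅ (smul_T1₅ ℚ) T1_add_T1₅
      · exact key T2₅ (smul_T2₅ ℚ) T2_add_T2₅
      · exact key T3₅ (smul_T3₅ ℚ) T3_add_T3₅
  calc Nat.card (AddCommGroup.torsion (MW E₅)) = Nat.card (Set.range φ) :=
        (Nat.card_range_of_injective hφ).symm
    _ = Nat.card (Set.range f) := by rw [hrange]
    _ = Nat.card (Fin 4) := Nat.card_range_of_injective hf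
    _ = 4 := by simp

end

end Claimed.Open.R002
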