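import Claimed.Open.R002.SanityCoh

/-!
# Sanity: the localisation maps do not depend on the embedding `K̄ → K̄ᵥ`

`Statement.lean` defines `locKer E Kv` as the intersection, over **all** embeddings
`ι : K̄ → K̄ᵥ` over `K`, of the kernels of the localisation maps `locRes E Kv ι`.  The textbook
definition picks one embedding.  Here we prove that the two agree: the map `locRes E Kv ι` itself is
the same for all `ι` (`locRes_eq_locRes`), so the intersection is the kernel of any one of them
(`locKer_eq_ker`).

The proof is the classical one.  Two embeddings differ by an automorphism `τ` of `K̄/K`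
(`exists_embedding_eq_comp`); the two restriction maps are then conjugate by `τ`
(`resGal_comp_conj`); and conjugation acts trivially on `H¹`: the two localised cocycles differ by
the coboundary of `ι (ξ τ)`.
-/

set_option autoImplicit false

namespace Claimed.Open.R002

open WeierstrassCurve
open scoped Classical

noncomputable section

section Embedding

variable {K : Type*} [Field K] (F : Type*) [Field F] [Algebra K F]

/-- The image of an embedding `K̄ → F̄` over `K` contains the image of any other one: it is the
set of the elements of `F̄` algebraic over `K`. -/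
lemma embedding_mem_range (ι ι' : Emb K F) (x : AlgebraicClosure K) : ι' x ∈ ι.range := by
  have hx : IsIntegral K x := Algebra.IsIntegral.isIntegral x
  have hsplit : ((minpoly K x).map (algebraMap K (AlgebraicClosure K))).Splits :=
    IsAlgClosed.splits _
  have hne : (minpoly K x).map (algebraMap K (AlgebraicClosure K)) ≠ 0 :=
    Polynomial.map_ne_zero (minpoly.ne_zero hx)
  have hroot : Polynomial.aeval (ι' x) (minpoly K x) = 0 := by
    rw [Polynomial.aeval_algHom_apply, minpoly.aeval, map_zero]
  have hroot' : (((minpoly K x).map (algebraMap K (AlgebraicClosure K))).map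
      (ι : AlgebraicClosure K →+* AlgebraicClosure F)).IsRoot (ι' x) := by
    rw [Polynomial.map_map, AlgHom.comp_algebraMap, Polynomial.IsRoot.def,
      Polynomial.eval_map_algebraMap]
    exact hroot
  obtain ⟨y, hy⟩ := hsplit.mem_range_of_isRoot hne hroot'
  exact ⟨y, hy⟩

/-- Two embeddings `K̄ → F̄` over `K` differ by an automorphism of `K̄/K`. -/
theorem exists_embedding_eq_comp (ι ι' : Emb K F) :
    ∃ τ : GalBar K, ∀ x, ι' x = ι (τ x) := by
  let e : AlgebraicClosure K ≃ₐ[K] ι.range := AlgEquiv.ofInjectiveField ι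
  let f : AlgebraicClosure K →ₐ[K] AlgebraicClosure K :=
    (e.symm : ι.range →ₐ[K] AlgebraicClosure K).comp
      (ι'.codRestrict ι.range (embedding_mem_range F ι ι'))
  have hf : Function.Bijective f := Algebra.IsAlgebraic.algHom_bijective f
  refine ⟨AlgEquiv.ofBijective f hf, fun x => ?_⟩
  have h1 : (e (f x) : AlgebraicClosure F) = ι' x := by
    show (e (e.symm (ι'.codRestrict ι.range (embedding_mem_range F ι ι') x)) :
      AlgebraicClosure F) = ι' x
    rw [AlgEquiv.apply_symm_apply]
    rfl
  exact h1.symm

/-- If `ι' = ι ∘ τ` then the restriction maps attached to `ι'` and `ι` are conjugate by `τ`. -/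
theorem resGal_comp_conj (ι ι' : Emb K F) (τ : GalBar K) (h : ∀ x, ι' x = ι (τ x))
    (σ : GalBar F) : τ * resGal F ι' σ = resGal F ι σ * τ := by
  ext x
  apply ι.injective
  show ι (τ (resGal F ι' σ x)) = ι (resGal F ι σ (τ x))
  rw [← h, resGal_commutes, resGal_commutes, h]

variable (E : WeierstrassCurve K)

lemma pointsMap_comp (ι ι' : Emb K F) (τ : GalBar K) (h : ∀ x, ι' x = ι (τ x))
    (P : PointsBar E K) : pointsMap E F ι' P = pointsMap E F ι (τ • P) := by
  rcases P with _ | ⟨x, y, hP⟩
  · rfl
  · show Affine.Point.map (W' := E) ι' (.some x y hP) =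
      Affine.Point.map (W' := E) ι (Affine.Point.map (W' := E) _ (.some x y hP))
    simp only [Affine.Point.map_some, Affine.Point.some.injEq]
    exact ⟨h x, h y⟩

/-- **The localisation map `H¹(K, E) → H¹(Kᵥ, E)` does not depend on the embedding `K̄ → K̄ᵥ`.** -/
theorem locRes_eq_locRes (ι ι' : Emb K F) : locRes E F ι' = locRes E F ι := by
  obtain ⟨τ, hτ⟩ := exists_embedding_eq_comp F ι ι'
  ext c
  obtain ⟨ξ, rfl⟩ := H1.mk_surjective c
  rw [← sub_eq_zero, locRes, locRes, H1.map_mk, H1.map_mk, ← map_sub, H1.mk_eq_zero_iff]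
  refine ⟨pointsMap E F ι (ξ.1 τ), fun σ => ?_⟩
  show pointsMap E F ι' (ξ.1 (resGal F ι' σ)) - pointsMap E F ι (ξ.1 (resGal F ι σ)) = _
  have h1 : ξ.1 τ + τ • ξ.1 (resGal F ι' σ) = ξ.1 (resGal F ι σ) + resGal F ι σ • ξ.1 τ := by
    rw [← Z1.map_mul, ← Z1.map_mul, resGal_comp_conj F ι ι' τ hτ σ]
  have h2 : τ • ξ.1 (resGal F ι' σ) = ξ.1 (resGal F ι σ) + resGal F ι σ • ξ.1 τ - ξ.1 τ := by
    rw [← h1]; abel
  rw [pointsMap_comp F E ι ι' τ hτ, h2, map_sub, map_add, pointsMap_resGal_smul]
  abel

/-- The kernel of localisation, defined in `Statement.lean` as an intersection over all embeddings,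
is the kernel of the localisation map attached to any one embedding. -/
theorem locKer_eq_ker (ι : Emb K F) : locKer E F = (locRes E F ι).ker := by
  unfold locKer
  refine le_antisymm (iInf_le _ ι) (le_iInf fun ι' => ?_)
  rw [locRes_eq_locRes F E ι ι']

/-- Cocycle form: local triviality may be tested on one embedding. -/
theorem locTrivAt_iff_of_embedding (ι : Emb K F) (ξ : Z1 (GalBar K) (PointsBar E K)) :
    LocTrivAt E F ξ.1 ↔
      ∃ Q : PointsBar E F, ∀ σ : GalBar F, pointsMap E F ι (ξ.1 (resGal F ι σ)) = σ • Q - Q := by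
  rw [← mem_locKer_iff, locKer_eq_ker F E ι, AddMonoidHom.mem_ker, locRes, H1.map_mk,
    H1.mk_eq_zero_iff]
  rfl

end Embedding

end

end Claimed.Open.R002
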