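import Claimed.Open.R002.SanityFamB1

/-! # Twists of `E₀`, post B7: the Mellin transform of the twisted theta series is entire -/

set_option autoImplicit false

namespace Claimed.Open.R002

/-- `mellin` is an integral: `MeasureTheory.integral_finset_sum` (`MellinConvergent` is `IntegrableOn`),
`Finset.smul_sum`. -/
theorem mellin_finset_sum {ι : Type*} (s : Finset ι) (f : ι → ℝ → ℂ) (z : ℂ)
    (h : ∀ i ∈ s, MellinConvergent (f i) z) :
    mellin (fun t => ∑ i ∈ s, f i t) z = ∑ i ∈ s, mellin (f i) z := by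
  unfold mellin
  simp only [Finset.smul_sum]
  exact MeasureTheory.integral_finsetSum s h

/-- `mellin_comp_mul_left`, `mellin_const_smul`, `MellinConvergent.comp_mul_left`,
`MellinConvergent.const_smul`, `hasMellin_add` with `mellinConvergent_oddEven`. -/
theorem mellin_thetaTwClass (d : ℕ) (hd : 0 < d) (r : ℕ × ℕ) (z : ℂ) :
    MellinConvergent (fun t : ℝ => (thetaTwClass d r t : ℂ)) z ∧
    mellin (fun t : ℝ => (thetaTwClass d r t : ℂ)) z =
      ((twW d ((r.1 : ℤ), (r.2 : ℤ)) : ℤ) : ℂ) * (8 * (d : ℂ)) *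
        (((128 * (d : ℝ) ^ 2 : ℝ) : ℂ) ^ (-z) *
          (mellin (fun x : ℝ => (oddEven (twC d r.1) (twC d r.2) x : ℂ)) z +
            mellin (fun x : ℝ => (oddEven (twC d r.2) (twC d r.1) x : ℂ)) z)) := by
  have hd' : (0 : ℝ) < d := by exact_mod_cast hd
  have ha : (0 : ℝ) < 128 * (d : ℝ) ^ 2 := by positivity
  -- the two summands, before dilation
  have h1 := mellinConvergent_oddEven (twC d r.1) (twC d r.2) z
  have h2 := mellinConvergent_oddEven (twC d r.2) (twC d r.1) z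
  have h12 := hasMellin_add h1 h2
  -- dilation
  have hc : MellinConvergent (fun t : ℝ =>
      ((oddEven (twC d r.1) (twC d r.2) (128 * (d : ℝ) ^ 2 * t) : ℂ)
        + (oddEven (twC d r.2) (twC d r.1) (128 * (d : ℝ) ^ 2 * t) : ℂ))) z :=
    (MellinConvergent.comp_mul_left (f := fun x : ℝ =>
      ((oddEven (twC d r.1) (twC d r.2) x : ℂ) + (oddEven (twC d r.2) (twC d r.1) x : ℂ))) ha).2 h12.1
  have hm : mellin (fun t : ℝ =>
      ((oddEven (twC d r.1) (twC d r.2) (128 * (d : ℝ) ^ 2 * t) : ℂ)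
        + (oddEven (twC d r.2) (twC d r.1) (128 * (d : ℝ) ^ 2 * t) : ℂ))) z
      = ((128 * (d : ℝ) ^ 2 : ℝ) : ℂ) ^ (-z) •
        (mellin (fun x : ℝ => (oddEven (twC d r.1) (twC d r.2) x : ℂ)) z +
            mellin (fun x : ℝ => (oddEven (twC d r.2) (twC d r.1) x : ℂ)) z) := by
    rw [← h12.2]
    exact mellin_comp_mul_left (fun x : ℝ =>
      ((oddEven (twC d r.1) (twC d r.2) x : ℂ) + (oddEven (twC d r.2) (twC d r.1) x : ℂ))) z ha
  -- the constant
  have e : (fun t : ℝ => (thetaTwClass d r t : ℂ)) = fun t : ℝ =>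
      (((twW d ((r.1 : ℤ), (r.2 : ℤ)) : ℤ) : ℂ) * (8 * (d : ℂ))) •
        ((oddEven (twC d r.1) (twC d r.2) (128 * (d : ℝ) ^ 2 * t) : ℂ)
        + (oddEven (twC d r.2) (twC d r.1) (128 * (d : ℝ) ^ 2 * t) : ℂ)) := by
    funext t
    unfold thetaTwClass
    push_cast
    rw [smul_eq_mul]
  rw [e]
  refine ⟨hc.const_smul _, ?_⟩
  rw [mellin_const_smul, hm, smul_eq_mul, smul_eq_mul]

/-- From the two lemmas above and `differentiable_mellin_oddEven`
(`Differentiable.const_cpow`, `Differentiable.fun_sum` / `Differentiable.sum`). -/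
theorem differentiable_mellin_thetaTw (d : ℕ) (hd : 0 < d) :
    Differentiable ℂ (mellin fun t : ℝ => (thetaTw d t : ℂ)) := by
  have hd' : (0 : ℝ) < d := by exact_mod_cast hd
  have ha : (0 : ℝ) < 128 * (d : ℝ) ^ 2 := by positivity
  have e : (mellin fun t : ℝ => (thetaTw d t : ℂ)) = fun z : ℂ =>
      ∑ r : Fin (4 * d) × Fin (4 * d),
        ((twW d ((((r.1 : ℕ)) : ℤ), (((r.2 : ℕ)) : ℤ)) : ℤ) : ℂ) * (8 * (d : ℂ)) *
        (((128 * (d : ℝ) ^ 2 : ℝ) : ℂ) ^ (-z) *
          (mellin (fun x : ℝ => (oddEven (twC d (r.1 : ℕ)) (twC d (r.2 : ℕ)) x : ℂ)) z +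
            mellin (fun x : ℝ => (oddEven (twC d (r.2 : ℕ)) (twC d (r.1 : ℕ)) x : ℂ)) z)) := by
    funext z
    have e1 : (fun t : ℝ => (thetaTw d t : ℂ)) = fun t : ℝ =>
        ∑ r : Fin (4 * d) × Fin (4 * d), (thetaTwClass d ((r.1 : ℕ), (r.2 : ℕ)) t : ℂ) := by
      funext t
      unfold thetaTw
      push_cast
      rfl
    rw [e1, mellin_finset_sum Finset.univ
      (fun (r : Fin (4 * d) × Fin (4 * d)) (t : ℝ) => (thetaTwClass d ((r.1 : ℕ), (r.2 : ℕ)) t : ℂ)) z
      (fun r _ => (mellin_thetaTwClass d hd ((r.1 : ℕ), (r.2 : ℕ)) z).1)]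
    exact Finset.sum_congr rfl fun r _ => (mellin_thetaTwClass d hd ((r.1 : ℕ), (r.2 : ℕ)) z).2
  rw [e]
  refine Differentiable.fun_sum fun r _ => ?_
  refine (differentiable_const _).mul (Differentiable.mul ?_ ?_)
  · refine Differentiable.const_cpow differentiable_neg (Or.inl ?_)
    exact_mod_cast ha.ne'
  · exact (differentiable_mellin_oddEven _ _).add (differentiable_mellin_oddEven _ _)

end Claimed.Open.R002
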