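import Claimed.Open.R002.SanityFamB6

/-! # Twists of `E₀`, post B8: the twisted Hecke `L`-series as a Mellin transform -/

set_option autoImplicit false

namespace Claimed.Open.R002

open Real

/-- `|J| ≤ 1` (`abs_twW_le_one`) and D3 (`summable_re_div_norm_rpow`). -/
theorem summable_twW_re_div_norm_rpow (d : ℕ) {σ : ℝ} (hσ : 3 / 2 < σ) :
    Summable fun x : ℤ × ℤ =>
      ‖((twW d x : ℤ) : ℂ) * ((primOf x).re : ℂ)‖ / ((primOf x).norm : ℝ) ^ σ := by
  refine Summable.of_nonneg_of_le (fun x => ?_) (fun x => ?_) (summable_re_div_norm_rpow hσ)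
  · have hpos : (0 : ℝ) < ((primOf x).norm : ℝ) := by exact_mod_cast norm_primOf_pos x
    positivity
  · have hpos : (0 : ℝ) < ((primOf x).norm : ℝ) := by exact_mod_cast norm_primOf_pos x
    have h1 : ‖((twW d x : ℤ) : ℂ)‖ ≤ 1 := by
      rw [Complex.norm_intCast]
      exact_mod_cast abs_twW_le_one d x
    rw [norm_mul]
    gcongr
    exact mul_le_of_le_one_left (norm_nonneg _) h1

/-- the summand `J(d | N α) · Re α / N(α)^s` -/
noncomputable def fb8_f (d : ℕ) (s : ℂ) (α : GaussianInt) : ℂ :=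
  ((jacobiSym d α.norm.toNat : ℤ) : ℂ) * (α.re : ℂ) / (((α.norm : ℤ) : ℝ) : ℂ) ^ s

theorem fb8_norm_f (d : ℕ) (s : ℂ) (x : ℤ × ℤ) :
    ‖fb8_f d s (primOf x)‖ =
      ‖((twW d x : ℤ) : ℂ) * ((primOf x).re : ℂ)‖ / ((primOf x).norm : ℝ) ^ s.re := by
  have hpos : (0 : ℝ) < ((primOf x).norm : ℝ) := by exact_mod_cast norm_primOf_pos x
  unfold fb8_f twW
  rw [norm_div, Complex.norm_cpow_eq_rpow_re_of_pos hpos]

theorem fb8_summable_norm (d : ℕ) {s : ℂ} (hs : 3 / 2 < s.re) :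
    Summable fun x : ℤ × ℤ => ‖fb8_f d s (primOf x)‖ := by
  simp_rw [fb8_norm_f]
  exact summable_twW_re_div_norm_rpow d hs

theorem fb8_term_eq (d : ℕ) {s : ℂ} (hs : s ≠ 0) (n : ℕ) :
    LSeries.term (fun n => (heckeTw d n : ℂ)) s n = ∑ α ∈ primSet n, fb8_f d s α := by
  have hf : ∀ α ∈ primSet n, fb8_f d s α =
      ((jacobiSym d n : ℤ) : ℂ) * (α.re : ℂ) / (n : ℂ) ^ s := by
    intro α hα
    have h := (mem_primSet.mp hα).2
    unfold fb8_f
    rw [h, Int.toNat_natCast]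
    norm_cast
  rw [Finset.sum_congr rfl hf]
  rcases Nat.eq_zero_or_pos n with rfl | hn
  · simp [LSeries.term_zero, Complex.zero_cpow hs]
  · rw [LSeries.term_of_ne_zero hn.ne', ← Finset.sum_div, ← Finset.mul_sum]
    congr 1
    unfold heckeTw hecke
    push_cast
    rfl

/-- Copy of `lseriesSummable_hecke` (D6) with
`f α = J(d | (N α).toNat) · Re α / N(α)^s` in place of `d6_f` (for `α ∈ primSet n`: `N α = n`). -/
theorem lseriesSummable_heckeTw (d : ℕ) {s : ℂ} (hs : 3 / 2 < s.re) :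
    LSeriesSummable (fun n => (heckeTw d n : ℂ)) s := by
  have hs0 : s ≠ 0 := by
    rintro rfl
    norm_num at hs
  unfold LSeriesSummable
  refine Summable.of_norm_bounded
    (summable_sum_primSet_norm (fb8_f d s) (fb8_summable_norm d hs)) ?_
  intro n
  rw [fb8_term_eq d hs0]
  exact norm_sum_le _ _

/-- Copy of `mellin_thetaE_eq` (D6): `hasSum_mellin_pi_mul` with `a x = twW d x · Re (primOf x)`,
`hasSum_thetaTw`, `summable_twW_re_div_norm_rpow`, then `hasSum_sum_primSet` (D2). -/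
theorem mellin_thetaTw_eq (d : ℕ) (hd : 0 < d) {s : ℂ} (hs : 3 / 2 < s.re) :
    mellin (fun t : ℝ => (thetaTw d t : ℂ)) s =
      (π : ℂ) ^ (-s) * Complex.Gamma s * LSeries (fun n => (heckeTw d n : ℂ)) s := by
  have hs0 : s ≠ 0 := by
    rintro rfl
    norm_num at hs
  have hre : 0 < s.re := by linarith
  have h1 : HasSum (fun x : ℤ × ℤ => (π : ℂ) ^ (-s) * Complex.Gamma s *
      (((twW d x : ℤ) : ℂ) * ((primOf x).re : ℂ)) /
      (((primOf x).norm : ℝ) : ℂ) ^ s) (mellin (fun t : ℝ => (thetaTw d t : ℂ)) s) :=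
    hasSum_mellin_pi_mul (a := fun x : ℤ × ℤ => ((twW d x : ℤ) : ℂ) * ((primOf x).re : ℂ))
      (q := fun x : ℤ × ℤ => ((primOf x).norm : ℝ))
      (fun x => Or.inr (by exact_mod_cast norm_primOf_pos x)) hre
      (fun t ht => hasSum_thetaTw d hd ht) (summable_twW_re_div_norm_rpow d hs)
  have h2 := hasSum_sum_primSet (fb8_f d s) (fb8_summable_norm d hs).of_norm
  have h3 : LSeries (fun n => (heckeTw d n : ℂ)) s = ∑' x : ℤ × ℤ, fb8_f d s (primOf x) := by
    unfold LSeries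
    simp_rw [fb8_term_eq d hs0]
    exact h2.tsum_eq
  rw [h3, ← h1.tsum_eq, ← tsum_mul_left]
  refine tsum_congr fun x => ?_
  unfold fb8_f twW
  rw [mul_div_assoc]

end Claimed.Open.R002
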