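import Claimed.Open.R002.SanityFamA7
import Claimed.Open.R002.SanityFamB7
import Claimed.Open.R002.SanityFamB8

/-! # Sanity for R002: `IsLFunction` for all twists `y² = x³ - d² x`, `d` odd and squarefree -/

set_option autoImplicit false

namespace Claimed.Open.R002

open Real

/-- The entire function `π ^ s / Γ(s) · ∫₀^∞ θ_d(t) t ^ (s - 1) dt`. -/
noncomputable def famL (d : ℕ) (s : ℂ) : ℂ :=
  (π : ℂ) ^ s * (Complex.Gamma s)⁻¹ * mellin (fun t : ℝ => (thetaTw d t : ℂ)) s

theorem differentiable_famL (d : ℕ) (hd : 0 < d) : Differentiable ℂ (famL d) := by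
  unfold famL
  have h1 : Differentiable ℂ fun s : ℂ => (π : ℂ) ^ s := fun s =>
    (differentiableAt_id).const_cpow (Or.inl (by exact_mod_cast Real.pi_ne_zero))
  have h2 : Differentiable ℂ fun s : ℂ => (Complex.Gamma s)⁻¹ :=
    by simpa [one_div] using Complex.differentiable_one_div_Gamma
  exact (h1.mul h2).mul (differentiable_mellin_thetaTw d hd)

theorem LFunction_Etw_coe (d : ℕ) (hd : Squarefree d) (hodd : Odd d) :
    (fun n => ((Etw d).LFunction n : ℂ)) = fun n => (heckeTw d n : ℂ) := by
  funext n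
  rw [LFunction_Etw_eq_heckeTw d hd hodd]

/-- **The Hasse–Weil `L`-series of `y² = x³ - d² x`, `d` odd and squarefree, converges absolutely on
`Re s > 3/2` and extends to an entire function.** -/
theorem isLFunction_Etw (d : ℕ) (hd : Squarefree d) (hodd : Odd d) :
    IsLFunction (Etw d) (famL d) := by
  have hd0 : 0 < d := hodd.pos
  refine ⟨differentiable_famL d hd0, fun s hs => ⟨?_, ?_⟩⟩
  · rw [LFunction_Etw_coe d hd hodd]
    exact lseriesSummable_heckeTw d hs
  · have h0 : (Etw d).LSeries s = LSeries (fun n => (heckeTw d n : ℂ)) s := by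
      unfold WeierstrassCurve.LSeries
      congr 1
      exact LFunction_Etw_coe d hd hodd
    have hΓ : Complex.Gamma s ≠ 0 := Complex.Gamma_ne_zero_of_re_pos (by linarith)
    have hπ : (π : ℂ) ≠ 0 := by exact_mod_cast Real.pi_ne_zero
    rw [h0, famL, mellin_thetaTw_eq d hd0 hs, Complex.cpow_neg]
    have hπs : (π : ℂ) ^ s ≠ 0 := by
      rw [Ne, Complex.cpow_eq_zero_iff]
      exact fun h => hπ h.1
    field_simp

/-- **Every quadratic twist of `E₀` by an odd squarefree integer has an `L`-function** in the sense of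
`Statement.lean`. -/
theorem exists_isLFunction_quadraticTwist_E₀ (d : ℤ) (hd : Squarefree d) (hodd : Odd d) :
    ∃ L : ℂ → ℂ, IsLFunction (quadraticTwist E₀ (d : ℚ)) L := by
  rw [quadraticTwist_E₀_intCast]
  exact ⟨_, isLFunction_Etw d.natAbs (Int.squarefree_natAbs.mpr hd) (Int.natAbs_odd.mpr hodd)⟩

/-- In particular the rank one example `E₅ : y² = x³ - 25 x` of the folder. -/
theorem isLFunction_E₅_famL : IsLFunction E₅ (famL 5) := by
  rw [E₅_eq_Etw]
  exact isLFunction_Etw 5 (Nat.prime_five.squarefree) (by decide)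

end Claimed.Open.R002
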