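import Claimed.Open.R002.SanityHeckeA3

/-! # Twists of `E₀`, post E1: a criterion of minimality at `2` when `v(Δ) ≥ 12` -/

set_option autoImplicit false

namespace Claimed.Open.R002

open WeierstrassCurve

variable (R : Type*) [CommRing R] [IsDomain R] [IsDiscreteValuationRing R]
variable (K : Type*) [Field K] [Algebra R K] [IsFractionRing R K]

/-- Over a ring whose maximal ideal is `(2)`: `c₄ = b₂² - 24 b₄ ∈ 𝔪` forces `b₂ ∈ 𝔪`, so
`a₁² = b₂ - 4 a₂ ∈ 𝔪`, `a₁ = 2 α`; then `b₂ = 4 (α² + a₂)`, `b₄ = 2 a₄ + a₁ a₃ = 2 (a₄ + α a₃)` and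
`c₄ = 16 ((α² + a₂)² - 3 (a₄ + α a₃)) ∈ 𝔪⁴` (`Ideal.IsPrime.mem_of_pow_mem`, `Ideal.pow_mem_pow`,
`Ideal.mul_mem_right`; unfold `WeierstrassCurve.c₄ b₂ b₄`). -/
theorem c₄_mem_pow_four_of_mem (h2m : (2 : R) ∈ IsLocalRing.maximalIdeal R)
    (h2 : ∀ x ∈ IsLocalRing.maximalIdeal R, ∃ y, x = 2 * y) (W : WeierstrassCurve R)
    (h : W.c₄ ∈ IsLocalRing.maximalIdeal R) : W.c₄ ∈ IsLocalRing.maximalIdeal R ^ 4 := by
  have hprime : (IsLocalRing.maximalIdeal R).IsPrime := (IsLocalRing.maximalIdeal.isMaximal R).isPrime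
  -- `b₂ ^ 2 ∈ 𝔪`
  have hb2sq : W.b₂ ^ 2 ∈ IsLocalRing.maximalIdeal R := by
    have h24 : 24 * W.b₄ ∈ IsLocalRing.maximalIdeal R := by
      have : (24 : R) * W.b₄ = 2 * (12 * W.b₄) := by ring
      rw [this]
      exact Ideal.mul_mem_right _ _ h2m
    have : W.b₂ ^ 2 = W.c₄ + 24 * W.b₄ := by
      simp only [WeierstrassCurve.c₄]; ring
    rw [this]
    exact Ideal.add_mem _ h h24
  have hb2 : W.b₂ ∈ IsLocalRing.maximalIdeal R := hprime.mem_of_pow_mem 2 hb2sq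
  have ha1sq : W.a₁ ^ 2 ∈ IsLocalRing.maximalIdeal R := by
    have h4 : 4 * W.a₂ ∈ IsLocalRing.maximalIdeal R := by
      have : (4 : R) * W.a₂ = 2 * (2 * W.a₂) := by ring
      rw [this]
      exact Ideal.mul_mem_right _ _ h2m
    have : W.a₁ ^ 2 = W.b₂ - 4 * W.a₂ := by
      simp only [WeierstrassCurve.b₂]; ring
    rw [this]
    exact Ideal.sub_mem _ hb2 h4
  have ha1 : W.a₁ ∈ IsLocalRing.maximalIdeal R := hprime.mem_of_pow_mem 2 ha1sq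
  obtain ⟨α, hα⟩ := h2 _ ha1
  have hc4 : W.c₄ = 2 ^ 4 * ((α ^ 2 + W.a₂) ^ 2 - 3 * (W.a₄ + α * W.a₃)) := by
    simp only [WeierstrassCurve.c₄, WeierstrassCurve.b₂, WeierstrassCurve.b₄, hα]; ring
  rw [hc4]
  exact Ideal.mul_mem_right _ _ (Ideal.pow_mem_pow h2m 4)

theorem fe1b_max_eq_span (h2m : (2 : R) ∈ IsLocalRing.maximalIdeal R)
    (h2 : ∀ x ∈ IsLocalRing.maximalIdeal R, ∃ y, x = 2 * y) :
    IsLocalRing.maximalIdeal R = Ideal.span {(2 : R)} := by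
  apply le_antisymm
  · intro x hx
    obtain ⟨y, rfl⟩ := h2 x hx
    exact Ideal.mem_span_singleton.2 (Dvd.intro y rfl)
  · rw [Ideal.span_singleton_le_iff_mem]
    exact h2m

theorem fe1b_two_ne_zero (h2 : ∀ x ∈ IsLocalRing.maximalIdeal R, ∃ y, x = 2 * y) : (2 : R) ≠ 0 := by
  intro h0
  apply IsDiscreteValuationRing.not_a_field R
  rw [eq_bot_iff]
  intro x hx
  obtain ⟨y, rfl⟩ := h2 x hx
  simp [h0]

/-- `a ∈ 𝔪 = (2)` and `a⁴ u ∈ 𝔪⁵` with `u ∉ 𝔪` force `a ∈ 𝔪²`, hence `a⁴ ∈ 𝔪⁸`: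
`a = 2 b`, `16 b⁴ u ∈ 𝔪⁵ = (32)` (`Ideal.span_singleton_pow`, or five times `h2`), cancel `16 ≠ 0`
(`2 ≠ 0`: otherwise `𝔪 = 0`, `IsDiscreteValuationRing.not_a_field`), so `b⁴ u ∈ 𝔪`, `b ∈ 𝔪`. -/
theorem pow_four_mem_pow_eight (h2m : (2 : R) ∈ IsLocalRing.maximalIdeal R)
    (h2 : ∀ x ∈ IsLocalRing.maximalIdeal R, ∃ y, x = 2 * y) {a u : R}
    (ha : a ∈ IsLocalRing.maximalIdeal R) (hu : u ∉ IsLocalRing.maximalIdeal R)
    (h : a ^ 4 * u ∈ IsLocalRing.maximalIdeal R ^ 5) : a ^ 4 ∈ IsLocalRing.maximalIdeal R ^ 8 := by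
  have hm := fe1b_max_eq_span R h2m h2
  have h20 := fe1b_two_ne_zero R h2
  obtain ⟨b, rfl⟩ := h2 a ha
  rw [hm, Ideal.span_singleton_pow, Ideal.mem_span_singleton] at h
  obtain ⟨c, hc⟩ := h
  have h16 : (2 : R) ^ 4 ≠ 0 := pow_ne_zero 4 h20
  have hb4 : b ^ 4 * u = 2 * c := by
    apply mul_left_cancel₀ h16
    linear_combination hc
  have hbu : b ^ 4 * u ∈ IsLocalRing.maximalIdeal R := by
    rw [hb4]
    exact Ideal.mul_mem_right c _ h2m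
  have hb : b ∈ IsLocalRing.maximalIdeal R := by
    rcases (IsLocalRing.maximalIdeal.isMaximal R).isPrime.mem_or_mem hbu with h' | h'
    · exact (IsLocalRing.maximalIdeal.isMaximal R).isPrime.mem_of_pow_mem 4 h'
    · exact absurd h' hu
  obtain ⟨d, rfl⟩ := h2 b hb
  rw [hm, Ideal.span_singleton_pow, Ideal.mem_span_singleton]
  exact ⟨d ^ 4, by ring⟩

/-- Copy of `isMinimal_of_Δ_notMem` (SanityMinimal.lean) with `c₄` in place of `Δ`: a change of variables to an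
integral equation `W'` with `u = a ∈ 𝔪` gives `c₄(W₀) = a⁴ c₄(W')` (`integralModel_c₄_eq`,
`variableChange_c₄`).  If `c₄(W') ∈ 𝔪` then `c₄(W') ∈ 𝔪⁴` (`c₄_mem_pow_four_of_mem`) and `c₄(W₀) ∈ 𝔪⁸`;
otherwise `a⁴ ∈ 𝔪⁸` by `pow_four_mem_pow_eight`.  Both contradict `h8`. -/
theorem isMinimal_of_c₄_two (h2m : (2 : R) ∈ IsLocalRing.maximalIdeal R)
    (h2 : ∀ x ∈ IsLocalRing.maximalIdeal R, ∃ y, x = 2 * y) (W₀ : WeierstrassCurve R)
    [(W₀⁄K).IsElliptic] (h5 : W₀.c₄ ∈ IsLocalRing.maximalIdeal R ^ 5)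
    (h8 : W₀.c₄ ∉ IsLocalRing.maximalIdeal R ^ 8) : IsMinimal R (W₀⁄K) := by
  have inj := IsFractionRing.injective R K
  have hint : IsIntegral R (W₀⁄K) := ⟨W₀, rfl⟩
  have hmodel : integralModel R (W₀⁄K) = W₀ := by
    apply WeierstrassCurve.map_injective inj
    exact baseChange_integralModel_eq R (W₀⁄K)
  rw [isMinimal_iff_forall_inv_u]
  refine ⟨hint, fun C hC => ?_⟩
  by_contra hu
  obtain ⟨a, ha⟩ : (C.u : K) ∈ intRange R (K := K) := by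
    rcases ValuationRing.isInteger_or_isInteger R (C.u : K) with ⟨a, ha⟩ | ⟨a, ha⟩
    · exact ⟨a, ha⟩
    · exact absurd ⟨a, by rw [ha, Units.val_inv_eq_inv_val]⟩ hu
  have ha_mem : a ∈ IsLocalRing.maximalIdeal R := by
    rw [IsLocalRing.mem_maximalIdeal, mem_nonunits_iff]
    intro hunit
    obtain ⟨b, hb⟩ := hunit.exists_right_inv
    apply hu
    refine ⟨b, ?_⟩
    have : algebraMap R K a * algebraMap R K b = 1 := by rw [← map_mul, hb, map_one]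
    rw [ha] at this
    rw [Units.val_inv_eq_inv_val]
    exact eq_inv_of_mul_eq_one_right this
  have e : W₀.c₄ = a ^ 4 * (integralModel R (C • (W₀⁄K))).c₄ := by
    apply inj
    have h0 : algebraMap R K W₀.c₄ = (W₀⁄K).c₄ := by
      rw [baseChange, map_c₄]
    rw [map_mul, map_pow, integralModel_c₄_eq, h0, ha, variableChange_c₄,
      Units.val_inv_eq_inv_val]
    have := C.u.ne_zero
    field_simp
  apply h8
  by_cases hc : (integralModel R (C • (W₀⁄K))).c₄ ∈ IsLocalRing.maximalIdeal R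
  · have h4 := c₄_mem_pow_four_of_mem R h2m h2 _ hc
    rw [e, show (8 : ℕ) = 4 + 4 from rfl, pow_add]
    exact Ideal.mul_mem_mul (Ideal.pow_mem_pow ha_mem 4) h4
  · rw [e] at h5 ⊢
    exact Ideal.mul_mem_right _ _ (pow_four_mem_pow_eight R h2m h2 ha_mem hc h5)

end Claimed.Open.R002
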