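import Claimed.Open.R002.SanityHeckeDefs

/-! # Hecke road, post A4: the integers of the completion of `ℚ` at `v` -/

set_option autoImplicit false

namespace Claimed.Open.R002

open WeierstrassCurve IsDedekindDomain NumberField

/-- A ring isomorphism of local rings carries the powers of the maximal ideal to each other. -/
theorem a4_mem_maximalIdeal_pow_iff_of_equiv {A B : Type*} [CommRing A] [CommRing B] [IsLocalRing A]
    [IsLocalRing B] (e : A ≃+* B) (x : A) (k : ℕ) :
    x ∈ IsLocalRing.maximalIdeal A ^ k ↔ e x ∈ IsLocalRing.maximalIdeal B ^ k := by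
  have h1 : Ideal.map e (IsLocalRing.maximalIdeal A) = IsLocalRing.maximalIdeal B :=
    IsLocalRing.eq_maximalIdeal (Ideal.map_isMaximal_of_equiv e)
  rw [← h1, ← Ideal.map_pow]
  constructor
  · intro hx
    exact Ideal.mem_map_of_mem _ hx
  · intro hx
    obtain ⟨y, hy, hxy⟩ := (Ideal.mem_map_of_equiv e _).1 hx
    rwa [← e.injective hxy]

/-- Tool: `Rat.HeightOneSpectrum.adicCompletionIntegers.padicIntEquiv v` (see the proof of
`card_residueField_completion`), `PadicInt.maximalIdeal_eq_span_p`, `PadicInt.pow_p_dvd_int_iff`. -/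
theorem natCast_mem_maximalIdeal_pow (v : HeightOneSpectrum (𝓞 ℚ)) (n k : ℕ) :
    ((n : ℕ) : v.adicCompletionIntegers ℚ) ∈
      IsLocalRing.maximalIdeal (v.adicCompletionIntegers ℚ) ^ k ↔ primeBelow v ^ k ∣ n := by
  have : Fact (Nat.Prime (Rat.HeightOneSpectrum.primesEquiv v).1) :=
    ⟨(Rat.HeightOneSpectrum.primesEquiv v).2⟩
  rw [a4_mem_maximalIdeal_pow_iff_of_equiv
    (Rat.HeightOneSpectrum.adicCompletionIntegers.padicIntEquiv v).toRingEquiv, map_natCast,
    PadicInt.maximalIdeal_eq_span_p, Ideal.span_singleton_pow, Ideal.mem_span_singleton]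
  have h := PadicInt.pow_p_dvd_int_iff (p := (Rat.HeightOneSpectrum.primesEquiv v).1) k (n : ℤ)
  rw [Int.cast_natCast] at h
  rw [h]
  unfold primeBelow
  exact_mod_cast Iff.rfl

theorem nonempty_residueField_equiv_zmod (v : HeightOneSpectrum (𝓞 ℚ)) :
    Nonempty (IsLocalRing.ResidueField (v.adicCompletionIntegers ℚ) ≃+* ZMod (primeBelow v)) := by
  have : Fact (Nat.Prime (Rat.HeightOneSpectrum.primesEquiv v).1) :=
    ⟨(Rat.HeightOneSpectrum.primesEquiv v).2⟩
  have e1 : IsLocalRing.ResidueField (v.adicCompletionIntegers ℚ) ≃+*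
      IsLocalRing.ResidueField ℤ_[(Rat.HeightOneSpectrum.primesEquiv v).1] :=
    IsLocalRing.ResidueField.mapEquiv
      (Rat.HeightOneSpectrum.adicCompletionIntegers.padicIntEquiv v).toRingEquiv
  exact ⟨e1.trans PadicInt.residueField⟩

end Claimed.Open.R002
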