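import Claimed.Open.R002.SanityHeckeA3
import Claimed.Open.R002.SanityHeckeA4

/-! # Twists of `E₀`, post E2: additive reduction of a minimal equation; `𝔪_v = (2)` at `v ∣ 2` -/

set_option autoImplicit false

namespace Claimed.Open.R002

open WeierstrassCurve Polynomial IsDedekindDomain NumberField

section
variable (R : Type*) [CommRing R] [IsDomain R] [IsDiscreteValuationRing R]
variable (K : Type*) [Field K] [Algebra R K] [IsFractionRing R K]

/-- The proof of `localPolynomial_of_additive` (A3) from its line `hmin` on. -/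
theorem localPolynomial_of_additive_of_isMinimal (W₀ : WeierstrassCurve R) [(W₀⁄K).IsElliptic]
    (hmin : IsMinimal R (W₀⁄K)) (hΔ : W₀.Δ ∈ IsLocalRing.maximalIdeal R)
    (hc : W₀.c₄ ∈ IsLocalRing.maximalIdeal R) :
    (W₀⁄K).localPolynomial R = 1 := by
  have hmin' : IsMinimal R ((W₀⁄K).minimal R) := inferInstance
  obtain ⟨C₀, hC₀⟩ := exists_vc_lift R hmin (C := ((W₀⁄K).exists_isMinimal R).choose) hmin'
  have hW' : (W₀⁄K).minimal R = (C₀ • W₀)⁄K := by
    show ((W₀⁄K).exists_isMinimal R).choose • (W₀⁄K) = (C₀ • W₀).map (algebraMap R K)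
    rw [← hC₀]
    exact map_variableChange W₀ C₀ (algebraMap R K)
  have hadd : ((W₀⁄K).minimal R).HasAdditiveReduction R := by
    rw [hasAdditiveReduction_iff]
    refine ⟨hmin', ?_, ?_⟩
    · rw [hW', baseChange, map_Δ, IsDedekindDomain.HeightOneSpectrum.valuation_lt_one_iff_mem,
        variableChange_Δ]
      exact Ideal.mul_mem_left _ _ hΔ
    · rw [hW', baseChange, map_c₄, IsDedekindDomain.HeightOneSpectrum.valuation_lt_one_iff_mem,
        variableChange_c₄]
      exact Ideal.mul_mem_left _ _ hc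
  have h1 : ¬ ((W₀⁄K).minimal R).HasGoodReduction R := hadd.not_hasGoodReduction
  have h2 : ¬ ((W₀⁄K).minimal R).HasMultiplicativeReduction R := hadd.not_hasMultiplicativeReduction
  have h3 : ¬ ((W₀⁄K).minimal R).HasSplitMultiplicativeReduction R := fun h => h2 h.1
  unfold localPolynomial
  rw [if_neg h1, if_neg h3, if_neg h2]

end

/-- Transport `PadicInt.maximalIdeal_eq_span_p` along
`(Rat.HeightOneSpectrum.adicCompletionIntegers.padicIntEquiv v).toRingEquiv` as in A4
(`a4_mem_maximalIdeal_pow_iff_of_equiv` with `k = 1`, `Ideal.mem_span_singleton'`, `map_ofNat`). -/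
theorem exists_eq_two_mul_of_mem_maximalIdeal (v : HeightOneSpectrum (𝓞 ℚ)) (h : primeBelow v = 2) :
    ∀ x ∈ IsLocalRing.maximalIdeal (v.adicCompletionIntegers ℚ), ∃ y, x = 2 * y := by
  have : Fact (Nat.Prime (Rat.HeightOneSpectrum.primesEquiv v).1) :=
    ⟨(Rat.HeightOneSpectrum.primesEquiv v).2⟩
  intro x hx
  have h1 : x ∈ IsLocalRing.maximalIdeal (v.adicCompletionIntegers ℚ) ^ 1 := by rwa [pow_one]
  rw [a4_mem_maximalIdeal_pow_iff_of_equiv
    (Rat.HeightOneSpectrum.adicCompletionIntegers.padicIntEquiv v).toRingEquiv, pow_one,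
    PadicInt.maximalIdeal_eq_span_p, Ideal.mem_span_singleton'] at h1
  obtain ⟨a, ha⟩ := h1
  have hp : (Rat.HeightOneSpectrum.primesEquiv v).1 = 2 := h
  have hp2 : (((Rat.HeightOneSpectrum.primesEquiv v).1 : ℕ) :
      ℤ_[(Rat.HeightOneSpectrum.primesEquiv v).1]) = 2 := by
    have h3 := congrArg (fun n : ℕ => (n : ℤ_[(Rat.HeightOneSpectrum.primesEquiv v).1])) hp
    simpa using h3
  refine ⟨(Rat.HeightOneSpectrum.adicCompletionIntegers.padicIntEquiv v).toRingEquiv.symm a, ?_⟩
  apply (Rat.HeightOneSpectrum.adicCompletionIntegers.padicIntEquiv v).toRingEquiv.injective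
  rw [map_mul, RingEquiv.apply_symm_apply, map_ofNat, ← ha, hp2, mul_comm]

end Claimed.Open.R002
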