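import Claimed.Open.R002.SanityFamA5
import Claimed.Open.R002.SanityFamE1
import Claimed.Open.R002.SanityFamE2

/-! # Twists of `E₀`, post E3: the local polynomial at the primes `p ∣ 2 d`, `d` squarefree of any parity -/

set_option autoImplicit false

namespace Claimed.Open.R002

open WeierstrassCurve IsDedekindDomain NumberField Polynomial

/-- `p` odd: `p¹² ∣ 64 d⁶` gives `p¹² ∣ d⁶` (`Nat.Coprime.dvd_of_dvd_mul_left`), so `p² ∣ d`
(`(Nat.pow_dvd_pow_iff (by norm_num)).mp` for `(p²)⁶ ∣ d⁶`), against `Squarefree d`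
(cf. the proof of `not_pow_twelve_dvd`). -/
theorem not_pow_twelve_dvd_of_ne_two (d : ℕ) (hd : Squarefree d) {p : ℕ} (hp : p.Prime)
    (h2 : p ≠ 2) : ¬ p ^ 12 ∣ 64 * d ^ 6 := by
  intro h
  have hcop : Nat.Coprime (p ^ 12) 64 := by
    have h64 : (64 : ℕ) = 2 ^ 6 := by norm_num
    rw [h64]
    exact Nat.Coprime.pow _ _ ((Nat.coprime_primes hp Nat.prime_two).2 h2)
  have h1 : p ^ 12 ∣ d ^ 6 := hcop.dvd_of_dvd_mul_left h
  have h3 : (p ^ 2) ^ 6 ∣ d ^ 6 := by
    rw [← pow_mul]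
    exact h1
  have h4 : p ^ 2 ∣ d := (Nat.pow_dvd_pow_iff (by norm_num)).mp h3
  have h5 : p * p ∣ d := by rwa [sq] at h4
  exact hp.one_lt.ne' (Nat.isUnit_iff.1 (hd p h5))

/-- `d = 2 e`, `e` odd (`Squarefree d`): `48 d² = 2⁶ · 3 e²`. -/
theorem two_pow_dvd_c₄_of_even (d : ℕ) (hd : Squarefree d) (heven : Even d) :
    2 ^ 5 ∣ 48 * d ^ 2 ∧ ¬ 2 ^ 8 ∣ 48 * d ^ 2 := by
  obtain ⟨e, rfl⟩ := heven
  have hodd : ¬ 2 ∣ e := by
    rintro ⟨f, rfl⟩
    have : 2 * 2 ∣ 2 * f + 2 * f := ⟨f, by ring⟩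
    exact absurd (Nat.isUnit_iff.1 (hd 2 this)) (by norm_num)
  refine ⟨⟨6 * e ^ 2, by ring⟩, ?_⟩
  rintro ⟨k, hk⟩
  have h1 : 3 * e ^ 2 = 4 * k := by
    have : 64 * (3 * e ^ 2) = 64 * (4 * k) := by
      calc 64 * (3 * e ^ 2) = 48 * (e + e) ^ 2 := by ring
        _ = 2 ^ 8 * k := hk
        _ = 64 * (4 * k) := by ring
    exact Nat.eq_of_mul_eq_mul_left (by norm_num) this
  have h2 : 2 ∣ 3 * e ^ 2 := ⟨2 * k, by rw [h1]; ring⟩
  have h3 : 2 ∣ e ^ 2 := (Nat.Coprime.dvd_of_dvd_mul_left (by norm_num : Nat.Coprime 2 3) h2)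
  exact hodd (Nat.prime_two.dvd_of_dvd_pow h3)

/-- `d` even, `p = 2`: `isMinimal_of_c₄_two` (with `exists_eq_two_mul_of_mem_maximalIdeal`,
`natCast_mem_maximalIdeal_pow`, `Etwover_c₄`, `two_pow_dvd_c₄_of_even`) and
`localPolynomial_of_additive_of_isMinimal`; frame as in `localPolynomial_Etw_of_dvd` (A5). -/
theorem localPolynomial_Etw_two_of_even (d : ℕ) (hd : Squarefree d) (heven : Even d)
    (v : HeightOneSpectrum (𝓞 ℚ)) (h : primeBelow v = 2) :
    ((Etw d).baseChange (v.adicCompletion ℚ)).localPolynomial (v.adicCompletionIntegers ℚ) = 1 := by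
  have hd0 : d ≠ 0 := hd.ne_zero
  have e1 : (Etw d).baseChange (v.adicCompletion ℚ) =
      (Etwover d (v.adicCompletionIntegers ℚ))⁄(v.adicCompletion ℚ) :=
    Etw_baseChange_eq d (v.adicCompletionIntegers ℚ) (v.adicCompletion ℚ)
  have hell := Etw_isElliptic d hd0
  have : ((Etwover d (v.adicCompletionIntegers ℚ))⁄(v.adicCompletion ℚ)).IsElliptic := by
    rw [← e1]
    exact inferInstanceAs ((Etw d).map (algebraMap ℚ (v.adicCompletion ℚ))).IsElliptic
  rw [e1]
  have h2m : (2 : v.adicCompletionIntegers ℚ) ∈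
      IsLocalRing.maximalIdeal (v.adicCompletionIntegers ℚ) := by
    have hmem' : ((2 : ℕ) : v.adicCompletionIntegers ℚ) ∈
        IsLocalRing.maximalIdeal (v.adicCompletionIntegers ℚ) ^ 1 := by
      rw [natCast_mem_maximalIdeal_pow, pow_one, h]
    rw [pow_one] at hmem'
    exact_mod_cast hmem'
  obtain ⟨h5, h8⟩ := two_pow_dvd_c₄_of_even d hd heven
  apply localPolynomial_of_additive_of_isMinimal
  · apply isMinimal_of_c₄_two _ _ h2m (exists_eq_two_mul_of_mem_maximalIdeal v h)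
    · rw [Etwover_c₄, natCast_mem_maximalIdeal_pow, h]
      exact h5
    · rw [Etwover_c₄, natCast_mem_maximalIdeal_pow, h]
      exact h8
  · rw [Etwover_Δ]
    have hmem' : ((64 * d ^ 6 : ℕ) : v.adicCompletionIntegers ℚ) ∈
        IsLocalRing.maximalIdeal (v.adicCompletionIntegers ℚ) ^ 1 := by
      rw [natCast_mem_maximalIdeal_pow, pow_one, h, show 64 * d ^ 6 = 2 * (32 * d ^ 6) by ring]
      exact Dvd.intro _ rfl
    rw [pow_one] at hmem'
    exact hmem'
  · rw [Etwover_c₄]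
    have hmem' : ((48 * d ^ 2 : ℕ) : v.adicCompletionIntegers ℚ) ∈
        IsLocalRing.maximalIdeal (v.adicCompletionIntegers ℚ) ^ 1 := by
      rw [natCast_mem_maximalIdeal_pow, pow_one, h, show 48 * d ^ 2 = 2 * (24 * d ^ 2) by ring]
      exact Dvd.intro _ rfl
    rw [pow_one] at hmem'
    exact hmem'

/-- `d` odd: `localPolynomial_Etw_of_dvd`.  `d` even: `p = 2` above; `p` odd (then `p ∣ d`): the proof of
`localPolynomial_Etw_of_dvd` with `not_pow_twelve_dvd_of_ne_two`. -/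
theorem localPolynomial_Etw_of_dvd_of_squarefree (d : ℕ) (hd : Squarefree d)
    (v : HeightOneSpectrum (𝓞 ℚ)) (h : primeBelow v ∣ 2 * d) :
    ((Etw d).baseChange (v.adicCompletion ℚ)).localPolynomial (v.adicCompletionIntegers ℚ) = 1 := by
  rcases Nat.even_or_odd d with heven | hodd
  swap
  · exact localPolynomial_Etw_of_dvd d hd hodd v h
  by_cases h2 : primeBelow v = 2
  · exact localPolynomial_Etw_two_of_even d hd heven v h2
  have hd0 : d ≠ 0 := hd.ne_zero
  have hp := prime_primeBelow v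
  have e1 : (Etw d).baseChange (v.adicCompletion ℚ) =
      (Etwover d (v.adicCompletionIntegers ℚ))⁄(v.adicCompletion ℚ) :=
    Etw_baseChange_eq d (v.adicCompletionIntegers ℚ) (v.adicCompletion ℚ)
  have hell := Etw_isElliptic d hd0
  have : ((Etwover d (v.adicCompletionIntegers ℚ))⁄(v.adicCompletion ℚ)).IsElliptic := by
    rw [← e1]
    exact inferInstanceAs ((Etw d).map (algebraMap ℚ (v.adicCompletion ℚ))).IsElliptic
  rw [e1]
  apply localPolynomial_of_additive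
  · rw [Etwover_Δ, natCast_mem_maximalIdeal_pow]
    exact not_pow_twelve_dvd_of_ne_two d hd hp h2
  · rw [Etwover_Δ]
    have hmem' : ((64 * d ^ 6 : ℕ) : v.adicCompletionIntegers ℚ) ∈
        IsLocalRing.maximalIdeal (v.adicCompletionIntegers ℚ) ^ 1 := by
      rw [natCast_mem_maximalIdeal_pow, pow_one, show 64 * d ^ 6 = 2 * d * (32 * d ^ 5) by ring]
      exact Dvd.dvd.mul_right h _
    rw [pow_one] at hmem'
    exact hmem'
  · rw [Etwover_c₄]
    have hmem' : ((48 * d ^ 2 : ℕ) : v.adicCompletionIntegers ℚ) ∈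
        IsLocalRing.maximalIdeal (v.adicCompletionIntegers ℚ) ^ 1 := by
      rw [natCast_mem_maximalIdeal_pow, pow_one, show 48 * d ^ 2 = 2 * d * (24 * d) by ring]
      exact Dvd.dvd.mul_right h _
    rw [pow_one] at hmem'
    exact hmem'

end Claimed.Open.R002
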