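import Claimed.Open.R002.SanityFam
import Claimed.Open.R002.SanityFamE3

/-! # Sanity for R002: `IsLFunction` for ALL quadratic twists `y² = x³ - d² x`, `d` squarefree

The theorems of `SanityFamA6`, `SanityFamA7`, `SanityFam` without the hypothesis `Odd d`: the only place where it was
used is the local polynomial at the primes `p ∣ 2 d`, which `SanityFamE3` gives for every squarefree `d`. -/

set_option autoImplicit false

namespace Claimed.Open.R002

open WeierstrassCurve IsDedekindDomain NumberField Polynomial Real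

theorem LFunction_Etw_bad_mul_of_squarefree (d : ℕ) (hd : Squarefree d) {p : ℕ} (hp : p.Prime)
    (h : p ∣ 2 * d) (m : ℕ) : (Etw d).LFunction (p * m) = 0 := by
  rcases Nat.eq_zero_or_pos m with rfl | hm
  · simp
  obtain ⟨v, hv⟩ := exists_primeBelow_eq hp
  obtain ⟨k, n, hn, rfl⟩ := Nat.exists_eq_pow_mul_and_not_dvd hm.ne' p hp.ne_one
  have h1 : p * (p ^ k * n) = p ^ (k + 1) * n := by ring
  have h2 : (Etw d).LFunction (p ^ (k + 1)) = 0 := by
    have h3 := LFunction_primeBelow_pow (Etw d) v (k + 1)
    rw [hv, localPowerSeries, localPolynomial_Etw_of_dvd_of_squarefree d hd v (hv ▸ h)] at h3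
    rw [h3]
    have h4 : PowerSeries.invOfUnit (((1 : ℤ[X]) : PowerSeries ℤ)) 1 = 1 := by
      have h5 := PowerSeries.mul_invOfUnit (((1 : ℤ[X]) : PowerSeries ℤ)) 1 (by simp)
      simpa using h5
    rw [h4, PowerSeries.coeff_one]
    simp
  rw [h1, LFunction_pow_mul (Etw d) hp _ hn, h2, zero_mul]

theorem LFunction_Etw_eq_of_squarefree (d : ℕ) (hd : Squarefree d) (n : ℕ) :
    (Etw d).LFunction n = jacobiSym d n * E₀.LFunction n := by
  induction n using Nat.strong_induction_on with
  | _ n ih =>
    rcases Nat.eq_zero_or_pos n with rfl | hn0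
    · simp
    rcases eq_or_ne n 1 with rfl | hn1
    · rw [LFunction_one, LFunction_one, jacobiSym.one_right, one_mul]
    have hp : n.minFac.Prime := Nat.minFac_prime hn1
    obtain ⟨m, hm⟩ := Nat.minFac_dvd n
    set p := n.minFac with hpdef
    have : Fact p.Prime := ⟨hp⟩
    have hm0 : 0 < m := by
      rcases Nat.eq_zero_or_pos m with rfl | h
      · simp at hm; omega
      · exact h
    have hmn : m < n := by
      rw [hm]
      exact lt_mul_of_one_lt_left hm0 hp.one_lt
    have hdiv : m / p < n := lt_of_le_of_lt (Nat.div_le_self m p) hmn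
    rw [hm]
    by_cases hbad : p ∣ 2 * d
    · rw [LFunction_Etw_bad_mul_of_squarefree d hd hp hbad m]
      rcases (Nat.Prime.dvd_mul hp).1 hbad with h2 | hpd
      · have hp2 : p = 2 := (Nat.prime_dvd_prime_iff_eq hp Nat.prime_two).1 h2
        rw [hp2, LFunction_E₀_two_mul, mul_zero]
      · have hJ : jacobiSym d (p * m) = 0 := by
          rw [jacobiSym.eq_zero_iff]
          refine ⟨Nat.mul_ne_zero hp.ne_zero hm0.ne', ?_⟩
          rw [Int.gcd_natCast_natCast]
          intro h1
          have := Nat.dvd_gcd hpd (dvd_mul_right p m)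
          rw [h1] at this
          exact hp.one_lt.ne' (Nat.dvd_one.1 this)
        rw [hJ, zero_mul]
    · have h2 : p ≠ 2 := by
        intro h
        exact hbad (h ▸ dvd_mul_right 2 d)
      have hpd : ¬ p ∣ d := fun h => hbad (Dvd.dvd.mul_left h 2)
      have hcop : (d : ℤ).gcd (p : ℤ) = 1 := by
        rw [Int.gcd_natCast_natCast]
        exact ((Nat.Prime.coprime_iff_not_dvd hp).2 hpd).symm
      have hsq : jacobiSym d p * jacobiSym d p = 1 := by
        have := jacobiSym.sq_one hcop
        rwa [sq] at this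
      rw [LFunction_Etw_prime_mul d p hbad m, LFunction_E₀_prime_mul p h2 m, ih m hmn,
        ih (m / p) hdiv, jacobiSym.mul_right' _ hp.ne_zero hm0.ne']
      by_cases hpm : p ∣ m
      · obtain ⟨k, hk⟩ := hpm
        have hk0 : k ≠ 0 := by
          rintro rfl
          simp at hk
          omega
        have hkd : m / p = k := by
          rw [hk]
          exact Nat.mul_div_cancel_left k hp.pos
        rw [if_pos ⟨k, hk⟩, if_pos ⟨k, hk⟩, hkd]
        have hJm : jacobiSym d m = jacobiSym d p * jacobiSym d k := by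
          rw [hk]
          exact jacobiSym.mul_right' _ hp.ne_zero hk0
        rw [hJm]
        linear_combination ((p : ℤ) * jacobiSym d k * E₀.LFunction k) * hsq
      · rw [if_neg hpm, if_neg hpm]
        ring

theorem LFunction_Etw_eq_heckeTw_of_squarefree (d : ℕ) (hd : Squarefree d) (n : ℕ) :
    (Etw d).LFunction n = heckeTw d n := by
  rw [LFunction_Etw_eq_of_squarefree d hd, LFunction_E₀_eq_hecke, heckeTw]

theorem LFunction_Etw_coe_of_squarefree (d : ℕ) (hd : Squarefree d) :
    (fun n => ((Etw d).LFunction n : ℂ)) = fun n => (heckeTw d n : ℂ) := by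
  funext n
  rw [LFunction_Etw_eq_heckeTw_of_squarefree d hd]

/-- **The Hasse–Weil `L`-series of `y² = x³ - d² x`, `d` squarefree, converges absolutely on
`Re s > 3/2` and extends to an entire function.** -/
theorem isLFunction_Etw_of_squarefree (d : ℕ) (hd : Squarefree d) :
    IsLFunction (Etw d) (famL d) := by
  have hd0 : 0 < d := Nat.pos_of_ne_zero hd.ne_zero
  refine ⟨differentiable_famL d hd0, fun s hs => ⟨?_, ?_⟩⟩
  · rw [LFunction_Etw_coe_of_squarefree d hd]
    exact lseriesSummable_heckeTw d hs
  · have h0 : (Etw d).LSeries s = LSeries (fun n => (heckeTw d n : ℂ)) s := by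
      unfold WeierstrassCurve.LSeries
      congr 1
      exact LFunction_Etw_coe_of_squarefree d hd
    have hΓ : Complex.Gamma s ≠ 0 := Complex.Gamma_ne_zero_of_re_pos (by linarith)
    have hπ : (π : ℂ) ≠ 0 := by exact_mod_cast Real.pi_ne_zero
    rw [h0, famL, mellin_thetaTw_eq d hd0 hs, Complex.cpow_neg]
    have hπs : (π : ℂ) ^ s ≠ 0 := by
      rw [Ne, Complex.cpow_eq_zero_iff]
      exact fun h => hπ h.1
    field_simp

/-- **Every quadratic twist of `E₀` by a squarefree integer has an `L`-function** in the sense of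
`Statement.lean`. -/
theorem exists_isLFunction_quadraticTwist_E₀_of_squarefree (d : ℤ) (hd : Squarefree d) :
    ∃ L : ℂ → ℂ, IsLFunction (quadraticTwist E₀ (d : ℚ)) L := by
  rw [quadraticTwist_E₀_intCast]
  exact ⟨_, isLFunction_Etw_of_squarefree d.natAbs (Int.squarefree_natAbs.mpr hd)⟩

/-- In the words of the third conjunct of `Statement`: every member `E₀^d`, `d ∈ 𝒟(X)`, of the family of
quadratic twists of `E₀` has an `L`-function. -/
theorem exists_isLFunction_of_mem_squarefreeUpTo {X : ℝ} {d : ℤ} (h : d ∈ squarefreeUpTo X) :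
    ∃ L : ℂ → ℂ, IsLFunction (quadraticTwist E₀ (d : ℚ)) L :=
  exists_isLFunction_quadraticTwist_E₀_of_squarefree d h.2.2

end Claimed.Open.R002
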