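import Claimed.Open.R002.SanityHeckeDefs

/-! # Hecke road, post D5: the Mellin transform of the theta series is entire      (pen: helper268)

`thetaEFEPair` is a `WeakFEPair ℂ` with `f t = thetaE t`, `g t = thetaEDual t = (1/16) sinKernel (1/4) (t/8) cosKernel (1/4) (t/8)`,
`k = 2`, `ε = 1`, `f₀ = g₀ = 0`:  `oddKernel_functional_equation`, `evenKernel_functional_equation` give
`f (1/x) = 4 (x/8)^(3/2) (x/8)^(1/2) sinKernel (x/8) cosKernel (x/8) = x² g x`;  `oddKernel`, `sinKernel` decay exponentially,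
`evenKernel`, `cosKernel` are bounded at `∞`.  Then `IsStrongFEPair.differentiable_Λ` and `IsStrongFEPair.Λ_eq`. -/

set_option autoImplicit false

namespace Claimed.Open.R002

open Filter Asymptotics Set Real HurwitzZeta

/-- the dual theta series. -/
noncomputable def thetaEDual (t : ℝ) : ℝ :=
  1 / 16 * sinKernel ((1 / 4 : ℝ) : UnitAddCircle) (t / 8) *
    cosKernel ((1 / 4 : ℝ) : UnitAddCircle) (t / 8)

theorem continuousOn_thetaE : ContinuousOn thetaE (Ioi 0) := by
  have hm : MapsTo (fun t : ℝ => 8 * t) (Ioi 0) (Ioi 0) := fun t ht => by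
    have : (0 : ℝ) < t := ht
    show (0 : ℝ) < 8 * t
    positivity
  have hc : ContinuousOn (fun t : ℝ => 8 * t) (Ioi 0) := by fun_prop
  exact (continuousOn_const.mul ((continuousOn_oddKernel _).comp hc hm)).mul
    ((continuousOn_evenKernel _).comp hc hm)

theorem continuousOn_thetaEDual : ContinuousOn thetaEDual (Ioi 0) := by
  have hm : MapsTo (fun t : ℝ => t / 8) (Ioi 0) (Ioi 0) := fun t ht => by
    have : (0 : ℝ) < t := ht
    show (0 : ℝ) < t / 8
    positivity
  have hc : ContinuousOn (fun t : ℝ => t / 8) (Ioi 0) := by fun_prop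
  exact (continuousOn_const.mul ((continuousOn_sinKernel _).comp hc hm)).mul
    ((continuousOn_cosKernel _).comp hc hm)

theorem thetaE_one_div {x : ℝ} (hx : 0 < x) : thetaE (1 / x) = x ^ (2 : ℝ) * thetaEDual x := by
  unfold thetaE thetaEDual
  have h8 : 8 * (1 / x) = 8 / x := by ring
  have hy : 0 < 8 / x := by positivity
  rw [h8, oddKernel_functional_equation, evenKernel_functional_equation]
  have e1 : 1 / (8 / x) = x / 8 := by field_simp
  rw [e1]
  have e2 : (8 / x) ^ (3 / 2 : ℝ) * (8 / x) ^ (1 / 2 : ℝ) = (8 / x) ^ (2 : ℝ) := by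
    rw [← rpow_add hy]; norm_num
  have e3 : (8 / x) ^ (2 : ℝ) = 64 / x ^ (2 : ℝ) := by
    rw [div_rpow (by norm_num) hx.le]
    norm_num
  have hp1 : 0 < (8 / x) ^ (3 / 2 : ℝ) := rpow_pos_of_pos hy _
  have hp2 : 0 < (8 / x) ^ (1 / 2 : ℝ) := rpow_pos_of_pos hy _
  have hx2 : 0 < x ^ (2 : ℝ) := rpow_pos_of_pos hx _
  have e4 : 1 / (8 / x) ^ (3 / 2 : ℝ) * (1 / (8 / x) ^ (1 / 2 : ℝ)) = x ^ (2 : ℝ) / 64 := by
    rw [div_mul_div_comm, e2, e3]
    field_simp
  calc 4 * (1 / (8 / x) ^ (3 / 2 : ℝ) * sinKernel _ (x / 8)) *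
        (1 / (8 / x) ^ (1 / 2 : ℝ) * cosKernel _ (x / 8))
      = 4 * (1 / (8 / x) ^ (3 / 2 : ℝ) * (1 / (8 / x) ^ (1 / 2 : ℝ))) *
          (sinKernel _ (x / 8) * cosKernel _ (x / 8)) := by ring
    _ = _ := by rw [e4]; ring

theorem isBigO_thetaE (r : ℝ) : thetaE =O[atTop] (· ^ r) := by
  obtain ⟨p, hp, h1⟩ := isBigO_atTop_oddKernel ((1 / 4 : ℝ) : UnitAddCircle)
  obtain ⟨q, hq, h2⟩ := isBigO_atTop_evenKernel_sub ((1 / 4 : ℝ) : UnitAddCircle)
  have ht : Tendsto (fun t : ℝ => 8 * t) atTop atTop :=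
    tendsto_id.const_mul_atTop (by norm_num : (0 : ℝ) < 8)
  have hexp1 : (fun x : ℝ => rexp (-q * x)) =O[atTop] (fun _ : ℝ => (1 : ℝ)) := by
    refine IsBigO.of_bound 1 ?_
    filter_upwards [eventually_ge_atTop 0] with x hx
    rw [norm_of_nonneg (exp_pos _).le, norm_one, mul_one, exp_le_one_iff]
    nlinarith
  have h3 : (evenKernel ((1 / 4 : ℝ) : UnitAddCircle)) =O[atTop] (fun _ : ℝ => (1 : ℝ)) := by
    have h4 := (h2.trans hexp1).add (isBigO_const_const
      (if (((1 / 4 : ℝ) : UnitAddCircle)) = 0 then (1 : ℝ) else 0) (one_ne_zero) atTop)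
    simpa using h4
  have h5 := (h1.comp_tendsto ht).mul (h3.comp_tendsto ht)
  have h6 : thetaE =O[atTop] fun t : ℝ => rexp (-(p * 8) * t) := by
    have h7 := h5.const_mul_left 4
    refine (h7.congr_left fun t => ?_).congr_right fun t => ?_
    · simp only [Function.comp, thetaE]; ring
    · simp only [Function.comp, mul_one]; congr 1; ring
  exact h6.trans (isLittleO_exp_neg_mul_rpow_atTop (by positivity) _).isBigO

theorem isBigO_thetaEDual (r : ℝ) : thetaEDual =O[atTop] (· ^ r) := by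
  obtain ⟨p, hp, h1⟩ := isBigO_atTop_sinKernel ((1 / 4 : ℝ) : UnitAddCircle)
  obtain ⟨q, hq, h2⟩ := isBigO_atTop_cosKernel_sub ((1 / 4 : ℝ) : UnitAddCircle)
  have ht : Tendsto (fun t : ℝ => t / 8) atTop atTop :=
    tendsto_id.atTop_div_const (by norm_num : (0 : ℝ) < 8)
  have hexp1 : (fun x : ℝ => rexp (-q * x)) =O[atTop] (fun _ : ℝ => (1 : ℝ)) := by
    refine IsBigO.of_bound 1 ?_
    filter_upwards [eventually_ge_atTop 0] with x hx
    rw [norm_of_nonneg (exp_pos _).le, norm_one, mul_one, exp_le_one_iff]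
    nlinarith
  have h3 : (cosKernel ((1 / 4 : ℝ) : UnitAddCircle)) =O[atTop] (fun _ : ℝ => (1 : ℝ)) := by
    have h4 := (h2.trans hexp1).add (isBigO_const_const (1 : ℝ) (one_ne_zero) atTop)
    simpa using h4
  have h5 := (h1.comp_tendsto ht).mul (h3.comp_tendsto ht)
  have h6 : thetaEDual =O[atTop] fun t : ℝ => rexp (-(p / 8) * t) := by
    have h7 := h5.const_mul_left (1 / 16)
    refine (h7.congr_left fun t => ?_).congr_right fun t => ?_
    · simp only [Function.comp, thetaEDual]; ring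
    · simp only [Function.comp, mul_one]; congr 1; ring
  exact h6.trans (isLittleO_exp_neg_mul_rpow_atTop (by positivity) _).isBigO

/-- the FE-pair of the theta series of `y² = x³ - x`. -/
noncomputable def thetaEFEPair : WeakFEPair ℂ where
  f := fun t : ℝ => (thetaE t : ℂ)
  g := fun t : ℝ => (thetaEDual t : ℂ)
  hf_int := (Complex.continuous_ofReal.comp_continuousOn continuousOn_thetaE).locallyIntegrableOn
    measurableSet_Ioi
  hg_int := (Complex.continuous_ofReal.comp_continuousOn continuousOn_thetaEDual).locallyIntegrableOn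
    measurableSet_Ioi
  k := 2
  hk := by norm_num
  ε := 1
  hε := one_ne_zero
  f₀ := 0
  g₀ := 0
  hf_top r := by
    have := isBigO_thetaE r
    rw [← isBigO_norm_left] at this ⊢
    simpa using this
  hg_top r := by
    have := isBigO_thetaEDual r
    rw [← isBigO_norm_left] at this ⊢
    simpa using this
  h_feq x hx := by
    rw [thetaE_one_div hx, one_mul, smul_eq_mul, Complex.ofReal_mul]

theorem isStrong_thetaEFEPair : IsStrongFEPair thetaEFEPair := ⟨rfl, rfl⟩

theorem differentiable_mellin_thetaE :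
    Differentiable ℂ (mellin fun t : ℝ => (thetaE t : ℂ)) := by
  have h := isStrong_thetaEFEPair.differentiable_Λ
  rw [isStrong_thetaEFEPair.Λ_eq] at h
  exact h

end Claimed.Open.R002
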