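import Claimed.Open.R002.SanityHeckeD1

/-! # Hecke road, post D3: absolute convergence of the lattice sum for `σ > 3/2` -/

set_option autoImplicit false

namespace Claimed.Open.R002

/-- `|Re α| / N(α)^σ ≤ N(α)^(1/2 - σ) ≤ (m² + n²)^(1/2 - σ)`, and `∑ ‖(m, n)‖^(-k)` converges for
`k = 2 σ - 1 > 2` (`EisensteinSeries.summable_one_div_norm_rpow` on `Fin 2 → ℤ`, or two
one-dimensional comparisons). -/
theorem summable_re_div_norm_rpow {σ : ℝ} (hσ : 3 / 2 < σ) :
    Summable fun x : ℤ × ℤ => ‖((primOf x).re : ℂ)‖ / ((primOf x).norm : ℝ) ^ σ := by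
  have hk : 2 < 2 * σ - 1 := by linarith
  have h0 := EisensteinSeries.summable_one_div_norm_rpow hk
  rw [← (finTwoArrowEquiv ℤ).symm.summable_iff] at h0
  refine Summable.of_norm_bounded_eventually h0 ?_
  filter_upwards [Filter.eventually_cofinite_ne ((0 : ℤ), (0 : ℤ))] with x hx
  simp only [Function.comp_apply, finTwoArrowEquiv_symm_apply]
  set r : ℝ := ‖![x.1, x.2]‖ with hr
  set N : ℝ := ((primOf x).norm : ℝ) with hN
  have hNpos : 0 < N := by
    rw [hN]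
    exact_mod_cast norm_primOf_pos x
  have hr2 : r ^ 2 ≤ (x.1 : ℝ) ^ 2 + (x.2 : ℝ) ^ 2 := by
    rw [hr, EisensteinSeries.norm_eq_max_natAbs]
    simp only [Matrix.cons_val_zero, Matrix.cons_val_one]
    have e1 : ((x.1.natAbs : ℝ)) ^ 2 = (x.1 : ℝ) ^ 2 := by
      rw [Nat.cast_natAbs, Int.cast_abs, sq_abs]
    have e2 : ((x.2.natAbs : ℝ)) ^ 2 = (x.2 : ℝ) ^ 2 := by
      rw [Nat.cast_natAbs, Int.cast_abs, sq_abs]
    push_cast
    rcases max_cases (x.1.natAbs : ℝ) (x.2.natAbs : ℝ) with ⟨h, _⟩ | ⟨h, _⟩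
    · rw [h, e1]; nlinarith [sq_nonneg (x.2 : ℝ)]
    · rw [h, e2]; nlinarith [sq_nonneg (x.1 : ℝ)]
  have hrpos : 0 < r := by
    rw [hr, norm_pos_iff]
    intro h
    apply hx
    have h1 := congrFun h 0
    have h2 := congrFun h 1
    simp only [Matrix.cons_val_zero, Matrix.cons_val_one, Pi.zero_apply] at h1 h2
    exact Prod.ext h1 h2
  have hrN : r ^ 2 ≤ N := hr2.trans (sq_le_norm_primOf x)
  have h1 : ‖((primOf x).re : ℂ)‖ ≤ N ^ (1 / 2 : ℝ) := by
    rw [Complex.norm_intCast]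
    exact abs_re_primOf_le x
  rw [Real.norm_of_nonneg (by positivity)]
  calc ‖((primOf x).re : ℂ)‖ / N ^ σ ≤ N ^ (1 / 2 : ℝ) / N ^ σ := by gcongr
    _ = N ^ (1 / 2 - σ) := by rw [← Real.rpow_sub hNpos]
    _ ≤ (r ^ 2) ^ (1 / 2 - σ) :=
        Real.rpow_le_rpow_of_nonpos (by positivity) hrN (by linarith)
    _ = r ^ (-(2 * σ - 1)) := by
        rw [← Real.rpow_natCast, ← Real.rpow_mul hrpos.le]
        congr 1
        push_cast
        ring

end Claimed.Open.R002
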