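import Claimed.Open.R002.SanityHeckeD1

/-! # Hecke road, post D4: the theta series is a product of two Hurwitz kernels -/

set_option autoImplicit false

namespace Claimed.Open.R002

open Real

/-- Abstract form: the symmetrised product of two (absolutely) convergent real series. -/
theorem d4_sym_prod {f g : ℤ → ℝ} {a b : ℝ} (hf : HasSum f a) (hg : HasSum g b) :
    HasSum (fun x : ℤ × ℤ => 2 * (f x.1 * g x.2 + g x.1 * f x.2)) (4 * a * b) := by
  have h1 := hf.mul hg (summable_mul_of_summable_norm hf.summable.norm hg.summable.norm)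
  have h2 := hg.mul hf (summable_mul_of_summable_norm hg.summable.norm hf.summable.norm)
  have h3 := (h1.add h2).mul_left 2
  have hval : 2 * (a * b + b * a) = 4 * a * b := by ring
  rw [hval] at h3
  exact h3

/-- The real version of the product formula. -/
theorem d4_hasSum_real {t : ℝ} (ht : 0 < t) :
    HasSum (fun x : ℤ × ℤ => ((primOf x).re : ℝ) * rexp (-π * ((primOf x).norm : ℝ) * t))
      (thetaE t) := by
  have hT : 0 < 8 * t := by positivity
  have ho := HurwitzZeta.hasSum_int_oddKernel (1 / 4 : ℝ) hT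
  have he := HurwitzZeta.hasSum_int_evenKernel (1 / 4 : ℝ) hT
  have h3 := d4_sym_prod ho he
  unfold thetaE
  refine h3.congr_fun fun x => ?_
  rw [norm_primOf_real, re_primOf_real]
  have hexp : rexp (-π * (8 * (((x.1 : ℝ) + 1 / 4) ^ 2 + ((x.2 : ℝ) + 1 / 4) ^ 2)) * t) =
      rexp (-π * ((x.1 : ℝ) + 1 / 4) ^ 2 * (8 * t)) *
        rexp (-π * ((x.2 : ℝ) + 1 / 4) ^ 2 * (8 * t)) := by
    rw [← Real.exp_add]; congr 1; ring
  rw [hexp]; ring

/-- With `u = m + 1/4`, `w = n + 1/4`, `T = 8 t`: the term is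
`2 (u + w) exp (-π u² T) exp (-π w² T)`; `HurwitzZeta.hasSum_int_oddKernel (1/4)`,
`HurwitzZeta.hasSum_int_evenKernel (1/4)`, product of two absolutely convergent series
(`HasSum.mul_of_nonneg` does not apply: use `HasSum.mul` with `summable_mul_of_summable_norm`). -/
theorem hasSum_thetaE {t : ℝ} (ht : 0 < t) :
    HasSum (fun x : ℤ × ℤ => ((primOf x).re : ℂ) * rexp (-π * ((primOf x).norm : ℝ) * t))
      (thetaE t : ℂ) := by
  have h := Complex.hasSum_ofReal.mpr (d4_hasSum_real ht)
  refine h.congr_fun fun x => ?_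
  push_cast
  rfl

end Claimed.Open.R002
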