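import Claimed.Open.R002.SanityHeckeD2
import Claimed.Open.R002.SanityHeckeD3
import Claimed.Open.R002.SanityHeckeD4

/-! # Hecke road, post D6: the Hecke `L`-series as a Mellin transform (integration of D1 .. D4) -/

set_option autoImplicit false

namespace Claimed.Open.R002

open Real

/-- the summand `Re α / N(α)^s` -/
noncomputable def d6_f (s : ℂ) (α : GaussianInt) : ℂ := (α.re : ℂ) / (((α.norm : ℤ) : ℝ) : ℂ) ^ s

theorem d6_norm_f (s : ℂ) (x : ℤ × ℤ) :
    ‖d6_f s (primOf x)‖ = ‖((primOf x).re : ℂ)‖ / ((primOf x).norm : ℝ) ^ s.re := by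
  have hpos : (0 : ℝ) < ((primOf x).norm : ℝ) := by exact_mod_cast norm_primOf_pos x
  unfold d6_f
  rw [norm_div, Complex.norm_cpow_eq_rpow_re_of_pos hpos]

theorem d6_summable_norm {s : ℂ} (hs : 3 / 2 < s.re) :
    Summable fun x : ℤ × ℤ => ‖d6_f s (primOf x)‖ := by
  simp_rw [d6_norm_f]
  exact summable_re_div_norm_rpow hs

theorem d6_term_eq {s : ℂ} (hs : s ≠ 0) (n : ℕ) :
    LSeries.term (fun n => (hecke n : ℂ)) s n = ∑ α ∈ primSet n, d6_f s α := by
  have hf : ∀ α ∈ primSet n, d6_f s α = (α.re : ℂ) / (n : ℂ) ^ s := by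
    intro α hα
    have h := (mem_primSet.mp hα).2
    unfold d6_f
    rw [h]
    norm_cast
  rw [Finset.sum_congr rfl hf]
  rcases Nat.eq_zero_or_pos n with rfl | hn
  · simp [LSeries.term_zero, Complex.zero_cpow hs]
  · rw [LSeries.term_of_ne_zero hn.ne', ← Finset.sum_div]
    congr 1
    unfold hecke
    push_cast
    rfl

/-- `‖hecke n / n^s‖ ≤ ∑_{α ∈ primSet n} |Re α| / N(α)^σ` (D2 with D3). -/
theorem lseriesSummable_hecke {s : ℂ} (hs : 3 / 2 < s.re) :
    LSeriesSummable (fun n => (hecke n : ℂ)) s := by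
  have hs0 : s ≠ 0 := by
    rintro rfl
    norm_num at hs
  unfold LSeriesSummable
  refine Summable.of_norm_bounded (summable_sum_primSet_norm (d6_f s) (d6_summable_norm hs)) ?_
  intro n
  rw [d6_term_eq hs0]
  exact norm_sum_le _ _

/-- `hasSum_mellin_pi_mul` on `ι = ℤ × ℤ` with D4 and D3, then D2 with
`f α = Re α / N(α)^s`. -/
theorem mellin_thetaE_eq {s : ℂ} (hs : 3 / 2 < s.re) :
    mellin (fun t : ℝ => (thetaE t : ℂ)) s =
      (π : ℂ) ^ (-s) * Complex.Gamma s * LSeries (fun n => (hecke n : ℂ)) s := by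
  have hs0 : s ≠ 0 := by
    rintro rfl
    norm_num at hs
  have hre : 0 < s.re := by linarith
  have h1 : HasSum (fun x : ℤ × ℤ => (π : ℂ) ^ (-s) * Complex.Gamma s * ((primOf x).re : ℂ) /
      (((primOf x).norm : ℝ) : ℂ) ^ s) (mellin (fun t : ℝ => (thetaE t : ℂ)) s) :=
    hasSum_mellin_pi_mul (a := fun x : ℤ × ℤ => ((primOf x).re : ℂ))
      (q := fun x : ℤ × ℤ => ((primOf x).norm : ℝ))
      (fun x => Or.inr (by exact_mod_cast norm_primOf_pos x)) hre
      (fun t ht => hasSum_thetaE ht) (summable_re_div_norm_rpow hs)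
  have h2 := hasSum_sum_primSet (d6_f s) (d6_summable_norm hs).of_norm
  have h3 : LSeries (fun n => (hecke n : ℂ)) s = ∑' x : ℤ × ℤ, d6_f s (primOf x) := by
    unfold LSeries
    simp_rw [d6_term_eq hs0]
    exact h2.tsum_eq
  rw [h3, ← h1.tsum_eq, ← tsum_mul_left]
  refine tsum_congr fun x => ?_
  unfold d6_f
  rw [mul_div_assoc]

end Claimed.Open.R002
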