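import Claimed.Open.R002.SanityHeckeC4
import Claimed.Open.R002.SanityHeckeD5
import Claimed.Open.R002.SanityHeckeD6

/-! # Sanity for R002: `IsLFunction` has an example: `y² = x³ - x` -/

set_option autoImplicit false

namespace Claimed.Open.R002

open Real

/-- The entire function `π ^ s / Γ(s) · ∫₀^∞ θ(t) t ^ (s - 1) dt`. -/
noncomputable def heckeL (s : ℂ) : ℂ :=
  (π : ℂ) ^ s * (Complex.Gamma s)⁻¹ * mellin (fun t : ℝ => (thetaE t : ℂ)) s

theorem differentiable_heckeL : Differentiable ℂ heckeL := by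
  unfold heckeL
  have h1 : Differentiable ℂ fun s : ℂ => (π : ℂ) ^ s := fun s =>
    (differentiableAt_id).const_cpow (Or.inl (by exact_mod_cast Real.pi_ne_zero))
  have h2 : Differentiable ℂ fun s : ℂ => (Complex.Gamma s)⁻¹ :=
    by simpa [one_div] using Complex.differentiable_one_div_Gamma
  exact (h1.mul h2).mul differentiable_mellin_thetaE

theorem LFunction_E₀_coe : (fun n => (E₀.LFunction n : ℂ)) = fun n => (hecke n : ℂ) := by
  funext n
  rw [LFunction_E₀_eq_hecke]

/-- **The Hasse–Weil `L`-series of `E₀ : y² = x³ - x` (Mathlib's `WeierstrassCurve.LSeries`) converges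
absolutely on `Re s > 3/2` and extends to an entire function.** -/
theorem isLFunction_E₀_heckeL : IsLFunction E₀ heckeL := by
  refine ⟨differentiable_heckeL, fun s hs => ⟨?_, ?_⟩⟩
  · rw [LFunction_E₀_coe]
    exact lseriesSummable_hecke hs
  · have h0 : E₀.LSeries s = LSeries (fun n => (hecke n : ℂ)) s := by
      unfold WeierstrassCurve.LSeries
      congr 1
      exact LFunction_E₀_coe
    have hΓ : Complex.Gamma s ≠ 0 := Complex.Gamma_ne_zero_of_re_pos (by linarith)
    have hπ : (π : ℂ) ≠ 0 := by exact_mod_cast Real.pi_ne_zero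
    rw [h0, heckeL, mellin_thetaE_eq hs, Complex.cpow_neg]
    have hπs : (π : ℂ) ^ s ≠ 0 := by
      rw [Ne, Complex.cpow_eq_zero_iff]
      exact fun h => hπ h.1
    field_simp

theorem exists_isLFunction_E₀ : ∃ L : ℂ → ℂ, IsLFunction E₀ L := ⟨heckeL, isLFunction_E₀_heckeL⟩

end Claimed.Open.R002
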