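import Claimed.Open.R002.SanityHeckeDefs

/-! # Hecke road, post E2: positivity of `sinKernel (1/4)` on `[1, ∞)` -/

set_option autoImplicit false

namespace Claimed.Open.R002

open Real

/-- `HurwitzZeta.hasSum_nat_sinKernel (1/4)`: the sum over `n : ℕ` of
`2 n sin (π n / 2) exp (-π n² x) = 2 (e^{-π x} - 3 e^{-9 π x} + 5 e^{-25 π x} - ...)`.  Either pair the
terms `4 j + 1`, `4 j + 3`, or bound the tail: the term `n = 1` is `2 exp (-π x)`, and
`∑_{n ≥ 2} 2 n exp (-π n² x) < 2 exp (-π x)` for `x ≥ 1` (`n² - 1 ≥ 3 (n - 1)`, geometric series). -/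
theorem sinKernel_quarter_pos_of_one_le {x : ℝ} (hx : 1 ≤ x) :
    0 < HurwitzZeta.sinKernel ((1 / 4 : ℝ) : UnitAddCircle) x := by
  have hx0 : 0 < x := by linarith
  have hS := HurwitzZeta.hasSum_nat_sinKernel (1 / 4) hx0
  set S := HurwitzZeta.sinKernel ((1 / 4 : ℝ) : UnitAddCircle) x with hSdef
  set g : ℕ → ℝ := fun n => 2 * n * Real.sin (2 * π * (1 / 4) * n) * rexp (-π * n ^ 2 * x) with hg
  set r : ℝ := rexp (-(3 * π)) with hr
  have hr0 : 0 < r := Real.exp_pos _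
  have hr4 : r < 1 / 4 := by
    have h1 : 3 * π + 1 ≤ rexp (3 * π) := Real.add_one_le_exp _
    have h2 : (4 : ℝ) < rexp (3 * π) := by
      have := Real.pi_gt_three
      linarith
    rw [hr, Real.exp_neg, one_div]
    exact inv_strictAnti₀ (by norm_num) h2
  set e : ℝ := rexp (-π * x) with he
  have he0 : 0 < e := Real.exp_pos _
  have h2 : HasSum (fun n => g (n + 2)) (S - (g 0 + g 1)) := by
    have := (hasSum_nat_add_iff' 2).2 hS
    simpa [Finset.sum_range_succ] using this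
  have hg0 : g 0 = 0 := by simp [hg]
  have hg1 : g 1 = 2 * e := by
    have h : 2 * π * (1 / 4) * ((1 : ℕ) : ℝ) = π / 2 := by push_cast; ring
    simp only [hg]
    rw [h, Real.sin_pi_div_two, he]
    push_cast
    ring_nf
  have hu : HasSum (fun n : ℕ => 2 * e * (2 * r) ^ (n + 1)) (2 * e * (2 * r * (1 - 2 * r)⁻¹)) := by
    have h := (hasSum_geometric_of_lt_one (by positivity : (0 : ℝ) ≤ 2 * r) (by linarith)).mul_left (2 * r)
    refine HasSum.mul_left (2 * e) ?_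
    simpa [pow_succ'] using h
  have hb : ∀ n : ℕ, -(2 * e * (2 * r) ^ (n + 1)) ≤ g (n + 2) := by
    intro n
    have hsin : -1 ≤ Real.sin (2 * π * (1 / 4) * ((n + 2 : ℕ) : ℝ)) := Real.neg_one_le_sin _
    have hE : rexp (-π * ((n + 2 : ℕ) : ℝ) ^ 2 * x) ≤ e * r ^ (n + 1) := by
      rw [he, hr, ← Real.exp_nat_mul, ← Real.exp_add]
      apply Real.exp_le_exp.2
      push_cast
      have hn : (0 : ℝ) ≤ n := Nat.cast_nonneg n
      have hpi := Real.pi_pos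
      have hA : (3 : ℝ) * (n + 1) ≤ ((n : ℝ) + 2) ^ 2 - 1 := by nlinarith
      have hA0 : (0 : ℝ) ≤ ((n : ℝ) + 2) ^ 2 - 1 := by nlinarith
      have h1 : (3 : ℝ) * (n + 1) ≤ (((n : ℝ) + 2) ^ 2 - 1) * x := by
        have := mul_le_mul_of_nonneg_left hx hA0
        linarith
      have h5 := mul_le_mul_of_nonneg_left h1 hpi.le
      linarith
    have hpow : (((n + 2 : ℕ) : ℝ)) ≤ 2 ^ (n + 1) := by
      have : n + 1 < 2 ^ (n + 1) := Nat.lt_two_pow_self
      exact_mod_cast this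
    have hE0 : 0 < rexp (-π * ((n + 2 : ℕ) : ℝ) ^ 2 * x) := Real.exp_pos _
    have hn2 : (0 : ℝ) ≤ ((n + 2 : ℕ) : ℝ) := Nat.cast_nonneg _
    have h3 : 2 * ((n + 2 : ℕ) : ℝ) * rexp (-π * ((n + 2 : ℕ) : ℝ) ^ 2 * x) ≤
        2 * e * (2 * r) ^ (n + 1) := by
      calc 2 * ((n + 2 : ℕ) : ℝ) * rexp (-π * ((n + 2 : ℕ) : ℝ) ^ 2 * x)
          ≤ 2 * 2 ^ (n + 1) * (e * r ^ (n + 1)) := by gcongr
        _ = 2 * e * (2 * r) ^ (n + 1) := by rw [mul_pow]; ring
    have h4 : -(2 * ((n + 2 : ℕ) : ℝ) * rexp (-π * ((n + 2 : ℕ) : ℝ) ^ 2 * x)) ≤ g (n + 2) := by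
      simp only [hg]
      have : 0 ≤ 2 * ((n + 2 : ℕ) : ℝ) * rexp (-π * ((n + 2 : ℕ) : ℝ) ^ 2 * x) := by positivity
      nlinarith [mul_nonneg (mul_nonneg (by norm_num : (0 : ℝ) ≤ 2) hn2) hE0.le]
    linarith
  have hle := hasSum_le hb hu.neg h2
  have hq : 2 * r * (1 - 2 * r)⁻¹ < 1 := by
    rw [← div_eq_mul_inv, div_lt_one (by linarith)]
    linarith
  rw [hg0, hg1] at hle
  nlinarith

end Claimed.Open.R002
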