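import Claimed.Open.R002.SanityHeckeE1
import Claimed.Open.R002.SanityHeckeE2

/-! # Hecke road, post E3: the theta series is positive      (pen: helper88) -/

set_option autoImplicit false

namespace Claimed.Open.R002

open Real

/-- `x ≥ 1`: E1.  `x < 1`: `HurwitzZeta.oddKernel_functional_equation` and E2 at `1 / x > 1`. -/
theorem oddKernel_quarter_pos {x : ℝ} (hx : 0 < x) :
    0 < HurwitzZeta.oddKernel ((1 / 4 : ℝ) : UnitAddCircle) x := by
  rcases le_total 1 x with h | h
  · exact oddKernel_quarter_pos_of_one_le h
  · rw [HurwitzZeta.oddKernel_functional_equation]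
    have h1 : 1 ≤ 1 / x := by rw [le_div_iff₀ hx]; linarith
    have := sinKernel_quarter_pos_of_one_le h1
    have h2 : 0 < x ^ (3 / 2 : ℝ) := rpow_pos_of_pos hx _
    positivity

theorem thetaE_pos {t : ℝ} (ht : 0 < t) : 0 < thetaE t := by
  unfold thetaE
  have h8 : 0 < 8 * t := by positivity
  have h1 := oddKernel_quarter_pos h8
  have h2 := evenKernel_quarter_pos h8
  positivity

end Claimed.Open.R002
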