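import Claimed.Open.R002.SanityHeckeD5
import Claimed.Open.R002.SanityHeckeE3

/-! # Hecke road, post E4: the Mellin transform of the theta series at `s = 1` is positive -/

set_option autoImplicit false

namespace Claimed.Open.R002

open Real

theorem e4_integrableOn_complex :
    MeasureTheory.IntegrableOn (fun t : ℝ => (thetaE t : ℂ)) (Set.Ioi 0) := by
  have h : MellinConvergent (fun t : ℝ => (thetaE t : ℂ)) 1 :=
    (isStrong_thetaEFEPair.hasMellin 1).1
  unfold MellinConvergent at h
  simpa using h

theorem e4_integrableOn : MeasureTheory.IntegrableOn thetaE (Set.Ioi 0) := by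
  have h := e4_integrableOn_complex.re
  simp only [Complex.ofReal_re, RCLike.re_to_complex] at h
  exact h

theorem e4_integral_pos : 0 < ∫ t in Set.Ioi (0 : ℝ), thetaE t := by
  rw [MeasureTheory.setIntegral_pos_iff_support_of_nonneg_ae ?_ e4_integrableOn]
  · have hsub : Set.Ioi (0 : ℝ) ⊆ Function.support thetaE ∩ Set.Ioi 0 :=
      fun t ht => ⟨(thetaE_pos ht).ne', ht⟩
    refine lt_of_lt_of_le ?_ (MeasureTheory.measure_mono hsub)
    simp
  · rw [Filter.EventuallyLE, MeasureTheory.ae_restrict_iff' measurableSet_Ioi]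
    exact Filter.Eventually.of_forall fun t ht => (thetaE_pos ht).le

/-- `mellin f 1 = ∫ t in Ioi 0, f t`; integrability from `isStrong_thetaEFEPair.hasMellin 1` (D5:
`thetaEFEPair`, `continuousOn_thetaE`); the integral of a positive integrable function over `Ioi 0`
is positive (`MeasureTheory.setIntegral_pos_iff_support_of_nonneg_ae`); `integral_ofReal`. -/
theorem mellin_thetaE_one :
    ∃ c : ℝ, 0 < c ∧ mellin (fun t : ℝ => (thetaE t : ℂ)) 1 = (c : ℂ) := by
  refine ⟨∫ t in Set.Ioi (0 : ℝ), thetaE t, e4_integral_pos, ?_⟩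
  have h := integral_ofReal (𝕜 := ℂ) (μ := MeasureTheory.volume.restrict (Set.Ioi (0 : ℝ)))
    (f := thetaE)
  rw [mellin]
  simp only [sub_self, Complex.cpow_zero, one_smul]
  exact h

end Claimed.Open.R002
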