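import Claimed.Open.R002.SanityHecke
import Claimed.Open.R002.SanityHeckeE4

/-! # Sanity for R002: `L(E₀, 1) ≠ 0`: the analytic rank of `y² = x³ - x` is `0` -/

set_option autoImplicit false

namespace Claimed.Open.R002

open Real

/-- `L(E₀, 1) = π ∫₀^∞ θ(t) dt > 0`. -/
theorem heckeL_one : ∃ c : ℝ, 0 < c ∧ heckeL 1 = (c : ℂ) := by
  obtain ⟨c, hc, h⟩ := mellin_thetaE_one
  refine ⟨π * c, mul_pos Real.pi_pos hc, ?_⟩
  rw [heckeL, h]
  simp

theorem heckeL_one_ne_zero : heckeL 1 ≠ 0 := by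
  obtain ⟨c, hc, h⟩ := heckeL_one
  rw [h]
  exact_mod_cast hc.ne'

theorem analyticOrderAt_heckeL_one : analyticOrderAt heckeL 1 = 0 :=
  (differentiable_heckeL.analyticAt 1).analyticOrderAt_eq_zero.mpr heckeL_one_ne_zero

/-- **The clause on the `L`-function of `MainStatement` holds for `E₀ : y² = x³ - x` with `r = 0`.** -/
theorem exists_isLFunction_E₀_order :
    ∃ L : ℂ → ℂ, IsLFunction E₀ L ∧ analyticOrderAt L 1 = ((0 : ℕ) : ℕ∞) :=
  ⟨heckeL, isLFunction_E₀_heckeL, by simpa using analyticOrderAt_heckeL_one⟩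

end Claimed.Open.R002
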