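import Claimed.Open.R002.SanityHeckeX1
import Claimed.Open.R002.SanityHeckeD4

/-! # Exact value, post X7: the second product formula `θ_E (t) = P(t) θ₄ (4 t)` -/

set_option autoImplicit false

namespace Claimed.Open.R002

open Real

/-- The inner sum over `n` for a fixed `c`: `∑_n (1 + 2 c + 4 n) exp (-π (1 + 2 c + 4 n)² t) = (-1)^c P(t)`
(`c = 2 j`: shift `n ↦ n + j`; `c = 2 j + 1`: `n ↦ -(n + j + 1)`, which changes the sign of the term). -/
theorem x7_inner {t : ℝ} (ht : 0 < t) (c : ℤ) :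
    HasSum (fun n : ℤ => (1 + 2 * (c : ℝ) + 4 * (n : ℝ)) *
        rexp (-π * (1 + 2 * (c : ℝ) + 4 * (n : ℝ)) ^ 2 * t)) ((-1 : ℝ) ^ c * thP t) := by
  rcases Int.even_or_odd' c with ⟨j, rfl | rfl⟩
  · have h := (Equiv.addRight j).hasSum_iff.mpr (hasSum_thP ht)
    have h1 : ((-1 : ℝ) ^ (2 * j)) = 1 := (even_two_mul j).neg_one_zpow
    rw [h1, one_mul]
    refine h.congr_fun fun n => ?_
    simp only [Function.comp, Equiv.coe_addRight]
    have e1 : (1 + 2 * ((2 * j : ℤ) : ℝ) + 4 * (n : ℝ)) = 4 * ((n + j : ℤ) : ℝ) + 1 := by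
      push_cast; ring
    rw [e1]
  · have h := (((Equiv.addRight (j + 1)).trans (Equiv.neg ℤ)).hasSum_iff.mpr
      (hasSum_thP ht)).mul_left (-1)
    have h1 : ((-1 : ℝ) ^ (2 * j + 1)) = -1 := (odd_two_mul_add_one j).neg_one_zpow
    rw [h1]
    refine h.congr_fun fun n => ?_
    simp only [Function.comp, Equiv.trans_apply, Equiv.coe_addRight, Equiv.neg_apply]
    have e1 : (1 + 2 * ((2 * j + 1 : ℤ) : ℝ) + 4 * (n : ℝ))
        = -(4 * ((-(n + (j + 1)) : ℤ) : ℝ) + 1) := by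
      push_cast; ring
    rw [e1, neg_sq]
    ring

/-- `hasSum_thetaE` (D4): `thetaE t = ∑_{(m, n)} Re α exp (-π N(α) t)`, `α = primOf (m, n) =
(1 + 2 m + 2 n) + (2 m - 2 n) i`.  Put `c = m - n`, so `α = (1 + 2 c + 4 n) + 2 c i`: the sum over
`(c, n) ∈ ℤ × ℤ` of `(1 + 2 c + 4 n) exp (-π (1 + 2 c + 4 n)² t) exp (-4 π c² t)`.  For even `c` the
inner sum over `n` is `thP t` (shift of `n`), for odd `c` it is `-thP t` (`a ↦ -a` exchanges the
classes `1` and `3` modulo `4`): the total is `thP t * ∑_c (-1)^c exp (-π c² (4 t))`. -/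
theorem thetaE_eq_thP_mul_thB {t : ℝ} (ht : 0 < t) : thetaE t = thP t * thB (4 * t) := by
  have h0 := d4_hasSum_real ht
  let e : ℤ × ℤ ≃ ℤ × ℤ :=
    { toFun := fun x => (x.1 + x.2, x.2)
      invFun := fun x => (x.1 - x.2, x.2)
      left_inv := fun x => by simp
      right_inv := fun x => by simp }
  have h1 := e.hasSum_iff.mpr h0
  have h2 : HasSum (fun c : ℤ => (-1 : ℝ) ^ c * thP t * rexp (-π * (c : ℝ) ^ 2 * (4 * t)))
      (thetaE t) := by
    refine HasSum.prod_fiberwise h1 fun c => ?_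
    have h := (x7_inner ht c).mul_right (rexp (-π * (c : ℝ) ^ 2 * (4 * t)))
    refine h.congr_fun fun n => ?_
    have he : e (c, n) = (c + n, n) := rfl
    simp only [Function.comp, he]
    rw [norm_primOf_real, re_primOf_real,
      mul_assoc (1 + 2 * (c : ℝ) + 4 * (n : ℝ)), ← Real.exp_add]
    push_cast
    congr 1
    · ring
    · congr 1; ring
  have h3 := (hasSum_thB (t := 4 * t) (by positivity)).mul_left (thP t)
  refine h2.unique (h3.congr_fun fun c => ?_)
  ring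

end Claimed.Open.R002
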