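import Claimed.Open.R002.SanityHecke
import Claimed.Open.R002.SanityHeckeX7

/-!
# Sanity for R002: the functional equation of `L(E₀, s)`, `E₀ : y² = x³ - x`

`θ(1 / (8 t)) = 8 t² θ(t)` for the theta series `θ = thetaE` of `E₀` (the Fricke involution of level `32`
with sign `+1`), hence `Λ(2 - s) = Λ(s)` for `Λ(s) = 32 ^ (s / 2) (2 π) ^ (-s) Γ(s) L(s)`, for every `L`
with `IsLFunction E₀ L`: conductor `32` and root number `+1`, as in the tables (Cremona 32a2).
The functional equation would fail for any other Euler factor at the bad prime `2`, so it is a test of the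
factor `1` that Mathlib's `WeierstrassCurve.LFunction` takes at a prime of additive reduction.
-/

set_option autoImplicit false

namespace Claimed.Open.R002

open Real HurwitzZeta

/-! ## The dual kernels at `1/4` are theta series again -/

/-- the `n`-th term of `sinKernel (1/4) y` -/
noncomputable def fe_f (y : ℝ) (n : ℕ) : ℝ :=
  2 * n * Real.sin (2 * π * (1 / 4 : ℝ) * n) * rexp (-π * n ^ 2 * y)

/-- the `n`-th term of `thP y` -/
noncomputable def fe_h (y : ℝ) (n : ℤ) : ℝ :=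
  (4 * (n : ℝ) + 1) * rexp (-π * (4 * (n : ℝ) + 1) ^ 2 * y)

theorem fe_f_even (y : ℝ) (k : ℕ) : fe_f y (2 * k) = 0 := by
  have hs : Real.sin (2 * π * (1 / 4 : ℝ) * ((2 * k : ℕ) : ℝ)) = 0 := by
    rw [show 2 * π * (1 / 4 : ℝ) * ((2 * k : ℕ) : ℝ) = (k : ℝ) * π by push_cast; ring,
      Real.sin_nat_mul_pi]
  rw [fe_f, hs]
  ring

theorem fe_f_one (y : ℝ) (m : ℕ) : fe_f y (2 * (2 * m) + 1) = 2 * fe_h y m := by
  have hs : Real.sin (2 * π * (1 / 4 : ℝ) * ((2 * (2 * m) + 1 : ℕ) : ℝ)) = 1 := by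
    rw [show 2 * π * (1 / 4 : ℝ) * ((2 * (2 * m) + 1 : ℕ) : ℝ) = π / 2 + (m : ℝ) * (2 * π) by
      push_cast; ring, Real.sin_add_nat_mul_two_pi, Real.sin_pi_div_two]
  rw [fe_f, hs, fe_h]
  push_cast
  ring_nf

theorem fe_f_three (y : ℝ) (m : ℕ) :
    fe_f y (2 * (2 * m + 1) + 1) = 2 * fe_h y (-((m : ℤ) + 1)) := by
  have hs : Real.sin (2 * π * (1 / 4 : ℝ) * ((2 * (2 * m + 1) + 1 : ℕ) : ℝ)) = -1 := by
    rw [show 2 * π * (1 / 4 : ℝ) * ((2 * (2 * m + 1) + 1 : ℕ) : ℝ) =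
      π / 2 + π + (m : ℝ) * (2 * π) by push_cast; ring, Real.sin_add_nat_mul_two_pi,
      Real.sin_add_pi, Real.sin_pi_div_two]
  rw [fe_f, hs, fe_h]
  push_cast
  ring_nf

/-- `sinKernel (1/4) y = 2 ∑_{d ≡ 1 (4)} d exp (-π d² y)`. -/
theorem sinKernel_quarter_eq_thP {y : ℝ} (hy : 0 < y) :
    sinKernel ((1 / 4 : ℝ) : UnitAddCircle) y = 2 * thP y := by
  have hf : HasSum (fe_f y) (sinKernel ((1 / 4 : ℝ) : UnitAddCircle) y) :=
    hasSum_nat_sinKernel (1 / 4) hy
  have hh : HasSum (fun m : ℕ => fe_h y m + fe_h y (-((m : ℤ) + 1))) (thP y) :=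
    (hasSum_thP hy).nat_add_neg_add_one
  have s0 : Summable fun k : ℕ => fe_f y (2 * k) :=
    hf.summable.comp_injective fun a b h => by simpa using h
  have s1 : Summable fun k : ℕ => fe_f y (2 * k + 1) :=
    hf.summable.comp_injective fun a b h => by simpa using h
  have s10 : Summable fun m : ℕ => fe_f y (2 * (2 * m) + 1) :=
    s1.comp_injective (f := fun k : ℕ => fe_f y (2 * k + 1)) (i := fun m : ℕ => 2 * m)
      fun a b h => by simpa using h
  have s11 : Summable fun m : ℕ => fe_f y (2 * (2 * m + 1) + 1) :=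
    s1.comp_injective (f := fun k : ℕ => fe_f y (2 * k + 1)) (i := fun m : ℕ => 2 * m + 1)
      fun a b h => by simpa using h
  rw [← hf.tsum_eq, ← tsum_even_add_odd s0 s1,
    ← tsum_even_add_odd (f := fun k : ℕ => fe_f y (2 * k + 1)) s10 s11, ← s10.tsum_add s11,
    ← hh.tsum_eq, ← tsum_mul_left]
  simp only [fe_f_even, tsum_zero, zero_add]
  exact tsum_congr fun m => by rw [fe_f_one, fe_f_three, mul_add]

/-- `cosKernel (1/4) y = ∑ (-1)ᵐ exp (-4 π m² y)`. -/
theorem cosKernel_quarter_eq_thB {y : ℝ} (hy : 0 < y) :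
    cosKernel ((1 / 4 : ℝ) : UnitAddCircle) y = thB (4 * y) := by
  have h1 := hasSum_nat_cosKernel₀ (1 / 4) hy
  have h2 := hasSum_nat_cosKernel₀ (1 / 2) (t := 4 * y) (by positivity)
  have he : HasSum (fun k : ℕ => 2 * Real.cos (2 * π * (1 / 4 : ℝ) * (((2 * k : ℕ) : ℝ) + 1)) *
      rexp (-π * (((2 * k : ℕ) : ℝ) + 1) ^ 2 * y)) 0 := by
    have : (fun k : ℕ => 2 * Real.cos (2 * π * (1 / 4 : ℝ) * (((2 * k : ℕ) : ℝ) + 1)) *
        rexp (-π * (((2 * k : ℕ) : ℝ) + 1) ^ 2 * y)) = fun _ => 0 := by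
      funext k
      rw [show 2 * π * (1 / 4 : ℝ) * (((2 * k : ℕ) : ℝ) + 1) = (k : ℝ) * π + π / 2 by
        push_cast; ring, Real.cos_add_pi_div_two, Real.sin_nat_mul_pi]
      ring
    rw [this]
    exact hasSum_zero
  have ho : HasSum (fun k : ℕ => 2 * Real.cos (2 * π * (1 / 4 : ℝ) * (((2 * k + 1 : ℕ) : ℝ) + 1)) *
      rexp (-π * (((2 * k + 1 : ℕ) : ℝ) + 1) ^ 2 * y))
      (cosKernel ((1 / 2 : ℝ) : UnitAddCircle) (4 * y) - 1) := by
    convert h2 using 2 with k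
    rw [show 2 * π * (1 / 4 : ℝ) * (((2 * k + 1 : ℕ) : ℝ) + 1) = 2 * π * (1 / 2 : ℝ) * ((k : ℝ) + 1) by
      push_cast; ring,
      show -π * (((2 * k + 1 : ℕ) : ℝ) + 1) ^ 2 * y = -π * ((k : ℝ) + 1) ^ 2 * (4 * y) by
      push_cast; ring]
  have h3 := HasSum.even_add_odd (f := fun n : ℕ => 2 * Real.cos (2 * π * (1 / 4 : ℝ) * ((n : ℝ) + 1)) *
      rexp (-π * ((n : ℝ) + 1) ^ 2 * y)) he ho
  have h4 := h1.unique h3
  rw [thB]
  linarith

/-! ## The Fricke involution -/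

/-- the dual theta series of the FE-pair of `SanityHeckeD5.lean` is the theta series itself -/
theorem thetaEDual_eq_thetaE {x : ℝ} (hx : 0 < x) : thetaEDual x = thetaE (x / 8) / 8 := by
  have h8 : 0 < x / 8 := by positivity
  rw [thetaEDual, sinKernel_quarter_eq_thP h8, cosKernel_quarter_eq_thB h8,
    thetaE_eq_thP_mul_thB h8]
  ring

/-- **`θ(1 / (8 t)) = 8 t² θ(t)`**: with `θ(t) = f(i t / 2)`, `f = ∑ aₙ qⁿ`, this is
`f(-1 / (32 z)) = -32 z² f(z)`, the Fricke involution of level `32` on a form of weight `2`. -/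
theorem thetaE_fricke {t : ℝ} (ht : 0 < t) : thetaE (1 / (8 * t)) = 8 * t ^ 2 * thetaE t := by
  have h8 : 0 < 8 * t := by positivity
  rw [thetaE_one_div h8, thetaEDual_eq_thetaE h8, Real.rpow_two,
    show 8 * t / 8 = t by ring]
  ring

/-! ## The functional equation -/

theorem fe_cpow {a : ℝ} (ha : 0 < a) (z : ℂ) :
    (a : ℂ) ^ z = Complex.exp ((Real.log a : ℂ) * z) := by
  rw [Complex.cpow_def_of_ne_zero (by exact_mod_cast ha.ne'), Complex.ofReal_log ha.le]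

theorem fe_log_eight : Real.log 8 = 3 * Real.log 2 := by
  rw [show (8 : ℝ) = 2 ^ 3 by norm_num, Real.log_pow]
  norm_num

theorem fe_log_32 : Real.log 32 = 5 * Real.log 2 := by
  rw [show (32 : ℝ) = 2 ^ 5 by norm_num, Real.log_pow]
  norm_num

theorem mellin_thetaEDual (s : ℂ) :
    mellin (fun x : ℝ => (thetaEDual x : ℂ)) s =
      ((8 : ℝ) : ℂ) ^ (s - 1) * mellin (fun t : ℝ => (thetaE t : ℂ)) s := by
  have h1 : mellin (fun x : ℝ => (thetaEDual x : ℂ)) s =
      mellin (fun x : ℝ => (fun t : ℝ => (thetaE t : ℂ)) ((1 / 8 : ℝ) * x) / 8) s := by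
    unfold mellin
    refine MeasureTheory.setIntegral_congr_fun measurableSet_Ioi fun x hx => ?_
    have hx' : (0 : ℝ) < x := hx
    simp only
    rw [thetaEDual_eq_thetaE hx', show x / 8 = 1 / 8 * x by ring]
    push_cast
    rfl
  rw [h1, mellin_div_const,
    mellin_comp_mul_left (fun t : ℝ => (thetaE t : ℂ)) s (by norm_num : (0 : ℝ) < 1 / 8), smul_eq_mul,
    fe_cpow (by norm_num : (0 : ℝ) < 1 / 8), fe_cpow (by norm_num : (0 : ℝ) < 8)]
  have hl : Real.log (1 / 8) = -Real.log 8 := by rw [one_div, Real.log_inv]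
  have h8 : (8 : ℂ) = Complex.exp ((Real.log 8 : ℂ)) := by
    rw [← Complex.ofReal_exp, Real.exp_log (by norm_num)]
    norm_num
  rw [hl, mul_sub, mul_one, Complex.exp_sub, ← h8]
  push_cast
  rw [neg_mul_neg]
  ring

/-- `M(2 - s) = 8 ^ (s - 1) M(s)` for the Mellin transform `M` of the theta series. -/
theorem mellin_thetaE_two_sub (s : ℂ) :
    mellin (fun t : ℝ => (thetaE t : ℂ)) (2 - s) =
      ((8 : ℝ) : ℂ) ^ (s - 1) * mellin (fun t : ℝ => (thetaE t : ℂ)) s := by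
  have h := thetaEFEPair.functional_equation s
  rw [isStrong_thetaEFEPair.Λ_eq, isStrong_thetaEFEPair.symm_Λ_eq] at h
  have hk : ((thetaEFEPair.k : ℝ) : ℂ) = 2 := by
    show (((2 : ℝ) : ℝ) : ℂ) = 2
    norm_num
  have hε : thetaEFEPair.ε = 1 := rfl
  rw [hk, hε, one_smul] at h
  rw [← mellin_thetaEDual]
  exact h

/-- the completed `L`-function `32 ^ (s / 2) (2 π) ^ (-s) Γ(s) L(E₀, s)`, as an entire function -/
noncomputable def heckeCompleted (s : ℂ) : ℂ :=
  ((8 : ℝ) : ℂ) ^ (s / 2) * mellin (fun t : ℝ => (thetaE t : ℂ)) s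

theorem differentiable_heckeCompleted : Differentiable ℂ heckeCompleted := by
  unfold heckeCompleted
  have h1 : Differentiable ℂ fun s : ℂ => ((8 : ℝ) : ℂ) ^ (s / 2) := fun s =>
    (differentiableAt_id.div_const 2).const_cpow (Or.inl (by norm_num))
  exact h1.mul differentiable_mellin_thetaE

/-- **The functional equation**, sign `+1`. -/
theorem heckeCompleted_two_sub (s : ℂ) : heckeCompleted (2 - s) = heckeCompleted s := by
  rw [heckeCompleted, heckeCompleted, mellin_thetaE_two_sub, ← mul_assoc,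
    ← Complex.cpow_add _ _ (by norm_num)]
  congr 2
  ring

/-- off the poles of `Γ` the completed function is `32 ^ (s / 2) (2 π) ^ (-s) Γ(s) L(E₀, s)` -/
theorem heckeCompleted_eq {s : ℂ} (hs : ∀ n : ℕ, s ≠ -n) :
    heckeCompleted s = (32 : ℂ) ^ (s / 2) * (2 * π : ℂ) ^ (-s) * Complex.Gamma s * heckeL s := by
  have hΓ : Complex.Gamma s ≠ 0 := Complex.Gamma_ne_zero hs
  have e32 : (32 : ℂ) = ((32 : ℝ) : ℂ) := by norm_num
  have e2π : (2 * π : ℂ) = ((2 * π : ℝ) : ℂ) := by push_cast; rfl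
  have key : (32 : ℂ) ^ (s / 2) * (2 * π : ℂ) ^ (-s) * (π : ℂ) ^ s = ((8 : ℝ) : ℂ) ^ (s / 2) := by
    rw [e32, e2π, fe_cpow (by norm_num : (0 : ℝ) < 32), fe_cpow (by positivity : (0 : ℝ) < 2 * π),
      fe_cpow Real.pi_pos, fe_cpow (by norm_num : (0 : ℝ) < 8), ← Complex.exp_add,
      ← Complex.exp_add, fe_log_32, fe_log_eight,
      Real.log_mul (by norm_num) Real.pi_ne_zero]
    congr 1
    push_cast
    ring
  rw [heckeCompleted, heckeL, ← key]
  field_simp

theorem fe_isLFunction_unique {L : ℂ → ℂ} (h : IsLFunction E₀ L) : L = heckeL := by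
  have h₂ := isLFunction_E₀_heckeL
  have a₁ : AnalyticOnNhd ℂ L Set.univ := fun z _ => h.1.analyticAt z
  have a₂ : AnalyticOnNhd ℂ heckeL Set.univ := fun z _ => h₂.1.analyticAt z
  refine a₁.eq_of_eventuallyEq a₂ (z₀ := 2) ?_
  have hopen : IsOpen {s : ℂ | 3 / 2 < s.re} := isOpen_lt continuous_const Complex.continuous_re
  have hmem : (2 : ℂ) ∈ {s : ℂ | 3 / 2 < s.re} := by
    simp only [Set.mem_ofPred_eq, Complex.re_ofNat]; norm_num
  filter_upwards [hopen.mem_nhds hmem] with s hs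
  rw [(h.2 s hs).2, (h₂.2 s hs).2]

/-- **The functional equation of the Hasse–Weil `L`-function of `E₀ : y² = x³ - x`**, for every `L` that
meets the predicate `IsLFunction E₀` of `Statement.lean`: `Λ(2 - s) = Λ(s)` with
`Λ(s) = N ^ (s / 2) (2 π) ^ (-s) Γ(s) L(s)`, conductor `N = 32`, root number `+1`.  (The two hypotheses
keep `s` and `2 - s` off the poles of `Γ`, where Mathlib's `Complex.Gamma` has the value `0`.) -/
theorem IsLFunction.functional_equation_E₀ {L : ℂ → ℂ} (h : IsLFunction E₀ L) {s : ℂ}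
    (hs : ∀ n : ℕ, s ≠ -n) (hs' : ∀ n : ℕ, 2 - s ≠ -n) :
    (32 : ℂ) ^ ((2 - s) / 2) * (2 * π : ℂ) ^ (-(2 - s)) * Complex.Gamma (2 - s) * L (2 - s) =
      (32 : ℂ) ^ (s / 2) * (2 * π : ℂ) ^ (-s) * Complex.Gamma s * L s := by
  rw [fe_isLFunction_unique h, ← heckeCompleted_eq hs, ← heckeCompleted_eq hs',
    heckeCompleted_two_sub]

/-- The trivial zeros: `L(E₀, -n) = 0` for `n = 0, 1, 2, …`. -/
theorem IsLFunction.trivial_zeros_E₀ {L : ℂ → ℂ} (h : IsLFunction E₀ L) (n : ℕ) :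
    L (-(n : ℂ)) = 0 := by
  rw [fe_isLFunction_unique h, heckeL, Complex.Gamma_neg_nat_eq_zero]
  simp

end Claimed.Open.R002
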