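import Claimed.Open.R002.SanityHeckeE5
import Claimed.Open.R002.SanityE0BSD
import Claimed.Open.R002.SanityPeriod

/-!
# Sanity for R002: what is left of `MainStatement` at `E₀ : y² = x³ - x`

* `hm_heckeL_one`: `L(E₀, 1) = π ∫₀^∞ θ(t) dt`, with `hm_integrableOn_thetaE`, `hm_integral_thetaE_pos`;
* `hm_eq_heckeL`, `hm_analyticOrderAt_E₀`: **every** `L` with `IsLFunction E₀ L` is `heckeL` and has order `0` at `s = 1`;
* `mainStatement_conclusion_E₀_iff`: the conclusion of `MainStatement`, copied verbatim at `E = E₀`, `r = 0`, is equivalent to: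
  `Ш(E₀/ℚ)` is finite and `π ∫₀^∞ θ(t) dt = Ω · #Ш / 8`;
* `mainStatement_conclusion_E₀_iff_of_lt`, `hm_card_sha_E₀_eq_one`: given the numerical inequality `π ∫₀^∞ θ(t) dt < Ω / 4` (a hypothesis of these two theorems), this says:
  `#Ш(E₀/ℚ) = 1` and `π ∫₀^∞ θ(t) dt = Ω / 8`.

Neither the finiteness of `Ш(E₀/ℚ)` nor the identity of the two integrals is proved here.
-/

set_option autoImplicit false

namespace Claimed.Open.R002

open Filter Set Real HurwitzZeta MeasureTheory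

/-! ## 1. The value of the Mellin transform at `s = 1` -/

theorem hm_integrableOn_thetaE : IntegrableOn thetaE (Ioi 0) := by
  have h := (isStrong_thetaEFEPair.hasMellin 1).1
  have h1 : IntegrableOn (fun t : ℝ => ((thetaE t : ℝ) : ℂ)) (Ioi 0) := by
    have e : (fun t : ℝ => (t : ℂ) ^ ((1 : ℂ) - 1) • thetaEFEPair.f t) =
        fun t : ℝ => ((thetaE t : ℝ) : ℂ) := by
      funext t
      simp [thetaEFEPair]
    unfold MellinConvergent at h
    rwa [e] at h
  have h2 : Integrable (fun t : ℝ => (((thetaE t : ℝ) : ℂ)).re) (volume.restrict (Ioi 0)) := h1.re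
  simp only [Complex.ofReal_re] at h2
  exact h2

theorem hm_integral_thetaE_pos : 0 < ∫ t in Ioi (0 : ℝ), thetaE t := by
  rw [setIntegral_pos_iff_support_of_nonneg_ae]
  · have : Ioi (0 : ℝ) ⊆ Function.support thetaE ∩ Ioi 0 := fun t ht =>
      ⟨(thetaE_pos ht).ne', ht⟩
    refine lt_of_lt_of_le ?_ (measure_mono this)
    simp
  · rw [EventuallyLE, ae_restrict_iff' measurableSet_Ioi]
    exact Eventually.of_forall fun t ht => (thetaE_pos ht).le
  · exact hm_integrableOn_thetaE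

theorem hm_mellin_thetaE_one :
    mellin (fun t : ℝ => (thetaE t : ℂ)) 1 = ((∫ t in Ioi (0 : ℝ), thetaE t : ℝ) : ℂ) := by
  rw [mellin, ← integral_complex_ofReal]
  refine setIntegral_congr_fun measurableSet_Ioi fun t _ => ?_
  simp

/-! ## 2. Every `L`-function of `E₀`; the conclusion of `MainStatement` at `E₀` -/

/-- `L(E₀, 1) = π ∫₀^∞ θ(t) dt`. -/
theorem hm_heckeL_one : heckeL 1 = ((π * ∫ t in Ioi (0 : ℝ), thetaE t : ℝ) : ℂ) := by
  rw [heckeL, hm_mellin_thetaE_one, Complex.Gamma_one, Complex.cpow_one, inv_one, mul_one]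
  push_cast
  rfl

/-- The `L`-function of `E₀` is `heckeL` (identity theorem). -/
theorem hm_eq_heckeL {L : ℂ → ℂ} (h : IsLFunction E₀ L) : L = heckeL := by
  have a₁ : AnalyticOnNhd ℂ L Set.univ := fun z _ => h.1.analyticAt z
  have a₂ : AnalyticOnNhd ℂ heckeL Set.univ := fun z _ => differentiable_heckeL.analyticAt z
  refine a₁.eq_of_eventuallyEq a₂ (z₀ := 2) ?_
  have hopen : IsOpen {s : ℂ | 3 / 2 < s.re} := isOpen_lt continuous_const Complex.continuous_re
  have hmem : (2 : ℂ) ∈ {s : ℂ | 3 / 2 < s.re} := by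
    show (3 / 2 : ℝ) < (2 : ℂ).re
    norm_num
  filter_upwards [hopen.mem_nhds hmem] with s hs
  rw [(h.2 s hs).2, (isLFunction_E₀_heckeL.2 s hs).2]

/-- **The analytic rank of `y² = x³ - x` is `0`**: the clause `ord_{s = 1} L = r` of `MainStatement` holds for `E₀` (where `r = 0`, `selmerCorank_E₀_two`). -/
theorem hm_analyticOrderAt_E₀ {L : ℂ → ℂ} (h : IsLFunction E₀ L) :
    analyticOrderAt L 1 = 0 := by
  rw [hm_eq_heckeL h, (differentiable_heckeL.analyticAt 1).analyticOrderAt_eq_zero]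
  exact heckeL_one_ne_zero

/-- **What `MainStatement` says at `(E₀, q = 2, r = 0)`, after everything that is checked**: the conclusion of `MainStatement` (copied verbatim, with `E = E₀`, `r = 0`) is
equivalent to: `Ш(E₀/ℚ)` is finite and `π ∫₀^∞ θ(t) dt = Ω · #Ш / 8`, an identity between two real integrals. -/
theorem mainStatement_conclusion_E₀_iff :
    (Module.rank ℤ (MW E₀) = ((0 : ℕ) : Cardinal) ∧
      Finite (Sha E₀) ∧
      (∃ Ω, IsRealPeriod E₀ Ω) ∧
      (∃ R, IsRegulator E₀ R) ∧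
      ∃ L : ℂ → ℂ, IsLFunction E₀ L ∧ analyticOrderAt L 1 = ((0 : ℕ) : ℕ∞) ∧
        ∀ Ω R : ℝ, IsRealPeriod E₀ Ω → IsRegulator E₀ R →
          iteratedDeriv 0 L 1 / ((0 : ℕ).factorial : ℂ) =
            ((Ω * R * (Nat.card (Sha E₀) : ℝ) * (tamagawaProduct E₀ : ℝ) /
              (Nat.card (AddCommGroup.torsion (MW E₀)) : ℝ) ^ 2 : ℝ) : ℂ)) ↔
    (Finite (Sha E₀) ∧
      π * ∫ t in Ioi (0 : ℝ), thetaE t = periodIntegral E₀ * (Nat.card (Sha E₀) : ℝ) / 8) := by
  constructor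
  · rintro ⟨-, hSha, -, -, L, hL, -, hformula⟩
    refine ⟨hSha, ?_⟩
    have h := hformula (periodIntegral E₀) 1 isRealPeriod_E₀ isRegulator_E₀
    rw [tamagawaProduct_E₀_eq, card_torsion_E₀, hm_eq_heckeL hL] at h
    simp only [iteratedDeriv_zero, Nat.factorial_zero, Nat.cast_one, div_one] at h
    rw [hm_heckeL_one] at h
    have h' := Complex.ofReal_injective h
    rw [h']
    push_cast
    ring
  · rintro ⟨hSha, hval⟩
    refine ⟨by simpa using rank_MW_E₀, hSha, ⟨_, isRealPeriod_E₀⟩, ⟨_, isRegulator_E₀⟩, heckeL,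
      isLFunction_E₀_heckeL, by simpa using hm_analyticOrderAt_E₀ isLFunction_E₀_heckeL, ?_⟩
    intro Ω R hΩ hR
    rw [(isRegulator_E₀_iff R).1 hR, hΩ.unique isRealPeriod_E₀, tamagawaProduct_E₀_eq,
      card_torsion_E₀]
    simp only [iteratedDeriv_zero, Nat.factorial_zero, Nat.cast_one, div_one]
    rw [hm_heckeL_one, hval]
    congr 1
    push_cast
    ring

/-! ## 3. With the numerical fact `L(E₀, 1) < Ω / 4` -/

/-- If `L(E₀, 1) < Ω / 4` (a numerical fact: `0.6555… < 1.3110…`), the formula `L(E₀, 1) = Ω · #Ш / 8` forces `#Ш = 1`. -/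
theorem hm_card_sha_E₀_eq_one
    (hlt : π * ∫ t in Ioi (0 : ℝ), thetaE t < periodIntegral E₀ / 4)
    (h : π * ∫ t in Ioi (0 : ℝ), thetaE t = periodIntegral E₀ * (Nat.card (Sha E₀) : ℝ) / 8) :
    Nat.card (Sha E₀) = 1 := by
  have h1 := hlt
  have h2 : 0 < π * ∫ t in Ioi (0 : ℝ), thetaE t := mul_pos pi_pos hm_integral_thetaE_pos
  have hΩ : 0 < periodIntegral E₀ := periodIntegral_pos E₀
  rw [h] at h1 h2
  have h3 : (0 : ℝ) < (Nat.card (Sha E₀) : ℝ) := by
    by_contra hc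
    have : (Nat.card (Sha E₀) : ℝ) = 0 := le_antisymm (not_lt.1 hc) (Nat.cast_nonneg _)
    rw [this] at h2
    simp at h2
  have h4 : (Nat.card (Sha E₀) : ℝ) < 2 := by
    by_contra hc
    have : (2 : ℝ) ≤ (Nat.card (Sha E₀) : ℝ) := not_lt.1 hc
    nlinarith
  have h5 : 0 < Nat.card (Sha E₀) := by exact_mod_cast h3
  have h6 : Nat.card (Sha E₀) < 2 := by exact_mod_cast h4
  omega

/-- If `L(E₀, 1) < Ω / 4`, the right side of `mainStatement_conclusion_E₀_iff` says: `#Ш(E₀/ℚ) = 1` and `π ∫₀^∞ θ(t) dt = Ω / 8`. -/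
theorem mainStatement_conclusion_E₀_iff_of_lt
    (hlt : π * ∫ t in Ioi (0 : ℝ), thetaE t < periodIntegral E₀ / 4) :
    (Finite (Sha E₀) ∧
      π * ∫ t in Ioi (0 : ℝ), thetaE t = periodIntegral E₀ * (Nat.card (Sha E₀) : ℝ) / 8) ↔
    (Nat.card (Sha E₀) = 1 ∧ π * ∫ t in Ioi (0 : ℝ), thetaE t = periodIntegral E₀ / 8) := by
  constructor
  · rintro ⟨-, h⟩
    have h1 := hm_card_sha_E₀_eq_one hlt h
    refine ⟨h1, ?_⟩
    rw [h, h1]
    simp
  · rintro ⟨h1, h⟩
    refine ⟨Nat.finite_of_card_ne_zero (by omega), ?_⟩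
    rw [h, h1]
    simp

end Claimed.Open.R002
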