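import Claimed.Open.R002.SanityHeckeX15

/-! # Sanity for R002: `L(E₀, 1) = Ω / 8` exactly -/

set_option autoImplicit false

namespace Claimed.Open.R002

open Real Set MeasureTheory

theorem setOf_pos_cubic : {x : ℝ | 0 < 4 * x ^ 3 - 4 * x} = Ioo (-1) 0 ∪ Ioi 1 := by
  ext x
  have h : 4 * x ^ 3 - 4 * x = 4 * (x * (x - 1) * (x + 1)) := by ring
  show 0 < 4 * x ^ 3 - 4 * x ↔ x ∈ Ioo (-1 : ℝ) 0 ∪ Ioi 1
  rw [h, mem_union, mem_Ioo, mem_Ioi]
  constructor
  · intro hx
    by_contra hcon
    push Not at hcon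
    obtain ⟨h1, h2⟩ := hcon
    rcases le_or_gt x (-1) with h3 | h3
    · have h4 : 0 ≤ x * (x - 1) := mul_nonneg_of_nonpos_of_nonpos (by linarith) (by linarith)
      have h5 : x * (x - 1) * (x + 1) ≤ 0 := mul_nonpos_of_nonneg_of_nonpos h4 (by linarith)
      linarith
    · have h0 := h1 h3
      have h4 : x * (x - 1) ≤ 0 := mul_nonpos_of_nonneg_of_nonpos h0 (by linarith)
      have h5 : x * (x - 1) * (x + 1) ≤ 0 := mul_nonpos_of_nonpos_of_nonneg h4 (by linarith)
      linarith
  · rintro (⟨h1, h2⟩ | h1)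
    · have h4 : 0 < x * (x - 1) := mul_pos_of_neg_of_neg h2 (by linarith)
      have h5 := mul_pos h4 (by linarith : 0 < x + 1)
      linarith
    · have h4 : 0 < x * (x - 1) := mul_pos (by linarith) (by linarith)
      have h5 := mul_pos h4 (by linarith : 0 < x + 1)
      linarith

/-- `periodIntegral_E₀`, `setOf_pos_cubic`, `setIntegral_union` (integrability:
`integrableOn_periodIntegrand E₀` of `SanityPeriod.lean`), X15. -/
theorem periodIntegral_E₀_eq : periodIntegral E₀ = 8 * π * ∫ t in Ioi (0 : ℝ), thetaE t := by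
  have hpos : 0 < 2 * π * ∫ t in Ioi (0 : ℝ), thetaE t :=
    mul_pos (mul_pos two_pos Real.pi_pos) e4_integral_pos
  -- a non-zero integral is the integral of an integrable function
  have hint1 : IntegrableOn (fun x : ℝ => (Real.sqrt (4 * x ^ 3 - 4 * x))⁻¹) (Ioo (-1) 0) := by
    by_contra hn
    have h0 := integral_undef hn
    rw [integral_Ioo_neg_one_zero] at h0
    exact hpos.ne' h0
  have hint2 : IntegrableOn (fun x : ℝ => (Real.sqrt (4 * x ^ 3 - 4 * x))⁻¹) (Ioi 1) := by
    by_contra hn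
    have h0 := integral_undef hn
    rw [integral_Ioi_one] at h0
    exact hpos.ne' h0
  have hdisj : Disjoint (Ioo (-1 : ℝ) 0) (Ioi 1) := Set.disjoint_left.2 fun x hx hx' => by
    have := hx.2
    have := mem_Ioi.1 hx'
    linarith
  rw [periodIntegral_E₀, setOf_pos_cubic,
    setIntegral_union hdisj measurableSet_Ioi hint1 hint2, integral_Ioi_one, integral_Ioo_neg_one_zero]
  ring

/-- See the proof of `mellin_thetaE_one` (E4). -/
theorem x16_heckeL_one_eq_integral : heckeL 1 = ((π * ∫ t in Ioi (0 : ℝ), thetaE t : ℝ) : ℂ) := by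
  have hm : mellin (fun t : ℝ => (thetaE t : ℂ)) 1 = ((∫ t in Ioi (0 : ℝ), thetaE t : ℝ) : ℂ) := by
    have h := integral_ofReal (𝕜 := ℂ) (μ := MeasureTheory.volume.restrict (Set.Ioi (0 : ℝ)))
      (f := thetaE)
    rw [mellin]
    simp only [sub_self, Complex.cpow_zero, one_smul]
    exact h
  rw [heckeL, hm, Complex.cpow_one, Complex.Gamma_one, inv_one, mul_one, Complex.ofReal_mul]

/-- **The Birch–Swinnerton-Dyer quotient of `y² = x³ - x` is exactly `1`: `L(E₀, 1) = Ω / 8`.** -/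
theorem heckeL_one_eq_period : heckeL 1 = ((periodIntegral E₀ / 8 : ℝ) : ℂ) := by
  rw [x16_heckeL_one_eq_integral, periodIntegral_E₀_eq]
  congr 1
  ring

end Claimed.Open.R002
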