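import Claimed.Open.R002.SanityHeckeMain
import Claimed.Open.R002.SanityHeckeX16

/-!
# Sanity for R002: at `E₀ : y² = x³ - x`, `MainStatement` says exactly `#Ш(E₀/ℚ) = 1`

* `MainConclusion E r`: the conclusion of `MainStatement` as a predicate of `(E, r)`; it is the text of `MainStatement` word for word
  (`mainStatement_iff_mainConclusion`, proved by `Iff.rfl`);
* `mainConclusion_E₀_iff`: **`MainConclusion E₀ 0 ↔ Nat.card (Sha E₀) = 1`**, from `mainStatement_conclusion_E₀_iff` (`SanityHeckeMain.lean`) and the exact value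
  `Ω = 8 π ∫₀^∞ θ(t) dt`, i.e. `L(E₀, 1) = Ω / 8` (`periodIntegral_E₀_eq`, `SanityHeckeX16.lean`).  The hypothesis of `MainStatement` holds at `(E₀, q = 2, r = 0)`
  (`selmerCorank_E₀_two`).  So for this curve every clause of the theorem is checked: rank, period, regulator, Tamagawa number, torsion, entire continuation, order of
  vanishing, and the exact formula up to the factor `#Ш`;
* `hm_statement_card_sha`: `Statement → Nat.card (Sha E₀) = 1`.

`#Ш(E₀/ℚ) = 1` itself is not proved here.
-/

set_option autoImplicit false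

namespace Claimed.Open.R002

open Filter Set Real MeasureTheory

/-- The conclusion of `MainStatement` as a predicate of `(E, r)`. -/
def MainConclusion (E : WeierstrassCurve ℚ) (r : ℕ) : Prop :=
  Module.rank ℤ (MW E) = (r : Cardinal) ∧
  Finite (Sha E) ∧
  (∃ Ω, IsRealPeriod E Ω) ∧
  (∃ R, IsRegulator E R) ∧
  ∃ L : ℂ → ℂ, IsLFunction E L ∧ analyticOrderAt L 1 = (r : ℕ∞) ∧
    ∀ Ω R : ℝ, IsRealPeriod E Ω → IsRegulator E R →
      iteratedDeriv r L 1 / (r.factorial : ℂ) =
        ((Ω * R * (Nat.card (Sha E) : ℝ) * (tamagawaProduct E : ℝ) /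
          (Nat.card (AddCommGroup.torsion (MW E)) : ℝ) ^ 2 : ℝ) : ℂ)

/-- `MainConclusion` is the conclusion of `MainStatement`, word for word (the proof is `Iff.rfl`). -/
theorem mainStatement_iff_mainConclusion :
    MainStatement ↔ ∀ (E : WeierstrassCurve ℚ) [E.IsElliptic] (q : ℕ) [Fact q.Prime] (r : ℕ),
      r ≤ 1 → selmerCorank E q = (r : Cardinal) → MainConclusion E r :=
  Iff.rfl

/-- **At `E₀ : y² = x³ - x` (where the hypothesis holds with `q = 2`, `r = 0`: `selmerCorank_E₀_two`) the conclusion of `MainStatement` is equivalent to `#Ш(E₀/ℚ) = 1`.**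
All the other clauses, and the exact formula up to the factor `#Ш`, are checked. -/
theorem mainConclusion_E₀_iff : MainConclusion E₀ 0 ↔ Nat.card (Sha E₀) = 1 := by
  have hΩ : 0 < periodIntegral E₀ := periodIntegral_pos E₀
  have hval : π * ∫ t in Ioi (0 : ℝ), thetaE t = periodIntegral E₀ / 8 := by
    rw [periodIntegral_E₀_eq]
    ring
  refine mainStatement_conclusion_E₀_iff.trans ?_
  rw [hval]
  constructor
  · rintro ⟨-, h⟩
    have h1 : (Nat.card (Sha E₀) : ℝ) = 1 := by
      have h2 : periodIntegral E₀ * ((Nat.card (Sha E₀) : ℝ) - 1) = 0 := by linarith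
      rcases mul_eq_zero.1 h2 with h3 | h3
      · exact absurd h3 hΩ.ne'
      · linarith
    exact_mod_cast h1
  · intro h
    refine ⟨Nat.finite_of_card_ne_zero (by omega), ?_⟩
    rw [h]
    simp

/-- `Statement` implies `#Ш(E₀/ℚ) = 1`. -/
theorem hm_statement_card_sha (h : Statement) : Nat.card (Sha E₀) = 1 :=
  mainConclusion_E₀_iff.1
    (h.1 E₀ 2 0 (by norm_num) (by rw [selmerCorank_E₀_two]; simp))

end Claimed.Open.R002
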