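import Claimed.Open.R002.SanityHeckeC4

/-!
# Sanity for R002: the Dirichlet coefficients of `L(E₀, s)` against the tables; the Hasse bound

For `E₀ : y² = x³ - x` (Cremona 32a2, LMFDB 32.a3) the coefficients of Mathlib's
`WeierstrassCurve.LFunction` are computed for `n ≤ 30`: they are the coefficients of the newform
`32.2.a.a = q - 2q⁵ - 3q⁹ + 6q¹³ + 2q¹⁷ - q²⁵ - 10q²⁹ + ⋯` of the tables.  Moreover
`a_p² ≤ 4 p` for every prime `p` (the Hasse bound, which the paper quotes for the absolute
convergence of the `L`-series on `Re s > 3/2`), and `a_p` is the trace of Frobenius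
`-∑_x (x³ - x / p)` for odd `p`.
-/

set_option autoImplicit false

namespace Claimed.Open.R002

open WeierstrassCurve

/-- `hecke p` at a split prime. -/
theorem hecke_prime_of_split {p : ℕ} (hp : p.Prime) {π : GaussianInt} (hπ : Primary π)
    (hN : π.norm = p) : hecke p = 2 * π.re := by
  have h := hecke_prime_mul_of_split p hp π hπ hN 1
  have h1 : ¬ p ∣ 1 := fun h => hp.one_lt.ne' (Nat.dvd_one.mp h)
  rw [mul_one, hecke_one, if_neg h1] at h
  linarith

/-- `hecke p = 0` at an inert prime. -/
theorem hecke_prime_of_inert {p : ℕ} (hp : p.Prime) (h3 : p % 4 = 3) : hecke p = 0 := by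
  have h := hecke_prime_mul_of_inert p hp h3 1
  have h1 : ¬ p ∣ 1 := fun h => hp.one_lt.ne' (Nat.dvd_one.mp h)
  rw [mul_one, if_neg h1] at h
  linarith

theorem primary_mk {a b : ℤ} (x y : ℤ) (h1 : a = 1 + 2 * x - 2 * y) (h2 : b = 2 * x + 2 * y) :
    Primary (⟨a, b⟩ : GaussianInt) :=
  primary_iff.mpr ⟨x, y, h1, h2⟩

theorem hecke_two : hecke 2 = 0 := hecke_two_mul 1

theorem hecke_three : hecke 3 = 0 := hecke_prime_of_inert (by norm_num) (by norm_num)

theorem hecke_five : hecke 5 = -2 := by
  have h := hecke_prime_of_split (p := 5) (by norm_num) (primary_mk (a := -1) (b := 2) 0 1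
    (by norm_num) (by norm_num)) (by simp [Zsqrtd.norm_def])
  simpa using h

theorem hecke_seven : hecke 7 = 0 := hecke_prime_of_inert (by norm_num) (by norm_num)

theorem hecke_nine : hecke 9 = -3 := by
  have h := hecke_prime_mul_of_inert 3 (by norm_num) (by norm_num) 3
  rw [if_pos (dvd_refl 3)] at h
  norm_num [hecke_one] at h
  exact h

theorem hecke_eleven : hecke 11 = 0 := hecke_prime_of_inert (by norm_num) (by norm_num)

theorem hecke_thirteen : hecke 13 = 6 := by
  have h := hecke_prime_of_split (p := 13) (by norm_num) (primary_mk (a := 3) (b := 2) 1 0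
    (by norm_num) (by norm_num)) (by simp [Zsqrtd.norm_def])
  simpa using h

theorem hecke_fifteen : hecke 15 = 0 := by
  have h := hecke_prime_mul_of_inert 3 (by norm_num) (by norm_num) 5
  rw [if_neg (by norm_num)] at h
  norm_num at h
  exact h

theorem hecke_seventeen : hecke 17 = 2 := by
  have h := hecke_prime_of_split (p := 17) (by norm_num) (primary_mk (a := 1) (b := 4) 1 1
    (by norm_num) (by norm_num)) (by simp [Zsqrtd.norm_def])
  simpa using h

theorem hecke_nineteen : hecke 19 = 0 := hecke_prime_of_inert (by norm_num) (by norm_num)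

theorem hecke_twentyone : hecke 21 = 0 := by
  have h := hecke_prime_mul_of_inert 3 (by norm_num) (by norm_num) 7
  rw [if_neg (by norm_num)] at h
  norm_num at h
  exact h

theorem hecke_twentythree : hecke 23 = 0 := hecke_prime_of_inert (by norm_num) (by norm_num)

theorem hecke_twentyfive : hecke 25 = -1 := by
  have h := hecke_prime_mul_of_split 5 (by norm_num) ⟨-1, 2⟩ (primary_mk (a := -1) (b := 2) 0 1
    (by norm_num) (by norm_num)) (by simp [Zsqrtd.norm_def]) 5
  rw [if_pos (dvd_refl 5)] at h
  norm_num [hecke_one, hecke_five] at h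
  exact h

theorem hecke_twentyseven : hecke 27 = 0 := by
  have h := hecke_prime_mul_of_inert 3 (by norm_num) (by norm_num) 9
  rw [if_pos (by norm_num)] at h
  norm_num [hecke_three] at h
  exact h

theorem hecke_twentynine : hecke 29 = -10 := by
  have h := hecke_prime_of_split (p := 29) (by norm_num) (primary_mk (a := -5) (b := 2) (-1) 2
    (by norm_num) (by norm_num)) (by simp [Zsqrtd.norm_def])
  simpa using h

/-- The first coefficients of the newform `32.2.a.a` of the tables:
`q - 2q⁵ - 3q⁹ + 6q¹³ + 2q¹⁷ - q²⁵ - 10q²⁹`. -/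
def newform32 : List ℤ :=
  [0, 1, 0, 0, 0, -2, 0, 0, 0, -3, 0, 0, 0, 6, 0, 0, 0, 2, 0, 0, 0, 0, 0, 0, 0, -1, 0, 0, 0, -10, 0]

/-- **The Dirichlet coefficients `a_n`, `n ≤ 30`, of Mathlib's Hasse–Weil `L`-series of `y² = x³ - x`
are those of the tables.** -/
theorem LFunction_E₀_table (n : ℕ) (hn : n ≤ 30) : E₀.LFunction n = newform32.getD n 0 := by
  rw [LFunction_E₀_eq_hecke]
  rcases Nat.even_or_odd' n with ⟨k, rfl | rfl⟩
  · rw [hecke_two_mul]
    have hk : k ≤ 15 := by omega
    interval_cases k <;> rfl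
  · have hk : k ≤ 14 := by omega
    interval_cases k
    · exact hecke_one
    · exact hecke_three
    · exact hecke_five
    · exact hecke_seven
    · exact hecke_nine
    · exact hecke_eleven
    · exact hecke_thirteen
    · exact hecke_fifteen
    · exact hecke_seventeen
    · exact hecke_nineteen
    · exact hecke_twentyone
    · exact hecke_twentythree
    · exact hecke_twentyfive
    · exact hecke_twentyseven
    · exact hecke_twentynine

/-- For odd `p` the coefficient at `p` is the trace of Frobenius `a_p = -∑_x (x³ - x / p)`. -/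
theorem LFunction_E₀_prime (p : ℕ) [Fact p.Prime] (hp : p ≠ 2) : E₀.LFunction p = aE p := by
  have h := LFunction_E₀_prime_mul p hp 1
  have h1 : ¬ p ∣ 1 := fun h => (Fact.out : p.Prime).one_lt.ne' (Nat.dvd_one.mp h)
  rw [mul_one, LFunction_one, if_neg h1] at h
  linarith

/-- **The Hasse bound `a_p² ≤ 4 p` for `y² = x³ - x`, every prime `p`.** -/
theorem LFunction_E₀_sq_le (p : ℕ) (hp : p.Prime) : (E₀.LFunction p) ^ 2 ≤ 4 * (p : ℤ) := by
  rw [LFunction_E₀_eq_hecke]
  have hp0 : (0 : ℤ) ≤ p := Int.natCast_nonneg p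
  rcases hp.eq_two_or_odd with rfl | hodd
  · rw [hecke_two]; norm_num
  · have h4 : p % 4 = 1 ∨ p % 4 = 3 := by omega
    rcases h4 with h4 | h4
    · have : Fact p.Prime := ⟨hp⟩
      obtain ⟨π, hπ, hN, -⟩ := exists_primary_of_mod_four_eq_one p h4
      rw [hecke_prime_of_split hp hπ hN, ← hN, Zsqrtd.norm_def]
      nlinarith [mul_self_nonneg π.im]
    · rw [hecke_prime_of_inert hp h4]
      nlinarith

/-- The Hasse bound for the trace of Frobenius. -/
theorem aE_sq_le (p : ℕ) [Fact p.Prime] (hp : p ≠ 2) : (aE p) ^ 2 ≤ 4 * (p : ℤ) := by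
  rw [← LFunction_E₀_prime p hp]
  exact LFunction_E₀_sq_le p Fact.out

end Claimed.Open.R002
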