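import Claimed.Open.R002.SanityHecke
import Claimed.Open.R002.SanityE5Curve

/-!
# Sanity for R002: `IsLFunction` separates `E₀ : y² = x³ - x` from its quadratic twist `E₅ : y² = x³ - 25 x`

The only checked non-examples of `IsLFunction E L` were the constants.  Here: `L` determines all
Dirichlet coefficients `E.LFunction n`, `n ≠ 0` (`IsLFunction.coeff_eq`); the coefficients at `5` are
`a₅(E₀) = -2` (good reduction, `#E₀(𝔽₅) = 8`) and `a₅(E₅) = 0` (additive reduction); so the genuine
`L`-function `heckeL` of `E₀`, an entire function with an Euler product, is **not** an `L`-function of `E₅`.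
-/

set_option autoImplicit false

namespace Claimed.Open.R002

open WeierstrassCurve IsDedekindDomain NumberField Polynomial Filter

/-- **`IsLFunction E L` determines the Dirichlet coefficients of `E`**: two curves with a common
`L`-function have the same `a_n` for all `n ≠ 0`. -/
theorem IsLFunction.coeff_eq {E E' : WeierstrassCurve ℚ} {L : ℂ → ℂ} (h : IsLFunction E L)
    (h' : IsLFunction E' L) {n : ℕ} (hn : n ≠ 0) : E.LFunction n = E'.LFunction n := by
  have h2 : (3 / 2 : ℝ) < (2 : ℂ).re := by norm_num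
  have hf : LSeries.abscissaOfAbsConv (fun n => (E.LFunction n : ℂ)) < ⊤ :=
    lt_of_le_of_lt (h.2 2 h2).1.abscissaOfAbsConv_le (EReal.coe_lt_top _)
  have hg : LSeries.abscissaOfAbsConv (fun n => (E'.LFunction n : ℂ)) < ⊤ :=
    lt_of_le_of_lt (h'.2 2 h2).1.abscissaOfAbsConv_le (EReal.coe_lt_top _)
  have hev : (fun x : ℝ => LSeries (fun n => (E.LFunction n : ℂ)) x) =ᶠ[atTop]
      fun x : ℝ => LSeries (fun n => (E'.LFunction n : ℂ)) x := by
    filter_upwards [eventually_gt_atTop (3 / 2 : ℝ)] with x hx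
    have hx' : (3 / 2 : ℝ) < ((x : ℝ) : ℂ).re := by simpa using hx
    have e1 : L x = LSeries (fun n => (E.LFunction n : ℂ)) x := (h.2 x hx').2
    have e2 : L x = LSeries (fun n => (E'.LFunction n : ℂ)) x := (h'.2 x hx').2
    rw [← e1, e2]
  have := LSeries.eq_of_LSeries_eventually_eq hf hg hev hn
  exact_mod_cast this

/-- `y² = x³ - 25 x` over any ring -/
def tw_E₅over (A : Type*) [CommRing A] : WeierstrassCurve A := ⟨0, 0, 0, -25, 0⟩

theorem E₅_baseChange_eq (A F : Type*) [CommRing A] [Field F] [Algebra ℚ F] [Algebra A F] :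
    E₅⁄F = (tw_E₅over A)⁄F := by
  ext <;> simp [tw_E₅over, WeierstrassCurve.baseChange, map_ofNat]

theorem tw_E₅over_Δ (A : Type*) [CommRing A] : (tw_E₅over A).Δ = 1000000 := by
  simp [tw_E₅over, WeierstrassCurve.Δ, WeierstrassCurve.b₂, WeierstrassCurve.b₄, WeierstrassCurve.b₆,
    WeierstrassCurve.b₈]
  norm_num

theorem tw_E₅over_c₄ (A : Type*) [CommRing A] : (tw_E₅over A).c₄ = 1200 := by
  simp [tw_E₅over, WeierstrassCurve.c₄, WeierstrassCurve.b₂, WeierstrassCurve.b₄]
  norm_num

/-- `Δ = 2⁶ 5⁶`, `c₄ = 2⁴ · 3 · 5²`: additive reduction at `5`. -/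
theorem localPolynomial_E₅_five (v : HeightOneSpectrum (𝓞 ℚ)) (h : primeBelow v = 5) :
    (E₅.baseChange (v.adicCompletion ℚ)).localPolynomial (v.adicCompletionIntegers ℚ) = 1 := by
  have e1 : E₅.baseChange (v.adicCompletion ℚ) =
      (tw_E₅over (v.adicCompletionIntegers ℚ))⁄(v.adicCompletion ℚ) :=
    E₅_baseChange_eq (v.adicCompletionIntegers ℚ) (v.adicCompletion ℚ)
  have : ((tw_E₅over (v.adicCompletionIntegers ℚ))⁄(v.adicCompletion ℚ)).IsElliptic := by
    rw [← e1]; infer_instance
  rw [e1]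
  apply localPolynomial_of_additive
  · rw [tw_E₅over_Δ]
    intro hmem
    have hmem' : ((1000000 : ℕ) : v.adicCompletionIntegers ℚ) ∈
        IsLocalRing.maximalIdeal (v.adicCompletionIntegers ℚ) ^ 12 := by simpa using hmem
    rw [natCast_mem_maximalIdeal_pow, h] at hmem'
    norm_num at hmem'
  · rw [tw_E₅over_Δ]
    have hmem' : ((1000000 : ℕ) : v.adicCompletionIntegers ℚ) ∈
        IsLocalRing.maximalIdeal (v.adicCompletionIntegers ℚ) ^ 1 := by
      rw [natCast_mem_maximalIdeal_pow, h]; norm_num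
    simpa using hmem'
  · rw [tw_E₅over_c₄]
    have hmem' : ((1200 : ℕ) : v.adicCompletionIntegers ℚ) ∈
        IsLocalRing.maximalIdeal (v.adicCompletionIntegers ℚ) ^ 1 := by
      rw [natCast_mem_maximalIdeal_pow, h]; norm_num
    simpa using hmem'

/-- `a₅(E₅) = 0`. -/
theorem LFunction_E₅_five : E₅.LFunction 5 = 0 := by
  obtain ⟨v, hv⟩ := exists_primeBelow_eq (by norm_num : Nat.Prime 5)
  have hinv : PowerSeries.invOfUnit (((1 : ℤ[X]) : PowerSeries ℤ)) 1 = 1 := by
    have := PowerSeries.mul_invOfUnit (((1 : ℤ[X]) : PowerSeries ℤ)) 1 (by simp)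
    simpa using this
  rw [← hv, LFunction_primeBelow_eq_coeff, localPowerSeries, localPolynomial_E₅_five v hv, hinv,
    PowerSeries.coeff_one, if_neg (by norm_num)]

instance tw_fact_five : Fact (Nat.Prime 5) := ⟨by norm_num⟩

theorem aE_five : aE 5 = -2 := by
  rw [aE]
  decide

/-- `a₅(E₀) = -2`, i.e. `#E₀(𝔽₅) = 8`. -/
theorem LFunction_E₀_five : E₀.LFunction 5 = -2 := by
  have h := LFunction_E₀_prime_mul 5 (by norm_num) 1
  rw [mul_one, LFunction_one, if_neg (by norm_num), aE_five] at h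
  simpa using h

/-- **No function is an `L`-function of both `E₀` and its quadratic twist `E₅`.** -/
theorem not_isLFunction_E₀_and_E₅ (L : ℂ → ℂ) : ¬ (IsLFunction E₀ L ∧ IsLFunction E₅ L) := by
  rintro ⟨h0, h5⟩
  have h := h0.coeff_eq h5 (n := 5) (by norm_num)
  rw [LFunction_E₀_five, LFunction_E₅_five] at h
  norm_num at h

/-- **Non-example**: the `L`-function of `E₀` is not an `L`-function of `E₅`. -/
theorem not_isLFunction_E₅_heckeL : ¬ IsLFunction E₅ heckeL := fun h =>
  not_isLFunction_E₀_and_E₅ heckeL ⟨isLFunction_E₀_heckeL, h⟩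

end Claimed.Open.R002
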