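import Claimed.Open.R002.SanityHeckeW1

/-! # Hecke road II, post W2 -/

set_option autoImplicit false

namespace Claimed.Open.R002

open Real MeasureTheory Set

private theorem w2_rpow_eq {x : ℝ} (hx0 : 0 < x) :
    x ^ (-3 / 2 : ℝ) = (Real.sqrt (x ^ 3))⁻¹ := by
  rw [Real.sqrt_eq_rpow, ← Real.rpow_natCast x 3, ← Real.rpow_mul hx0.le, ← Real.rpow_neg hx0.le]
  norm_num

private theorem w2_integral : ∫ x in Ioi (2 : ℝ), x ^ (-3 / 2 : ℝ) = Real.sqrt 2 := by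
  rw [integral_Ioi_rpow_of_lt (by norm_num) (by norm_num)]
  have h1 : (-3 / 2 : ℝ) + 1 = -(1 / 2) := by norm_num
  rw [h1, Real.rpow_neg (by norm_num), ← Real.sqrt_eq_rpow]
  have h2 : Real.sqrt 2 * Real.sqrt 2 = 2 := Real.mul_self_sqrt (by norm_num)
  have h0 : Real.sqrt 2 ≠ 0 := by positivity
  field_simp
  nlinarith

private theorem w2_pointwise {x : ℝ} (hx : 2 < x) :
    (1 / 2) * x ^ (-3 / 2 : ℝ) ≤ perE x ∧ perE x ≤ (Real.sqrt 3)⁻¹ * x ^ (-3 / 2 : ℝ) := by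
  have hx0 : 0 < x := by linarith
  have hx3 : 0 < x ^ 3 := by positivity
  have hlow : 3 * x ^ 3 ≤ 4 * x ^ 3 - 4 * x := by nlinarith [mul_pos hx0 hx0]
  have hup : 4 * x ^ 3 - 4 * x ≤ 4 * x ^ 3 := by linarith
  have hpos : 0 < 4 * x ^ 3 - 4 * x := by linarith [mul_pos (by norm_num : (0 : ℝ) < 3) hx3]
  have h4 : Real.sqrt 4 = 2 := by
    rw [show (4 : ℝ) = 2 ^ 2 by norm_num, Real.sqrt_sq (by norm_num)]
  rw [w2_rpow_eq hx0]
  unfold perE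
  constructor
  · have h1 : Real.sqrt (4 * x ^ 3 - 4 * x) ≤ Real.sqrt (4 * x ^ 3) := Real.sqrt_le_sqrt hup
    have h2 := inv_anti₀ (Real.sqrt_pos.2 hpos) h1
    rw [Real.sqrt_mul (by norm_num), h4, mul_inv] at h2
    simpa [one_div] using h2
  · have h1 : Real.sqrt (3 * x ^ 3) ≤ Real.sqrt (4 * x ^ 3 - 4 * x) := Real.sqrt_le_sqrt hlow
    have h2 := inv_anti₀ (Real.sqrt_pos.2 (by positivity : (0 : ℝ) < 3 * x ^ 3)) h1
    rwa [Real.sqrt_mul (by norm_num), mul_inv] at h2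

/-- **W2.**  On `(2, ∞)`: `3 x³ ≤ 4 x³ - 4 x ≤ 4 x³`, `∫_2^∞ x^(-3/2) dx = 2 / √2 = 1.41421…` (`integral_Ioi_rpow_of_lt`, `integrableOn_Ioi_rpow_of_lt`);
`1.41421 / 2 = 0.7071…`, `1.41422 / √3 = 0.8165…`. -/
theorem perE_piece_two (hint : IntegrableOn perE (Ioi 2)) :
    0.70 ≤ ∫ x in Ioi (2 : ℝ), perE x ∧ ∫ x in Ioi (2 : ℝ), perE x ≤ 0.82 := by
  have hI : IntegrableOn (fun x : ℝ => x ^ (-3 / 2 : ℝ)) (Ioi 2) :=
    integrableOn_Ioi_rpow_of_lt (by norm_num) (by norm_num)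
  have hs2l : (1.41 : ℝ) ≤ Real.sqrt 2 := Real.le_sqrt' (by norm_num) |>.2 (by norm_num)
  have hs2u : Real.sqrt 2 ≤ 1.4143 := (Real.sqrt_le_left (by norm_num)).2 (by norm_num)
  have hs3l : (1.732 : ℝ) ≤ Real.sqrt 3 := Real.le_sqrt' (by norm_num) |>.2 (by norm_num)
  constructor
  · have h1 : ∫ x in Ioi (2 : ℝ), (1 / 2) * x ^ (-3 / 2 : ℝ) ≤ ∫ x in Ioi (2 : ℝ), perE x :=
      setIntegral_mono_on (hI.const_mul _) hint measurableSet_Ioi fun x hx => (w2_pointwise hx).1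
    rw [integral_const_mul, w2_integral] at h1
    linarith
  · have h1 : ∫ x in Ioi (2 : ℝ), perE x ≤ ∫ x in Ioi (2 : ℝ), (Real.sqrt 3)⁻¹ * x ^ (-3 / 2 : ℝ) :=
      setIntegral_mono_on hint (hI.const_mul _) measurableSet_Ioi fun x hx => (w2_pointwise hx).2
    rw [integral_const_mul, w2_integral] at h1
    refine h1.trans ?_
    have h3 : 0 < Real.sqrt 3 := by positivity
    rw [inv_mul_le_iff₀ h3]
    nlinarith

end Claimed.Open.R002
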