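import Claimed.Open.R002.SanityHeckeW1

/-! # Hecke road II, post W3 -/

set_option autoImplicit false

namespace Claimed.Open.R002

open Real MeasureTheory Set

theorem w3_intble : IntegrableOn (fun x : ℝ => (-x) ^ (-(1 / 2) : ℝ)) (Ico (-(1 / 2)) 0) := by
  have h1 : IntervalIntegrable (fun x : ℝ => x ^ (-(1 / 2) : ℝ)) volume (1 / 2) 0 :=
    intervalIntegral.intervalIntegrable_rpow' (by norm_num)
  have h2 := h1.comp_sub_left 0
  simp only [zero_sub, neg_zero] at h2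
  exact (intervalIntegrable_iff_integrableOn_Ico_of_le (by norm_num)).1 h2

theorem w3_int : ∫ x in Ico (-(1 / 2) : ℝ) 0, (-x) ^ (-(1 / 2) : ℝ) = √2 := by
  rw [integral_Ico_eq_integral_Ioo, ← integral_Ioc_eq_integral_Ioo,
    ← intervalIntegral.integral_of_le (by norm_num : (-(1 / 2) : ℝ) ≤ 0),
    intervalIntegral.integral_comp_neg (fun x : ℝ => x ^ (-(1 / 2) : ℝ)), integral_rpow (Or.inl (by norm_num))]
  have e : (-(1 / 2) + 1 : ℝ) = 1 / 2 := by norm_num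
  rw [e, neg_zero, neg_neg, Real.zero_rpow (by norm_num), sub_zero, ← Real.sqrt_eq_rpow]
  have h2 : √2 * √2 = 2 := Real.mul_self_sqrt (by norm_num)
  have h3 : √(1 / 2) = √2 / 2 := by
    rw [Real.sqrt_eq_iff_mul_self_eq (by norm_num) (by positivity)]
    nlinarith
  rw [h3]
  ring

theorem w3_cmp {c s : ℝ} (hc : 0 < c) (hs : 0 < s) : (√(c * s))⁻¹ = (√c)⁻¹ * s ^ (-(1 / 2) : ℝ) := by
  rw [Real.sqrt_mul hc.le, mul_inv, Real.rpow_neg hs.le, ← Real.sqrt_eq_rpow]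

/-- **W3.**  On `[-1/2, 0)`, `s = -x ∈ (0, 1/2]`: `4 x³ - 4 x = 4 s (1 - s²)`, `3 s ≤ 4 s (1 - s²) ≤ 4 s`, `∫_0^{1/2} s^(-1/2) ds = √2`;
`√2 / 2 = 0.7071…`, `√2 / √3 = 0.8165…`. -/
theorem perE_piece_three (hint : IntegrableOn perE (Ico (-(1 / 2)) 0)) :
    0.70 ≤ ∫ x in Ico (-(1 / 2) : ℝ) 0, perE x ∧ ∫ x in Ico (-(1 / 2) : ℝ) 0, perE x ≤ 0.82 := by
  have h2 : √2 * √2 = 2 := Real.mul_self_sqrt (by norm_num)
  have h3 : √3 * √3 = 3 := Real.mul_self_sqrt (by norm_num)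
  have h4 : √4 = 2 := by
    rw [Real.sqrt_eq_iff_mul_self_eq (by norm_num) (by norm_num)]
    norm_num
  have p2 : 0 < √2 := by positivity
  have p3 : 0 < √3 := by positivity
  constructor
  · have h : ∫ x in Ico (-(1 / 2) : ℝ) 0, (√4)⁻¹ * (-x) ^ (-(1 / 2) : ℝ) ≤ ∫ x in Ico (-(1 / 2) : ℝ) 0, perE x := by
      refine setIntegral_mono_on (w3_intble.const_mul _) hint measurableSet_Ico fun x hx => ?_
      obtain ⟨hx1, hx2⟩ := hx
      rw [← w3_cmp (by norm_num) (by linarith)]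
      unfold perE
      have hpos : 0 < 4 * x ^ 3 - 4 * x := by nlinarith [sq_nonneg x, sq_nonneg (x + 1 / 2)]
      refine inv_anti₀ (Real.sqrt_pos.2 hpos) (Real.sqrt_le_sqrt ?_)
      nlinarith [sq_nonneg x]
    rw [integral_const_mul, w3_int, h4] at h
    refine le_trans ?_ h
    nlinarith
  · have h : ∫ x in Ico (-(1 / 2) : ℝ) 0, perE x ≤ ∫ x in Ico (-(1 / 2) : ℝ) 0, (√3)⁻¹ * (-x) ^ (-(1 / 2) : ℝ) := by
      refine setIntegral_mono_on hint (w3_intble.const_mul _) measurableSet_Ico fun x hx => ?_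
      obtain ⟨hx1, hx2⟩ := hx
      rw [← w3_cmp (by norm_num) (by linarith)]
      unfold perE
      refine inv_anti₀ (Real.sqrt_pos.2 (by linarith)) (Real.sqrt_le_sqrt ?_)
      nlinarith [sq_nonneg x, sq_nonneg (x + 1 / 2), mul_nonneg (neg_nonneg.2 hx2.le) (by nlinarith : (0:ℝ) ≤ 1 / 4 - x ^ 2)]
    rw [integral_const_mul, w3_int] at h
    refine h.trans ?_
    rw [inv_mul_le_iff₀ p3]
    nlinarith

end Claimed.Open.R002
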