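import Claimed.Open.R002.SanityHeckeW1

/-! # Hecke road II, post W4 -/

set_option autoImplicit false

namespace Claimed.Open.R002

open Real MeasureTheory Set

theorem w4_intble : IntegrableOn (fun x : ℝ => (x + 1) ^ (-(1 / 2) : ℝ)) (Ioo (-1) (-(1 / 2))) := by
  have h1 : IntervalIntegrable (fun x : ℝ => x ^ (-(1 / 2) : ℝ)) volume 0 (1 / 2) :=
    intervalIntegral.intervalIntegrable_rpow' (by norm_num)
  have h2 := h1.comp_add_right 1
  have e1 : (0 - 1 : ℝ) = -1 := by norm_num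
  have e2 : (1 / 2 - 1 : ℝ) = -(1 / 2) := by norm_num
  rw [e1, e2] at h2
  exact (intervalIntegrable_iff_integrableOn_Ioo_of_le (by norm_num)).1 h2

theorem w4_int : ∫ x in Ioo (-1 : ℝ) (-(1 / 2)), (x + 1) ^ (-(1 / 2) : ℝ) = √2 := by
  rw [← integral_Ioc_eq_integral_Ioo,
    ← intervalIntegral.integral_of_le (by norm_num : (-1 : ℝ) ≤ -(1 / 2)),
    intervalIntegral.integral_comp_add_right (fun x : ℝ => x ^ (-(1 / 2) : ℝ)), integral_rpow (Or.inl (by norm_num))]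
  have e : (-(1 / 2) + 1 : ℝ) = 1 / 2 := by norm_num
  have e0 : (-1 + 1 : ℝ) = 0 := by norm_num
  rw [e, e0, Real.zero_rpow (by norm_num), sub_zero, ← Real.sqrt_eq_rpow]
  have h2 : √2 * √2 = 2 := Real.mul_self_sqrt (by norm_num)
  have h3 : √(1 / 2) = √2 / 2 := by
    rw [Real.sqrt_eq_iff_mul_self_eq (by norm_num) (by positivity)]
    nlinarith
  rw [h3]
  ring

theorem w4_cmp {c s : ℝ} (hc : 0 < c) (hs : 0 < s) : (√(c * s))⁻¹ = (√c)⁻¹ * s ^ (-(1 / 2) : ℝ) := by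
  rw [Real.sqrt_mul hc.le, mul_inv, Real.rpow_neg hs.le, ← Real.sqrt_eq_rpow]

/-- **W4.**  On `(-1, -1/2)`, `s = -x ∈ (1/2, 1)`: `4 x³ - 4 x = 4 s (1 + s) (1 - s)`, `3 (1 - s) ≤ … ≤ 8 (1 - s)`, `∫_{1/2}^1 (1 - s)^(-1/2) ds = √2`;
`√2 / √8 = 0.5`, `√2 / √3 = 0.8165…`. -/
theorem perE_piece_four (hint : IntegrableOn perE (Ioo (-1) (-(1 / 2)))) :
    0.50 ≤ ∫ x in Ioo (-1 : ℝ) (-(1 / 2)), perE x ∧ ∫ x in Ioo (-1 : ℝ) (-(1 / 2)), perE x ≤ 0.82 := by
  have h2 : √2 * √2 = 2 := Real.mul_self_sqrt (by norm_num)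
  have h3 : √3 * √3 = 3 := Real.mul_self_sqrt (by norm_num)
  have p2 : 0 < √2 := by positivity
  have p3 : 0 < √3 := by positivity
  have h8 : √8 = 2 * √2 := by
    rw [Real.sqrt_eq_iff_mul_self_eq (by norm_num) (by positivity)]
    nlinarith
  constructor
  · have h : ∫ x in Ioo (-1 : ℝ) (-(1 / 2)), (√8)⁻¹ * (x + 1) ^ (-(1 / 2) : ℝ) ≤ ∫ x in Ioo (-1 : ℝ) (-(1 / 2)), perE x := by
      refine setIntegral_mono_on (w4_intble.const_mul _) hint measurableSet_Ioo fun x hx => ?_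
      obtain ⟨hx1, hx2⟩ := hx
      rw [← w4_cmp (by norm_num) (by linarith)]
      unfold perE
      have e : 4 * x ^ 3 - 4 * x = 4 * ((-x) * (1 - x)) * (x + 1) := by ring
      have hu : 0 < x + 1 := by linarith
      have hm : 0 < (-x) * (1 - x) := mul_pos (by linarith) (by linarith)
      have hm2 : (-x) * (1 - x) ≤ 2 := by nlinarith
      have hpos : 0 < 4 * x ^ 3 - 4 * x := by rw [e]; positivity
      refine inv_anti₀ (Real.sqrt_pos.2 hpos) (Real.sqrt_le_sqrt ?_)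
      rw [e]
      nlinarith
    rw [integral_const_mul, w4_int, h8] at h
    refine le_trans ?_ h
    have : (2 * √2)⁻¹ * √2 = 1 / 2 := by field_simp
    rw [this]; norm_num
  · have h : ∫ x in Ioo (-1 : ℝ) (-(1 / 2)), perE x ≤ ∫ x in Ioo (-1 : ℝ) (-(1 / 2)), (√3)⁻¹ * (x + 1) ^ (-(1 / 2) : ℝ) := by
      refine setIntegral_mono_on hint (w4_intble.const_mul _) measurableSet_Ioo fun x hx => ?_
      obtain ⟨hx1, hx2⟩ := hx
      rw [← w4_cmp (by norm_num) (by linarith)]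
      unfold perE
      have e : 4 * x ^ 3 - 4 * x = 4 * ((-x) * (1 - x)) * (x + 1) := by ring
      have hu : 0 < x + 1 := by linarith
      have hm2 : 3 / 4 ≤ (-x) * (1 - x) := by nlinarith
      refine inv_anti₀ (Real.sqrt_pos.2 (by linarith)) (Real.sqrt_le_sqrt ?_)
      rw [e]
      nlinarith
    rw [integral_const_mul, w4_int] at h
    refine h.trans ?_
    rw [inv_mul_le_iff₀ p3]
    nlinarith

end Claimed.Open.R002
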