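import Claimed.Open.R002.SanityE0BSD
import Claimed.Open.R002.SanityPeriod
import Claimed.Open.R002.SanityHeckeW2
import Claimed.Open.R002.SanityHeckeW3
import Claimed.Open.R002.SanityHeckeW4

/-! # Hecke road II, post W5: `4.6 ≤ Ω(E₀) ≤ 6.34` -/

set_option autoImplicit false

namespace Claimed.Open.R002

open Real MeasureTheory Set

/-- `4 x³ - 4 x = 4 x (x - 1) (x + 1) > 0` iff `-1 < x < 0` or `1 < x`. -/
theorem setOf_pos_cubic_E₀ :
    {x : ℝ | 0 < 4 * x ^ 3 - 4 * x} =
      (Ioo (-1) (-(1 / 2)) ∪ Ico (-(1 / 2)) 0) ∪ (Ioc 1 2 ∪ Ioi 2) := by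
  ext x
  simp only [Set.mem_ofPred_eq, mem_union, mem_Ioo, mem_Ico, mem_Ioc, mem_Ioi]
  have e : 4 * x ^ 3 - 4 * x = 4 * (x * ((x - 1) * (x + 1))) := by ring
  rw [e]
  constructor
  · intro h
    have h' : 0 < x * ((x - 1) * (x + 1)) := by linarith
    rcases lt_trichotomy x 0 with hx | hx | hx
    · left
      have h1 : (x - 1) * (x + 1) < 0 := by
        by_contra hc
        push Not at hc
        nlinarith
      have h2 : -1 < x := by
        by_contra hc
        push Not at hc
        nlinarith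
      rcases lt_or_ge x (-(1 / 2)) with h3 | h3
      · exact Or.inl ⟨h2, h3⟩
      · exact Or.inr ⟨h3, hx⟩
    · rw [hx] at h'; simp at h'
    · right
      have h1 : 0 < (x - 1) * (x + 1) := by
        by_contra hc
        push Not at hc
        nlinarith
      have h2 : 1 < x := by
        by_contra hc
        push Not at hc
        nlinarith
      rcases le_or_gt x 2 with h3 | h3
      · exact Or.inl ⟨h2, h3⟩
      · exact Or.inr h3
  · have key1 : -1 < x → x < 0 → 0 < 4 * (x * ((x - 1) * (x + 1))) := by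
      intro h1 h2
      have h3 : (x - 1) * (x + 1) < 0 := mul_neg_of_neg_of_pos (by linarith) (by linarith)
      have := mul_pos_of_neg_of_neg h2 h3
      linarith
    have key2 : 1 < x → 0 < 4 * (x * ((x - 1) * (x + 1))) := by
      intro h1
      have h3 : 0 < (x - 1) * (x + 1) := mul_pos (by linarith) (by linarith)
      have := mul_pos (by linarith : 0 < x) h3
      linarith
    rintro ((⟨h1, h2⟩ | ⟨h1, h2⟩) | (⟨h1, _⟩ | h1))
    · exact key1 h1 (by linarith)
    · exact key1 (by linarith) h2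
    · exact key2 h1
    · exact key2 (by linarith)

/-- `periodIntegral_E₀`, `integrableOn_periodIntegrand E₀` (with `twoTorsionCubic_E₀`), `setOf_pos_cubic_E₀`, `setIntegral_union` three times, W1 .. W4:
`2 (0.50 + 0.70 + 0.40 + 0.70) = 4.6`, `2 (0.82 + 0.82 + 0.71 + 0.82) = 6.34`.  (Truth: `5.2441151…`.) -/
theorem periodIntegral_E₀_window : 4.6 ≤ periodIntegral E₀ ∧ periodIntegral E₀ ≤ 6.34 := by
  have hI : IntegrableOn perE ((Ioo (-1) (-(1 / 2)) ∪ Ico (-(1 / 2)) 0) ∪ (Ioc 1 2 ∪ Ioi 2)) := by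
    have h := integrableOn_periodIntegrand E₀
    simp only [twoTorsionCubic_E₀] at h
    rw [setOf_pos_cubic_E₀] at h
    exact h
  have hA := hI.left_of_union
  have hB := hI.right_of_union
  have h4 := hA.left_of_union
  have h3 := hA.right_of_union
  have h1 := hB.left_of_union
  have h2 := hB.right_of_union
  have e : periodIntegral E₀ = 2 * (((∫ x in Ioo (-1 : ℝ) (-(1 / 2)), perE x) + ∫ x in Ico (-(1 / 2) : ℝ) 0, perE x)
      + ((∫ x in Ioc (1 : ℝ) 2, perE x) + ∫ x in Ioi (2 : ℝ), perE x)) := by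
    rw [periodIntegral_E₀, setOf_pos_cubic_E₀]
    show 2 * ∫ x in _, perE x = _
    rw [setIntegral_union ?_ (measurableSet_Ioc.union measurableSet_Ioi) hA hB,
      setIntegral_union ?_ measurableSet_Ico h4 h3, setIntegral_union ?_ measurableSet_Ioi h1 h2]
    · rw [Set.disjoint_left]
      intro x hx hx'
      simp only [mem_Ioc, mem_Ioi] at hx hx'
      linarith [hx.2]
    · rw [Set.disjoint_left]
      intro x hx hx'
      simp only [mem_Ioo, mem_Ico] at hx hx'
      linarith [hx.2, hx'.1]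
    · rw [Set.disjoint_left]
      intro x hx hx'
      simp only [mem_union, mem_Ioo, mem_Ico, mem_Ioc, mem_Ioi] at hx hx'
      rcases hx with hx | hx <;> rcases hx' with hx' | hx' <;> first | linarith [hx.2, hx'.1] | linarith [hx.2]
  obtain ⟨a1, b1⟩ := perE_piece_one h1
  obtain ⟨a2, b2⟩ := perE_piece_two h2
  obtain ⟨a3, b3⟩ := perE_piece_three h3
  obtain ⟨a4, b4⟩ := perE_piece_four h4
  rw [e]
  constructor <;> linarith

end Claimed.Open.R002
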