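import Claimed.Open.R002.SanityHeckeV4
import Claimed.Open.R002.SanityHeckeW5

/-! # Sanity for R002: the Birch–Swinnerton-Dyer formula of `Statement` at `E₀ : y² = x³ - x`, checked analytically

* `IsLFunction.analyticOrderAt_E₀` (V4): `L(E₀, 1) > 0`, so the analytic rank is `0`, the rank of `E₀(ℚ)`: the clause on the order of vanishing of `Statement` is true for `E₀`.
* `bsd_quotient_E₀_window`: **`3/4 < 8 L(E₀, 1) / Ω < 5/4`**, a rigorous numerical check of the formula `L(E₀, 1) = Ω · #Ш / 8` to which `Statement` specialises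
  (`statement_E₀`; the truth is `8 L(E₀,1) / Ω = 1`, `#Ш = 1`).  A mistake of normalisation by a factor `2` (real period, `c₂`, the square of the torsion) would make `Statement` false at `E₀`.
* `statement_E₀_sha`: `Statement` implies `#Ш(E₀/ℚ) = 1` and `L(E₀, 1) = Ω / 8`.

The proof (files `SanityHeckeV*.lean`, `SanityHeckeW*.lean`): `L(E₀, 1) = π ∫₀^∞ θ` (V3a); the functional equation of `θ` cuts the integral into `∫_{3/8}^∞ θ + ∫_{8/3}^∞ θ*` (V3b);
two-sided bounds of the four Hurwitz kernels at `1/4` by pairing the terms of their alternating series (V1a .. V1d) give `e^{-πt} - 3 e^{-5πt} ≤ θ(t) ≤ e^{-πt} + 2 e^{-5πt}` and the like for `θ*` (V2),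
so the two tails are known up to `0.01` (V3c, V3d): `0.63 < L(E₀, 1) < 0.67` (V4; truth `0.6555…`).  The real period is cut into four pieces, each compared with a power function (W1 .. W5):
`4.6 ≤ Ω ≤ 6.34` (truth `5.2441…`).
Design and contracts: helper65; written by helpers 196 (V1a), 214 (V1b, W5), 13 (V1c), 62 (V1d), 179 (V3b), 66 (V3d), 241 (W1), 139 (W2), 25 (W3), 252 (W4), 65 (V2, V3a, V3c, V4, this file); V3a rests on E4 of helpers 88 / 71.
-/

set_option autoImplicit false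

namespace Claimed.Open.R002

open Real

/-- `0.63 < L(E₀,1) < 0.67`, `4.6 ≤ Ω ≤ 6.34`: `8 · 0.63 / 6.34 = 0.7949…`, `8 · 0.67 / 4.6 = 1.1652…`. -/
theorem bsd_quotient_E₀_window {L : ℂ → ℂ} (h : IsLFunction E₀ L) :
    ∃ r : ℝ, L 1 = (r : ℂ) ∧ 3 / 4 < 8 * r / periodIntegral E₀ ∧ 8 * r / periodIntegral E₀ < 5 / 4 := by
  obtain ⟨h1, h2⟩ := heckeValue_window
  obtain ⟨h3, h4⟩ := periodIntegral_E₀_window
  have hΩ : 0 < periodIntegral E₀ := by linarith
  refine ⟨heckeValue, h.analyticOrderAt_E₀.1, ?_, ?_⟩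
  · rw [lt_div_iff₀ hΩ]
    linarith
  · rw [div_lt_iff₀ hΩ]
    linarith

/-- What `Statement` says at `E₀`, made explicit: the Tate–Shafarevich group is trivial and `L(E₀, 1) = Ω / 8`. -/
theorem statement_E₀_sha (h : Statement) :
    Nat.card (Sha E₀) = 1 ∧ heckeL 1 = ((periodIntegral E₀ / 8 : ℝ) : ℂ) := by
  obtain ⟨hfin, L, hL, -, hval⟩ := statement_E₀ h
  obtain ⟨h1, h2⟩ := heckeValue_window
  obtain ⟨h3, h4⟩ := periodIntegral_E₀_window
  have hr : (heckeValue : ℂ) = ((periodIntegral E₀ * (Nat.card (Sha E₀) : ℝ) / 8 : ℝ) : ℂ) := by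
    rw [← hL.analyticOrderAt_E₀.1, hval]
  have hr' : heckeValue = periodIntegral E₀ * (Nat.card (Sha E₀) : ℝ) / 8 := by
    exact_mod_cast hr
  have hcard : Nat.card (Sha E₀) = 1 := by
    have hpos : 0 < Nat.card (Sha E₀) := Nat.card_pos
    by_contra hne
    have h2' : 2 ≤ Nat.card (Sha E₀) := by omega
    have h2'' : (2 : ℝ) ≤ (Nat.card (Sha E₀) : ℝ) := by exact_mod_cast h2'
    nlinarith
  refine ⟨hcard, ?_⟩
  rw [heckeL_one_eq, hr', hcard]
  simp

end Claimed.Open.R002
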