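import Claimed.Open.R002.SanityHeckeX16

/-!
# Sanity for R002: the formula of `MainStatement` at `E₀ : y² = x³ - x` says exactly `#Ш = 1`

`heckeL_one_eq_period` (`L(E₀, 1) = Ω / 8`, unconditional) is combined with the invariants of `E₀`
computed in `SanityE0BSD.lean` (`Reg = 1`, `∏ c_ℓ = 2`, `#E₀(ℚ)_tors = 4`).
-/

set_option autoImplicit false

namespace Claimed.Open.R002

open Real

/-- **The Birch–Swinnerton-Dyer formula of `MainStatement` for `E₀` (with `r = 0`, `Ω` the real period,
`Reg = 1`) holds if and only if `#Ш(E₀/ℚ) = 1`**: no normalisation is off, by any factor. -/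
theorem exact_formula_E₀_iff :
    iteratedDeriv 0 heckeL 1 / ((0 : ℕ).factorial : ℂ) =
        ((periodIntegral E₀ * 1 * (Nat.card (Sha E₀) : ℝ) * (tamagawaProduct E₀ : ℝ) /
          (Nat.card (AddCommGroup.torsion (MW E₀)) : ℝ) ^ 2 : ℝ) : ℂ) ↔
      Nat.card (Sha E₀) = 1 := by
  have hΩ : 0 < periodIntegral E₀ := by
    rw [periodIntegral_E₀_eq]
    have := e4_integral_pos
    positivity
  rw [tamagawaProduct_E₀_eq, card_torsion_E₀]
  simp only [iteratedDeriv_zero, Nat.factorial_zero, Nat.cast_one, div_one]
  rw [heckeL_one_eq_period, Complex.ofReal_inj]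
  constructor
  · intro h
    have h' : (Nat.card (Sha E₀) : ℝ) = 1 := by
      push_cast at h
      field_simp at h
      nlinarith
    exact_mod_cast h'
  · intro h
    rw [h]
    push_cast
    ring

end Claimed.Open.R002
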