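import Claimed.Open.R002.Statement

/-!
# Sanity for R002: the isomorphism on points induced by a change of variables

Mathlib's `WeierstrassCurve.VariableChange` acts on Weierstrass equations, but Mathlib has no
induced map on points.  For a field `F`, a Weierstrass curve `W` over `F` and a change of variables
`C = (u, r, s, t)` we construct the group isomorphism
`(C • W)(F) ≃+ W(F)`, `(x, y) ↦ (u² x + r, u³ y + u² s x + t)`.
It is used to show that the Tamagawa number of `Statement.lean` does not depend on the chosen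
minimal Weierstrass equation.
-/

set_option autoImplicit false

namespace Claimed.Open.R002

open WeierstrassCurve

section VarChange

variable {F : Type*} [Field F] (W : WeierstrassCurve F) (C : VariableChange F)

/-- The `x`-coordinate `u² x + r` of the image of `(x, y)`. -/
def vcX (x : F) : F := (C.u : F) ^ 2 * x + C.r

/-- The `y`-coordinate `u³ y + u² s x + t` of the image of `(x, y)`. -/
def vcY (x y : F) : F := (C.u : F) ^ 3 * y + (C.u : F) ^ 2 * C.s * x + C.t

lemma vc_u_ne_zero : (C.u : F) ≠ 0 := C.u.ne_zero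

lemma vc_polynomial_eq (x y : F) :
    vcY C x y ^ 2 + W.a₁ * vcX C x * vcY C x y + W.a₃ * vcY C x y
        - (vcX C x ^ 3 + W.a₂ * vcX C x ^ 2 + W.a₄ * vcX C x + W.a₆) =
      (C.u : F) ^ 6 * (y ^ 2 + (C • W).a₁ * x * y + (C • W).a₃ * y
        - (x ^ 3 + (C • W).a₂ * x ^ 2 + (C • W).a₄ * x + (C • W).a₆)) := by
  have hu := vc_u_ne_zero C
  simp only [variableChange_a₁, variableChange_a₂, variableChange_a₃, variableChange_a₄,
    variableChange_a₆, Units.val_inv_eq_inv_val, vcX, vcY]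
  field_simp
  ring

lemma vc_polynomialY_eq (x y : F) :
    2 * vcY C x y + W.a₁ * vcX C x + W.a₃ =
      (C.u : F) ^ 3 * (2 * y + (C • W).a₁ * x + (C • W).a₃) := by
  have hu := vc_u_ne_zero C
  simp only [variableChange_a₁, variableChange_a₃, Units.val_inv_eq_inv_val, vcX, vcY]
  field_simp
  ring

lemma vc_polynomialX_eq (x y : F) :
    (W.a₁ * vcY C x y - (3 * vcX C x ^ 2 + 2 * W.a₂ * vcX C x + W.a₄)) =
      (C.u : F) ^ 4 * ((C • W).a₁ * y - (3 * x ^ 2 + 2 * (C • W).a₂ * x + (C • W).a₄))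
        - C.s * ((C.u : F) ^ 3 * (2 * y + (C • W).a₁ * x + (C • W).a₃)) := by
  have hu := vc_u_ne_zero C
  simp only [variableChange_a₁, variableChange_a₂, variableChange_a₃, variableChange_a₄,
    Units.val_inv_eq_inv_val, vcX, vcY]
  field_simp
  ring

lemma vc_equation_iff (x y : F) :
    W.toAffine.Equation (vcX C x) (vcY C x y) ↔ (C • W).toAffine.Equation x y := by
  rw [Affine.equation_iff', Affine.equation_iff', vc_polynomial_eq]
  simp [vc_u_ne_zero C]

lemma vc_nonsingular_iff (x y : F) :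
    W.toAffine.Nonsingular (vcX C x) (vcY C x y) ↔ (C • W).toAffine.Nonsingular x y := by
  rw [Affine.nonsingular_iff', Affine.nonsingular_iff', vc_equation_iff, vc_polynomialX_eq,
    vc_polynomialY_eq]
  have hu := vc_u_ne_zero C
  refine and_congr_right fun _ => ?_
  set A := (C • W).a₁ * y - (3 * x ^ 2 + 2 * (C • W).a₂ * x + (C • W).a₄) with hA
  set B := 2 * y + (C • W).a₁ * x + (C • W).a₃ with hB
  by_cases hB0 : B = 0
  · simp [hB0, hu]
  · simp [hB0, hu]

lemma vc_negY (x y : F) :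
    W.toAffine.negY (vcX C x) (vcY C x y) = vcY C x ((C • W).toAffine.negY x y) := by
  have hu := vc_u_ne_zero C
  simp only [Affine.negY, variableChange_a₁, variableChange_a₃, Units.val_inv_eq_inv_val, vcX, vcY]
  field_simp
  ring

lemma vcX_injective : Function.Injective (vcX C) := by
  intro a b h
  have hu := vc_u_ne_zero C
  simp only [vcX, add_left_inj] at h
  exact mul_left_cancel₀ (pow_ne_zero 2 hu) h

lemma vcY_injective (x : F) : Function.Injective (vcY C x) := by
  intro a b h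
  have hu := vc_u_ne_zero C
  simp only [vcY, add_left_inj] at h
  exact mul_left_cancel₀ (pow_ne_zero 3 hu) h

variable [DecidableEq F]

lemma vc_slope {x₁ x₂ y₁ y₂ : F} (h₁ : (C • W).toAffine.Equation x₁ y₁)
    (h₂ : (C • W).toAffine.Equation x₂ y₂)
    (hxy : ¬(x₁ = x₂ ∧ y₁ = (C • W).toAffine.negY x₂ y₂)) :
    W.toAffine.slope (vcX C x₁) (vcX C x₂) (vcY C x₁ y₁) (vcY C x₂ y₂) =
      (C.u : F) * (C • W).toAffine.slope x₁ x₂ y₁ y₂ + C.s := by
  have hu := vc_u_ne_zero C
  by_cases hx : x₁ = x₂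
  · subst hx
    have hy : y₁ ≠ (C • W).toAffine.negY x₁ y₂ := fun h => hxy ⟨rfl, h⟩
    have hy' : vcY C x₁ y₁ ≠ W.toAffine.negY (vcX C x₁) (vcY C x₁ y₂) := by
      rw [vc_negY]
      exact fun h => hy (vcY_injective C x₁ h)
    have hyy : y₁ = y₂ := Affine.Y_eq_of_Y_ne h₁ h₂ rfl hy
    subst hyy
    rw [Affine.slope_of_Y_ne rfl hy, Affine.slope_of_Y_ne rfl hy']
    have hd : y₁ - (C • W).toAffine.negY x₁ y₁ ≠ 0 := sub_ne_zero.mpr hy
    have hd' : vcY C x₁ y₁ - W.toAffine.negY (vcX C x₁) (vcY C x₁ y₁) ≠ 0 := sub_ne_zero.mpr hy'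
    have e1 : vcY C x₁ y₁ - W.toAffine.negY (vcX C x₁) (vcY C x₁ y₁) =
        (C.u : F) ^ 3 * (y₁ - (C • W).toAffine.negY x₁ y₁) := by
      have := vc_polynomialY_eq W C x₁ y₁
      simp only [Affine.negY]
      linear_combination this
    have e2 := vc_polynomialX_eq W C x₁ y₁
    have e3 : 2 * y₁ + (C • W).a₁ * x₁ + (C • W).a₃ = y₁ - (C • W).toAffine.negY x₁ y₁ := by
      simp only [Affine.negY]; ring
    rw [e3] at e2
    rw [e1, div_eq_iff (mul_ne_zero (pow_ne_zero 3 hu) hd)]
    field_simp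
    linear_combination -e2
  · have hx' : vcX C x₁ ≠ vcX C x₂ := fun h => hx (vcX_injective C h)
    rw [Affine.slope_of_X_ne hx, Affine.slope_of_X_ne hx']
    have h1 : x₁ - x₂ ≠ 0 := sub_ne_zero.mpr hx
    have h2 : vcX C x₁ - vcX C x₂ ≠ 0 := sub_ne_zero.mpr hx'
    rw [div_eq_iff h2]
    simp only [vcX, vcY]
    field_simp
    ring

omit [DecidableEq F] in
lemma vc_addX (x₁ x₂ ℓ : F) :
    W.toAffine.addX (vcX C x₁) (vcX C x₂) ((C.u : F) * ℓ + C.s) =
      vcX C ((C • W).toAffine.addX x₁ x₂ ℓ) := by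
  have hu := vc_u_ne_zero C
  simp only [Affine.addX, variableChange_a₁, variableChange_a₂, Units.val_inv_eq_inv_val, vcX]
  field_simp
  ring

omit [DecidableEq F] in
lemma vc_negAddY (x₁ x₂ y₁ ℓ : F) :
    W.toAffine.negAddY (vcX C x₁) (vcX C x₂) (vcY C x₁ y₁) ((C.u : F) * ℓ + C.s) =
      vcY C ((C • W).toAffine.addX x₁ x₂ ℓ) ((C • W).toAffine.negAddY x₁ x₂ y₁ ℓ) := by
  rw [Affine.negAddY, vc_addX, Affine.negAddY]
  simp only [vcX, vcY]
  ring

omit [DecidableEq F] in
lemma vc_addY (x₁ x₂ y₁ ℓ : F) :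
    W.toAffine.addY (vcX C x₁) (vcX C x₂) (vcY C x₁ y₁) ((C.u : F) * ℓ + C.s) =
      vcY C ((C • W).toAffine.addX x₁ x₂ ℓ) ((C • W).toAffine.addY x₁ x₂ y₁ ℓ) := by
  rw [Affine.addY, vc_addX, vc_negAddY, vc_negY, Affine.addY]

/-- The map `(C • W)(F) → W(F)`, `(x, y) ↦ (u² x + r, u³ y + u² s x + t)`, as a function. -/
def vcFun : (C • W).toAffine.Point → W.toAffine.Point
  | .zero => .zero
  | .some x y h => .some (vcX C x) (vcY C x y) ((vc_nonsingular_iff W C x y).mpr h)

/-- The group homomorphism `(C • W)(F) → W(F)`, `(x, y) ↦ (u² x + r, u³ y + u² s x + t)`. -/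
def vcHom : (C • W).toAffine.Point →+ W.toAffine.Point where
  toFun := vcFun W C
  map_zero' := rfl
  map_add' := by
    rintro (_ | ⟨x₁, y₁, h₁⟩) (_ | ⟨x₂, y₂, h₂⟩)
    any_goals rfl
    by_cases hxy : x₁ = x₂ ∧ y₁ = (C • W).toAffine.negY x₂ y₂
    · rw [Affine.Point.add_of_Y_eq hxy.1 hxy.2]
      show (0 : W.toAffine.Point) = Affine.Point.some _ _ _ + Affine.Point.some _ _ _
      rw [Affine.Point.add_of_Y_eq (congr_arg _ hxy.1) (by rw [hxy.2, vc_negY, hxy.1])]
    · have hxy' : ¬(vcX C x₁ = vcX C x₂ ∧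
          vcY C x₁ y₁ = W.toAffine.negY (vcX C x₂) (vcY C x₂ y₂)) := by
        rintro ⟨ha, hb⟩
        have hx := vcX_injective C ha
        subst hx
        rw [vc_negY] at hb
        exact hxy ⟨rfl, vcY_injective C _ hb⟩
      rw [Affine.Point.add_some hxy]
      show Affine.Point.some _ _ _ = Affine.Point.some _ _ _ + Affine.Point.some _ _ _
      rw [Affine.Point.add_some hxy']
      simp only [Affine.Point.some.injEq]
      rw [vc_slope W C h₁.1 h₂.1 hxy, vc_addX, vc_addY]
      exact ⟨rfl, rfl⟩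

@[simp] lemma vcHom_zero' : vcHom W C Affine.Point.zero = Affine.Point.zero := rfl

@[simp] lemma vcHom_some {x y : F} (h : (C • W).toAffine.Nonsingular x y) :
    vcHom W C (.some x y h) = .some (vcX C x) (vcY C x y) ((vc_nonsingular_iff W C x y).mpr h) :=
  rfl

lemma vcHom_injective : Function.Injective (vcHom W C) := by
  rintro (_ | ⟨x₁, y₁, h₁⟩) (_ | ⟨x₂, y₂, h₂⟩) h
  · rfl
  · exact absurd h (by simp)
  · exact absurd h (by simp)
  · simp only [vcHom_some, Affine.Point.some.injEq] at h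
    obtain ⟨ha, hb⟩ := h
    have hx := vcX_injective C ha
    subst hx
    have hy := vcY_injective C _ hb
    subst hy
    rfl

lemma vcHom_surjective : Function.Surjective (vcHom W C) := by
  have hu := vc_u_ne_zero C
  rintro (_ | ⟨X, Y, h⟩)
  · exact ⟨.zero, rfl⟩
  · set x : F := (X - C.r) / (C.u : F) ^ 2 with hx
    set y : F := (Y - (C.u : F) ^ 2 * C.s * x - C.t) / (C.u : F) ^ 3 with hy
    have eX : vcX C x = X := by
      simp only [vcX, hx]; field_simp; ring
    have eY : vcY C x y = Y := by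
      simp only [vcY, hy]; field_simp; ring
    have h' : (C • W).toAffine.Nonsingular x y := by
      rw [← vc_nonsingular_iff, eX, eY]; exact h
    refine ⟨.some x y h', ?_⟩
    simp only [vcHom_some, Affine.Point.some.injEq]
    exact ⟨eX, eY⟩

/-- The group isomorphism `(C • W)(F) ≃+ W(F)`, `(x, y) ↦ (u² x + r, u³ y + u² s x + t)`. -/
noncomputable def vcEquiv : (C • W).toAffine.Point ≃+ W.toAffine.Point :=
  AddEquiv.ofBijective (vcHom W C) ⟨vcHom_injective W C, vcHom_surjective W C⟩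

@[simp] lemma vcEquiv_apply (P : (C • W).toAffine.Point) : vcEquiv W C P = vcHom W C P := rfl

end VarChange

end Claimed.Open.R002
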