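import Claimed.Open.R002.SanityHeight
import Claimed.Open.R002.SanityVarChange

/-!
# The canonical height and the regulator do not depend on the Weierstrass equation

`Statement.lean` computes `h_x`, `H`, `B` and `Reg_E` with the coordinate `x` of the *given*
Weierstrass equation `E`, which is an arbitrary equation over `ℚ`, while the paper fixes a global
minimal equation before it introduces `x(P)`.  Here we check that this makes no difference: for every
change of variables `C` over `ℚ` and the isomorphism
`vcEquiv E C : (C • E)(ℚ) ≃+ E(ℚ)`, `(x, y) ↦ (u² x + r, u³ y + u² s x + t)`,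

* the naive heights differ by a bounded function (`exists_abs_naiveHeight_vcHom_sub_le`);
* the canonical heights and the height pairings agree (`canonicalHeight_vcHom`,
  `heightPairing_vcHom`);
* `C • E` and `E` have the same regulator (`isRegulator_smul_iff`).

In particular the regulator in `MainStatement` is the regulator computed on any global minimal
equation (`IsRegulator.of_globalMinimal`).
-/

set_option autoImplicit false

namespace Claimed.Open.R002

open WeierstrassCurve Filter Topology
open scoped Classical

noncomputable section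

/-- The height of `α x + β` is at most the height of `x` plus a constant. -/
theorem exists_logHeight₁_affine_le (α β : ℚ) :
    ∃ c : ℝ, 0 ≤ c ∧ ∀ x : ℚ, Height.logHeight₁ (α * x + β) ≤ Height.logHeight₁ x + c := by
  let A : Fin 2 × Fin 2 → ℚ := fun ij => !![α, β; 0, 1] ij.1 ij.2
  refine ⟨Height.totalWeight ℚ * Real.log (Nat.card (Fin 2)) + Height.logHeight A, ?_,
    fun x => ?_⟩
  · have h1 : (0 : ℝ) ≤ Real.log (Nat.card (Fin 2)) := Real.log_natCast_nonneg _
    have h2 := Height.logHeight_nonneg A
    positivity
  · have h := Height.logHeight_linearMap_apply_le A ![x, 1]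
    have e : (fun j => ∑ i, A (j, i) * ![x, 1] i) = ![α * x + β, 1] := by
      ext j
      fin_cases j <;> simp [A, Fin.sum_univ_two]
    rw [e, ← Height.logHeight₁_eq_logHeight, ← Height.logHeight₁_eq_logHeight] at h
    linarith

theorem naiveHeight_some {E : WeierstrassCurve ℚ} {x y : ℚ} (h : E.toAffine.Nonsingular x y) :
    naiveHeight (Affine.Point.some x y h : MW E) = Height.logHeight₁ x := by
  rw [naiveHeight_eq_logHeight, Affine.Point.xRep_some, ← Height.logHeight₁_eq_logHeight]

/-- The naive heights relative to two Weierstrass equations of the same curve differ by a bounded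
function. -/
theorem exists_abs_naiveHeight_vcHom_sub_le (E : WeierstrassCurve ℚ) (C : VariableChange ℚ) :
    ∃ c : ℝ, ∀ P : MW (C • E), |naiveHeight (vcHom E C P) - naiveHeight P| ≤ c := by
  have hu : (C.u : ℚ) ≠ 0 := C.u.ne_zero
  obtain ⟨c₁, hc₁, h₁⟩ := exists_logHeight₁_affine_le ((C.u : ℚ) ^ 2) C.r
  obtain ⟨c₂, hc₂, h₂⟩ := exists_logHeight₁_affine_le (((C.u : ℚ) ^ 2)⁻¹) (-(((C.u : ℚ) ^ 2)⁻¹ * C.r))
  refine ⟨max c₁ c₂, fun P => ?_⟩
  rcases P with _ | ⟨x, y, h⟩
  · show |naiveHeight (Affine.Point.zero : MW E) - naiveHeight (Affine.Point.zero : MW (C • E))| ≤ _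
    simp only [naiveHeight, sub_self, abs_zero]
    exact le_max_of_le_left hc₁
  · rw [vcHom_some, naiveHeight_some, naiveHeight_some, abs_le]
    have e₁ := h₁ x
    have e₂ := h₂ (vcX C x)
    have e : ((C.u : ℚ) ^ 2)⁻¹ * vcX C x + -(((C.u : ℚ) ^ 2)⁻¹ * C.r) = x := by
      simp only [vcX]; field_simp; ring
    rw [e] at e₂
    have e₁' : Height.logHeight₁ (vcX C x) ≤ Height.logHeight₁ x + c₁ := e₁
    constructor
    · linarith [le_max_right c₁ c₂]
    · linarith [le_max_left c₁ c₂]

section Elliptic

variable (E : WeierstrassCurve ℚ) [E.IsElliptic] (C : VariableChange ℚ)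

/-- **The canonical height does not depend on the Weierstrass equation.** -/
theorem canonicalHeight_vcHom (P : MW (C • E)) :
    canonicalHeight (vcHom E C P) = canonicalHeight P := by
  obtain ⟨c, hc⟩ := exists_abs_naiveHeight_vcHom_sub_le E C
  have t₁ := tendsto_canonicalHeight (vcHom E C P)
  have t₂ := tendsto_canonicalHeight P
  have t₃ : Tendsto (fun n : ℕ => naiveHeight ((2 ^ n : ℕ) • vcHom E C P) / 4 ^ n -
      naiveHeight ((2 ^ n : ℕ) • P) / 4 ^ n) atTop (𝓝 0) := by
    have hz : Tendsto (fun n : ℕ => c * (1 / 4 : ℝ) ^ n) atTop (𝓝 0) := by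
      simpa using (tendsto_pow_atTop_nhds_zero_of_lt_one (by norm_num : (0 : ℝ) ≤ 1 / 4)
        (by norm_num)).const_mul c
    refine squeeze_zero_norm (fun n => ?_) hz
    rw [← map_nsmul, ← sub_div, Real.norm_eq_abs, abs_div,
      abs_of_pos (by positivity : (0 : ℝ) < 4 ^ n), one_div, inv_pow, ← div_eq_mul_inv]
    gcongr
    exact hc _
  have := tendsto_nhds_unique (t₁.sub t₂) t₃
  linarith

theorem canonicalHeight_vcEquiv (P : MW (C • E)) :
    canonicalHeight (vcEquiv E C P) = canonicalHeight P := canonicalHeight_vcHom E C P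

/-- The height pairing does not depend on the Weierstrass equation. -/
theorem heightPairing_vcHom (P Q : MW (C • E)) :
    heightPairing (vcHom E C P) (vcHom E C Q) = heightPairing P Q := by
  simp only [heightPairing, ← map_add, canonicalHeight_vcHom]

end Elliptic

/-- An isomorphism of abelian groups carries a basis modulo torsion to a basis modulo torsion. -/
theorem IsBasisModTorsion.map_addEquiv {E E' : WeierstrassCurve ℚ} (e : MW E ≃+ MW E') {n : ℕ}
    {P : Fin n → MW E} (h : IsBasisModTorsion P) : IsBasisModTorsion fun i => e (P i) := by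
  obtain ⟨b, hb⟩ := h
  have ht : (AddCommGroup.torsion (MW E)).map (e : MW E →+ MW E') =
      AddCommGroup.torsion (MW E') := by
    ext Q
    constructor
    · rintro ⟨P, hP, rfl⟩
      exact (e : MW E →+ MW E').isOfFinAddOrder hP
    · intro hQ
      refine ⟨e.symm Q, (e.symm : MW E' →+ MW E).isOfFinAddOrder hQ, ?_⟩
      simp
  let ē := QuotientAddGroup.congr _ _ e ht
  refine ⟨b.map ē.toIntLinearEquiv, fun i => ?_⟩
  rw [Module.Basis.map_apply, hb]
  rfl

/-- A height-preserving isomorphism preserves the regulator. -/
theorem IsRegulator.of_addEquiv {E E' : WeierstrassCurve ℚ} (e : MW E ≃+ MW E')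
    (he : ∀ P, canonicalHeight (e P) = canonicalHeight P) {R : ℝ} (h : IsRegulator E R) :
    IsRegulator E' R := by
  obtain ⟨n, P, hP, rfl⟩ := h
  refine ⟨n, fun i => e (P i), hP.map_addEquiv e, ?_⟩
  congr 1
  ext i j
  simp only [Matrix.of_apply, heightPairing, ← map_add, he]

/-- **The regulator does not depend on the Weierstrass equation.** -/
theorem isRegulator_smul_iff (E : WeierstrassCurve ℚ) [E.IsElliptic] (C : VariableChange ℚ)
    (R : ℝ) : IsRegulator (C • E) R ↔ IsRegulator E R :=
  ⟨fun h => h.of_addEquiv (vcEquiv E C) (canonicalHeight_vcEquiv E C),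
    fun h => h.of_addEquiv (vcEquiv E C).symm fun P => by
      rw [← canonicalHeight_vcEquiv E C, AddEquiv.apply_symm_apply]⟩

/-- The regulator of `MainStatement` (heights relative to the given equation `E`) is the regulator
computed with the coordinate `x` of any global minimal equation `C • E`, as in the paper. -/
theorem IsRegulator.of_globalMinimal {E : WeierstrassCurve ℚ} [E.IsElliptic]
    {C : VariableChange ℚ} (_ : IsGlobalMinimal (C • E)) {R : ℝ} (h : IsRegulator (C • E) R) :
    IsRegulator E R := (isRegulator_smul_iff E C R).1 h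

end

end Claimed.Open.R002
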