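import Claimed.Open.R002.SanityCoboundary

/-!
# Sanity, part 13: the Selmer group is cut out by the local Kummer images

The paper defines `Sel_{p^∞}(E/ℚ) ⊆ H¹(ℚ, E[p^∞])` "using the local Kummer images at every place",
i.e. by the condition `res_v c ∈ im (κ_v : E(ℚ_v) ⊗ ℚ_p/ℤ_p → H¹(ℚ_v, E[p^∞]))` for all `v`, where
`κ_v (P ⊗ p⁻ⁿ)` is the class of `σ ↦ σ Q - Q` for any `Q ∈ E(ℚ̄_v)` with `pⁿ Q = P`.
`Statement.lean` uses the kernel of `H¹(ℚ, E[p^∞]) → ∏_v H¹(ℚ_v, E)`.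
Here we prove that the two conditions are equivalent (`mem_Selmer_iff_kummer`).
-/

set_option autoImplicit false

namespace Claimed.Open.R002

open WeierstrassCurve
open scoped Classical

noncomputable section

attribute [-instance] DivisionRing.toRatAlgebra

local instance algQpK (p : ℕ) [Fact p.Prime] : Algebra ℚ ℚ_[p] := DivisionRing.toRatAlgebra
local instance algRK : Algebra ℚ ℝ := DivisionRing.toRatAlgebra

section Local

variable {K : Type*} [Field K] (E : WeierstrassCurve K) (p : ℕ) (F : Type*) [Field F] [Algebra K F]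

/-- The map `E(K̄)[p^∞] → E(F̄)[p^∞]` induced by an embedding `ι : K̄ → F̄`. -/
def torsMap (ι : Emb K F) :
    primaryTorsion p (PointsBar E K) →+ primaryTorsion p (PointsBar E F) where
  toFun x := ⟨pointsMap E F ι x.1, by
    obtain ⟨n, hn⟩ := x.2
    exact ⟨n, by rw [← map_nsmul, hn, map_zero]⟩⟩
  map_zero' := Subtype.ext (map_zero _)
  map_add' x y := Subtype.ext (map_add _ x.1 y.1)

/-- The localisation map `H¹(K, E[p^∞]) → H¹(F, E[p^∞])` attached to `ι : K̄ → F̄`. -/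
def locResTors (ι : Emb K F) : H1Tors E p K →+ H1Tors E p F :=
  H1.map (resGal F ι) (resGal_continuous F ι) (torsMap E p F ι)
    (fun σ x => Subtype.ext (pointsMap_resGal_smul E F ι σ x.1))

/-- The subgroup `E(F) ⊆ E(F̄)`. -/
def rationalPoints : AddSubgroup (PointsBar E F) :=
  (Affine.Point.baseChange (W' := E) F (AlgebraicClosure F)).range

/-- The image of the local Kummer map `κ : E(F) ⊗ ℚ_p/ℤ_p → H¹(F, E[p^∞])`: the classes of the
cocycles `σ ↦ σ Q - Q`, for `Q ∈ E(F̄)` with `pⁿ Q ∈ E(F)` for some `n`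
(this class is `κ (pⁿ Q ⊗ p⁻ⁿ)`). -/
def IsKummerClass (c : H1Tors E p F) : Prop :=
  ∃ (Q : PointsBar E F) (n : ℕ) (ξ : Z1 (GalBar F) (primaryTorsion p (PointsBar E F))),
    p ^ n • Q ∈ rationalPoints E F ∧ c = H1.mk ξ ∧ ∀ σ, (ξ.1 σ).1 = σ • Q - Q

/-- Galois descent for points: a point of `E(F̄)` fixed by `G_F` is rational
(`F` of characteristic zero). -/
lemma mem_rationalPoints_of_fixed [CharZero F] (P : PointsBar E F)
    (h : ∀ σ : GalBar F, σ • P = P) : P ∈ rationalPoints E F := by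
  rcases P with _ | ⟨x, y, hxy⟩
  · exact ⟨0, rfl⟩
  · have hfix : ∀ σ : GalBar F, σ x = x ∧ σ y = y := fun σ => by
      have e : Affine.Point.map (W' := E) (σ : AlgebraicClosure F →ₐ[F] AlgebraicClosure F)
          (.some x y hxy) = .some x y hxy := h σ
      simp only [Affine.Point.map_some, Affine.Point.some.injEq] at e
      exact e
    obtain ⟨x₀, rfl⟩ := (InfiniteGalois.mem_range_algebraMap_iff_fixed x).mpr fun σ => (hfix σ).1
    obtain ⟨y₀, rfl⟩ := (InfiniteGalois.mem_range_algebraMap_iff_fixed y).mpr fun σ => (hfix σ).2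
    have h₀ : (E⁄F).toAffine.Nonsingular x₀ y₀ :=
      (E.toAffine.baseChange_nonsingular (Algebra.ofId F (AlgebraicClosure F)).injective x₀ y₀).mp hxy
    exact ⟨.some x₀ y₀ h₀, rfl⟩

/-- The local comparison: the localisation of the class of `ξ` is a Kummer class iff `ξ` becomes a
coboundary in `E(F̄)` on the decomposition group. -/
lemma isKummerClass_locResTors_iff [CharZero F] (ι : Emb K F)
    (ξ : Z1 (GalBar K) (primaryTorsion p (PointsBar E K))) (n : ℕ)
    (hn : ∀ τ, p ^ n • (ξ.1 τ).1 = 0) :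
    IsKummerClass E p F (locResTors E p F ι (H1.mk ξ)) ↔
      ∃ Q : PointsBar E F, ∀ σ : GalBar F, pointsMap E F ι (ξ.1 (resGal F ι σ)).1 = σ • Q - Q := by
  rw [locResTors, H1.map_mk]
  constructor
  · rintro ⟨Q, m, ξ', -, hc, hξ'⟩
    have h0 : H1.mk (Z1.map (resGal F ι) (resGal_continuous F ι) (torsMap E p F ι)
        (fun σ x => Subtype.ext (pointsMap_resGal_smul E F ι σ x.1)) ξ - ξ') = 0 := by
      rw [map_sub, hc, sub_self]
    obtain ⟨t, ht⟩ := (H1.mk_eq_zero_iff _).mp h0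
    refine ⟨Q + t.1, fun σ => ?_⟩
    have e1 := congrArg Subtype.val (ht σ)
    have e2 : pointsMap E F ι (ξ.1 (resGal F ι σ)).1 - (ξ'.1 σ).1 = σ • t.1 - t.1 := e1
    rw [hξ'] at e2
    rw [smul_add]
    calc pointsMap E F ι (ξ.1 (resGal F ι σ)).1
        = (pointsMap E F ι (ξ.1 (resGal F ι σ)).1 - (σ • Q - Q)) + (σ • Q - Q) := by abel
      _ = σ • Q + σ • t.1 - (Q + t.1) := by rw [e2]; abel
  · rintro ⟨Q, hQ⟩
    refine ⟨Q, n, _, ?_, rfl, hQ⟩
    apply mem_rationalPoints_of_fixed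
    intro σ
    have e : p ^ n • (σ • Q - Q) = 0 := by rw [← hQ, ← map_nsmul, hn, map_zero]
    rw [nsmul_sub, sub_eq_zero] at e
    rw [smul_nsmul_comm, e]

end Local

/-- **`Selmer E p` is the group of classes whose localisation lies in the local Kummer image at
every place** (all primes and the real place, for every embedding `ℚ̄ → ℚ̄ᵥ`): the definition of
the paper. -/
theorem mem_Selmer_iff_kummer (E : WeierstrassCurve ℚ) (p : ℕ) (c : H1Tors E p ℚ) :
    c ∈ Selmer E p ↔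
      (∀ (ℓ : ℕ) (_ : Fact ℓ.Prime) (ι : Emb ℚ ℚ_[ℓ]),
        IsKummerClass E p ℚ_[ℓ] (locResTors E p ℚ_[ℓ] ι c)) ∧
      ∀ ι : Emb ℚ ℝ, IsKummerClass E p ℝ (locResTors E p ℝ ι c) := by
  obtain ⟨ξ, rfl⟩ := H1.mk_surjective c
  obtain ⟨n, hn⟩ := exists_uniform_exponent E p ξ
  rw [mem_Selmer_iff]
  unfold LocTriv LocTrivAt
  refine and_congr (forall_congr' fun ℓ => forall_congr' fun hℓ => forall_congr' fun ι => ?_)
    (forall_congr' fun ι => ?_)
  · exact (isKummerClass_locResTors_iff E p ℚ_[ℓ] ι ξ n hn).symm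
  · exact (isKummerClass_locResTors_iff E p ℝ ι ξ n hn).symm

/-- Rational points are fixed by the Galois group. -/
lemma smul_eq_of_mem_rationalPoints {K : Type*} [Field K] (E : WeierstrassCurve K) (F : Type*)
    [Field F] [Algebra K F] {P : PointsBar E F} (hP : P ∈ rationalPoints E F) (σ : GalBar F) :
    σ • P = P := by
  obtain ⟨P₀, rfl⟩ := hP
  exact Affine.Point.map_baseChange (W' := E) (σ : AlgebraicClosure F →ₐ[F] AlgebraicClosure F) P₀

/-- **The global Kummer classes lie in the Selmer group**: for `Q ∈ E(ℚ̄)` with `pⁿ Q ∈ E(ℚ)`, the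
map `σ ↦ σ Q - Q` is a continuous cocycle with values in `E[p^∞]` whose class (the image of
`pⁿ Q ⊗ p⁻ⁿ` under `E(ℚ) ⊗ ℚ_p/ℤ_p → H¹(ℚ, E[p^∞])`) belongs to `Selmer E p`. -/
theorem exists_kummer_class_mem_Selmer (E : WeierstrassCurve ℚ) (p : ℕ) (Q : PointsBar E ℚ) (n : ℕ)
    (hQ : p ^ n • Q ∈ rationalPoints E ℚ) :
    ∃ ξ : Z1 (GalBar ℚ) (primaryTorsion p (PointsBar E ℚ)),
      (∀ σ, (ξ.1 σ).1 = σ • Q - Q) ∧ H1.mk ξ ∈ Selmer E p := by
  have hmem : ∀ σ : GalBar ℚ, σ • Q - Q ∈ primaryTorsion p (PointsBar E ℚ) := fun σ =>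
    ⟨n, by rw [nsmul_sub, ← smul_nsmul_comm, smul_eq_of_mem_rationalPoints E ℚ hQ, sub_self]⟩
  let f : GalBar ℚ → primaryTorsion p (PointsBar E ℚ) := fun σ => ⟨σ • Q - Q, hmem σ⟩
  have hf : IsLocallyConstant f :=
    IsLocallyConstant.desc f Subtype.val (Z1.isLocallyConstant (cob E ℚ Q)) Subtype.val_injective
  refine ⟨⟨f, hf, fun σ τ => Subtype.ext (Z1.map_mul (cob E ℚ Q) σ τ)⟩, fun σ => rfl, ?_⟩
  rw [mem_Selmer_iff]
  exact LocTriv.cob E Q

end

end Claimed.Open.R002
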