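import Claimed.Open.R002.Statement

/-!
# Sanity: Mathlib's Hasse–Weil `L`-function of `E/ℚ` takes no default value

`IsLFunction` of `Statement.lean` rests on Mathlib's `WeierstrassCurve.LFunction`, the formal Dirichlet
series `ArithmeticFunction.eulerProduct` of the local Euler factors over the primes `v` of `𝓞 ℚ`.
Two totalised functions occur in that definition: the Euler product is a `∏'` (default value `1` when
the family is not multipliable) and the norm of `v` is `Nat.card` of the residue field of the
completion at `v` (default value `0` when it is infinite).  Here we check that neither default value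
occurs:

* `card_residueField_completion`: the residue field at `v` has `p` elements, `p` the rational prime
  below `v` (`primeBelow`; every prime occurs exactly once: `primeBelow_injective`,
  `exists_primeBelow_eq`);
* `eventually_prod_eulerFactorAt_eq`: each coefficient of `E.LFunction` is the coefficient of the
  product of the Euler factors over every large enough finite set of primes;
* `isMultiplicative_LFunction`, `LFunction_one`: the coefficients are multiplicative, `a_1 = 1`;
* `LFunction_primeBelow`: the coefficient at `p` is `a_p = p + 1 - #Ẽ(𝔽_p)` for good reduction and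
  `1`, `-1`, `0` for split multiplicative, nonsplit multiplicative, additive reduction;
* `IsLFunction.tendsto_one`: `L(E, x) → 1` for real `x → +∞`; hence a constant `c ≠ 1` is not the
  `L`-function of `E` (`not_isLFunction_const`, a non-example of `IsLFunction`).
-/

set_option autoImplicit false

namespace Claimed.Open.R002

open WeierstrassCurve IsDedekindDomain NumberField ArithmeticFunction Filter

noncomputable section

/-- The rational prime below a prime ideal `v` of `𝓞 ℚ`. -/
def primeBelow (v : HeightOneSpectrum (𝓞 ℚ)) : ℕ := (Rat.HeightOneSpectrum.primesEquiv v).1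

theorem prime_primeBelow (v : HeightOneSpectrum (𝓞 ℚ)) : (primeBelow v).Prime :=
  (Rat.HeightOneSpectrum.primesEquiv v).2

theorem primeBelow_injective : Function.Injective primeBelow := fun _ _ h =>
  Rat.HeightOneSpectrum.primesEquiv.injective (Subtype.ext h)

theorem exists_primeBelow_eq {p : ℕ} (hp : p.Prime) : ∃ v, primeBelow v = p :=
  ⟨Rat.HeightOneSpectrum.primesEquiv.symm (⟨p, hp⟩ : Nat.Primes),
    congrArg Subtype.val (Rat.HeightOneSpectrum.primesEquiv.apply_symm_apply (⟨p, hp⟩ : Nat.Primes))⟩

/-- The residue field of the completion of `ℚ` at `v` has `p` elements. -/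
theorem card_residueField_completion (v : HeightOneSpectrum (𝓞 ℚ)) :
    Nat.card (IsLocalRing.ResidueField (v.adicCompletionIntegers ℚ)) = primeBelow v := by
  have : Fact (Nat.Prime (Rat.HeightOneSpectrum.primesEquiv v).1) :=
    ⟨(Rat.HeightOneSpectrum.primesEquiv v).2⟩
  have e1 : IsLocalRing.ResidueField (v.adicCompletionIntegers ℚ) ≃+*
      IsLocalRing.ResidueField ℤ_[(Rat.HeightOneSpectrum.primesEquiv v).1] :=
    IsLocalRing.ResidueField.mapEquiv
      (Rat.HeightOneSpectrum.adicCompletionIntegers.padicIntEquiv v).toRingEquiv
  rw [Nat.card_congr (e1.trans PadicInt.residueField).toEquiv, Nat.card_zmod]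
  rfl

instance northcott_card_residueField : Northcott fun v : HeightOneSpectrum (𝓞 ℚ) =>
    Nat.card (IsLocalRing.ResidueField (v.adicCompletionIntegers ℚ)) where
  finite_le b := by
    simp only [card_residueField_completion]
    exact Set.Finite.of_injOn (f := primeBelow) (t := Set.Iic b) (fun v hv => hv)
      primeBelow_injective.injOn (Set.finite_Iic b)

variable (E : WeierstrassCurve ℚ)

/-- The Euler factor of `E` at `v`, as a formal Dirichlet series (Mathlib's definition). -/
abbrev eulerFactorAt (v : HeightOneSpectrum (𝓞 ℚ)) : ArithmeticFunction ℤ :=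
  (E.baseChange (v.adicCompletion ℚ)).localEulerFactor (v.adicCompletionIntegers ℚ)

theorem constantCoeff_localPowerSeries (v : HeightOneSpectrum (𝓞 ℚ)) :
    ((E.baseChange (v.adicCompletion ℚ)).localPowerSeries
      (v.adicCompletionIntegers ℚ)).constantCoeff = 1 := by
  simp [localPowerSeries]

theorem eventually_prod_eulerFactorAt_eq (n : ℕ) :
    ∀ᶠ s : Finset (HeightOneSpectrum (𝓞 ℚ)) in atTop,
      (∏ v ∈ s, eulerFactorAt E v) n = E.LFunction n := by
  have h := tendsTo_eulerProduct_ofPowerSeries
    (fun v : HeightOneSpectrum (𝓞 ℚ) =>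
      Nat.card (IsLocalRing.ResidueField (v.adicCompletionIntegers ℚ)))
    (fun v => (E.baseChange (v.adicCompletion ℚ)).localPowerSeries (v.adicCompletionIntegers ℚ))
    (constantCoeff_localPowerSeries E) n
  simp only [eulerFactorAt, localEulerFactor, LFunction]
  exact h

theorem isMultiplicative_eulerFactorAt (v : HeightOneSpectrum (𝓞 ℚ)) :
    (eulerFactorAt E v).IsMultiplicative :=
  isMultiplicative_ofPowerSeries_of_isPrimePow _
    (by rw [card_residueField_completion]; exact (prime_primeBelow v).isPrimePow) _
    (constantCoeff_localPowerSeries E v)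

theorem isMultiplicative_LFunction : E.LFunction.IsMultiplicative :=
  isMultiplicative_eulerProduct _ (isMultiplicative_eulerFactorAt E)

theorem LFunction_one : E.LFunction 1 = 1 := (isMultiplicative_LFunction E).map_one

/-! ### The coefficient at a prime -/

/-- Dirichlet convolution at a prime. -/
theorem arith_mul_apply_prime (f g : ArithmeticFunction ℤ) {p : ℕ} (hp : p.Prime) :
    (f * g) p = f 1 * g p + f p * g 1 := by
  rw [ArithmeticFunction.mul_apply, Nat.sum_divisorsAntidiagonal (fun a b => f a * g b),
    hp.divisors, Finset.sum_pair hp.one_lt.ne]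
  simp [Nat.div_self hp.pos]

theorem arith_prod_apply_prime {ι : Type*} (s : Finset ι) (f : ι → ArithmeticFunction ℤ)
    (h1 : ∀ i, f i 1 = 1) {p : ℕ} (hp : p.Prime) :
    (∏ i ∈ s, f i) 1 = 1 ∧ (∏ i ∈ s, f i) p = ∑ i ∈ s, f i p := by
  classical
  induction s using Finset.induction_on with
  | empty => simp [hp.ne_one]
  | insert a s ha ih =>
    rw [Finset.prod_insert ha, Finset.sum_insert ha]
    refine ⟨?_, ?_⟩
    · rw [ArithmeticFunction.mul_apply_one, h1, ih.1, one_mul]
    · rw [arith_mul_apply_prime _ _ hp, h1, ih.1, ih.2]; ring

theorem eulerFactorAt_apply_self (v : HeightOneSpectrum (𝓞 ℚ)) :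
    eulerFactorAt E v (primeBelow v) = ((E.baseChange (v.adicCompletion ℚ)).localPowerSeries
      (v.adicCompletionIntegers ℚ)).coeff 1 := by
  have h := ofPowerSeries_apply_pow (prime_primeBelow v).one_lt
    ((E.baseChange (v.adicCompletion ℚ)).localPowerSeries (v.adicCompletionIntegers ℚ)) 1
  rw [pow_one] at h
  rw [← h, eulerFactorAt, localEulerFactor, card_residueField_completion]

theorem eulerFactorAt_apply_of_ne {v w : HeightOneSpectrum (𝓞 ℚ)} (h : w ≠ v) :
    eulerFactorAt E w (primeBelow v) = 0 := by
  rw [eulerFactorAt, localEulerFactor, card_residueField_completion,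
    ofPowerSeries_apply (prime_primeBelow w).one_lt, Function.extend_apply', Pi.zero_apply]
  rintro ⟨k, hk⟩
  rcases Nat.eq_zero_or_pos k with rfl | hk0
  · exact (prime_primeBelow v).ne_one (by simpa using hk.symm)
  · have hd : primeBelow w ∣ primeBelow v := hk ▸ dvd_pow_self _ hk0.ne'
    exact h (primeBelow_injective
      ((Nat.prime_dvd_prime_iff_eq (prime_primeBelow w) (prime_primeBelow v)).1 hd))

/-- The `p`-th Dirichlet coefficient of `L(E, s)` is the coefficient of `T` in `1 / f_p(T)`. -/
theorem LFunction_primeBelow_eq_coeff (v : HeightOneSpectrum (𝓞 ℚ)) :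
    E.LFunction (primeBelow v) = ((E.baseChange (v.adicCompletion ℚ)).localPowerSeries
      (v.adicCompletionIntegers ℚ)).coeff 1 := by
  classical
  obtain ⟨s, hs⟩ := eventually_atTop.1 (eventually_prod_eulerFactorAt_eq E (primeBelow v))
  rw [← hs (insert v s) (Finset.subset_insert v s),
    (arith_prod_apply_prime _ _ (fun w => (isMultiplicative_eulerFactorAt E w).map_one)
      (prime_primeBelow v)).2,
    Finset.sum_eq_single v (fun w _ hw => eulerFactorAt_apply_of_ne E hw)
      (fun h => absurd (Finset.mem_insert_self v s) h), eulerFactorAt_apply_self]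

theorem coeff_one_invOfUnit_one (φ : PowerSeries ℤ) (h : φ.constantCoeff = 1) :
    (φ.invOfUnit 1).coeff 1 = -φ.coeff 1 := by
  have h1 : φ * φ.invOfUnit 1 = 1 := PowerSeries.mul_invOfUnit φ 1 (by simpa using h)
  have h2 := congrArg (PowerSeries.coeff 1) h1
  have h3 : (φ.invOfUnit 1).constantCoeff = 1 := by simp
  rw [PowerSeries.coeff_mul, Finset.Nat.antidiagonal_succ] at h2
  simp only [Finset.Nat.antidiagonal_zero, Finset.map_singleton, Finset.sum_cons,
    Finset.sum_singleton, Function.Embedding.prodMap, Function.Embedding.coeFn_mk, Prod.map,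
    Function.Embedding.refl_apply, PowerSeries.coeff_zero_eq_constantCoeff, h, h3,
    PowerSeries.coeff_one] at h2
  simp at h2
  linarith

section Local

variable (R : Type*) [CommRing R] [IsDomain R] [IsDiscreteValuationRing R] {K : Type*}
  [Field K] [Algebra R K] [IsFractionRing R K] (W : WeierstrassCurve K)

theorem coeff_zero_localPolynomial : (W.localPolynomial R).coeff 0 = 1 := by
  unfold localPolynomial
  split_ifs <;> simp

open Classical in
theorem coeff_one_localPowerSeries :
    (W.localPowerSeries R).coeff 1 =
      if (W.minimal R).HasGoodReduction R then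
        (Nat.card (IsLocalRing.ResidueField R) : ℤ) + 1 -
          Nat.card ((W.minimal R).reduction R).toAffine.Point
      else if (W.minimal R).HasSplitMultiplicativeReduction R then 1
      else if (W.minimal R).HasMultiplicativeReduction R then -1
      else 0 := by
  rw [localPowerSeries, coeff_one_invOfUnit_one _ (by
    rw [← PowerSeries.coeff_zero_eq_constantCoeff_apply, Polynomial.coeff_coe,
      coeff_zero_localPolynomial]), Polynomial.coeff_coe]
  unfold localPolynomial
  split_ifs <;> simp [Polynomial.coeff_one]

end Local

open Classical in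
/-- **The `p`-th Dirichlet coefficient of Mathlib's `L(E, s)` is `a_p`**: `p + 1 - #Ẽ(𝔽_p)` for good
reduction, `1`, `-1`, `0` for split multiplicative, nonsplit multiplicative and additive reduction
(on a minimal equation at `p`).  In particular the formal Euler product does not take its default
value `1`. -/
theorem LFunction_primeBelow (v : HeightOneSpectrum (𝓞 ℚ)) :
    E.LFunction (primeBelow v) =
      if ((E.baseChange (v.adicCompletion ℚ)).minimal (v.adicCompletionIntegers ℚ)).HasGoodReduction
          (v.adicCompletionIntegers ℚ) then
        (primeBelow v : ℤ) + 1 - Nat.card (((E.baseChange (v.adicCompletion ℚ)).minimal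
          (v.adicCompletionIntegers ℚ)).reduction (v.adicCompletionIntegers ℚ)).toAffine.Point
      else if ((E.baseChange (v.adicCompletion ℚ)).minimal
          (v.adicCompletionIntegers ℚ)).HasSplitMultiplicativeReduction
          (v.adicCompletionIntegers ℚ) then 1
      else if ((E.baseChange (v.adicCompletion ℚ)).minimal
          (v.adicCompletionIntegers ℚ)).HasMultiplicativeReduction
          (v.adicCompletionIntegers ℚ) then -1
      else 0 := by
  rw [LFunction_primeBelow_eq_coeff, coeff_one_localPowerSeries, card_residueField_completion]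

/-! ### Consequences for `IsLFunction` -/

variable {E}

/-- `L(E, x) → 1` as `x → +∞` on the real axis. -/
theorem IsLFunction.tendsto_one {L : ℂ → ℂ} (h : IsLFunction E L) :
    Tendsto (fun x : ℝ => L x) atTop (nhds 1) := by
  have ha : LSeries.abscissaOfAbsConv (fun n => (E.LFunction n : ℂ)) < ⊤ :=
    lt_of_le_of_lt (h.2 2 (by norm_num)).1.abscissaOfAbsConv_le (EReal.coe_lt_top _)
  have h1 := LSeries.tendsto_atTop ha
  simp only [LFunction_one, Int.cast_one] at h1
  refine h1.congr' ?_
  filter_upwards [eventually_gt_atTop (3 / 2 : ℝ)] with x hx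
  exact ((h.2 x (by simpa using hx)).2).symm

/-- Non-example: a constant `c ≠ 1` (for instance `0`) is not the `L`-function of `E`. -/
theorem not_isLFunction_const {c : ℂ} (hc : c ≠ 1) : ¬ IsLFunction E fun _ => c := fun h =>
  hc (tendsto_nhds_unique tendsto_const_nhds h.tendsto_one)

end

end Claimed.Open.R002
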