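import Claimed.Open.R002.SanityPeriodGamma

/-!
# Sanity for R002: the real period of `E₀ : y² = x³ - x` is twice the lemniscate constant

`periodIntegral E₀ = 4 ∫₀¹ dt / √(1 - t⁴)`, i.e. `Ω = 2 ϖ` with Gauss's lemniscate constant `ϖ = 2 ∫₀¹ dt / √(1 - t⁴)`
(half the length of the lemniscate), and hence `L(E₀, 1) = ϖ / 4`.  Together with `periodIntegral_E₀_eq_Gamma` this contains
the classical evaluation `ϖ = Γ(1/4)² / (2 √(2π))`.

Proof: both sides are the Beta integral `B(1/4, 1/2)` (`pg_subst`, and the substitution `t = u^{1/4}`).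
-/

set_option autoImplicit false

namespace Claimed.Open.R002

open Real Set MeasureTheory

/-- The substitution `t = u^{1/4}`. -/
theorem lm_subst :
    ∫ t in Ioo (0 : ℝ) 1, (√(1 - t ^ 4))⁻¹ =
      1 / 4 * ∫ u in Ioo (0 : ℝ) 1, u ^ ((1 / 4 : ℝ) - 1) * (1 - u) ^ ((1 / 2 : ℝ) - 1) := by
  have h := integral_comp_rpow_Ioi_of_pos
    (g := fun x : ℝ => (Ioo (0 : ℝ) 1).indicator (fun t => (√(1 - t ^ 4))⁻¹) x)
    (p := 1 / 4) (by norm_num)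
  have hI : Ioi (0 : ℝ) ∩ Ioo 0 1 = Ioo 0 1 := by
    ext u
    simp only [mem_inter_iff, mem_Ioi, mem_Ioo]
    tauto
  rw [setIntegral_indicator measurableSet_Ioo, hI] at h
  rw [← h, ← integral_const_mul]
  have h2 : ∫ u in Ioo (0 : ℝ) 1, 1 / 4 * (u ^ ((1 / 4 : ℝ) - 1) * (1 - u) ^ ((1 / 2 : ℝ) - 1)) =
      ∫ u in Ioi (0 : ℝ), (Ioo (0 : ℝ) 1).indicator
        (fun u => 1 / 4 * (u ^ ((1 / 4 : ℝ) - 1) * (1 - u) ^ ((1 / 2 : ℝ) - 1))) u := by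
    rw [setIntegral_indicator measurableSet_Ioo, hI]
  rw [h2]
  refine setIntegral_congr_fun measurableSet_Ioi fun x hx => ?_
  have hx0 : (0 : ℝ) < x := hx
  have hpos : 0 < x ^ (1 / 4 : ℝ) := Real.rpow_pos_of_pos hx0 _
  have h4 : (x ^ (1 / 4 : ℝ)) ^ 4 = x := by
    rw [← Real.rpow_natCast, ← Real.rpow_mul hx0.le]; norm_num
  simp only [smul_eq_mul]
  by_cases hx1 : x < 1
  · have hlt : x ^ (1 / 4 : ℝ) < 1 := Real.rpow_lt_one hx0.le hx1 (by norm_num)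
    rw [indicator_of_mem (show x ^ (1 / 4 : ℝ) ∈ Ioo (0 : ℝ) 1 from ⟨hpos, hlt⟩),
      indicator_of_mem (show x ∈ Ioo (0 : ℝ) 1 from ⟨hx0, hx1⟩), h4]
    have h1x : 0 < 1 - x := by linarith
    have e4 : (1 - x) ^ ((1 / 2 : ℝ) - 1) = (√(1 - x))⁻¹ := by
      rw [Real.sqrt_eq_rpow, ← Real.rpow_neg h1x.le]; norm_num
    rw [e4]
    ring
  · have hge : 1 ≤ x ^ (1 / 4 : ℝ) := Real.one_le_rpow (not_lt.1 hx1) (by norm_num)
    rw [indicator_of_notMem (show x ^ (1 / 4 : ℝ) ∉ Ioo (0 : ℝ) 1 from fun h => absurd h.2 (not_lt.2 hge)),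
      indicator_of_notMem (show x ∉ Ioo (0 : ℝ) 1 from fun h => hx1 h.2), mul_zero]

/-- **The real period of `y² = x³ - x` is twice the lemniscate constant**: `Ω = 4 ∫₀¹ dt / √(1 - t⁴)`. -/
theorem periodIntegral_E₀_eq_lemniscate :
    periodIntegral E₀ = 4 * ∫ t in Ioo (0 : ℝ) 1, (√(1 - t ^ 4))⁻¹ := by
  have h1 : periodIntegral E₀ = 4 * ∫ x in Ioi (1 : ℝ), (√(4 * x ^ 3 - 4 * x))⁻¹ := by
    rw [periodIntegral_E₀_eq, integral_Ioi_one]; ring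
  rw [h1, pg_subst, lm_subst]

/-- `L(E₀, 1) = (1/2) ∫₀¹ dt / √(1 - t⁴)` (a quarter of the lemniscate constant). -/
theorem heckeL_one_eq_lemniscate :
    heckeL 1 = ((1 / 2 * ∫ t in Ioo (0 : ℝ) 1, (√(1 - t ^ 4))⁻¹ : ℝ) : ℂ) := by
  rw [heckeL_one_eq_period, periodIntegral_E₀_eq_lemniscate]
  congr 1
  ring

/-- The classical evaluation of the lemniscatic integral: `∫₀¹ dt / √(1 - t⁴) = Γ(1/4)² / (4 √(2π))`. -/
theorem lemniscate_integral_eq_Gamma :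
    ∫ t in Ioo (0 : ℝ) 1, (√(1 - t ^ 4))⁻¹ = Real.Gamma (1 / 4) ^ 2 / (4 * √(2 * π)) := by
  have h := periodIntegral_E₀_eq_lemniscate
  rw [periodIntegral_E₀_eq_Gamma] at h
  have hs : 0 < √(2 * π) := Real.sqrt_pos.2 (by positivity)
  field_simp at h ⊢
  linarith

end Claimed.Open.R002
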