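import Claimed.Open.R002.SanityE0Selmer

/-!
# A non-example: a class of `H¹(ℚ, E₀[2^∞])` that is not a Selmer class

`Sel_{2^∞}(E₀/ℚ) = 0` for `E₀ : y² = x³ - x` (`selmer_E₀_two`).  This is not because the ambient
group is trivial or because the local conditions are void: the quadratic character `χ₃` of
`ℚ(√3)/ℚ` and the rational point `T₃ = (-1, 0)` of order two give the continuous cocycle
`τ ↦ T₃` if `τ √3 = -√3`, `τ ↦ O` if `τ √3 = √3`, with values in `E₀[2] ⊆ E₀[2^∞]`, and its class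

* does **not** satisfy the local condition at the prime `3` (`not_locTrivAt_quadCocycle`),
* hence is **not** in the Selmer group (`quadCocycle_not_mem_Selmer`).

So `Selmer E₀ 2 ≠ ⊤` and `H¹(ℚ, E₀[2^∞]) ≠ 0`.
-/

set_option autoImplicit false

namespace Claimed.Open.R002

open WeierstrassCurve

noncomputable section

attribute [local instance] Classical.propDecidable
attribute [-instance] DivisionRing.toRatAlgebra

local instance algQpN (p : ℕ) [Fact p.Prime] : Algebra ℚ ℚ_[p] := DivisionRing.toRatAlgebra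
local instance algRN : Algebra ℚ ℝ := DivisionRing.toRatAlgebra

local notation "Kb" => AlgebraicClosure ℚ

/-- The point `T₃ = (-1, 0)` as an element of `E₀(ℚ̄)[2^∞]`. -/
def T3tors : primaryTorsion 2 (PointsBar E₀ ℚ) :=
  ⟨T3, 1, by rw [pow_one, two_nsmul]; exact T3_add_T3⟩

lemma T3tors_add_self : T3tors + T3tors = 0 := Subtype.ext T3_add_T3

lemma smul_T3tors (σ : GalBar ℚ) : σ • T3tors = T3tors := Subtype.ext (smul_T3 ℚ σ)

section

variable (α : Kb) (hα : α ^ 2 = 3)

include hα in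
lemma gal_sqrt_three (τ : GalBar ℚ) : τ α = α ∨ τ α = -α := by
  have h : (τ α) ^ 2 = α ^ 2 := by rw [← map_pow, hα, map_ofNat]
  exact sq_eq_sq_iff_eq_or_eq_neg.1 h

include hα in
lemma sqrt_three_ne_zero : α ≠ 0 := by
  rintro rfl
  norm_num at hα

include hα in
lemma neg_sqrt_three_ne : -α ≠ α := by
  intro h
  have h2 : (2 : Kb) * α = 0 := by linear_combination -h
  rcases mul_eq_zero.1 h2 with h3 | h3
  · norm_num at h3
  · exact sqrt_three_ne_zero α hα h3

/-- The cocycle `χ₃ · T₃ : G_ℚ → E₀[2] ⊆ E₀[2^∞]`. -/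
def quadCocycle : Z1 (GalBar ℚ) (primaryTorsion 2 (PointsBar E₀ ℚ)) :=
  ⟨fun τ => if τ α = α then 0 else T3tors, by
    have h : IsLocallyConstant (fun τ : GalBar ℚ => τ • α) :=
      isLocallyConstant_smul_of_isOpen_stabilizer α
        (stabilizer_isOpen_of_isIntegral (K := ℚ) (L := Kb) α)
    exact h.comp fun x => if x = α then 0 else T3tors, fun σ τ => by
    have hn := neg_sqrt_three_ne α hα
    show (if σ (τ α) = α then 0 else T3tors) =
      (if σ α = α then 0 else T3tors) + σ • (if τ α = α then 0 else T3tors)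
    rcases gal_sqrt_three α hα σ with h1 | h1 <;> rcases gal_sqrt_three α hα τ with h2 | h2
    · simp [h1, h2]
    · simp [h1, h2, hn, smul_T3tors]
    · simp [h1, h2, hn]
    · simp [h1, h2, hn, smul_T3tors, T3tors_add_self]⟩

lemma quadCocycle_apply (τ : GalBar ℚ) :
    ((quadCocycle α hα).1 τ).1 = if τ α = α then 0 else T3 := by
  show ((if τ α = α then 0 else T3tors : primaryTorsion 2 (PointsBar E₀ ℚ))).1 = _
  split_ifs <;> rfl

/-- **Non-example**: the cocycle `χ₃ · T₃` is not a coboundary in `E₀(ℚ̄₃)` on the decomposition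
groups at `3`. -/
theorem not_locTrivAt_quadCocycle :
    ¬ LocTrivAt E₀ ℚ_[3] (fun τ => ((quadCocycle α hα).1 τ).1) := by
  intro hloc
  have hn := neg_sqrt_three_ne α hα
  have hc : LocalCond ℚ_[3] 3 1 := by
    refine localCond_of_locTrivAt ℚ_[3] _ (fun τ => ?_) α 1 (sqrt_three_ne_zero α hα) one_ne_zero
      (fun τ => ?_) (fun τ => ?_) 3 1 (by rw [hα, map_ofNat]) (by simp) hloc
    · rw [quadCocycle_apply]
      split_ifs
      · exact add_zero 0
      · exact T3_add_T3
    · rw [quadCocycle_apply]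
      rcases gal_sqrt_three α hα τ with h | h
      · simp [h]
      · simp [h, hn]
    · rw [quadCocycle_apply]
      split_ifs <;> simp
  have he : Even (padicValRat 3 3) := hc.even_val_d1 (by norm_num)
  have h1 : padicValRat 3 3 = 1 := by
    have := padicValRat.self (p := 3) (by norm_num)
    simpa using this
  rw [h1] at he
  exact absurd he (by decide)

/-- **Non-example**: the class of `χ₃ · T₃` in `H¹(ℚ, E₀[2^∞])` is not in the Selmer group. -/
theorem quadCocycle_not_mem_Selmer : H1.mk (quadCocycle α hα) ∉ Selmer E₀ 2 := by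
  rw [mem_Selmer_iff]
  exact fun h => not_locTrivAt_quadCocycle α hα (h.1 3 ⟨by norm_num⟩)

end

/-- The local conditions that define `Sel_{2^∞}(E₀/ℚ)` are not void. -/
theorem exists_not_mem_Selmer_E₀ : ∃ c : H1Tors E₀ 2 ℚ, c ∉ Selmer E₀ 2 := by
  obtain ⟨α, hα⟩ := IsAlgClosed.exists_pow_nat_eq (3 : Kb) (n := 2) (by norm_num)
  exact ⟨_, quadCocycle_not_mem_Selmer α hα⟩

theorem selmer_E₀_two_ne_top : Selmer E₀ 2 ≠ ⊤ := by
  obtain ⟨c, hc⟩ := exists_not_mem_Selmer_E₀
  exact fun h => hc (h ▸ AddSubgroup.mem_top c)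

/-- `H¹(ℚ, E₀[2^∞]) ≠ 0`. -/
theorem nontrivial_H1Tors_E₀ : Nontrivial (H1Tors E₀ 2 ℚ) := by
  obtain ⟨c, hc⟩ := exists_not_mem_Selmer_E₀
  exact ⟨c, 0, fun h => hc (h ▸ zero_mem _)⟩

end

end Claimed.Open.R002
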