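import Claimed.Open.R002.SanityHeckeX16

/-!
# Sanity for R002: the real period of `E₀ : y² = x³ - x` in closed form

`periodIntegral E₀ = Γ(1/4)² / √(2π)` (twice the lemniscate constant, `5.2441…`; the real period of the curve
`32.a3` in the tables), and hence, by `heckeL_one_eq_period`, `L(E₀, 1) = Γ(1/4)² / (8 √(2π))` (`0.6555…`).
So `periodIntegral` (the definition of `Statement.lean`) and `heckeL` are both pinned to the classical constants, not
only to each other.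

Proof: `Ω = 4 ∫₁^∞ dx / √(4x³ - 4x)` (`periodIntegral_E₀_eq`, `integral_Ioi_one`); the substitution `x = u^{-1/2}` turns
the integral into `(1/4) B(1/4, 1/2)`; `B(a, b) = Γ(a) Γ(b) / Γ(a + b)`, `Γ(1/2) = √π` and the reflection formula
`Γ(1/4) Γ(3/4) = π √2`.
-/

set_option autoImplicit false

namespace Claimed.Open.R002

open Real Set MeasureTheory

/-- The real Beta integral. -/
theorem pg_beta (α β : ℝ) (hα : 0 < α) (hβ : 0 < β) :
    ∫ x in Ioo (0 : ℝ) 1, x ^ (α - 1) * (1 - x) ^ (β - 1) =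
      Real.Gamma α * Real.Gamma β / Real.Gamma (α + β) := by
  have h := ProbabilityTheory.beta_eq_betaIntegralReal α β hα hβ
  rw [ProbabilityTheory.beta] at h
  rw [h, Complex.betaIntegral, intervalIntegral.integral_of_le (by norm_num),
    ← integral_Ioc_eq_integral_Ioo, ← RCLike.re_to_complex, ← integral_re]
  · refine setIntegral_congr_fun measurableSet_Ioc fun x ⟨hx1, hx₂⟩ ↦ ?_
    norm_cast
    rw [← Complex.ofReal_cpow, ← Complex.ofReal_cpow, RCLike.re_to_complex,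
      Complex.re_mul_ofReal, Complex.ofReal_re]
    all_goals linarith
  · have := Complex.betaIntegral_convergent (u := α) (v := β) (by simpa) (by simpa)
    rwa [intervalIntegrable_iff_integrableOn_Ioc_of_le (by simp), IntegrableOn] at this

/-- The integrand after `x = u^{-1/2}`. -/
theorem pg_pointwise {x : ℝ} (h0 : 0 < x) (h1 : x < 1) :
    |(-(1 / 2) : ℝ)| * x ^ ((-(1 / 2) : ℝ) - 1) *
        (√(4 * (x ^ (-(1 / 2) : ℝ)) ^ 3 - 4 * x ^ (-(1 / 2) : ℝ)))⁻¹ =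
      1 / 4 * (x ^ ((1 / 4 : ℝ) - 1) * (1 - x) ^ ((1 / 2 : ℝ) - 1)) := by
  set s : ℝ := x ^ (1 / 4 : ℝ) with hs
  have hspos : 0 < s := Real.rpow_pos_of_pos h0 _
  have hx4 : x = s ^ 4 := by
    rw [hs, ← Real.rpow_natCast, ← Real.rpow_mul h0.le]; norm_num
  have e1 : x ^ (-(1 / 2) : ℝ) = (s ^ 2)⁻¹ := by
    rw [hs, ← Real.rpow_natCast, ← Real.rpow_mul h0.le, ← Real.rpow_neg h0.le]; norm_num
  have e2 : x ^ ((-(1 / 2) : ℝ) - 1) = (s ^ 6)⁻¹ := by
    rw [hs, ← Real.rpow_natCast, ← Real.rpow_mul h0.le, ← Real.rpow_neg h0.le]; norm_num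
  have e3 : x ^ ((1 / 4 : ℝ) - 1) = (s ^ 3)⁻¹ := by
    rw [hs, ← Real.rpow_natCast, ← Real.rpow_mul h0.le, ← Real.rpow_neg h0.le]; norm_num
  have h1x : 0 < 1 - x := by linarith
  have e4 : (1 - x) ^ ((1 / 2 : ℝ) - 1) = (√(1 - x))⁻¹ := by
    rw [Real.sqrt_eq_rpow, ← Real.rpow_neg h1x.le]; norm_num
  have e5 : 4 * ((s ^ 2)⁻¹) ^ 3 - 4 * (s ^ 2)⁻¹ = (2 / s ^ 3) ^ 2 * (1 - x) := by
    rw [hx4]; field_simp; ring
  have e6 : √((2 / s ^ 3) ^ 2 * (1 - x)) = 2 / s ^ 3 * √(1 - x) := by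
    rw [Real.sqrt_mul (by positivity), Real.sqrt_sq (by positivity)]
  have hq : 0 < √(1 - x) := Real.sqrt_pos.2 h1x
  rw [e1, e2, e3, e4, e5, e6, abs_neg, abs_of_pos (by norm_num : (0 : ℝ) < 1 / 2)]
  field_simp
  norm_num

/-- The substitution `x = u^{-1/2}`. -/
theorem pg_subst :
    ∫ x in Ioi (1 : ℝ), (√(4 * x ^ 3 - 4 * x))⁻¹ =
      1 / 4 * ∫ u in Ioo (0 : ℝ) 1, u ^ ((1 / 4 : ℝ) - 1) * (1 - u) ^ ((1 / 2 : ℝ) - 1) := by
  have h := integral_comp_rpow_Ioi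
    (fun x : ℝ => (Ioi (1 : ℝ)).indicator (fun x => (√(4 * x ^ 3 - 4 * x))⁻¹) x)
    (p := -(1 / 2)) (by norm_num)
  rw [setIntegral_indicator measurableSet_Ioi, Ioi_inter_Ioi] at h
  have hmax : (0 : ℝ) ⊔ 1 = 1 := by norm_num
  rw [hmax] at h
  rw [← h, ← integral_const_mul]
  have h2 : ∫ u in Ioo (0 : ℝ) 1, 1 / 4 * (u ^ ((1 / 4 : ℝ) - 1) * (1 - u) ^ ((1 / 2 : ℝ) - 1)) =
      ∫ u in Ioi (0 : ℝ), (Ioo (0 : ℝ) 1).indicator
        (fun u => 1 / 4 * (u ^ ((1 / 4 : ℝ) - 1) * (1 - u) ^ ((1 / 2 : ℝ) - 1))) u := by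
    rw [setIntegral_indicator measurableSet_Ioo]
    congr 2
    ext u
    simp only [mem_inter_iff, mem_Ioi, mem_Ioo]
    tauto
  rw [h2]
  refine setIntegral_congr_fun measurableSet_Ioi fun x hx => ?_
  have hx0 : (0 : ℝ) < x := hx
  by_cases hx1 : x < 1
  · have hgt : (1 : ℝ) < x ^ (-(1 / 2) : ℝ) :=
      Real.one_lt_rpow_of_pos_of_lt_one_of_neg hx0 hx1 (by norm_num)
    simp only [smul_eq_mul]
    rw [indicator_of_mem (show x ^ (-(1 / 2) : ℝ) ∈ Ioi (1 : ℝ) from hgt),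
      indicator_of_mem (show x ∈ Ioo (0 : ℝ) 1 from ⟨hx0, hx1⟩)]
    exact pg_pointwise hx0 hx1
  · have hle : x ^ (-(1 / 2) : ℝ) ≤ 1 :=
      Real.rpow_le_one_of_one_le_of_nonpos (not_lt.1 hx1) (by norm_num)
    simp only [smul_eq_mul]
    rw [indicator_of_notMem (show x ^ (-(1 / 2) : ℝ) ∉ Ioi (1 : ℝ) from not_lt.2 hle),
      indicator_of_notMem (show x ∉ Ioo (0 : ℝ) 1 from fun h => hx1 h.2), mul_zero]

/-- The reflection formula at `1/4`. -/
theorem pg_reflection : Real.Gamma (1 / 4) * Real.Gamma (3 / 4) = π * √2 := by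
  have h := Real.Gamma_mul_Gamma_one_sub (1 / 4)
  have e : (1 : ℝ) - 1 / 4 = 3 / 4 := by norm_num
  have e' : π * (1 / 4) = π / 4 := by ring
  rw [e, e', Real.sin_pi_div_four] at h
  rw [h]
  have h2 : √2 * √2 = 2 := Real.mul_self_sqrt (by norm_num)
  have h2' : (0 : ℝ) < √2 := by positivity
  field_simp
  nlinarith

/-- **The real period of `y² = x³ - x` in closed form**: `Ω = Γ(1/4)² / √(2π)`. -/
theorem periodIntegral_E₀_eq_Gamma : periodIntegral E₀ = Real.Gamma (1 / 4) ^ 2 / √(2 * π) := by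
  have h1 : periodIntegral E₀ = 4 * ∫ x in Ioi (1 : ℝ), (√(4 * x ^ 3 - 4 * x))⁻¹ := by
    rw [periodIntegral_E₀_eq, integral_Ioi_one]; ring
  rw [h1, pg_subst, pg_beta _ _ (by norm_num) (by norm_num), Real.Gamma_one_half_eq]
  have e : (1 / 4 : ℝ) + 1 / 2 = 3 / 4 := by norm_num
  rw [e]
  have hG : 0 < Real.Gamma (3 / 4) := Real.Gamma_pos_of_pos (by norm_num)
  have hG' : 0 < Real.Gamma (1 / 4) := Real.Gamma_pos_of_pos (by norm_num)
  have hr := pg_reflection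
  have hπ : √π * √π = π := Real.mul_self_sqrt Real.pi_pos.le
  have hsp : 0 < √π := Real.sqrt_pos.2 Real.pi_pos
  have hs2 : (0 : ℝ) < √2 := by positivity
  rw [Real.sqrt_mul (by norm_num : (0 : ℝ) ≤ 2)]
  rw [show Real.Gamma (3 / 4) = π * √2 / Real.Gamma (1 / 4) from by
    rw [← hr]; field_simp]
  field_simp
  nlinarith

/-- **`L(E₀, 1) = Γ(1/4)² / (8 √(2π))`**. -/
theorem heckeL_one_eq_Gamma :
    heckeL 1 = ((Real.Gamma (1 / 4) ^ 2 / (8 * √(2 * π)) : ℝ) : ℂ) := by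
  rw [heckeL_one_eq_period, periodIntegral_E₀_eq_Gamma]
  congr 1
  rw [div_div, mul_comm]

end Claimed.Open.R002
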