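import Claimed.Open.R002.SanityE0Selmer
import Claimed.Open.R002.SanityNonSelmer
import Claimed.Open.R002.SanityCubeTwist

/-!
# Sanity: checked facts on `Sha` and on `twistsOfCorank`

`Sha E` carries weight in `Statement` (`Finite (Sha E)`, `Nat.card (Sha E)`).  Here are an example and a
non-example for the curve `E₀ : y² = x³ - x` (Cremona 32a2, `#Ш = 1` in the tables).

* **Example** (`sha_E₀_two_primary`, `sha_E₀_primaryTorsion_two`): the `2`-primary part of `Ш(E₀/ℚ)` is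
  trivial.  A class of `Ш(E₀/ℚ)` killed by `2ⁿ` is represented, after subtracting a coboundary, by an
  everywhere locally trivial cocycle with values in `E₀[2ⁿ]`, and the complete `2`-descent
  (`descent_induction`) shows that such a cocycle is a coboundary.
* **Non-example** (`exists_not_mem_Sha_E₀`, `sha_E₀_ne_top`): the image in `H¹(ℚ, E₀)` of the class of
  `χ₃ · (-1, 0)` is not locally trivial at `3`, so `Ш(E₀/ℚ) ≠ H¹(ℚ, E₀)`: the local conditions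
  are not void.  This class is killed by `2` and is not zero (`exists_two_torsion_not_mem_Sha_E₀`).
* `Selmer E p` is the preimage of `Ш` (`mem_Selmer_iff_torsToWC_mem_Sha`), and `Ш(E/ℚ)[p^∞]` is the image of
  `Sel_{p^∞}(E/ℚ)` for `E₀`, `p = 2` (both are trivial).
* `twistsOfCorank`: the twist `d = 1` of `E₀` is `E₀` itself, so `1 ∈ 𝒟₀(E₀; X)` and `1 ∉ 𝒟₁(E₀; X)`
  for `X ≥ 1` (`one_mem_twistsOfCorank_E₀`, `one_not_mem_twistsOfCorank_E₀`).
-/

set_option autoImplicit false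

namespace Claimed.Open.R002

open WeierstrassCurve

noncomputable section

attribute [local instance] Classical.propDecidable
attribute [-instance] DivisionRing.toRatAlgebra

local instance algQpSh (p : ℕ) [Fact p.Prime] : Algebra ℚ ℚ_[p] := DivisionRing.toRatAlgebra
local instance algRSh : Algebra ℚ ℝ := DivisionRing.toRatAlgebra

/-- `Sel_{p^∞}(E/ℚ)` is the preimage of `Ш(E/ℚ)` under `H¹(ℚ, E[p^∞]) → H¹(ℚ, E)`. -/
theorem mem_Selmer_iff_torsToWC_mem_Sha (E : WeierstrassCurve ℚ) (p : ℕ) (c : H1Tors E p ℚ) :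
    c ∈ Selmer E p ↔ torsToWC E p ℚ c ∈ Sha E := Iff.rfl

/-- **Example: the `2`-primary part of `Ш(E₀/ℚ)` is trivial** (`E₀ : y² = x³ - x`): a class of
`Ш(E₀/ℚ)` that is killed by a power of `2` is zero. -/
theorem sha_E₀_two_primary {c : WC E₀ ℚ} (hc : c ∈ Sha E₀) {n : ℕ} (h : 2 ^ n • c = 0) : c = 0 := by
  obtain ⟨ξ, rfl⟩ := H1.mk_surjective c
  rw [mem_Sha_iff] at hc
  rw [← map_nsmul, H1.mk_eq_zero_iff] at h
  obtain ⟨R, hR⟩ := h
  obtain ⟨R', hR'⟩ := exists_div_two_pow n R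
  have hξ : ∀ τ, (2 ^ n • ξ).1 τ = 2 ^ n • ξ.1 τ := fun τ => rfl
  obtain ⟨R'', -, hR''⟩ := descent_induction n (ξ - cob E₀ ℚ R')
    (fun τ => by
      show 2 ^ n • (ξ.1 τ - (τ • R' - R')) = 0
      rw [nsmul_sub, ← hξ, hR, nsmul_sub, ← smul_nsmul_comm, hR', sub_self])
    (hc.sub E₀ (LocTriv.cob E₀ R'))
  rw [H1.mk_eq_zero_iff]
  refine ⟨R' + R'', fun τ => ?_⟩
  have : ξ.1 τ - (τ • R' - R') = τ • R'' - R'' := hR'' τ
  rw [smul_add]
  calc ξ.1 τ = (ξ.1 τ - (τ • R' - R')) + (τ • R' - R') := by abel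
    _ = τ • R' + τ • R'' - (R' + R'') := by rw [this]; abel

/-- The same with the definition `primaryTorsion` of `Statement.lean`: `Ш(E₀/ℚ)[2^∞] = 0`. -/
theorem sha_E₀_primaryTorsion_two : primaryTorsion 2 (Sha E₀) = ⊥ := by
  rw [eq_bot_iff]
  rintro ⟨c, hc⟩ ⟨n, hn⟩
  rw [AddSubgroup.mem_bot]
  apply Subtype.ext
  exact sha_E₀_two_primary hc (congrArg Subtype.val hn)

/-- **Non-example**: a class of `H¹(ℚ, E₀)` that is not in `Ш(E₀/ℚ)` (the image of the class of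
`χ₃ · (-1, 0)`, which is not locally trivial at the prime `3`). -/
theorem exists_not_mem_Sha_E₀ : ∃ w : WC E₀ ℚ, w ∉ Sha E₀ := by
  obtain ⟨c, hc⟩ := exists_not_mem_Selmer_E₀
  exact ⟨torsToWC E₀ 2 ℚ c, fun h => hc ((mem_Selmer_iff_torsToWC_mem_Sha E₀ 2 c).2 h)⟩

/-- The same non-example, with more detail: `H¹(ℚ, E₀)` has a class killed by `2` outside `Ш(E₀/ℚ)`.  So
`Ш(E₀/ℚ)[2^∞] = 0` (`sha_E₀_two_primary`) is not due to a trivial ambient group `H¹(ℚ, E₀)[2^∞]`. -/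
theorem exists_two_torsion_not_mem_Sha_E₀ : ∃ w : WC E₀ ℚ, 2 • w = 0 ∧ w ≠ 0 ∧ w ∉ Sha E₀ := by
  obtain ⟨α, hα⟩ := IsAlgClosed.exists_pow_nat_eq (3 : AlgebraicClosure ℚ) (n := 2) (by norm_num)
  have hw : torsToWC E₀ 2 ℚ (H1.mk (quadCocycle α hα)) ∉ Sha E₀ := fun h =>
    quadCocycle_not_mem_Selmer α hα ((mem_Selmer_iff_torsToWC_mem_Sha E₀ 2 _).2 h)
  refine ⟨torsToWC E₀ 2 ℚ (H1.mk (quadCocycle α hα)), ?_, fun h => hw (h ▸ zero_mem _), hw⟩
  have h2 : 2 • quadCocycle α hα = 0 := by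
    apply Subtype.ext
    funext τ
    show 2 • (if τ α = α then 0 else T3tors : primaryTorsion 2 (PointsBar E₀ ℚ)) = 0
    split_ifs
    · exact nsmul_zero 2
    · rw [two_nsmul]; exact T3tors_add_self
  rw [← map_nsmul, ← map_nsmul, h2, map_zero, map_zero]

/-- The local conditions that define `Ш(E₀/ℚ)` are not void. -/
theorem sha_E₀_ne_top : Sha E₀ ≠ ⊤ := by
  obtain ⟨w, hw⟩ := exists_not_mem_Sha_E₀
  exact fun h => hw (h ▸ AddSubgroup.mem_top w)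

/-- `H¹(ℚ, E₀) ≠ 0`. -/
theorem nontrivial_WC_E₀ : Nontrivial (WC E₀ ℚ) := by
  obtain ⟨w, hw⟩ := exists_not_mem_Sha_E₀
  exact ⟨w, 0, fun h => hw (h ▸ zero_mem _)⟩

/-! ### `twistsOfCorank` -/

/-- The quadratic twist of `E₀` by `1` is the same Weierstrass equation. -/
theorem quadraticTwist_E₀_one : quadraticTwist E₀ ((1 : ℤ) : ℚ) = E₀ := by
  unfold quadraticTwist E₀
  ext <;> simp [WeierstrassCurve.b₂, WeierstrassCurve.b₄, WeierstrassCurve.b₆]

/-- **Example**: `1 ∈ 𝒟₀(E₀; X)` for `X ≥ 1`. -/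
theorem one_mem_twistsOfCorank_E₀ {X : ℝ} (hX : 1 ≤ X) : (1 : ℤ) ∈ twistsOfCorank E₀ 0 X := by
  refine ⟨one_mem_squarefreeUpTo hX, ?_⟩
  rw [quadraticTwist_E₀_one, selmerCorank_E₀_two]
  simp

/-- **Non-example**: `1 ∉ 𝒟₁(E₀; X)`. -/
theorem one_not_mem_twistsOfCorank_E₀ (X : ℝ) : (1 : ℤ) ∉ twistsOfCorank E₀ 1 X := by
  rintro ⟨-, h⟩
  rw [quadraticTwist_E₀_one, selmerCorank_E₀_two] at h
  simp at h

/-- **Non-example**: `4 ∉ 𝒟(X)` (not squarefree) and `0 ∉ 𝒟(X)`. -/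
theorem not_mem_squarefreeUpTo (X : ℝ) : (4 : ℤ) ∉ squarefreeUpTo X ∧ (0 : ℤ) ∉ squarefreeUpTo X := by
  refine ⟨fun h => ?_, fun h => by simpa using h.1⟩
  have h4 : Squarefree (4 : ℤ) := h.2.2
  have := h4 2 ⟨1, by norm_num⟩
  exact absurd this (by decide)

end

end Claimed.Open.R002
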