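import Claimed.Open.R002.SanityTamagawa

/-!
# Sanity for R002: `c_p(E) = 1` for almost all `p`; the Tamagawa product is a finite product

For an elliptic curve `E/ℚ` given by any Weierstrass equation over `ℚ`, let `badNumber E` be the
product of the denominators of the `a_i` and of the numerator of the discriminant.  For every prime
`p ∤ badNumber E` the given equation is minimal at `p` with good reduction and `c_p(E) = 1`.  Hence
the `finprod` in `tamagawaProduct` has finite support: it is the honest product of the `c_p(E)`.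
-/

set_option autoImplicit false

namespace Claimed.Open.R002

open WeierstrassCurve
open scoped Classical

variable (E : WeierstrassCurve ℚ)

/-- The product of the denominators of the coefficients and of the numerator of the
discriminant. -/
def badNumber : ℕ :=
  E.a₁.den * E.a₂.den * E.a₃.den * E.a₄.den * E.a₆.den * E.Δ.num.natAbs

lemma badNumber_ne_zero [E.IsElliptic] : badNumber E ≠ 0 := by
  have hΔ : E.Δ ≠ 0 := E.isUnit_Δ.ne_zero
  simp [badNumber, hΔ]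

section Prime

variable (p : ℕ) [Fact p.Prime]

lemma ratCast_mem_intRange {q : ℚ} (h : ¬ p ∣ q.den) :
    algebraMap ℚ ℚ_[p] q ∈ intRange ℤ_[p] (K := ℚ_[p]) :=
  ⟨⟨(q : ℚ_[p]), Padic.norm_rat_le_one h⟩, (eq_ratCast (algebraMap ℚ ℚ_[p]) q).symm⟩

variable {p}

theorem isIntegral_baseChange_of_not_dvd (h : ¬ p ∣ badNumber E) :
    IsIntegral ℤ_[p] (E⁄ℚ_[p]) := by
  rw [isIntegral_iff_coeff]
  have hd : ∀ q : ℚ, q.den ∣ badNumber E → algebraMap ℚ ℚ_[p] q ∈ intRange ℤ_[p] (K := ℚ_[p]) :=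
    fun q hq => ratCast_mem_intRange p fun hp => h (hp.trans hq)
  refine ⟨hd _ ?_, hd _ ?_, hd _ ?_, hd _ ?_, hd _ ?_⟩ <;> unfold badNumber
  · exact Dvd.intro (E.a₂.den * E.a₃.den * E.a₄.den * E.a₆.den * E.Δ.num.natAbs) (by ring)
  · exact Dvd.intro (E.a₁.den * E.a₃.den * E.a₄.den * E.a₆.den * E.Δ.num.natAbs) (by ring)
  · exact Dvd.intro (E.a₁.den * E.a₂.den * E.a₄.den * E.a₆.den * E.Δ.num.natAbs) (by ring)
  · exact Dvd.intro (E.a₁.den * E.a₂.den * E.a₃.den * E.a₆.den * E.Δ.num.natAbs) (by ring)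
  · exact Dvd.intro (E.a₁.den * E.a₂.den * E.a₃.den * E.a₄.den * E.Δ.num.natAbs) (by ring)

theorem hasGoodReduction_of_not_dvd [E.IsElliptic] (h : ¬ p ∣ badNumber E) :
    (E⁄ℚ_[p]).HasGoodReduction ℤ_[p] := by
  have hint := isIntegral_baseChange_of_not_dvd E h
  apply hasGoodReduction_of_isUnit_Δ
  rw [PadicInt.isUnit_iff]
  refine le_antisymm (PadicInt.norm_le_one _) ?_
  have e : ((integralModel ℤ_[p] (E⁄ℚ_[p])).Δ : ℚ_[p]) = ((E.Δ : ℚ) : ℚ_[p]) := by
    have := integralModel_Δ_eq ℤ_[p] (E⁄ℚ_[p])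
    rw [show (E⁄ℚ_[p]).Δ = algebraMap ℚ ℚ_[p] E.Δ from E.map_Δ _] at this
    simpa using this
  rw [PadicInt.norm_def, e]
  have hnum : ¬ (p : ℤ) ∣ E.Δ.num := by
    intro hp
    apply h
    unfold badNumber
    exact Dvd.dvd.mul_left (Int.natCast_dvd.mp hp) _
  have h1 : ‖((E.Δ.num : ℤ) : ℚ_[p])‖ = 1 := by
    refine le_antisymm (Padic.norm_int_le_one _) (not_lt.mp fun hlt => hnum ?_)
    exact Padic.norm_intCast_lt_one_iff.mp hlt
  have h2 : ‖((E.Δ.den : ℕ) : ℚ_[p])‖ ≤ 1 := by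
    have := Padic.norm_int_le_one (p := p) (E.Δ.den : ℤ)
    simpa using this
  have h3 : ((E.Δ : ℚ) : ℚ_[p]) * ((E.Δ.den : ℕ) : ℚ_[p]) = ((E.Δ.num : ℤ) : ℚ_[p]) := by
    have := Rat.mul_den_eq_num E.Δ
    exact_mod_cast congr_arg (fun q : ℚ => (q : ℚ_[p])) this
  calc (1 : ℝ) = ‖((E.Δ : ℚ) : ℚ_[p])‖ * ‖((E.Δ.den : ℕ) : ℚ_[p])‖ := by rw [← norm_mul, h3, h1]
    _ ≤ ‖((E.Δ : ℚ) : ℚ_[p])‖ * 1 := by gcongr
    _ = _ := mul_one _

/-- `c_p(E) = 1` for every prime `p` not dividing `badNumber E`. -/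
theorem tamagawaNumber_eq_one_of_not_dvd [E.IsElliptic] (h : ¬ p ∣ badNumber E) :
    tamagawaNumber E p = 1 := by
  have hg := hasGoodReduction_of_not_dvd E h
  have : IsMinimal ℤ_[p] (E⁄ℚ_[p]) := hg.toIsMinimal
  rw [tamagawaNumber_eq_of_isMinimal, tamagawaOf_eq_one_of_hasGoodReduction _ _ hg]

end Prime

/-- The function `ℓ ↦ c_ℓ(E)` on the set of primes, as in `tamagawaProduct`. -/
noncomputable def tamagawaFun (ℓ : Nat.Primes) : ℕ :=
  haveI : Fact ℓ.1.Prime := ⟨ℓ.2⟩; tamagawaNumber E ℓ.1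

lemma tamagawaProduct_eq_finprod : tamagawaProduct E = ∏ᶠ ℓ : Nat.Primes, tamagawaFun E ℓ := rfl

lemma mulSupport_tamagawaFun_subset [E.IsElliptic] :
    Function.mulSupport (tamagawaFun E) ⊆ {ℓ : Nat.Primes | ℓ.1 ∣ badNumber E} := by
  intro ℓ hℓ
  by_contra hnd
  have : Fact ℓ.1.Prime := ⟨ℓ.2⟩
  exact hℓ (tamagawaNumber_eq_one_of_not_dvd E hnd)

lemma finite_primes_dvd {N : ℕ} (hN : N ≠ 0) : {ℓ : Nat.Primes | ℓ.1 ∣ N}.Finite := by
  have : Set.InjOn (fun ℓ : Nat.Primes => ℓ.1) {ℓ : Nat.Primes | ℓ.1 ∣ N} :=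
    fun a _ b _ h => Subtype.ext h
  refine Set.Finite.of_finite_image ((Set.finite_Iic N).subset ?_) this
  rintro _ ⟨ℓ, hℓ, rfl⟩
  exact Nat.le_of_dvd (Nat.pos_of_ne_zero hN) hℓ

/-- Almost all Tamagawa numbers are `1`, so the `finprod` in `tamagawaProduct` is an honest finite
product. -/
theorem finite_mulSupport_tamagawaFun [E.IsElliptic] :
    (Function.mulSupport (tamagawaFun E)).Finite :=
  (finite_primes_dvd (badNumber_ne_zero E)).subset (mulSupport_tamagawaFun_subset E)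

/-- `∏_ℓ c_ℓ(E)` is the product over any finite set of primes containing the divisors of
`badNumber E`. -/
theorem tamagawaProduct_eq_prod [E.IsElliptic] (S : Finset Nat.Primes)
    (hS : ∀ ℓ : Nat.Primes, ℓ.1 ∣ badNumber E → ℓ ∈ S) :
    tamagawaProduct E = ∏ ℓ ∈ S, tamagawaFun E ℓ := by
  rw [tamagawaProduct_eq_finprod]
  exact finprod_eq_prod_of_mulSupport_subset _
    fun ℓ hℓ => Finset.mem_coe.mpr (hS ℓ (mulSupport_tamagawaFun_subset E hℓ))

end Claimed.Open.R002
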