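import Claimed.Open.R002.SanityE5Main
import Claimed.Open.R002.SanityE5Rank

/-!
# Sanity for R002: the conclusion of `MainStatement` at `E₅ : y² = x³ - 25 x`, `r = 1`, is ONE identity between real numbers

`SanityE5Main.lean` reduces the conclusion of `MainStatement` at `(E₅, r = 1)` to four arithmetic clauses; `SanityE5Rank.lean` proves two of them (rank one, a regulator exists).
Here the two are put together, and a third clause is removed: as `L'(E₅, 1) > 0` and `Nat.card` of an infinite group is `0`, the formula implies that `Ш(E₅/ℚ)` is finite.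

* `mainStatement_conclusion_E₅_iff_sha`: the conclusion is equivalent to: `Ш(E₅/ℚ)` is finite and the formula holds;
* `finite_sha_E₅_of_formula`: the formula implies that `Ш(E₅/ℚ)` is finite;
* `mainStatement_conclusion_E₅_iff_formula`: the conclusion is equivalent to the formula `L'(E₅, 1) = (Ω(E₀) / √5) · Reg · #Ш · ∏ c_ℓ / #tors²` alone;
* `mainStatement_formula_E₅`: `MainStatement` implies it.

The formula itself is not proved here.
-/

set_option autoImplicit false

namespace Claimed.Open.R002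

open Real Set MeasureTheory

/-- The conclusion of `MainStatement` (copied verbatim, with `E = E₅`, `r = 1`) is equivalent to: `Ш(E₅/ℚ)` is finite and the formula for `L'(E₅, 1)` holds. -/
theorem mainStatement_conclusion_E₅_iff_sha :
    (Module.rank ℤ (MW E₅) = ((1 : ℕ) : Cardinal) ∧
      Finite (Sha E₅) ∧
      (∃ Ω, IsRealPeriod E₅ Ω) ∧
      (∃ R, IsRegulator E₅ R) ∧
      ∃ L : ℂ → ℂ, IsLFunction E₅ L ∧ analyticOrderAt L 1 = ((1 : ℕ) : ℕ∞) ∧
        ∀ Ω R : ℝ, IsRealPeriod E₅ Ω → IsRegulator E₅ R →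
          iteratedDeriv 1 L 1 / ((1 : ℕ).factorial : ℂ) =
            ((Ω * R * (Nat.card (Sha E₅) : ℝ) * (tamagawaProduct E₅ : ℝ) /
              (Nat.card (AddCommGroup.torsion (MW E₅)) : ℝ) ^ 2 : ℝ) : ℂ)) ↔
    (Finite (Sha E₅) ∧
      ∀ R : ℝ, IsRegulator E₅ R →
        π * ∫ t in Ioi t5, Real.log (200 * t ^ 2) * theta5 t =
          periodIntegral E₀ / Real.sqrt 5 * R * (Nat.card (Sha E₅) : ℝ) * (tamagawaProduct E₅ : ℝ) /
            (Nat.card (AddCommGroup.torsion (MW E₅)) : ℝ) ^ 2) := by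
  rw [mainStatement_conclusion_E₅_iff]
  constructor
  · rintro ⟨-, hSha, -, h⟩
    exact ⟨hSha, h⟩
  · rintro ⟨hSha, h⟩
    obtain ⟨R, hR, -⟩ := exists_isRegulator_E₅
    exact ⟨rank_MW_E₅, hSha, ⟨R, hR⟩, h⟩

/-- The formula for `L'(E₅, 1)` alone implies that `Ш(E₅/ℚ)` is finite: `L'(E₅, 1) > 0`, and `Nat.card` of an infinite group is `0`. -/
theorem finite_sha_E₅_of_formula {R : ℝ}
    (h : π * ∫ t in Ioi t5, Real.log (200 * t ^ 2) * theta5 t =
          periodIntegral E₀ / Real.sqrt 5 * R * (Nat.card (Sha E₅) : ℝ) * (tamagawaProduct E₅ : ℝ) /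
            (Nat.card (AddCommGroup.torsion (MW E₅)) : ℝ) ^ 2) : Finite (Sha E₅) := by
  have h2 : 0 < π * ∫ t in Ioi t5, Real.log (200 * t ^ 2) * theta5 t :=
    mul_pos Real.pi_pos integral_w_mul_theta5_pos
  apply Nat.finite_of_card_ne_zero
  intro h0
  rw [h, h0] at h2
  simp at h2

/-- **The conclusion of `MainStatement` at `(E₅, q = 2, r = 1)`, copied verbatim, is equivalent to one identity between real numbers.** -/
theorem mainStatement_conclusion_E₅_iff_formula :
    (Module.rank ℤ (MW E₅) = ((1 : ℕ) : Cardinal) ∧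
      Finite (Sha E₅) ∧
      (∃ Ω, IsRealPeriod E₅ Ω) ∧
      (∃ R, IsRegulator E₅ R) ∧
      ∃ L : ℂ → ℂ, IsLFunction E₅ L ∧ analyticOrderAt L 1 = ((1 : ℕ) : ℕ∞) ∧
        ∀ Ω R : ℝ, IsRealPeriod E₅ Ω → IsRegulator E₅ R →
          iteratedDeriv 1 L 1 / ((1 : ℕ).factorial : ℂ) =
            ((Ω * R * (Nat.card (Sha E₅) : ℝ) * (tamagawaProduct E₅ : ℝ) /
              (Nat.card (AddCommGroup.torsion (MW E₅)) : ℝ) ^ 2 : ℝ) : ℂ)) ↔
    ∃ R : ℝ, IsRegulator E₅ R ∧
        π * ∫ t in Ioi t5, Real.log (200 * t ^ 2) * theta5 t =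
          periodIntegral E₀ / Real.sqrt 5 * R * (Nat.card (Sha E₅) : ℝ) * (tamagawaProduct E₅ : ℝ) /
            (Nat.card (AddCommGroup.torsion (MW E₅)) : ℝ) ^ 2 := by
  rw [mainStatement_conclusion_E₅_iff_sha]
  constructor
  · rintro ⟨-, h⟩
    obtain ⟨R, hR, -⟩ := exists_isRegulator_E₅
    exact ⟨R, hR, h R hR⟩
  · rintro ⟨R, hR, h⟩
    exact ⟨finite_sha_E₅_of_formula h, fun R' hR' => by rw [hR'.unique hR]; exact h⟩

/-- `MainStatement` implies the formula at `E₅` (its hypotheses hold there: `selmerCorank_E₅_two`). -/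
theorem mainStatement_formula_E₅ (h : MainStatement) :
    ∃ R : ℝ, IsRegulator E₅ R ∧
        π * ∫ t in Ioi t5, Real.log (200 * t ^ 2) * theta5 t =
          periodIntegral E₀ / Real.sqrt 5 * R * (Nat.card (Sha E₅) : ℝ) * (tamagawaProduct E₅ : ℝ) /
            (Nat.card (AddCommGroup.torsion (MW E₅)) : ℝ) ^ 2 :=
  mainStatement_conclusion_E₅_iff_formula.1
    (h E₅ 2 1 le_rfl (by rw [selmerCorank_E₅_two]; simp))

end Claimed.Open.R002
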