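import Claimed.Open.R002.SanityE0Selmer
import Claimed.Open.R002.SanityKummerImage
import Claimed.Open.R002.SanityEmbedding
import Claimed.Open.R002.SanityCorank
import Claimed.Open.R002.SanityHeight
import Claimed.Open.R002.SanityHeightModel
import Claimed.Open.R002.SanityTamagawaGood
import Claimed.Open.R002.SanityE0Subgroup
import Claimed.Open.R002.SanityE0Tamagawa
import Claimed.Open.R002.SanityE0BSD
import Claimed.Open.R002.SanityPeriod
import Claimed.Open.R002.SanityCubeTwist
import Claimed.Open.R002.SanityNonMinimal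
import Claimed.Open.R002.SanityNonSelmer
import Claimed.Open.R002.SanitySha
import Claimed.Open.R002.SanityE5Selmer
import Claimed.Open.R002.SanityLFunction
import Claimed.Open.R002.SanityHecke
import Claimed.Open.R002.SanityHeckeE5
import Claimed.Open.R002.SanityHeckeMain
import Claimed.Open.R002.SanityHeckeValue
import Claimed.Open.R002.SanityHeckeX17
import Claimed.Open.R002.SanityHeckeSha
import Claimed.Open.R002.SanityPeriodGamma
import Claimed.Open.R002.SanityHeckeFE
import Claimed.Open.R002.SanityTwist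
import Claimed.Open.R002.SanityHeckeTable
import Claimed.Open.R002.SanityHeckeTwist
import Claimed.Open.R002.SanityDensityMembers
import Claimed.Open.R002.SanityE5Period
import Claimed.Open.R002.SanityE5Main
import Claimed.Open.R002.SanityE5Rank
import Claimed.Open.R002.SanityTwistCap
import Claimed.Open.R002.SanityE5Torsion
import Claimed.Open.R002.SanityE5Tamagawa
import Claimed.Open.R002.SanityE5TamagawaTwo
import Claimed.Open.R002.SanityE5TamagawaFive
import Claimed.Open.R002.SanityHeckeModel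
import Claimed.Open.R002.SanityLemniscate
import Claimed.Open.R002.SanityFam
import Claimed.Open.R002.SanityFamE4

/-!
# Sanity checks for the definitions of `Claimed.Open.R002.Statement`

This file imports all the checks of this folder and restates the main ones (as `example`s, with the
name of the theorem that proves them).  Everything is sorry-free.

| file | content |
|---|---|
| `SanityCoh`, `SanityKummer`, `SanityCurve`, `SanityLocal`, `SanityCoboundary`, `SanityE0*` | a complete `2`-descent on `E₀ : y² = x³ - x` with the definitions of `Statement.lean`: `Sel_{2^∞}(E₀/ℚ) = 0` |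
| `SanityKummerImage` | `Selmer E p` is the group cut out by the local Kummer images (the paper's definition) |
| `SanityEmbedding` | the localisation maps `H¹(ℚ, E) → H¹(ℚ_v, E)` do not depend on the embedding `ℚ̄ → ℚ̄_v` |
| `SanityCorank` | `corank ((ℚ_p/ℤ_p)^r × finite) = r` |
| `SanityHeightAddSub`, `SanityHeightTate`, `SanityHeight` | the canonical height exists and is a positive definite quadratic form modulo torsion; the regulator is well defined |
| `SanityHeightModel` | the canonical height and the regulator do not depend on the Weierstrass equation |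
| `SanityIntegral`, `SanityMinimal`, `SanityVarChange`, `SanityTamagawa`, `SanityTamagawaGood` | minimal equations, `c_p` does not depend on the minimal equation, `c_p = 1` at good primes |
| `SanityE0Subgroup` | `E₀(ℚ_p)` is a subgroup (*AEC* VII.2.1): the closure in the definition of `c_p` does nothing |
| `SanityPeriodAnalysis`, `SanityPeriod` | the period integral converges, is positive, and does not depend on the global minimal equation |
| `SanityE0Minimal`, `SanityE0Tamagawa` | `E₀` is globally minimal, `c_2(E₀) = 2`, `∏ c_ℓ(E₀) = 2` |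
| `SanityFermatRT`, `SanityE0Points`, `SanityE0BSD` | `E₀(ℚ)` has four points; `Statement` for `E₀` reads `L(E₀,1) = Ω · #Ш / 8` |
| `SanityNonMinimal`, `SanityNonSelmer` | non-examples: `y² = x³ - 16x` is not globally minimal and its own period integral is not the real period; a class of `H¹(ℚ, E₀[2^∞])` that is not a Selmer class |
| `SanityE5*`, `SanityRankOne`, `SanityChainCorank` | a complete `2`-descent on the congruent number curve `E₅ : y² = x³ - 25x`, `P = (-4, 6)`: `Sel_{2^∞}(E₅/ℚ) ≅ ℚ₂/ℤ₂`, so `s₂(E₅) = 1` |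
| `SanitySha` | `Ш(E₀/ℚ)[2^∞] = 0`; a class of `H¹(ℚ, E₀)[2]` that is not in `Ш(E₀/ℚ)`; `1 ∈ 𝒟₀(E₀; X)`, `1 ∉ 𝒟₁(E₀; X)` |
| `SanityLFunction` | the Euler product of Mathlib's `L`-function converges, the coefficient at `p` is `a_p`; a constant `≠ 1` is not an `L`-function |
| `SanityHecke*` | an example of `IsLFunction`: the Hasse–Weil `L`-series of `E₀ : y² = x³ - x` converges absolutely on `Re s > 3/2` and extends to an entire function (Jacobi sums, Hecke's recursion in `ℤ[i]`, a theta series which is a product of two Hurwitz kernels); `L(E₀,1) = π ∫₀^∞ θ > 0`, so the analytic rank of `E₀` is `0` (`SanityHeckeE1` … `E5`) |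
| `SanityHeckeMain` | the conclusion of `MainStatement`, copied verbatim at `(E₀, r = 0)`, is equivalent to: `Ш(E₀/ℚ)` is finite and `π ∫₀^∞ θ = Ω · #Ш / 8` |
| `SanityHeckeV*`, `SanityHeckeW*`, `SanityHeckeValue` | the formula of `Statement` is tested numerically on `E₀`, without any hypothesis: `0.63 < L(E₀,1) < 0.67`, `4.6 ≤ Ω ≤ 6.34`, so `3/4 < 8 L(E₀,1)/Ω < 5/4`, the quotient which the formula equates with `#Ш`; `Statement → #Ш(E₀/ℚ) = 1` |
| `SanityHeckeX0` … `SanityHeckeX17` | **the exact value `L(E₀,1) = Ω/8`**, without any hypothesis (Jacobi's theta constants as Hurwitz kernels, `θ₁' = θ₂θ₃θ₄`, `θ₃⁴ = θ₄⁴ + θ₂⁴`, the substitutions `x = μ²`, `x = -1/μ²`, `μ = θ₃/θ₄`, in the period integral); the formula of `MainStatement` at `E₀` holds iff `#Ш(E₀/ℚ) = 1` |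
| `SanityHeckeSha` | `MainConclusion E r` = the conclusion of `MainStatement`, word for word (`Iff.rfl`); `MainConclusion E₀ 0 ↔ #Ш(E₀/ℚ) = 1` |
| `SanityPeriodGamma` | the real period in closed form: `periodIntegral E₀ = Γ(1/4)²/√(2π)`, `L(E₀,1) = Γ(1/4)²/(8√(2π))` |
| `SanityHeckeFE` | the functional equation of `L(E₀,s)`: `Λ(2-s) = Λ(s)`, `Λ(s) = 32^{s/2}(2π)^{-s}Γ(s)L(s)` (conductor `32`, root number `+1`), for every `L` with `IsLFunction E₀ L`; the trivial zeros |
| `SanityTwistDefs`, `SanityTwistF0` … `SanityTwistK5`, `SanityTwistTop1`, `SanityTwist` | **the analytic clause at `r = 1`**: the `L`-series of `E₅ : y² = x³ - 25x` is the twist by the Legendre symbol mod `5` of that of `E₀`, it has an entire continuation `twistL`, `twistL 1 = 0` (root number `-1`), `L'(E₅,1) > 0`: `∃ L, IsLFunction E₅ L ∧ analyticOrderAt L 1 = 1` |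
| `SanityHeckeTable` | the coefficients `a_n(E₀)`, `n ≤ 30`, of Mathlib's `L`-series against the tables (newform `32.2.a.a`); `a_p = -∑_x ((x³-x)/p)`; the Hasse bound `a_p² ≤ 4p` for `E₀` |
| `SanityHeckeTwist` | `IsLFunction E L` determines all `a_n(E)`; `a_5(E₀) = -2`, `a_5(E₅) = 0`: no function is an `L`-function of both `E₀` and `E₅` |
| `SanityDensityMembers` | members of both counting sets of `TwistDensityStatement`: `±1 ∈ 𝒟₀(E₀;X)`, `±5 ∈ 𝒟₁(E₀;X)` |
| `SanityE5Period` | the real period at the example of corank one: `E₅` is a global minimal equation, `IsRealPeriod E₅ Ω ↔ Ω = Ω(E₀)/√5`; for every `E` and every `d > 0`: `periodIntegral (quadraticTwist E d) = periodIntegral E / √d` |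
| `SanityE5Main` | what is left of `MainStatement` at `(E₅, r = 1)`: rank one, `Ш` finite, a regulator exists, one identity between real numbers |
| `SanityE5Rank` | the Mordell–Weil theorem for `E₅`: `E₅(ℚ)` is finitely generated, `rank E₅(ℚ) = 1`, `(-4,6)` has infinite order, a regulator exists and is positive, `Ш(E₅/ℚ)[2^∞] = 0` |
| `SanityTwistCap` | the conclusion of `MainStatement` at `(E₅, r = 1)` is equivalent to ONE identity between real numbers, `L'(E₅,1) = (Ω(E₀)/√5)·Reg·#Ш·∏c_ℓ/#tors²` |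
| `SanityE5Torsion` | `#E₅(ℚ)_tors = 4`: the torsion subgroup of `E₅(ℚ)` is `E₅(ℚ)[2]` |
| `SanityE5Tamagawa` | `∏ c_ℓ(E₅) = c₂(E₅)·c₅(E₅)`: all other Tamagawa numbers are `1` (`Δ = 10⁶`) |
| `SanityE5TamagawaTwo` | `c₂(E₅) = 2` |
| `SanityE5TamagawaFive` | `c₅(E₅) = 4`, `∏ c_ℓ(E₅) = 8` |
| `SanityHeckeModel` | the equation does not matter: `E₁.LFunction = E₀.LFunction`, `IsLFunction E₁ L ↔ IsLFunction E₀ L` for the non-minimal equation `E₁ : y² = x³ - 16x` |
| `SanityLemniscate` | the real period of `E₀` is twice the lemniscate constant: `periodIntegral E₀ = 4 ∫₀¹ dt/√(1-t⁴)`, `L(E₀,1) = (1/2) ∫₀¹ dt/√(1-t⁴)` |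
| `SanityFamDefs`, `SanityFamA1` … `SanityFamB8`, `SanityFam`, `SanityFamE1` … `SanityFamE4` | every quadratic twist `y² = x³ - d²x` of `E₀` by a squarefree `d` has an `L`-function in the sense of `Statement.lean`: coefficients `J(d \| n)·a_n(E₀)`, entire continuation by `(4d)²` products of Hurwitz kernels; minimality at `2` for even `d` |
| `Corollaries`, `SanityCubeTwist` | `Statement` implies the main theorems of the companion papers; cube-sum curves and quadratic twists |
-/

set_option autoImplicit false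

namespace Claimed.Open.R002

open WeierstrassCurve Filter Topology
open scoped Classical

/-! ### The `L`-function is unique -/

/-- The entire continuation of the Hasse–Weil `L`-series is unique (identity theorem), so
`IsLFunction E L` determines `L`, its order of vanishing and its Taylor coefficients at `s = 1`. -/
theorem IsLFunction.unique {E : WeierstrassCurve ℚ} {L₁ L₂ : ℂ → ℂ}
    (h₁ : IsLFunction E L₁) (h₂ : IsLFunction E L₂) : L₁ = L₂ := by
  have a₁ : AnalyticOnNhd ℂ L₁ Set.univ := fun z _ => h₁.1.analyticAt z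
  have a₂ : AnalyticOnNhd ℂ L₂ Set.univ := fun z _ => h₂.1.analyticAt z
  refine a₁.eq_of_eventuallyEq a₂ (z₀ := 2) ?_
  have hopen : IsOpen {s : ℂ | 3 / 2 < s.re} := isOpen_lt continuous_const Complex.continuous_re
  have hmem : (2 : ℂ) ∈ {s : ℂ | 3 / 2 < s.re} := by
    simp only [Set.mem_ofPred_eq, Complex.re_ofNat]; norm_num
  filter_upwards [hopen.mem_nhds hmem] with s hs
  rw [(h₁.2 s hs).2, (h₂.2 s hs).2]

/-- For `Re s > 3/2` the value `L s` is the genuine sum of the Hasse–Weil Dirichlet series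
`∑ aₙ n⁻ˢ` (no default value of `LSeries` is involved). -/
theorem IsLFunction.hasSum {E : WeierstrassCurve ℚ} {L : ℂ → ℂ} (h : IsLFunction E L) {s : ℂ}
    (hs : 3 / 2 < s.re) : LSeriesHasSum (fun n => (E.LFunction n : ℂ)) s (L s) := by
  obtain ⟨h₁, h₂⟩ := h.2 s hs
  rw [h₂]
  exact h₁.LSeriesHasSum

/-- The first Dirichlet coefficient of the Hasse–Weil `L`-series is `1` (the formal Euler product
inside Mathlib's `WeierstrassCurve.LFunction` does not take its default value). -/
example (E : WeierstrassCurve ℚ) : E.LFunction 1 = 1 := LFunction_one E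

/-- **Non-example** of `IsLFunction`: the zero function is not the `L`-function of `E`. -/
example (E : WeierstrassCurve ℚ) : ¬ IsLFunction E fun _ => 0 := not_isLFunction_const zero_ne_one

/-- **Example** of `IsLFunction`: the Hasse–Weil `L`-series of `E₀ : y² = x³ - x` converges absolutely
on `Re s > 3/2` and extends to an entire function (`SanityHecke.lean`). -/
example : ∃ L : ℂ → ℂ, IsLFunction E₀ L := exists_isLFunction_E₀

/-- The same with every clause of `IsLFunction` written out. -/
example : ∃ L : ℂ → ℂ, Differentiable ℂ L ∧ ∀ s : ℂ, 3 / 2 < s.re →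
    LSeriesSummable (fun n => (E₀.LFunction n : ℂ)) s ∧ L s = E₀.LSeries s := exists_isLFunction_E₀

/-- The clause on the `L`-function in the conclusion of `MainStatement` is true for `E₀`, `r = 0`
(`SanityHeckeE5.lean`); recall `selmerCorank E₀ 2 = 0`. -/
example : ∃ L : ℂ → ℂ, IsLFunction E₀ L ∧ analyticOrderAt L 1 = ((0 : ℕ) : ℕ∞) :=
  exists_isLFunction_E₀_order

/-- **Every** `L` with `IsLFunction E₀ L` has `L 1 ≠ 0` and order of vanishing `0` at `s = 1`. -/
theorem IsLFunction.order_E₀ {L : ℂ → ℂ} (h : IsLFunction E₀ L) :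
    L 1 ≠ 0 ∧ analyticOrderAt L 1 = 0 := by
  rw [h.unique isLFunction_E₀_heckeL]
  exact ⟨heckeL_one_ne_zero, analyticOrderAt_heckeL_one⟩

/-- Numerical test of the formula of `Statement` on `E₀`, no hypothesis (`SanityHeckeValue.lean`): at `E₀` the
formula reads `L(E₀,1) = Ω · #Ш / 8` (`statement_E₀`: `#E₀(ℚ)_tors = 4`, `∏ c_p = 2`, `Reg = 1`, `Ω = periodIntegral E₀`);
the quotient `8 L(E₀,1) / Ω`, which it equates with `#Ш(E₀/ℚ)`, lies in `(3/4, 5/4)`. -/
example {L : ℂ → ℂ} (h : IsLFunction E₀ L) :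
    ∃ r : ℝ, L 1 = (r : ℂ) ∧ 3 / 4 < 8 * r / periodIntegral E₀ ∧ 8 * r / periodIntegral E₀ < 5 / 4 :=
  bsd_quotient_E₀_window h

example : heckeL 1 = ((Real.pi * ∫ t in Set.Ioi (0 : ℝ), thetaE t : ℝ) : ℂ) := heckeL_one_eq

example : 0.63 < Real.pi * ∫ t in Set.Ioi (0 : ℝ), thetaE t ∧
    Real.pi * ∫ t in Set.Ioi (0 : ℝ), thetaE t < 0.67 := heckeValue_window

example : 4.6 ≤ periodIntegral E₀ ∧ periodIntegral E₀ ≤ 6.34 := periodIntegral_E₀_window

/-- `Statement` forces the true values `#Ш(E₀/ℚ) = 1` and `L(E₀,1) = Ω / 8`. -/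
example : Statement → Nat.card (Sha E₀) = 1 ∧ heckeL 1 = ((periodIntegral E₀ / 8 : ℝ) : ℂ) :=
  statement_E₀_sha

/-- `L(E₀,1) < Ω / 4`, the numerical hypothesis of `mainStatement_conclusion_E₀_iff_of_lt`. -/
theorem pi_mul_integral_thetaE_lt :
    Real.pi * ∫ t in Set.Ioi (0 : ℝ), thetaE t < periodIntegral E₀ / 4 := by
  have h2 : Real.pi * ∫ t in Set.Ioi (0 : ℝ), thetaE t < 0.67 := heckeValue_window.2
  have h3 := periodIntegral_E₀_window.1
  norm_num at h2 h3 ⊢
  linarith

/-- **What is left of `MainStatement` at `(E₀, q = 2, r = 0)`**: its conclusion, copied verbatim, is equivalent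
to `#Ш(E₀/ℚ) = 1` and the identity `π ∫₀^∞ θ(t) dt = Ω / 8` of two real integrals. -/
theorem mainStatement_conclusion_E₀_iff' :
    (Module.rank ℤ (MW E₀) = ((0 : ℕ) : Cardinal) ∧
      Finite (Sha E₀) ∧
      (∃ Ω, IsRealPeriod E₀ Ω) ∧
      (∃ R, IsRegulator E₀ R) ∧
      ∃ L : ℂ → ℂ, IsLFunction E₀ L ∧ analyticOrderAt L 1 = ((0 : ℕ) : ℕ∞) ∧
        ∀ Ω R : ℝ, IsRealPeriod E₀ Ω → IsRegulator E₀ R →
          iteratedDeriv 0 L 1 / ((0 : ℕ).factorial : ℂ) =
            ((Ω * R * (Nat.card (Sha E₀) : ℝ) * (tamagawaProduct E₀ : ℝ) /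
              (Nat.card (AddCommGroup.torsion (MW E₀)) : ℝ) ^ 2 : ℝ) : ℂ)) ↔
    (Nat.card (Sha E₀) = 1 ∧
      Real.pi * ∫ t in Set.Ioi (0 : ℝ), thetaE t = periodIntegral E₀ / 8) :=
  mainStatement_conclusion_E₀_iff.trans (mainStatement_conclusion_E₀_iff_of_lt pi_mul_integral_thetaE_lt)

/-- **The exact value** `L(E₀,1) = Ω / 8`, no hypothesis (`SanityHeckeX16.lean`): the quotient which the formula of
`Statement` equates with `#Ш(E₀/ℚ)` is exactly `1`. -/
example : heckeL 1 = ((periodIntegral E₀ / 8 : ℝ) : ℂ) := heckeL_one_eq_period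

/-- The same for **every** `L` with `IsLFunction E₀ L`. -/
theorem IsLFunction.one_E₀ {L : ℂ → ℂ} (h : IsLFunction E₀ L) :
    L 1 = ((periodIntegral E₀ / 8 : ℝ) : ℂ) := by
  rw [h.unique isLFunction_E₀_heckeL]
  exact heckeL_one_eq_period

example : periodIntegral E₀ = 8 * Real.pi * ∫ t in Set.Ioi (0 : ℝ), thetaE t := periodIntegral_E₀_eq

/-- The formula clause of `MainStatement` at `E₀`, `r = 0`, `Ω` the real period, `Reg = 1`, in its own words, holds
if and only if `#Ш(E₀/ℚ) = 1` (`SanityHeckeX17.lean`). -/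
example : iteratedDeriv 0 heckeL 1 / ((0 : ℕ).factorial : ℂ) =
        ((periodIntegral E₀ * 1 * (Nat.card (Sha E₀) : ℝ) * (tamagawaProduct E₀ : ℝ) /
          (Nat.card (AddCommGroup.torsion (MW E₀)) : ℝ) ^ 2 : ℝ) : ℂ) ↔
      Nat.card (Sha E₀) = 1 := exact_formula_E₀_iff

/-- `MainConclusion E r` is the conclusion of `MainStatement`, word for word. -/
example : MainStatement ↔ ∀ (E : WeierstrassCurve ℚ) [E.IsElliptic] (q : ℕ) [Fact q.Prime] (r : ℕ),
    r ≤ 1 → selmerCorank E q = (r : Cardinal) → MainConclusion E r := Iff.rfl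

/-- **At `(E₀, q = 2, r = 0)`, where its hypothesis holds, `MainStatement` says exactly that `Ш(E₀/ℚ)` is trivial**
(`SanityHeckeSha.lean`): all the other clauses are checked. -/
example : MainConclusion E₀ 0 ↔ Nat.card (Sha E₀) = 1 := mainConclusion_E₀_iff

/-- **The real period of `E₀` in closed form** (`SanityPeriodGamma.lean`): twice the lemniscate constant, the real
period of the curve `32.a3` of the tables. So `periodIntegral`, the definition used in `Statement`, and `heckeL` are
pinned to classical constants, not only to each other. -/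
example : periodIntegral E₀ = Real.Gamma (1 / 4) ^ 2 / √(2 * Real.pi) := periodIntegral_E₀_eq_Gamma

example : heckeL 1 = ((Real.Gamma (1 / 4) ^ 2 / (8 * √(2 * Real.pi)) : ℝ) : ℂ) := heckeL_one_eq_Gamma

/-- **The functional equation** of `L(E₀,s)` (`SanityHeckeFE.lean`), for **every** `L` with `IsLFunction E₀ L`:
conductor `32`, root number `+1`, as in the tables. The two hypotheses keep `s` and `2 - s` off the poles of `Γ`. -/
example {L : ℂ → ℂ} (h : IsLFunction E₀ L) {s : ℂ} (hs : ∀ n : ℕ, s ≠ -n) (hs' : ∀ n : ℕ, 2 - s ≠ -n) :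
    (32 : ℂ) ^ ((2 - s) / 2) * (2 * Real.pi : ℂ) ^ (-(2 - s)) * Complex.Gamma (2 - s) * L (2 - s) =
      (32 : ℂ) ^ (s / 2) * (2 * Real.pi : ℂ) ^ (-s) * Complex.Gamma s * L s :=
  h.functional_equation_E₀ hs hs'

/-- **The analytic clause of `MainStatement` is true at the example of corank one** (`SanityTwist.lean`): for
`E₅ : y² = x³ - 25x`, where `selmerCorank E₅ 2 = 1` (`selmerCorank_E₅_two`), the `L`-series has an entire
continuation with a simple zero at `s = 1`. No hypothesis. -/
example : ∃ L : ℂ → ℂ, IsLFunction E₅ L ∧ analyticOrderAt L 1 = ((1 : ℕ) : ℕ∞) := exists_isLFunction_E₅_order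

/-- The same for **every** `L` with `IsLFunction E₅ L`. -/
example {L : ℂ → ℂ} (h : IsLFunction E₅ L) : L 1 = 0 ∧ analyticOrderAt L 1 = ((1 : ℕ) : ℕ∞) := by
  rw [h.unique isLFunction_E₅_twistL]
  exact ⟨twistL_one, by rw [analyticOrderAt_twistL_one]; rfl⟩

/-- With the derivative (`SanityE5Main.lean`): it is a positive real number. -/
example {L : ℂ → ℂ} (h : IsLFunction E₅ L) : L 1 = 0 ∧ analyticOrderAt L 1 = 1 ∧
    deriv L 1 = ((Real.pi * ∫ t in Set.Ioi t5, Real.log (200 * t ^ 2) * theta5 t : ℝ) : ℂ) ∧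
    0 < Real.pi * ∫ t in Set.Ioi t5, Real.log (200 * t ^ 2) * theta5 t := h.order_E₅

/-- The clause `∃ Ω, IsRealPeriod E Ω` of `MainStatement` at the example `E₅ : y² = x³ - 25x` with `s₂(E₅) = 1`
(`SanityE5Period.lean`): the equation is global minimal and its real period is `Ω(E₀) / √5`. -/
example : IsGlobalMinimal E₅ ∧ ∀ Ω : ℝ, IsRealPeriod E₅ Ω ↔ Ω = periodIntegral E₀ / Real.sqrt 5 :=
  ⟨E₅_isGlobalMinimal, isRealPeriod_E₅_iff⟩

/-- **Non-example**: the real period of `E₀` is not a real period of its quadratic twist `E₅`. -/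
example : ¬ IsRealPeriod E₅ (periodIntegral E₀) := not_isRealPeriod_E₅_periodIntegral_E₀

/-- The period integral and `quadraticTwist` of `Statement.lean` fit together, for every curve and every `d > 0`. -/
example (E : WeierstrassCurve ℚ) {d : ℚ} (hd : 0 < d) :
    periodIntegral (quadraticTwist E d) = periodIntegral E / Real.sqrt d :=
  periodIntegral_quadraticTwist E hd

/-- With the exact value `L(E₀,1) = Ω(E₀)/8`: the real period of `E₅` is `8 L(E₀,1) / √5`. -/
theorem periodIntegral_E₅_eq_heckeL :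
    ((periodIntegral E₅ : ℝ) : ℂ) = 8 * heckeL 1 / ((Real.sqrt 5 : ℝ) : ℂ) := by
  rw [periodIntegral_E₅, heckeL_one_eq_period]
  push_cast
  ring

/-- The arithmetic clauses of `MainStatement` at `(E₅, q = 2, r = 1)` (`SanityE5Rank.lean`; the Mordell–Weil theorem
for this curve): the hypothesis holds, the rank is `1`, a regulator exists; and `Ш(E₅/ℚ)[2^∞] = 0`. -/
example : selmerCorank E₅ 2 = ((1 : ℕ) : Cardinal) ∧ Module.rank ℤ (MW E₅) = ((1 : ℕ) : Cardinal) ∧
    (∃ R, IsRegulator E₅ R) ∧ primaryTorsion 2 (Sha E₅) = ⊥ := mainStatement_clauses_E₅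

/-- **What is left of `MainStatement` at `(E₅, q = 2, r = 1)`**, where its hypothesis holds (`SanityE5Main.lean`,
`SanityE5Rank.lean`, `SanityTwistCap.lean`; the left side is the conclusion of `MainStatement`, word for word): one
identity between real numbers, `L'(E₅,1) = (Ω(E₀)/√5) · Reg · #Ш · ∏ c_ℓ / #tors²`. (It implies that `Ш(E₅/ℚ)` is
finite: `L'(E₅,1) > 0`, and `Nat.card` of an infinite group is `0`.) -/
example : MainConclusion E₅ 1 ↔
    ∃ R : ℝ, IsRegulator E₅ R ∧
      Real.pi * ∫ t in Set.Ioi t5, Real.log (200 * t ^ 2) * theta5 t =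
        periodIntegral E₀ / Real.sqrt 5 * R * (Nat.card (Sha E₅) : ℝ) * (tamagawaProduct E₅ : ℝ) /
          (Nat.card (AddCommGroup.torsion (MW E₅)) : ℝ) ^ 2 := mainStatement_conclusion_E₅_iff_formula

/-- The torsion term of that identity (`SanityE5Torsion.lean`). -/
example : Nat.card (AddCommGroup.torsion (MW E₅)) = 4 := card_torsion_MW_E₅

/-- The Tamagawa number of `E₅` at `2`, with the definition of `Statement.lean` (`SanityE5TamagawaTwo.lean`). -/
example : tamagawaNumber E₅ 2 = 2 := tamagawaNumber_E₅_two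

/-- The Tamagawa product of `E₅` (`SanityE5TamagawaFive.lean`: `c₅(E₅) = 4`). -/
example : tamagawaProduct E₅ = 8 := tamagawaProduct_E₅_eq

/-- **`MainStatement` at `(E₅, q = 2, r = 1)` with all the constants evaluated**: its conclusion says exactly that
`L'(E₅,1) = (Ω(E₀)/√5) · Reg · #Ш / 2` (`∏ c_ℓ = 8`, `#tors = 4`). -/
theorem mainConclusion_E₅_iff_half : MainConclusion E₅ 1 ↔
    ∃ R : ℝ, IsRegulator E₅ R ∧
      Real.pi * ∫ t in Set.Ioi t5, Real.log (200 * t ^ 2) * theta5 t =
        periodIntegral E₀ / Real.sqrt 5 * R * (Nat.card (Sha E₅) : ℝ) / 2 := by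
  refine Iff.trans mainStatement_conclusion_E₅_iff_formula ?_
  rw [tamagawaProduct_E₅_eq, card_torsion_MW_E₅]
  have e : ∀ x : ℝ, x * ((8 : ℕ) : ℝ) / ((4 : ℕ) : ℝ) ^ 2 = x / 2 := fun x => by
    push_cast
    ring
  simp only [e]

/-- The coefficients of Mathlib's `L`-series of `E₀` against the tables (`SanityHeckeTable.lean`). -/
example (n : ℕ) (hn : n ≤ 30) : E₀.LFunction n = newform32.getD n 0 := LFunction_E₀_table n hn

/-- The Hasse bound for `E₀`. -/
example (p : ℕ) (hp : p.Prime) : (E₀.LFunction p) ^ 2 ≤ 4 * (p : ℤ) := LFunction_E₀_sq_le p hp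

/-- **Non-example with an Euler product** (`SanityHeckeTwist.lean`): `IsLFunction` separates `E₀` from its twist. -/
example (L : ℂ → ℂ) : ¬ (IsLFunction E₀ L ∧ IsLFunction E₅ L) := not_isLFunction_E₀_and_E₅ L

/-- **The equation does not matter** (`SanityHeckeModel.lean`): the non-minimal equation `E₁ : y² = x³ - 16x` of the
curve `E₀` has the same `L`-functions. -/
example (L : ℂ → ℂ) : IsLFunction E₁ L ↔ IsLFunction E₀ L := isLFunction_E₁_iff L

/-- The real period of `E₀` is twice Gauss's lemniscate constant `ϖ = 2 ∫₀¹ dt/√(1-t⁴)` (`SanityLemniscate.lean`). -/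
example : periodIntegral E₀ = 4 * ∫ t in Set.Ioo (0 : ℝ) 1, (√(1 - t ^ 4))⁻¹ := periodIntegral_E₀_eq_lemniscate

/-- A member of the counting set `𝒟₁(E₀;X)` of `TwistDensityStatement` (`SanityDensityMembers.lean`). -/
example {X : ℝ} (hX : 5 ≤ X) : (5 : ℤ) ∈ twistsOfCorank E₀ 1 X ∧ (5 : ℤ) ∉ twistsOfCorank E₀ 0 X :=
  ⟨five_mem_twistsOfCorank_E₀ hX, five_not_mem_twistsOfCorank_E₀ X⟩

/-- `IsLFunction` is met on an infinite family (`SanityFam.lean`, `SanityFamE4.lean`): all the twists of `E₀` which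
`TwistDensityStatement` counts. -/
example (d : ℤ) (hd : Squarefree d) : ∃ L : ℂ → ℂ, IsLFunction (quadraticTwist E₀ (d : ℚ)) L :=
  exists_isLFunction_quadraticTwist_E₀_of_squarefree d hd

example {X : ℝ} {d : ℤ} (h : d ∈ squarefreeUpTo X) : ∃ L : ℂ → ℂ, IsLFunction (quadraticTwist E₀ (d : ℚ)) L :=
  exists_isLFunction_of_mem_squarefreeUpTo h

/-- The trivial group has corank `0`. -/
theorem corank_of_subsingleton (p : ℕ) [Fact p.Prime] (A : Type*) [AddCommGroup A]
    [Subsingleton A] : corank p A = 0 := by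
  unfold corank
  have : Subsingleton (PontryaginDual p A) :=
    ⟨fun f g => by ext a; rw [Subsingleton.elim a 0, map_zero, map_zero]⟩
  exact rank_subsingleton' _ _

/-! ### The hypotheses of the three conjuncts of `Statement` can be met -/

/-- `E₀` is the curve `y² = x³ - x`. -/
example : E₀ = ⟨0, 0, 0, -1, 0⟩ := rfl

example : E₀.IsElliptic := inferInstance

/-- `Sel_{2^∞}(E₀/ℚ) = 0`. -/
example : Selmer E₀ 2 = ⊥ := selmer_E₀_two

/-- `s₂(E₀) = 0`. -/
example : selmerCorank E₀ 2 = 0 := selmerCorank_E₀_two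

/-- **The hypotheses of `MainStatement` are met** (by `E₀`, `q = 2`, `r = 0`). -/
example : ∃ (E : WeierstrassCurve ℚ) (_ : E.IsElliptic) (q : ℕ) (_ : Fact q.Prime) (r : ℕ),
    r ≤ 1 ∧ selmerCorank E q = (r : Cardinal) := hypotheses_met

/-- `E₅` is the congruent number curve `y² = x³ - 25 x`. -/
example : E₅ = ⟨0, 0, 0, -25, 0⟩ := rfl

/-- `s₂(E₅) = 1`: the Selmer group `Sel_{2^∞}(E₅/ℚ)` is generated by the Kummer classes of
`P = (-4, 6)`, and is a copy of `ℚ₂/ℤ₂`. -/
example : selmerCorank E₅ 2 = 1 := selmerCorank_E₅_two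

/-- **The hypotheses of `MainStatement` are also met with `r = 1`** (by `E₅`, `q = 2`). -/
example : ∃ (E : WeierstrassCurve ℚ) (_ : E.IsElliptic) (q : ℕ) (_ : Fact q.Prime) (r : ℕ),
    r = 1 ∧ r ≤ 1 ∧ selmerCorank E q = (r : Cardinal) := hypotheses_met_corank_one

/-- The hypotheses of `SylvesterStatement` are met in each residue class. -/
example : (Nat.Prime 13 ∧ 13 % 9 = 4) ∧ (Nat.Prime 7 ∧ 7 % 9 = 7) ∧ (Nat.Prime 17 ∧ 17 % 9 = 8) :=
  sylvester_hypotheses_met

/-- **The hypotheses of all three conjuncts of `Statement` can be met**, in one theorem: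
`MainStatement` in both its branches, `r = 0` by `E₀ : y² = x³ - x`, `q = 2` (`s₂(E₀) = 0`) and
`r = 1` by `E₅ : y² = x³ - 25 x`, `q = 2` (`s₂(E₅) = 1`), each by a complete `2`-descent;
`SylvesterStatement` by `ℓ = 13`; `TwistDensityStatement` by `E₀`, `j = 0`. -/
theorem hypotheses_can_be_met :
    (∀ r : ℕ, r ≤ 1 → ∃ (E : WeierstrassCurve ℚ) (_ : E.IsElliptic) (q : ℕ) (_ : Fact q.Prime),
      selmerCorank E q = (r : Cardinal)) ∧
    (∃ ℓ : ℕ, ℓ.Prime ∧ (ℓ % 9 = 4 ∨ ℓ % 9 = 7 ∨ ℓ % 9 = 8)) ∧
    (∃ (E : WeierstrassCurve ℚ) (_ : E.IsElliptic) (j : ℕ), j ≤ 1) := by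
  refine ⟨fun r hr => ?_, ⟨13, sylvester_hypotheses_met.1.1, Or.inl sylvester_hypotheses_met.1.2⟩,
    ⟨E₀, inferInstance, 0, Nat.zero_le 1⟩⟩
  obtain rfl | rfl : r = 0 ∨ r = 1 := by omega
  · exact ⟨E₀, inferInstance, 2, inferInstance, by rw [selmerCorank_E₀_two]; simp⟩
  · exact ⟨E₅, inferInstance, 2, inferInstance, by rw [selmerCorank_E₅_two]; simp⟩

/-- **What `Statement` says about the example**: `Ш(E₀/ℚ)` is finite, the analytic continuation `L`
exists, `L(E₀, 1) ≠ 0` and `L(E₀, 1) = Ω · #Ш(E₀/ℚ) / 8`, where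
`Ω = 2 ∫_{4x³-4x>0} dx/√(4x³-4x) = 5.2441…`.  Numerically `L(E₀, 1) = 0.65551… = Ω / 8`
(curve 32a2), so the normalisations are the right ones. -/
example (h : Statement) :
    Finite (Sha E₀) ∧ ∃ L : ℂ → ℂ, IsLFunction E₀ L ∧ L 1 ≠ 0 ∧
      L 1 = ((periodIntegral E₀ * (Nat.card (Sha E₀) : ℝ) / 8 : ℝ) : ℂ) := statement_E₀ h

/-- The other invariants of the example: `E₀(ℚ)` has `4` points, rank `0`, regulator `1`. -/
example : Nat.card (MW E₀) = 4 ∧ Nat.card (AddCommGroup.torsion (MW E₀)) = 4 ∧
    Module.rank ℤ (MW E₀) = 0 ∧ ∀ R, IsRegulator E₀ R ↔ R = 1 :=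
  ⟨card_MW_E₀, card_torsion_E₀, rank_MW_E₀, isRegulator_E₀_iff⟩

/-! ### The Tate–Shafarevich group -/

/-- **Example**: `Ш(E₀/ℚ)[2^∞] = 0`, in accordance with `#Ш(E₀/ℚ) = 1` in the tables. -/
example : primaryTorsion 2 (Sha E₀) = ⊥ := sha_E₀_primaryTorsion_two

/-- **Non-example**: a nonzero class of `H¹(ℚ, E₀)` killed by `2` that is not in `Ш(E₀/ℚ)`: the local
conditions are not void, and the ambient group `H¹(ℚ, E₀)[2^∞]` is not trivial. -/
example : ∃ w : WC E₀ ℚ, 2 • w = 0 ∧ w ≠ 0 ∧ w ∉ Sha E₀ := exists_two_torsion_not_mem_Sha_E₀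

/-- `Sel_{p^∞}(E/ℚ)` is the preimage of `Ш(E/ℚ)` under `H¹(ℚ, E[p^∞]) → H¹(ℚ, E)`. -/
example (E : WeierstrassCurve ℚ) (p : ℕ) (c : H1Tors E p ℚ) :
    c ∈ Selmer E p ↔ torsToWC E p ℚ c ∈ Sha E := mem_Selmer_iff_torsToWC_mem_Sha E p c

/-- A member and a non-member of the sets `𝒟_j(E; X)` of `TwistDensityStatement`. -/
example {X : ℝ} (hX : 1 ≤ X) :
    (1 : ℤ) ∈ twistsOfCorank E₀ 0 X ∧ (1 : ℤ) ∉ twistsOfCorank E₀ 1 X :=
  ⟨one_mem_twistsOfCorank_E₀ hX, one_not_mem_twistsOfCorank_E₀ X⟩

/-! ### The Selmer group and the corank -/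

/-- `Selmer E p` is defined by the local Kummer images at all places, as in the paper. -/
example (E : WeierstrassCurve ℚ) (p : ℕ) (c : H1Tors E p ℚ) :
    c ∈ Selmer E p ↔
      (∀ (ℓ : ℕ) (_ : Fact ℓ.Prime) (ι : Emb ℚ ℚ_[ℓ]),
        IsKummerClass E p ℚ_[ℓ] (locResTors E p ℚ_[ℓ] ι c)) ∧
      ∀ ι : Emb ℚ ℝ, IsKummerClass E p ℝ (locResTors E p ℝ ι c) :=
  mem_Selmer_iff_kummer E p c

/-- The localisation map `H¹(K, E) → H¹(K_v, E)` does not depend on the embedding `K̄ → K̄_v`. -/
example {K : Type*} [Field K] (E : WeierstrassCurve K) (F : Type*) [Field F] [Algebra K F]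
    (ι ι' : Emb K F) : locRes E F ι' = locRes E F ι := locRes_eq_locRes F E ι ι'

/-- So `locKer`, the intersection of the kernels over all embeddings, is the kernel of the
localisation map attached to any one embedding, as in the textbook definition of `Ш`. -/
example {K : Type*} [Field K] (E : WeierstrassCurve K) (F : Type*) [Field F] [Algebra K F]
    (ι : Emb K F) : locKer E F = (locRes E F ι).ker := locKer_eq_ker F E ι

/-- `corank_{ℤ_p} ((ℚ_p/ℤ_p)^r × T) = r` for a finite group `T`. -/
example (p : ℕ) [Fact p.Prime] (r : ℕ) (T : Type) [AddCommGroup T] [Finite T] :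
    corank p ((Fin r → QpModZp p) × T) = r := corank_pi_prod_finite p r T

/-! ### Heights and the regulator -/

section Heights

variable {E : WeierstrassCurve ℚ} [E.IsElliptic]

/-- The limit that defines the canonical height exists. -/
example (P : MW E) :
    Tendsto (fun n : ℕ => naiveHeight ((2 ^ n : ℕ) • P) / 4 ^ n) atTop (𝓝 (canonicalHeight P)) :=
  tendsto_canonicalHeight P

example (P Q : MW E) : canonicalHeight (P + Q) + canonicalHeight (P - Q) =
    2 * (canonicalHeight P + canonicalHeight Q) := canonicalHeight_parallelogram P Q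

example {P : MW E} : canonicalHeight P = 0 ↔ P ∈ AddCommGroup.torsion (MW E) :=
  canonicalHeight_eq_zero_iff

example (P Q R : MW E) : heightPairing (P + Q) R = heightPairing P R + heightPairing Q R :=
  heightPairing_add_left P Q R

example (P : MW E) : heightPairing P P = canonicalHeight P := heightPairing_self P

example : Finite (AddCommGroup.torsion (MW E)) := inferInstance

/-- The regulator does not depend on the basis. -/
example {R₁ R₂ : ℝ} (h₁ : IsRegulator E R₁) (h₂ : IsRegulator E R₂) : R₁ = R₂ := h₁.unique h₂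

/-- The canonical height does not depend on the Weierstrass equation. -/
example (C : VariableChange ℚ) (P : MW (C • E)) :
    canonicalHeight (vcEquiv E C P) = canonicalHeight P := canonicalHeight_vcEquiv E C P

/-- The regulator does not depend on the Weierstrass equation: it may be computed on a global
minimal equation, as in the paper. -/
example (C : VariableChange ℚ) (R : ℝ) : IsRegulator (C • E) R ↔ IsRegulator E R :=
  isRegulator_smul_iff E C R

end Heights

/-! ### The real period -/

/-- The integrand of the period integral is integrable. -/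
example (E : WeierstrassCurve ℚ) [E.IsElliptic] :
    MeasureTheory.IntegrableOn (fun x : ℝ => (Real.sqrt (twoTorsionCubic E x))⁻¹)
      {x : ℝ | 0 < twoTorsionCubic E x} := integrableOn_periodIntegrand E

example (E : WeierstrassCurve ℚ) [E.IsElliptic] : 0 < periodIntegral E := periodIntegral_pos E

/-- The real period does not depend on the global minimal equation. -/
example {E : WeierstrassCurve ℚ} [E.IsElliptic] {Ω₁ Ω₂ : ℝ} (h₁ : IsRealPeriod E Ω₁)
    (h₂ : IsRealPeriod E Ω₂) : Ω₁ = Ω₂ := h₁.unique h₂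

/-! ### Tamagawa numbers -/

/-- `c_p(E) = 1` outside an explicit finite set of primes. -/
example (E : WeierstrassCurve ℚ) [E.IsElliptic] (p : ℕ) [Fact p.Prime] (h : ¬ p ∣ badNumber E) :
    tamagawaNumber E p = 1 := tamagawaNumber_eq_one_of_not_dvd E h

/-- `c_p(E)` can be computed on any equation that is minimal at `p`. -/
example (E : WeierstrassCurve ℚ) [E.IsElliptic] (p : ℕ) [Fact p.Prime]
    (C : VariableChange ℚ_[p]) [IsMinimal ℤ_[p] (C • (E⁄ℚ_[p]))] :
    tamagawaNumber E p = tamagawaOf ℤ_[p] (C • (E⁄ℚ_[p])) := tamagawaNumber_eq_tamagawaOf E p C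

/-- `E₀(ℚ_p)` is a subgroup of `E(ℚ_p)`: it is equal to the subgroup that it generates, so
`c_p(E) = [E(ℚ_p) : E₀(ℚ_p)]` literally. -/
example (E : WeierstrassCurve ℚ) (p : ℕ) [Fact p.Prime] :
    (AddSubgroup.closure (nonsingularReductionSet E p) :
      Set (localMinimalModel E p).toAffine.Point) = nonsingularReductionSet E p :=
  coe_closure_nonsingularReductionSet E p

example : IsGlobalMinimal E₀ := E₀_isGlobalMinimal

/-- A Tamagawa number different from `1`: `c_2(y² = x³ - x) = 2`. -/
example : tamagawaNumber E₀ 2 = 2 := tamagawaNumber_E₀_two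

example : tamagawaProduct E₀ = 2 := tamagawaProduct_E₀_eq

/-! ### Non-examples -/

/-- The local conditions of the Selmer group are not void, and `H¹(ℚ, E₀[2^∞]) ≠ 0`: the class of
`χ₃ · (-1, 0)` fails the local condition at `3`. -/
example : ∃ c : H1Tors E₀ 2 ℚ, c ∉ Selmer E₀ 2 := exists_not_mem_Selmer_E₀

/-- A group of corank `1`, i.e. not `0`. -/
example (p : ℕ) [Fact p.Prime] : corank p ((Fin 1 → QpModZp p) × PUnit.{1}) = (1 : ℕ) :=
  corank_pi_prod_finite p 1 PUnit.{1}

/-- `E₁ : y² = x³ - 16 x` is an integral equation of the curve `E₀` that is not globally minimal. -/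
example : E₁ = ⟨0, 0, 0, -16, 0⟩ ∧ C₁ • E₁ = E₀ ∧ ¬ IsGlobalMinimal E₁ :=
  ⟨rfl, C₁_smul_E₁, not_isGlobalMinimal_E₁⟩

/-- The integral of `|dx / 2y|` over `E₁(ℝ)` is not the real period of `E₁`: the real period is the
integral of the Néron differential, which is twice as large. -/
example : ¬ IsRealPeriod E₁ (periodIntegral E₁) ∧ IsRealPeriod E₁ (2 * periodIntegral E₁) :=
  ⟨not_isRealPeriod_E₁, (isRealPeriod_E₁_iff _).2 periodIntegral_E₀_eq_two_mul.symm⟩

/-! ### Consequences of `Statement` -/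

example (h : Statement) : SelmerConverse := h.selmerConverse

example (h : Statement) : TwoPrimary := h.twoPrimary

example (h : Statement) : TwistDensityFull := h.twistDensityFull

end Claimed.Open.R002

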