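import Claimed.Open.R002.SanityCorank

/-!
# Sanity: a group generated by a `p`-divisible chain is `ℚ_p/ℤ_p`, so its corank is `1`

Let `A` be an abelian group with elements `c₀ = 0`, `p c_{k+1} = c_k`, `c₁ ≠ 0`, such that every element of `A` is a
multiple of some `c_k`.  Then `c_k ↦ p⁻ᵏ` extends to an isomorphism `A ≅ ℚ_p/ℤ_p` (`exists_chain_addEquiv`), hence
`corank p A = 1` (`corank_eq_one_of_kummer_chain`).
-/

set_option autoImplicit false

namespace Claimed.Open.R002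

noncomputable section

section Chain

variable {p : ℕ} {A B : Type*} [AddCommGroup A] [AddCommGroup B]

lemma chain_pow_zsmul {c : ℕ → A} (hs : ∀ k, p • c (k + 1) = c k) (k j : ℕ) :
    ((p : ℤ) ^ j) • c (k + j) = c k := by
  induction j with
  | zero => simp
  | succ j ih => rw [pow_succ, mul_zsmul, ← add_assoc, natCast_zsmul, hs, ih]

lemma chain_zsmul_eq_zero_of_dvd {c : ℕ → A} (h0 : c 0 = 0) (hs : ∀ k, p • c (k + 1) = c k) (K : ℕ)
    {z : ℤ} (h : (p : ℤ) ^ K ∣ z) : z • c K = 0 := by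
  obtain ⟨w, rfl⟩ := h
  have := chain_pow_zsmul hs 0 K
  rw [zero_add, h0] at this
  rw [mul_comm, mul_zsmul, this, zsmul_zero]

/-- The order of `c_K` is exactly `p^K`. -/
lemma chain_dvd_of_zsmul_eq_zero (hp : p.Prime) {c : ℕ → A} (h0 : c 0 = 0)
    (hs : ∀ k, p • c (k + 1) = c k) (h1 : c 1 ≠ 0) (K : ℕ) :
    ∀ z : ℤ, z • c K = 0 → (p : ℤ) ^ K ∣ z := by
  induction K with
  | zero => intro z _; simp
  | succ K ih =>
    intro z hz
    have hpz : (p : ℤ) ∣ z := by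
      by_contra hnd
      have hcop : IsCoprime z ((p : ℤ) ^ (K + 1)) :=
        IsCoprime.pow_right ((Nat.prime_iff_prime_int.mp hp).coprime_iff_not_dvd.mpr hnd).symm
      obtain ⟨u, v, huv⟩ := hcop
      have hpk : ((p : ℤ) ^ (K + 1)) • c (K + 1) = 0 :=
        chain_zsmul_eq_zero_of_dvd h0 hs (K + 1) dvd_rfl
      have hc : c (K + 1) = 0 := by
        have : (u * z + v * (p : ℤ) ^ (K + 1)) • c (K + 1) = 0 := by
          rw [add_zsmul, mul_zsmul, hz, zsmul_zero, mul_zsmul, hpk, zsmul_zero, add_zero]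
        rwa [huv, one_zsmul] at this
      have e1 : ((p : ℤ) ^ K) • c (K + 1) = c 1 := by
        have := chain_pow_zsmul hs 1 K
        rwa [add_comm 1 K] at this
      exact h1 (by rw [← e1, hc, zsmul_zero])
    obtain ⟨w, rfl⟩ := hpz
    have : w • c K = 0 := by
      have e : ((p : ℤ) * w) • c (K + 1) = w • c K := by
        rw [mul_comm, mul_zsmul, natCast_zsmul, hs]
      rw [← e, hz]
    obtain ⟨w', rfl⟩ := ih w this
    exact ⟨w', by ring⟩

/-- Three multiples of members of a chain, written at a common level. -/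
lemma chain_combine {c : ℕ → A} (hs : ∀ k, p • c (k + 1) = c k) (z₁ z₂ z₃ : ℤ) (k₁ k₂ k₃ : ℕ) :
    z₁ • c k₁ + z₂ • c k₂ + z₃ • c k₃ =
      (z₁ * (p : ℤ) ^ (k₂ + k₃) + z₂ * (p : ℤ) ^ (k₁ + k₃) + z₃ * (p : ℤ) ^ (k₁ + k₂)) •
        c (k₁ + k₂ + k₃) := by
  have e₁ : ((p : ℤ) ^ (k₂ + k₃)) • c (k₁ + k₂ + k₃) = c k₁ := by
    have := chain_pow_zsmul hs k₁ (k₂ + k₃)
    rwa [← add_assoc] at this
  have e₂ : ((p : ℤ) ^ (k₁ + k₃)) • c (k₁ + k₂ + k₃) = c k₂ := by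
    have := chain_pow_zsmul hs k₂ (k₁ + k₃)
    rwa [show k₂ + (k₁ + k₃) = k₁ + k₂ + k₃ by ring] at this
  have e₃ : ((p : ℤ) ^ (k₁ + k₂)) • c (k₁ + k₂ + k₃) = c k₃ := by
    have := chain_pow_zsmul hs k₃ (k₁ + k₂)
    rwa [show k₃ + (k₁ + k₂) = k₁ + k₂ + k₃ by ring] at this
  rw [add_zsmul, add_zsmul, mul_zsmul, mul_zsmul, mul_zsmul, e₁, e₂, e₃]

/-- A linear relation between members of a chain with `c₁ ≠ 0` holds in every other chain. -/
lemma chain_transfer (hp : p.Prime) {c : ℕ → A} (h0 : c 0 = 0) (hs : ∀ k, p • c (k + 1) = c k)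
    (h1 : c 1 ≠ 0) {e : ℕ → B} (g0 : e 0 = 0) (gs : ∀ k, p • e (k + 1) = e k) (z₁ z₂ z₃ : ℤ)
    (k₁ k₂ k₃ : ℕ) (h : z₁ • c k₁ + z₂ • c k₂ + z₃ • c k₃ = 0) :
    z₁ • e k₁ + z₂ • e k₂ + z₃ • e k₃ = 0 := by
  rw [chain_combine hs] at h
  rw [chain_combine gs]
  exact chain_zsmul_eq_zero_of_dvd g0 gs _ (chain_dvd_of_zsmul_eq_zero hp h0 hs h1 _ _ h)

/-- Two groups generated by `p`-divisible chains with `c₁ ≠ 0` are isomorphic. -/
theorem exists_chain_addEquiv (hp : p.Prime) {c : ℕ → A} (h0 : c 0 = 0)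
    (hs : ∀ k, p • c (k + 1) = c k) (h1 : c 1 ≠ 0) (hgen : ∀ a : A, ∃ n k : ℕ, a = n • c k)
    {e : ℕ → B} (g0 : e 0 = 0) (gs : ∀ k, p • e (k + 1) = e k) (g1 : e 1 ≠ 0)
    (ggen : ∀ b : B, ∃ n k : ℕ, b = n • e k) :
    ∃ φ : A ≃+ B, ∀ k, φ (c k) = e k := by
  choose n k hnk using hgen
  have spec : ∀ (a : A) (m j : ℕ), a = m • c j → n a • e (k a) = m • e j := by
    intro a m j ha
    have h : (n a : ℤ) • c (k a) + (-(m : ℤ)) • c j + (0 : ℤ) • c 0 = 0 := by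
      rw [natCast_zsmul, ← hnk a, neg_zsmul, natCast_zsmul, ← ha, zero_zsmul, add_zero, add_neg_cancel]
    have := chain_transfer hp h0 hs h1 g0 gs _ _ _ _ _ _ h
    rw [natCast_zsmul, neg_zsmul, natCast_zsmul, zero_zsmul, add_zero, add_neg_eq_zero] at this
    exact this
  have hadd : ∀ a b : A, n (a + b) • e (k (a + b)) = n a • e (k a) + n b • e (k b) := by
    intro a b
    have h : (n a : ℤ) • c (k a) + (n b : ℤ) • c (k b) + (-(n (a + b) : ℤ)) • c (k (a + b)) = 0 := by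
      rw [natCast_zsmul, natCast_zsmul, neg_zsmul, natCast_zsmul, ← hnk a, ← hnk b, ← hnk (a + b),
        add_neg_cancel]
    have := chain_transfer hp h0 hs h1 g0 gs _ _ _ _ _ _ h
    rw [natCast_zsmul, natCast_zsmul, neg_zsmul, natCast_zsmul, add_neg_eq_zero] at this
    exact this.symm
  let F : A →+ B := AddMonoidHom.mk' (fun a => n a • e (k a)) hadd
  have hinj : Function.Injective F := by
    rw [injective_iff_map_eq_zero]
    intro a ha
    have ha' : n a • e (k a) = 0 := ha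
    have h : (n a : ℤ) • e (k a) + (0 : ℤ) • e 0 + (0 : ℤ) • e 0 = 0 := by
      rw [natCast_zsmul, ha', zero_zsmul, add_zero, add_zero]
    have := chain_transfer hp g0 gs g1 h0 hs _ _ _ _ _ _ h
    rw [natCast_zsmul, zero_zsmul, add_zero, add_zero, ← hnk a] at this
    exact this
  have hsurj : Function.Surjective F := by
    intro b
    obtain ⟨m, j, rfl⟩ := ggen b
    exact ⟨m • c j, spec _ m j rfl⟩
  refine ⟨AddEquiv.ofBijective F ⟨hinj, hsurj⟩, fun j => ?_⟩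
  show n (c j) • e (k (c j)) = e j
  rw [spec (c j) 1 j (one_nsmul _).symm, one_nsmul]

end Chain

/-- **A group generated by a `p`-divisible chain `c₀ = 0`, `p c_{k+1} = c_k`, `c₁ ≠ 0` has corank `1`**: it is isomorphic
to `ℚ_p/ℤ_p`. -/
theorem corank_eq_one_of_kummer_chain (p : ℕ) [hp : Fact p.Prime] {A : Type} [AddCommGroup A]
    (c : ℕ → A) (h0 : c 0 = 0) (hs : ∀ k, p • c (k + 1) = c k) (h1 : c 1 ≠ 0)
    (hgen : ∀ a : A, ∃ n k : ℕ, a = n • c k) : corank p A = 1 := by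
  have g0 : qe p 0 = 0 := by simpa using pow_smul_qe p 0
  have g1 : qe p 1 ≠ 0 := by
    intro h
    have : (p : ℤ_[p]) ^ 1 ∣ 1 := (smul_qe_eq_zero_iff p 1 1).mp (by rw [one_smul, h])
    rw [pow_one] at this
    exact PadicInt.prime_p.not_isUnit (isUnit_of_dvd_one this)
  obtain ⟨φ, -⟩ := exists_chain_addEquiv hp.1 h0 hs h1 hgen g0 (p_smul_qe_succ p) g1
    (fun b => by obtain ⟨m, j, h⟩ := exists_nsmul_qe p b; exact ⟨j, m, h⟩)
  rw [corank_congr p φ, corank_QpModZp]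

end

end Claimed.Open.R002
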