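import Claimed.Open.R002.SanityCoh

/-!
# Sanity, part 10: coboundaries are continuous cocycles

The stabiliser of a point of `E(F̄)` is an open subgroup of `G_F`, so `B¹ ⊆ Z¹` for the Galois modules
`E(F̄)`: the quotient `H1` of `Statement.lean` is the usual one.
-/

set_option autoImplicit false

namespace Claimed.Open.R002

open WeierstrassCurve

noncomputable section

attribute [local instance] Classical.propDecidable
attribute [-instance] DivisionRing.toRatAlgebra

local instance algQpC (p : ℕ) [Fact p.Prime] : Algebra ℚ ℚ_[p] := DivisionRing.toRatAlgebra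
local instance algRC : Algebra ℚ ℝ := DivisionRing.toRatAlgebra

section Coboundary

lemma isLocallyConstant_smul_of_isOpen_stabilizer {G M : Type*} [Group G] [TopologicalSpace G]
    [IsTopologicalGroup G] [MulAction G M] (m : M)
    (h : IsOpen (MulAction.stabilizer G m : Set G)) : IsLocallyConstant (fun g : G => g • m) := by
  rw [IsLocallyConstant.iff_exists_open]
  intro g₀
  refine ⟨(fun g => g₀⁻¹ * g) ⁻¹' (MulAction.stabilizer G m : Set G),
    h.preimage (continuous_const.mul continuous_id), by simp, fun g hg => ?_⟩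
  have : (g₀⁻¹ * g) • m = m := hg
  calc g • m = g₀ • ((g₀⁻¹ * g) • m) := by rw [smul_smul, mul_inv_cancel_left]
    _ = g₀ • m := by rw [this]

variable {K : Type*} [Field K] (E : WeierstrassCurve K) (F : Type*) [Field F] [Algebra K F]

lemma isLocallyConstant_smul_point (P : PointsBar E F) :
    IsLocallyConstant (fun σ : GalBar F => σ • P) := by
  apply isLocallyConstant_smul_of_isOpen_stabilizer
  rcases P with _ | ⟨x, y, h⟩
  · have : (MulAction.stabilizer (GalBar F) (Affine.Point.zero : PointsBar E F) : Set (GalBar F))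
        = Set.univ := by
      ext σ; simp only [SetLike.mem_coe, MulAction.mem_stabilizer_iff, Set.mem_univ, iff_true]; rfl
    rw [this]; exact isOpen_univ
  · have hx := stabilizer_isOpen_of_isIntegral (K := F) (L := AlgebraicClosure F) x
    have hy := stabilizer_isOpen_of_isIntegral (K := F) (L := AlgebraicClosure F) y
    have hxy : IsOpen ((MulAction.stabilizer (GalBar F) x ⊓ MulAction.stabilizer (GalBar F) y :
        Subgroup (GalBar F)) : Set (GalBar F)) := hx.inter hy
    refine Subgroup.isOpen_mono ?_ hxy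
    intro σ hσ
    rw [Subgroup.mem_inf, MulAction.mem_stabilizer_iff, MulAction.mem_stabilizer_iff] at hσ
    rw [MulAction.mem_stabilizer_iff]
    show Affine.Point.map (W' := E) _ (.some x y h) = .some x y h
    simp only [Affine.Point.map_some, Affine.Point.some.injEq]
    exact hσ

/-- The coboundary of a point, as a continuous cocycle. -/
def cob (P : PointsBar E F) : Z1 (GalBar F) (PointsBar E F) :=
  ⟨fun σ => σ • P - P, (isLocallyConstant_smul_point E F P).sub (IsLocallyConstant.const P),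
    fun σ τ => by
      show (σ * τ) • P - P = (σ • P - P) + σ • (τ • P - P)
      rw [mul_smul, smul_sub]; abel⟩

lemma cob_apply (P : PointsBar E F) (σ : GalBar F) : (cob E F P).1 σ = σ • P - P := rfl

end Coboundary

section Closure

lemma smul_nsmul_comm {G M : Type*} [Group G] [AddCommGroup M] [DistribMulAction G M] (g : G) (n : ℕ)
    (x : M) : g • (n • x) = n • (g • x) :=
  map_nsmul (DistribSMul.toAddMonoidHom M g) n x

variable {K : Type*} [Field K] (E : WeierstrassCurve K) (F : Type*) [Field F] [Algebra K F]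

lemma LocTrivAt.nsmul {ξ : GalBar K → PointsBar E K} (h : LocTrivAt E F ξ) (n : ℕ) :
    LocTrivAt E F (fun τ => n • ξ τ) := by
  intro ι
  obtain ⟨Q, hQ⟩ := h ι
  refine ⟨n • Q, fun σ => ?_⟩
  rw [map_nsmul, hQ, nsmul_sub, smul_nsmul_comm]

lemma LocTrivAt.sub {ξ η : GalBar K → PointsBar E K} (h : LocTrivAt E F ξ) (h' : LocTrivAt E F η) :
    LocTrivAt E F (fun τ => ξ τ - η τ) := by
  intro ι
  obtain ⟨Q, hQ⟩ := h ι
  obtain ⟨Q', hQ'⟩ := h' ι
  refine ⟨Q - Q', fun σ => ?_⟩
  rw [map_sub, hQ, hQ', smul_sub]; abel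

lemma LocTrivAt.cob (P : PointsBar E K) : LocTrivAt E F (fun τ => τ • P - P) := by
  intro ι
  refine ⟨pointsMap E F ι P, fun σ => ?_⟩
  rw [map_sub, pointsMap_resGal_smul]

end Closure

section ClosureQ

variable (E : WeierstrassCurve ℚ)

lemma LocTriv.nsmul {ξ : GalBar ℚ → PointsBar E ℚ} (h : LocTriv E ξ) (n : ℕ) :
    LocTriv E (fun τ => n • ξ τ) :=
  ⟨fun ℓ hℓ => (h.1 ℓ hℓ).nsmul E _ n, h.2.nsmul E _ n⟩

lemma LocTriv.sub {ξ η : GalBar ℚ → PointsBar E ℚ} (h : LocTriv E ξ) (h' : LocTriv E η) :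
    LocTriv E (fun τ => ξ τ - η τ) :=
  ⟨fun ℓ hℓ => (h.1 ℓ hℓ).sub E _ (h'.1 ℓ hℓ), h.2.sub E _ h'.2⟩

lemma LocTriv.cob (P : PointsBar E ℚ) : LocTriv E (fun τ => τ • P - P) :=
  ⟨fun _ _ => LocTrivAt.cob E _ P, LocTrivAt.cob E _ P⟩

end ClosureQ

/-- A continuous cocycle with values in `E[p^∞]` takes values in `E[pⁿ]` for some `n`
(compactness of `G_ℚ`). -/
lemma exists_uniform_exponent (E : WeierstrassCurve ℚ) (p : ℕ)
    (ξ : Z1 (GalBar ℚ) (primaryTorsion p (PointsBar E ℚ))) :
    ∃ n : ℕ, ∀ τ, p ^ n • (ξ.1 τ).1 = 0 := by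
  have hfin : (Set.range ξ.1).Finite := (Z1.isLocallyConstant ξ).range_finite
  choose f hf using fun x : primaryTorsion p (PointsBar E ℚ) => x.2
  refine ⟨hfin.toFinset.sup f, fun τ => ?_⟩
  have hmem : ξ.1 τ ∈ hfin.toFinset := by simp
  have hle : f (ξ.1 τ) ≤ hfin.toFinset.sup f := Finset.le_sup hmem
  obtain ⟨k, hk⟩ := Nat.exists_eq_add_of_le hle
  rw [hk, pow_add, mul_comm, mul_nsmul', hf, nsmul_zero]


end

end Claimed.Open.R002
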