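import Claimed.Open.R002.Statement

/-!
# Sanity, part 1: unfolding `H¹`, `Ш` and the Selmer group to cocycles

API for the cohomological definitions of `Statement.lean`: a class of `H¹(ℚ, E[p^∞])` lies in
`Selmer E p` iff a (any) representing cocycle becomes a coboundary in `E(ℚ̄ᵥ)` on every
decomposition group (`mem_Selmer_iff`).
-/

set_option autoImplicit false

namespace Claimed.Open.R002

open WeierstrassCurve
open scoped Classical

noncomputable section

/-! ### Abbreviations -/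

/-- The absolute Galois group `G_F = Gal(F̄/F)`, with the Krull topology. -/
abbrev GalBar (F : Type*) [Field F] : Type _ := AlgebraicClosure F ≃ₐ[F] AlgebraicClosure F

/-- The embeddings `K̄ → F̄` over `K`, for a field extension `F/K` (e.g. a completion of `K`). -/
abbrev Emb (K F : Type*) [Field K] [Field F] [Algebra K F] : Type _ :=
  AlgebraicClosure K →ₐ[K] AlgebraicClosure F

/-- `E(F̄)`, for a field extension `F` of the field of definition `K` of `E`. -/
abbrev PointsBar {K : Type*} [Field K] (E : WeierstrassCurve K) (F : Type*) [Field F]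
    [Algebra K F] : Type _ :=
  (E⁄(AlgebraicClosure F)).toAffine.Point

/-- The map `E(K̄) → E(F̄)` induced by an embedding `ι : K̄ → F̄`. -/
abbrev pointsMap {K : Type*} [Field K] (E : WeierstrassCurve K) (F : Type*) [Field F]
    [Algebra K F] (ι : Emb K F) : PointsBar E K →+ PointsBar E F :=
  Affine.Point.map (W' := E) ι

section H1API

variable {G M : Type*} [Group G] [TopologicalSpace G] [AddCommGroup M] [DistribMulAction G M]

lemma Z1.isLocallyConstant (ξ : Z1 G M) : IsLocallyConstant ξ.1 := ξ.2.1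

lemma Z1.map_mul (ξ : Z1 G M) (g h : G) : ξ.1 (g * h) = ξ.1 g + g • ξ.1 h := ξ.2.2 g h

/-- The class of a cocycle. -/
def H1.mk : Z1 G M →+ H1 G M := QuotientAddGroup.mk' _

lemma H1.mk_surjective : Function.Surjective (H1.mk : Z1 G M → H1 G M) :=
  QuotientAddGroup.mk'_surjective _

lemma H1.mk_eq_zero_iff (ξ : Z1 G M) : H1.mk ξ = 0 ↔ ∃ m : M, ∀ g, ξ.1 g = g • m - m := by
  unfold H1.mk
  erw [QuotientAddGroup.eq_zero_iff]
  rfl

variable {G' M' : Type*} [Group G'] [TopologicalSpace G'] [AddCommGroup M']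
  [DistribMulAction G' M']

/-- Functoriality of cocycles for a compatible pair. -/
def Z1.map (φ : G' →* G) (hφ : Continuous φ) (f : M →+ M')
    (hf : ∀ (g : G') (m : M), f (φ g • m) = g • f m) (ξ : Z1 G M) : Z1 G' M' :=
  ⟨fun g => f (ξ.1 (φ g)), ((Z1.isLocallyConstant ξ).comp_continuous hφ).comp f, fun g h => by
    show f (ξ.1 (φ (g * h))) = f (ξ.1 (φ g)) + g • f (ξ.1 (φ h))
    rw [_root_.map_mul, Z1.map_mul, map_add, hf]⟩

lemma H1.map_mk (φ : G' →* G) (hφ : Continuous φ) (f : M →+ M')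
    (hf : ∀ (g : G') (m : M), f (φ g • m) = g • f m) (ξ : Z1 G M) :
    H1.map φ hφ f hf (H1.mk ξ) = H1.mk (Z1.map φ hφ f hf ξ) := rfl

lemma Z1.map_apply (φ : G' →* G) (hφ : Continuous φ) (f : M →+ M')
    (hf : ∀ (g : G') (m : M), f (φ g • m) = g • f m) (ξ : Z1 G M) (g : G') :
    (Z1.map φ hφ f hf ξ).1 g = f (ξ.1 (φ g)) := rfl

end H1API

section Unfold

variable {K : Type*} [Field K] (E : WeierstrassCurve K)

theorem pointsMap_resGal_smul (F : Type*) [Field F] [Algebra K F] (ι : Emb K F) (σ : GalBar F)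
    (P : PointsBar E K) : pointsMap E F ι (resGal F ι σ • P) = σ • pointsMap E F ι P := by
  rcases P with _ | ⟨x, y, h⟩
  · rfl
  · show Affine.Point.map (W' := E) ι (Affine.Point.map (W' := E) _ (.some x y h)) =
      Affine.Point.map (W' := E) _ (Affine.Point.map (W' := E) ι (.some x y h))
    simp only [Affine.Point.map_some, Affine.Point.some.injEq]
    exact ⟨resGal_commutes F ι σ x, resGal_commutes F ι σ y⟩

/-- `ξ : G_K → E(K̄)` becomes a coboundary on every decomposition group of the place with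
completion `F`. -/
def LocTrivAt (F : Type*) [Field F] [Algebra K F] (ξ : GalBar K → PointsBar E K) : Prop :=
  ∀ ι : Emb K F, ∃ Q : PointsBar E F, ∀ σ : GalBar F, pointsMap E F ι (ξ (resGal F ι σ)) = σ • Q - Q

lemma mem_locKer_iff (F : Type*) [Field F] [Algebra K F] (ξ : Z1 (GalBar K) (PointsBar E K)) :
    H1.mk ξ ∈ locKer E F ↔ LocTrivAt E F ξ.1 := by
  unfold locKer LocTrivAt
  rw [AddSubgroup.mem_iInf]
  refine forall_congr' fun ι => ?_
  rw [AddMonoidHom.mem_ker, locRes, H1.map_mk, H1.mk_eq_zero_iff]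
  rfl

/-- A cocycle with values in `E[p^∞]`, seen as a cocycle with values in `E(K̄)`. -/
def Z1.incl (p : ℕ) (ξ : Z1 (GalBar K) (primaryTorsion p (PointsBar E K))) :
    Z1 (GalBar K) (PointsBar E K) :=
  ⟨fun σ => (ξ.1 σ).1, (Z1.isLocallyConstant ξ).comp _, fun g h => by
    show (ξ.1 (g * h)).1 = (ξ.1 g).1 + g • (ξ.1 h).1
    rw [Z1.map_mul]; rfl⟩

lemma torsToWC_mk (p : ℕ) (ξ : Z1 (GalBar K) (primaryTorsion p (PointsBar E K))) :
    torsToWC E p K (H1.mk ξ) = H1.mk (Z1.incl E p ξ) := rfl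

end Unfold

section UnfoldQ

variable (E : WeierstrassCurve ℚ)

/-- Locally trivial at all places of `ℚ`. -/
def LocTriv (ξ : GalBar ℚ → PointsBar E ℚ) : Prop :=
  (∀ (ℓ : ℕ) (_ : Fact ℓ.Prime), LocTrivAt E ℚ_[ℓ] ξ) ∧ LocTrivAt E ℝ ξ

/-- A class lies in `Ш(E/ℚ)` iff its cocycles are coboundaries on all decomposition groups. -/
lemma mem_Sha_iff (ξ : Z1 (GalBar ℚ) (PointsBar E ℚ)) : H1.mk ξ ∈ Sha E ↔ LocTriv E ξ.1 := by
  unfold Sha LocTriv
  rw [AddSubgroup.mem_inf, AddSubgroup.mem_iInf, mem_locKer_iff]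
  refine and_congr (forall_congr' fun ℓ => ?_) Iff.rfl
  rw [AddSubgroup.mem_iInf]
  refine forall_congr' fun hℓ => ?_
  rw [mem_locKer_iff]

/-- A class of `H¹(ℚ, E[p^∞])` lies in `Sel_{p^∞}(E/ℚ)` iff its cocycles become coboundaries in
`E(ℚ̄ᵥ)` on all decomposition groups. -/
lemma mem_Selmer_iff (p : ℕ) (ξ : Z1 (GalBar ℚ) (primaryTorsion p (PointsBar E ℚ))) :
    H1.mk ξ ∈ Selmer E p ↔ LocTriv E (fun σ => (ξ.1 σ).1) := by
  unfold Selmer
  rw [AddSubgroup.mem_comap, torsToWC_mk, mem_Sha_iff]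
  rfl

end UnfoldQ

end

end Claimed.Open.R002
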