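import Mathlib

/-!
# Sanity, part 2: quadratic Kummer theory

A continuous character `χ : Gal(K/k) → {±1}` of a (possibly infinite) Galois extension is
`σ ↦ σ α / α` for some `α ∈ Kˣ`.  Used for the checked example `SanityE0Selmer.lean`.
-/

set_option autoImplicit false

namespace Claimed.Open.R002

/-- Quadratic Kummer theory for an arbitrary (possibly infinite) Galois extension `K/k`:
a continuous character `χ : Gal(K/k) → {±1}` is of the form `σ ↦ σ α / α`. -/
theorem exists_kummer_generator {k K : Type*} [Field k] [Field K] [Algebra k K] [IsGalois k K]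
    (χ : (K ≃ₐ[k] K) →* ℤˣ) (hχ : IsOpen (χ.ker : Set (K ≃ₐ[k] K))) :
    ∃ α : K, α ≠ 0 ∧ ∀ σ : K ≃ₐ[k] K, σ α = ((χ σ : ℤ) : K) * α := by
  by_cases h : ∀ σ, χ σ = 1
  · exact ⟨1, one_ne_zero, fun σ => by simp [h σ]⟩
  push Not at h
  obtain ⟨σ₀, hσ₀⟩ := h
  have hσ₀' : χ σ₀ = -1 := (Int.units_eq_one_or (χ σ₀)).resolve_left hσ₀
  let H : ClosedSubgroup (K ≃ₐ[k] K) := ⟨χ.ker, Subgroup.isClosed_of_isOpen _ hχ⟩
  have hH : (IntermediateField.fixedField H.toSubgroup).fixingSubgroup = χ.ker :=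
    InfiniteGalois.fixingSubgroup_fixedField H
  obtain ⟨β, hβ, hβ'⟩ : ∃ β : K, (∀ τ ∈ χ.ker, τ β = β) ∧ σ₀ β ≠ β := by
    by_contra hcon
    push Not at hcon
    have : σ₀ ∈ (IntermediateField.fixedField H.toSubgroup).fixingSubgroup := by
      rw [IntermediateField.mem_fixingSubgroup_iff]
      intro x hx
      apply hcon
      intro τ hτ
      exact (IntermediateField.mem_fixedField_iff _ _).mp hx τ hτ
    rw [hH, MonoidHom.mem_ker] at this
    exact hσ₀ this
  refine ⟨β - σ₀ β, sub_ne_zero.mpr (Ne.symm hβ'), fun σ => ?_⟩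
  rcases Int.units_eq_one_or (χ σ) with h1 | h1
  · have e1 : σ β = β := hβ σ (by rw [MonoidHom.mem_ker, h1])
    have e2 : (σ₀⁻¹ * σ * σ₀) β = β := hβ _ (by
      rw [MonoidHom.mem_ker]; simp [h1])
    have e3 : σ (σ₀ β) = σ₀ β := by
      have : σ₀ ((σ₀⁻¹ * σ * σ₀) β) = σ (σ₀ β) := by
        simp [AlgEquiv.mul_apply]
      rw [← this, e2]
    simp [h1, e1, e3]
  · have e1 : (σ₀⁻¹ * σ) β = β := hβ _ (by
      rw [MonoidHom.mem_ker]; simp [h1, hσ₀'])
    have e1' : σ β = σ₀ β := by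
      have : σ₀ ((σ₀⁻¹ * σ) β) = σ β := by simp [AlgEquiv.mul_apply]
      rw [← this, e1]
    have e2 : (σ * σ₀) β = β := hβ _ (by
      rw [MonoidHom.mem_ker]; simp [h1, hσ₀'])
    have e2' : σ (σ₀ β) = β := e2
    simp [h1, e1', e2']

end Claimed.Open.R002
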