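import Claimed.Open.R002.SanityCoh
import Claimed.Open.R002.SanityCurve
import Claimed.Open.R002.SanityKummer
import Claimed.Open.R002.SanityLocal

/-!
# Sanity, part 5: Galois action on the points of `E₀`, Galois descent of scalars
-/

set_option autoImplicit false

namespace Claimed.Open.R002

open WeierstrassCurve

noncomputable section

attribute [local instance] Classical.propDecidable

section Action

variable (F : Type*) [Field F] [Algebra ℚ F]

lemma map_eqn {A B Φ : Type*} [Field A] [Field B] [FunLike Φ A B] [RingHomClass Φ A B] (f : Φ)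
    {x y : A} (h : y ^ 2 = x ^ 3 - x) : (f y) ^ 2 = (f x) ^ 3 - f x := by
  rw [← map_pow, h, map_sub, map_pow]

lemma smul_pt (σ : GalBar F) {x y : AlgebraicClosure F} (h : y ^ 2 = x ^ 3 - x) :
    σ • (pt x y h : PointsBar E₀ F) = pt (σ x) (σ y) (map_eqn σ h) := rfl

lemma pointsMap_pt (ι : Emb ℚ F) {x y : AlgebraicClosure ℚ} (h : y ^ 2 = x ^ 3 - x) :
    pointsMap E₀ F ι (pt x y h : PointsBar E₀ ℚ) = pt (ι x) (ι y) (map_eqn ι h) := rfl

lemma smul_T1 (σ : GalBar F) : σ • (T1 : PointsBar E₀ F) = T1 := by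
  unfold T1; rw [smul_pt]; exact pt_eq_pt (map_zero σ) (map_zero σ)
lemma smul_T2 (σ : GalBar F) : σ • (T2 : PointsBar E₀ F) = T2 := by
  unfold T2; rw [smul_pt]; exact pt_eq_pt (map_one σ) (map_zero σ)
lemma smul_T3 (σ : GalBar F) : σ • (T3 : PointsBar E₀ F) = T3 := by
  unfold T3; rw [smul_pt]; exact pt_eq_pt (by rw [map_neg, map_one]) (map_zero σ)

lemma smul_two_torsion (σ : GalBar F) (T : PointsBar E₀ F) (hT : T + T = 0) : σ • T = T := by
  rcases two_torsion T hT with rfl | rfl | rfl | rfl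
  · exact smul_zero σ
  · exact smul_T1 F σ
  · exact smul_T2 F σ
  · exact smul_T3 F σ

lemma pointsMap_T1 (ι : Emb ℚ F) : pointsMap E₀ F ι T1 = T1 := by
  unfold T1; rw [pointsMap_pt]; exact pt_eq_pt (map_zero ι) (map_zero ι)
lemma pointsMap_T2 (ι : Emb ℚ F) : pointsMap E₀ F ι T2 = T2 := by
  unfold T2; rw [pointsMap_pt]; exact pt_eq_pt (map_one ι) (map_zero ι)
lemma pointsMap_T3 (ι : Emb ℚ F) : pointsMap E₀ F ι T3 = T3 := by
  unfold T3; rw [pointsMap_pt]; exact pt_eq_pt (by rw [map_neg, map_one]) (map_zero ι)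

lemma e1_pointsMap (ι : Emb ℚ F) (T : PointsBar E₀ ℚ) (hT : T + T = 0) :
    e1 (pointsMap E₀ F ι T) = e1 T := by
  rcases two_torsion T hT with rfl | rfl | rfl | rfl
  · rw [map_zero]; simp
  · rw [pointsMap_T1]; simp
  · rw [pointsMap_T2]; simp
  · rw [pointsMap_T3]; simp

lemma e3_pointsMap (ι : Emb ℚ F) (T : PointsBar E₀ ℚ) (hT : T + T = 0) :
    e3 (pointsMap E₀ F ι T) = e3 T := by
  rcases two_torsion T hT with rfl | rfl | rfl | rfl
  · rw [map_zero]; simp
  · rw [pointsMap_T1]; simp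
  · rw [pointsMap_T2]; simp
  · rw [pointsMap_T3]; simp

lemma map_g1 {A B Φ : Type*} [Field A] [Field B] [FunLike Φ A B] [RingHomClass Φ A B] (f : Φ)
    (x y : A) : f (g1 x y) = g1 (f x) (f y) := by
  simp [g1, map_div₀, map_add, map_pow, map_mul, map_ofNat]
lemma map_g2 {A B Φ : Type*} [Field A] [Field B] [FunLike Φ A B] [RingHomClass Φ A B] (f : Φ)
    (x y : A) : f (g2 x y) = g2 (f x) (f y) := by
  simp [g2, map_div₀, map_sub, map_pow, map_mul, map_ofNat]
lemma map_g3 {A B Φ : Type*} [Field A] [Field B] [FunLike Φ A B] [RingHomClass Φ A B] (f : Φ)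
    (x y : A) : f (g3 x y) = g3 (f x) (f y) := by
  simp [g3, map_div₀, map_add, map_sub, map_pow, map_mul, map_ofNat]

end Action

section Descent

variable (F : Type*) [Field F] [CharZero F]

lemma exists_of_fixed (z : AlgebraicClosure F) (hz : ∀ σ : GalBar F, σ z = z) :
    ∃ t : F, algebraMap F (AlgebraicClosure F) t = z :=
  (InfiniteGalois.mem_range_algebraMap_iff_fixed z).mpr hz

lemma unit_cast_ne_zero {A : Type*} [Field A] [CharZero A] (ε : ℤˣ) : ((ε : ℤ) : A) ≠ 0 := by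
  rcases Int.units_eq_one_or ε with rfl | rfl <;> simp

lemma exists_ratio (γ a : AlgebraicClosure F) (ha : a ≠ 0) (ε : GalBar F → ℤˣ)
    (hγ : ∀ σ, σ γ = ((ε σ : ℤ) : AlgebraicClosure F) * γ)
    (hα : ∀ σ, σ a = ((ε σ : ℤ) : AlgebraicClosure F) * a) :
    ∃ t : F, γ = algebraMap F (AlgebraicClosure F) t * a := by
  obtain ⟨t, ht⟩ := exists_of_fixed F (γ / a) (fun σ => by
    rw [map_div₀, hγ, hα, mul_div_mul_left _ _ (unit_cast_ne_zero _)])
  exact ⟨t, by rw [ht, div_mul_cancel₀ _ ha]⟩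

end Descent

end

end Claimed.Open.R002
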