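import Claimed.Open.R002.SanityE0LocalConseq

/-!
# Sanity, part 8: the coboundaries of the points of order four of `E₀`
-/

set_option autoImplicit false

namespace Claimed.Open.R002

open WeierstrassCurve

noncomputable section

attribute [local instance] Classical.propDecidable
attribute [-instance] DivisionRing.toRatAlgebra

local notation "Kb" => AlgebraicClosure ℚ

lemma unit_eq_of_cast_eq {A : Type*} [Field A] [CharZero A] {ε ε' : ℤˣ}
    (h : ((ε : ℤ) : A) = ((ε' : ℤ) : A)) : ε = ε' := by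
  have : (ε : ℤ) = (ε' : ℤ) := by exact_mod_cast h
  exact Units.ext this

lemma sign_of_root (α β : Kb) (hα : α ≠ 0) (c : ℚ)
    (h : α ^ 2 = (algebraMap ℚ Kb c * β) ^ 2) (ε : ℤˣ) (τ : GalBar ℚ)
    (hτ : τ α = ((ε : ℤ) : Kb) * α) : τ β = ((ε : ℤ) : Kb) * β := by
  have hfac : (α - algebraMap ℚ Kb c * β) * (α + algebraMap ℚ Kb c * β) = 0 := by
    linear_combination h
  have hc : algebraMap ℚ Kb c ≠ 0 := by
    intro e
    rw [e] at h
    apply hα
    have : α ^ 2 = 0 := by rw [h]; ring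
    simpa using this
  have hτc : τ (algebraMap ℚ Kb c) = algebraMap ℚ Kb c := τ.commutes c
  rcases mul_eq_zero.mp hfac with e | e
  · have e' : α = algebraMap ℚ Kb c * β := by linear_combination e
    rw [e', map_mul, hτc] at hτ
    apply mul_left_cancel₀ hc
    linear_combination hτ
  · have e' : α = -(algebraMap ℚ Kb c * β) := by linear_combination e
    rw [e', map_neg, map_mul, hτc] at hτ
    apply mul_left_cancel₀ hc
    linear_combination -hτ

lemma four_smul_eq (R : PointsBar E₀ ℚ) : 4 • R = (R + R) + (R + R) := by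
  rw [show (4 : ℕ) = 2 + 2 from rfl, add_smul, two_smul]

lemma exists_R1 (β : Kb) (hβ : β = 1 ∨ β ^ 2 = -1) (ε : GalBar ℚ → ℤˣ)
    (h : ∀ τ : GalBar ℚ, τ β = ((ε τ : ℤ) : Kb) * β) :
    ∃ R : PointsBar E₀ ℚ, 4 • R = 0 ∧ ∀ τ : GalBar ℚ, ∃ T : PointsBar E₀ ℚ,
      τ • R = R + T ∧ T + T = 0 ∧ e1 T = ε τ ∧ e3 T = 1 := by
  rcases hβ with rfl | hI
  · refine ⟨0, nsmul_zero _, fun τ => ⟨0, by simp, by simp, ?_, by simp⟩⟩
    have := h τ
    rw [map_one, mul_one] at this
    rw [e1_zero]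
    apply unit_eq_of_cast_eq (A := Kb)
    simpa using this
  · refine ⟨pt β (1 - β) (eqn_Q1 hI), ?_, fun τ => ?_⟩
    · rw [four_smul_eq, Q1_add_Q1 hI, T1_add_T1]
    · rcases Int.units_eq_one_or (ε τ) with e | e
      · refine ⟨0, ?_, by simp, by simp [e], by simp⟩
        have hτ : τ β = β := by rw [h τ, e]; simp
        rw [smul_pt, add_zero]
        exact pt_eq_pt hτ (by rw [map_sub, map_one, hτ])
      · refine ⟨T3, ?_, T3_add_T3, by simp [e], by simp⟩
        have hτ : τ β = -β := by rw [h τ, e]; simp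
        rw [smul_pt, Q1_add_T3 hI]
        exact pt_eq_pt hτ (by rw [map_sub, map_one, hτ]; ring)

lemma exists_R3 (β : Kb) (hβ : β = 1 ∨ β ^ 2 = 2) (ε : GalBar ℚ → ℤˣ)
    (h : ∀ τ : GalBar ℚ, τ β = ((ε τ : ℤ) : Kb) * β) :
    ∃ R : PointsBar E₀ ℚ, 4 • R = 0 ∧ ∀ τ : GalBar ℚ, ∃ T : PointsBar E₀ ℚ,
      τ • R = R + T ∧ T + T = 0 ∧ e1 T = 1 ∧ e3 T = ε τ := by
  rcases hβ with rfl | hr
  · refine ⟨0, nsmul_zero _, fun τ => ⟨0, by simp, by simp, by simp, ?_⟩⟩
    have := h τ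
    rw [map_one, mul_one] at this
    rw [e3_zero]
    apply unit_eq_of_cast_eq (A := Kb)
    simpa using this
  · refine ⟨pt (1 + β) (2 + β) (eqn_Q2 hr), ?_, fun τ => ?_⟩
    · rw [four_smul_eq, Q2_add_Q2 hr, T2_add_T2]
    · rcases Int.units_eq_one_or (ε τ) with e | e
      · refine ⟨0, ?_, by simp, by simp, by simp [e]⟩
        have hτ : τ β = β := by rw [h τ, e]; simp
        rw [smul_pt, add_zero]
        exact pt_eq_pt (by rw [map_add, map_one, hτ]) (by rw [map_add, map_ofNat, hτ])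
      · refine ⟨T1, ?_, T1_add_T1, by simp, by simp [e]⟩
        have hτ : τ β = -β := by rw [h τ, e]; simp
        rw [smul_pt, Q2_add_T1 hr]
        exact pt_eq_pt (by rw [map_add, map_one, hτ]; ring) (by rw [map_add, map_ofNat, hτ]; ring)

end

end Claimed.Open.R002
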