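import Claimed.Open.R002.SanityCoboundary
import Claimed.Open.R002.SanityE0TwoDescent

/-!
# Sanity, part 11: from `E₀[2]` to `E₀[2ⁿ]`
-/

set_option autoImplicit false

namespace Claimed.Open.R002

open WeierstrassCurve

noncomputable section

attribute [local instance] Classical.propDecidable
attribute [-instance] DivisionRing.toRatAlgebra

local instance algQp' (p : ℕ) [Fact p.Prime] : Algebra ℚ ℚ_[p] := DivisionRing.toRatAlgebra
local instance algR' : Algebra ℚ ℝ := DivisionRing.toRatAlgebra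

lemma exists_div_two_pow (n : ℕ) (P : PointsBar E₀ ℚ) : ∃ Q : PointsBar E₀ ℚ, 2 ^ n • Q = P := by
  induction n generalizing P with
  | zero => exact ⟨P, by simp⟩
  | succ n ih =>
    obtain ⟨Q, hQ⟩ := exists_half P
    obtain ⟨Q', hQ'⟩ := ih Q
    refine ⟨Q', ?_⟩
    rw [pow_succ, mul_comm, mul_nsmul', hQ', two_nsmul, hQ]

/-- Every everywhere locally trivial continuous cocycle with values in `E₀[2ⁿ]` is the coboundary
of a point of `E₀[2^∞]`. -/
theorem descent_induction (n : ℕ) : ∀ ξ : Z1 (GalBar ℚ) (PointsBar E₀ ℚ),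
    (∀ τ, 2 ^ n • ξ.1 τ = 0) → LocTriv E₀ ξ.1 →
    ∃ R : PointsBar E₀ ℚ, (∃ m : ℕ, 2 ^ m • R = 0) ∧ ∀ τ : GalBar ℚ, ξ.1 τ = τ • R - R := by
  induction n with
  | zero =>
    intro ξ h _
    exact ⟨0, ⟨0, by simp⟩, fun τ => by simpa using h τ⟩
  | succ n ih =>
    intro ξ h hloc
    -- `η = 2ⁿ ξ` has values in `E₀[2]`
    have hη : ∀ τ, (2 ^ n • ξ).1 τ = 2 ^ n • ξ.1 τ := fun τ => rfl
    obtain ⟨R₀, hR₀, hη'⟩ := two_descent (2 ^ n • ξ)
      (fun τ => by rw [hη, ← two_nsmul, ← mul_nsmul', ← pow_succ']; exact h τ)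
      (hloc.nsmul E₀ (2 ^ n))
    obtain ⟨R', hR'⟩ := exists_div_two_pow n R₀
    obtain ⟨R'', ⟨m, hm⟩, hR''⟩ := ih (ξ - cob E₀ ℚ R')
      (fun τ => by
        show 2 ^ n • (ξ.1 τ - (τ • R' - R')) = 0
        rw [nsmul_sub, ← hη, hη', nsmul_sub, ← smul_nsmul_comm, hR', sub_self])
      (hloc.sub E₀ (LocTriv.cob E₀ R'))
    refine ⟨R' + R'', ⟨n + 2 + m, ?_⟩, fun τ => ?_⟩
    · have h1 : 2 ^ (n + 2 + m) • R' = 0 := by
        rw [show n + 2 + m = m + 2 + n by ring, pow_add, mul_nsmul', hR', pow_add, mul_nsmul']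
        norm_num
        rw [hR₀, nsmul_zero]
      have h2 : 2 ^ (n + 2 + m) • R'' = 0 := by
        rw [pow_add, mul_nsmul', hm, nsmul_zero]
      rw [nsmul_add, h1, h2, add_zero]
    · have : ξ.1 τ - (τ • R' - R') = τ • R'' - R'' := hR'' τ
      rw [smul_add]
      calc ξ.1 τ = (ξ.1 τ - (τ • R' - R')) + (τ • R' - R') := by abel
        _ = τ • R' + τ • R'' - (R' + R'') := by rw [this]; abel

end

end Claimed.Open.R002
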