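import Claimed.Open.R002.SanityE0Action

/-!
# Sanity, part 6: the local step of the `2`-descent on `E₀ : y² = x³ - x`

If an `E₀[2]`-valued cocycle with Kummer parameters `(d₁, d₃)` becomes a coboundary in `E₀(F̄)` on
the decomposition group of a place with completion `F`, then `(d₁, d₃)` satisfies the explicit
condition `LocalCond F d₁ d₃`.
-/

set_option autoImplicit false

namespace Claimed.Open.R002

open WeierstrassCurve

noncomputable section

attribute [local instance] Classical.propDecidable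
attribute [-instance] DivisionRing.toRatAlgebra

/-- The local condition at a place with completion `F` on a pair `(d₁, d₃)` of rational numbers
(classes in `ℚˣ/ℚˣ²`): it comes from a point of `E₀(F)` under the `2`-descent map. -/
def LocalCond (F : Type*) [Field F] [Algebra ℚ F] (d1 d3 : ℚ) : Prop :=
  (∃ t1 t3 : F, algebraMap ℚ F d1 = t1 ^ 2 ∧ algebraMap ℚ F d3 = t3 ^ 2) ∨
  ∃ X Y t1 t1' t3 t3' : F, Y ^ 2 = X ^ 3 - X ∧ X = algebraMap ℚ F d1 * t1 ^ 2 ∧
    X ^ 2 - 1 = algebraMap ℚ F d1 * t1' ^ 2 ∧ X + 1 = algebraMap ℚ F d3 * t3 ^ 2 ∧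
    X ^ 2 - X = algebraMap ℚ F d3 * t3' ^ 2

section LocalLemma

variable (F : Type*) [Field F] [Algebra ℚ F] [CharZero F]

theorem localCond_of_locTriv
    (ξ : GalBar ℚ → PointsBar E₀ ℚ) (h2 : ∀ τ, ξ τ + ξ τ = 0)
    (α1 α3 : AlgebraicClosure ℚ) (hα1 : α1 ≠ 0) (hα3 : α3 ≠ 0)
    (h1 : ∀ τ : GalBar ℚ, τ α1 = ((e1 (ξ τ) : ℤ) : AlgebraicClosure ℚ) * α1)
    (h3 : ∀ τ : GalBar ℚ, τ α3 = ((e3 (ξ τ) : ℤ) : AlgebraicClosure ℚ) * α3)
    (d1 d3 : ℚ) (hd1 : algebraMap ℚ (AlgebraicClosure ℚ) d1 = α1 ^ 2)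
    (hd3 : algebraMap ℚ (AlgebraicClosure ℚ) d3 = α3 ^ 2)
    (ι : Emb ℚ F) (Q : PointsBar E₀ F)
    (hQ : ∀ σ : GalBar F, pointsMap E₀ F ι (ξ (resGal F ι σ)) = σ • Q - Q) :
    LocalCond F d1 d3 := by
  have hinj : Function.Injective (algebraMap F (AlgebraicClosure F)) :=
    (algebraMap F (AlgebraicClosure F)).injective
  -- the local 2-torsion valued cocycle and its signs
  set T : GalBar F → PointsBar E₀ F := fun σ => pointsMap E₀ F ι (ξ (resGal F ι σ)) with hT
  have hT2 : ∀ σ, T σ + T σ = 0 := fun σ => by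
    simp only [hT]; rw [← map_add, h2, map_zero]
  have hσQ : ∀ σ : GalBar F, σ • Q = Q + T σ := fun σ => by
    have := hQ σ
    simp only [hT]; rw [this]; abel
  have ha1 : ∀ σ : GalBar F, σ (ι α1) = ((e1 (T σ) : ℤ) : AlgebraicClosure F) * ι α1 := fun σ => by
    simp only [hT]
    rw [e1_pointsMap F ι _ (h2 _), ← resGal_commutes, h1, map_mul, map_intCast]
  have ha3 : ∀ σ : GalBar F, σ (ι α3) = ((e3 (T σ) : ℤ) : AlgebraicClosure F) * ι α3 := fun σ => by
    simp only [hT]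
    rw [e3_pointsMap F ι _ (h2 _), ← resGal_commutes, h3, map_mul, map_intCast]
  have hιa1 : ι α1 ≠ 0 := (map_ne_zero ι).mpr hα1
  have hιa3 : ι α3 ≠ 0 := (map_ne_zero ι).mpr hα3
  have hD1 : algebraMap F (AlgebraicClosure F) (algebraMap ℚ F d1) = (ι α1) ^ 2 := by
    rw [← IsScalarTower.algebraMap_apply, ← map_pow, ← hd1, AlgHom.commutes]
  have hD3 : algebraMap F (AlgebraicClosure F) (algebraMap ℚ F d3) = (ι α3) ^ 2 := by
    rw [← IsScalarTower.algebraMap_apply, ← map_pow, ← hd3, AlgHom.commutes]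
  by_cases hQ2 : Q + Q = 0
  · -- `Q` is rational, the cocycle is locally zero
    left
    have hT0 : ∀ σ, T σ = 0 := fun σ => by
      have := hσQ σ
      rw [smul_two_torsion F σ Q hQ2] at this
      exact (add_eq_left.mp this.symm)
    obtain ⟨t1, ht1⟩ := exists_of_fixed F (ι α1) (fun σ => by rw [ha1, hT0]; simp)
    obtain ⟨t3, ht3⟩ := exists_of_fixed F (ι α3) (fun σ => by rw [ha3, hT0]; simp)
    refine ⟨t1, t3, hinj ?_, hinj ?_⟩
    · rw [hD1, map_pow, ht1]
    · rw [hD3, map_pow, ht3]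
  · right
    have hQ0 : Q ≠ 0 := by rintro rfl; exact hQ2 (add_zero 0)
    obtain ⟨x, y, h, rfl⟩ := exists_pt Q hQ0
    have hy : y ≠ 0 := by
      rintro rfl
      exact hQ2 (pt_add_self_of_y_eq_zero h)
    -- transformation of the g's
    have hg : ∀ σ : GalBar F,
        σ (g1 x y) = ((e1 (T σ) : ℤ) : AlgebraicClosure F) * g1 x y ∧
        σ (g2 x y) = ((e1 (T σ) : ℤ) : AlgebraicClosure F) * ((e3 (T σ) : ℤ) : AlgebraicClosure F)
          * g2 x y ∧
        σ (g3 x y) = ((e3 (T σ) : ℤ) : AlgebraicClosure F) * g3 x y := fun σ => by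
      rw [map_g1, map_g2, map_g3]
      exact g_add (T σ) (hT2 σ) h hy (map_eqn σ h) (by rw [← smul_pt]; exact hσQ σ)
    have hsq : ∀ ε : ℤˣ, ((ε : ℤ) : AlgebraicClosure F) * ((ε : ℤ) : AlgebraicClosure F) = 1 := by
      intro ε
      rcases Int.units_eq_one_or ε with rfl | rfl <;> simp
    obtain ⟨XL, YL, h₃, e2Q, hXL⟩ := two_pt h hy
    have hfix : ∀ σ : GalBar F, σ XL = XL ∧ σ YL = YL := fun σ => by
      have e : σ • (pt XL YL h₃ : PointsBar E₀ F) = pt XL YL h₃ := by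
        rw [← e2Q, smul_add, hσQ σ]
        have := hT2 σ
        calc pt x y h + T σ + (pt x y h + T σ) = pt x y h + pt x y h + (T σ + T σ) := by abel
          _ = pt x y h + pt x y h := by rw [this, add_zero]
      rw [smul_pt] at e
      exact pt_inj e
    obtain ⟨X, hX⟩ := exists_of_fixed F XL (fun σ => (hfix σ).1)
    obtain ⟨Y, hY⟩ := exists_of_fixed F YL (fun σ => (hfix σ).2)
    obtain ⟨t1, ht1⟩ := exists_ratio F (g1 x y) (ι α1) hιa1 (fun σ => e1 (T σ))
      (fun σ => (hg σ).1) ha1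
    obtain ⟨t1', ht1'⟩ := exists_ratio F (g2 x y * g3 x y) (ι α1) hιa1 (fun σ => e1 (T σ))
      (fun σ => by
        rw [map_mul, (hg σ).2.1, (hg σ).2.2]
        linear_combination (((e1 (T σ) : ℤ) : AlgebraicClosure F) * g2 x y * g3 x y) * hsq (e3 (T σ)))
      ha1
    obtain ⟨t3, ht3⟩ := exists_ratio F (g3 x y) (ι α3) hιa3 (fun σ => e3 (T σ))
      (fun σ => (hg σ).2.2) ha3
    obtain ⟨t3', ht3'⟩ := exists_ratio F (g1 x y * g2 x y) (ι α3) hιa3 (fun σ => e3 (T σ))
      (fun σ => by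
        rw [map_mul, (hg σ).2.1, (hg σ).1]
        linear_combination (((e3 (T σ) : ℤ) : AlgebraicClosure F) * g1 x y * g2 x y) * hsq (e1 (T σ)))
      ha3
    have hg2 := g2_sq h hy
    have hg3 := g3_sq h hy
    refine ⟨X, Y, t1, t1', t3, t3', hinj ?_, hinj ?_, hinj ?_, hinj ?_, hinj ?_⟩
    · simp only [map_pow, map_sub, hX, hY]; exact h₃
    · simp only [map_pow, map_mul, hX, hD1]
      rw [hXL, ht1]; ring
    · simp only [map_pow, map_mul, map_sub, map_one, hX, hD1]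
      have : (g2 x y * g3 x y) ^ 2 = XL ^ 2 - 1 := by
        rw [mul_pow, hg2, hg3, ← hXL]; ring
      rw [← this, ht1']; ring
    · simp only [map_pow, map_mul, map_add, map_one, hX, hD3]
      rw [hXL, ← hg3, ht3]; ring
    · simp only [map_pow, map_mul, map_sub, hX, hD3]
      have : (g1 x y * g2 x y) ^ 2 = XL ^ 2 - XL := by
        rw [mul_pow, hg2, ← hXL]; ring
      rw [← this, ht3']; ring

end LocalLemma

end

end Claimed.Open.R002
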