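import Claimed.Open.R002.SanityE0LocalCond

/-!
# Sanity, part 7: what `LocalCond` says over `ℚ_p` and over `ℝ`
-/

set_option autoImplicit false

namespace Claimed.Open.R002

open WeierstrassCurve

noncomputable section

section Consequences

variable {p : ℕ} [hp : Fact p.Prime]

lemma even_padicValRat_of_eq_mul_sq {d : ℚ} (hd : d ≠ 0) {Z t : ℚ_[p]} (hZ : Z ≠ 0)
    (hZe : Even Z.valuation) (h : Z = algebraMap ℚ ℚ_[p] d * t ^ 2) : Even (padicValRat p d) := by
  have hd' : algebraMap ℚ ℚ_[p] d ≠ 0 := (map_ne_zero _).mpr hd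
  have ht : t ≠ 0 := by
    rintro rfl
    apply hZ; rw [h]; ring
  have e := congrArg Padic.valuation h
  rw [Padic.valuation_mul hd' (pow_ne_zero 2 ht), Padic.valuation_pow, eq_ratCast,
    Padic.valuation_ratCast] at e
  obtain ⟨k, hk⟩ := hZe
  exact ⟨k - t.valuation, by push_cast at e; omega⟩

theorem LocalCond.even_val_d1 {d1 d3 : ℚ} (h : LocalCond ℚ_[p] d1 d3) (hd1 : d1 ≠ 0) :
    Even (padicValRat p d1) := by
  have vone : Even (1 : ℚ_[p]).valuation := by simp
  rcases h with ⟨t1, t3, h1, h3⟩ | ⟨X, Y, t1, t1', t3, t3', hE, h1, h1', h3, h3'⟩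
  · have ht : t1 ≠ 0 := by
      rintro rfl
      have : algebraMap ℚ ℚ_[p] d1 = 0 := by rw [h1]; ring
      exact hd1 ((map_eq_zero _).mp this)
    refine even_padicValRat_of_eq_mul_sq hd1 one_ne_zero vone (t := t1⁻¹) ?_
    rw [h1]; field_simp
  · by_cases hX : X = 0
    · subst hX
      have vm1 : Even (0 ^ 2 - 1 : ℚ_[p]).valuation := by
        have : ((-1 : ℚ) : ℚ_[p]).valuation = padicValRat p (-1) := Padic.valuation_ratCast _
        rw [padicValRat.neg, padicValRat.one] at this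
        have e : (0 ^ 2 - 1 : ℚ_[p]) = ((-1 : ℚ) : ℚ_[p]) := by norm_num
        rw [e, this]; exact Even.zero
      exact even_padicValRat_of_eq_mul_sq hd1 (by norm_num) vm1 h1'
    · exact even_padicValRat_of_eq_mul_sq hd1 hX (even_val_X hE hX) h1

theorem LocalCond.even_val_d3 {d1 d3 : ℚ} (h : LocalCond ℚ_[p] d1 d3) (hd3 : d3 ≠ 0)
    (hp2 : p ≠ 2) : Even (padicValRat p d3) := by
  have vone : Even (1 : ℚ_[p]).valuation := by simp
  rcases h with ⟨t1, t3, h1, h3⟩ | ⟨X, Y, t1, t1', t3, t3', hE, h1, h1', h3, h3'⟩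
  · have ht : t3 ≠ 0 := by
      rintro rfl
      have : algebraMap ℚ ℚ_[p] d3 = 0 := by rw [h3]; ring
      exact hd3 ((map_eq_zero _).mp this)
    refine even_padicValRat_of_eq_mul_sq hd3 one_ne_zero vone (t := t3⁻¹) ?_
    rw [h3]; field_simp
  · by_cases hX : X + 1 = 0
    · have hX' : X = -1 := by linear_combination hX
      subst hX'
      have v2 : Even ((-1) ^ 2 - (-1) : ℚ_[p]).valuation := by
        have h1 : ((2 : ℕ) : ℚ_[p]).valuation = padicValNat p 2 := Padic.valuation_natCast _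
        have h2 : padicValNat p 2 = 0 := by
          apply padicValNat.eq_zero_of_not_dvd
          intro hd
          exact hp2 ((Nat.prime_dvd_prime_iff_eq hp.1 Nat.prime_two).mp hd)
        have e : ((-1) ^ 2 - (-1) : ℚ_[p]) = ((2 : ℕ) : ℚ_[p]) := by norm_num
        rw [e, h1, h2]; exact Even.zero
      exact even_padicValRat_of_eq_mul_sq hd3 (by norm_num) v2 h3'
    · exact even_padicValRat_of_eq_mul_sq hd3 hX (even_val_X_add_one hp2 hE hX) h3

theorem LocalCond.pos_d3 {d1 d3 : ℚ} (h : LocalCond ℝ d1 d3) (hd3 : d3 ≠ 0) : 0 < d3 := by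
  have key : ∀ (Z t : ℝ), 0 < Z → Z = algebraMap ℚ ℝ d3 * t ^ 2 → 0 < d3 := by
    intro Z t hZ e
    rw [eq_ratCast] at e
    have ht : 0 ≤ t ^ 2 := sq_nonneg t
    have : (0 : ℝ) < d3 := by
      by_contra hcon
      push Not at hcon
      have : (d3 : ℝ) * t ^ 2 ≤ 0 := mul_nonpos_of_nonpos_of_nonneg hcon ht
      linarith
    exact_mod_cast this
  rcases h with ⟨t1, t3, h1, h3⟩ | ⟨X, Y, t1, t1', t3, t3', hE, h1, h1', h3, h3'⟩
  · rw [eq_ratCast] at h3
    have h0 : (0 : ℝ) ≤ d3 := by rw [h3]; exact sq_nonneg t3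
    have : (0 : ℚ) ≤ d3 := by exact_mod_cast h0
    exact lt_of_le_of_ne this (Ne.symm hd3)
  · have hX : 0 ≤ X + 1 := by
      by_contra hcon
      push Not at hcon
      have h1 : X ^ 3 - X < 0 := by nlinarith [sq_nonneg (X + 1), sq_nonneg X]
      have h2 : 0 ≤ Y ^ 2 := sq_nonneg Y
      linarith
    rcases hX.lt_or_eq with hlt | heq
    · exact key _ _ hlt h3
    · have hX' : X = -1 := by linarith
      subst hX'
      exact key _ _ (by norm_num) h3'

end Consequences

end

end Claimed.Open.R002
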