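import Claimed.Open.R002.SanityTamagawaGood
import Claimed.Open.R002.SanityCurve

/-!
# Sanity for R002: `E₀ : y² = x³ - x` is a global minimal equation; its Tamagawa product is `c₂`

* `E₀_isGlobalMinimal`: the equation `y² = x³ - x` (discriminant `64`) is minimal at every prime.
* `tamagawaNumber_E₀_of_odd`: `c_p(E₀) = 1` for odd `p`.
* `tamagawaProduct_E₀`: `∏_ℓ c_ℓ(E₀) = c₂(E₀)`.
-/

set_option autoImplicit false

namespace Claimed.Open.R002

open WeierstrassCurve
open scoped Classical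

/-- The reduction of a minimal equation with coefficients in `R` is the equation modulo `𝔪`. -/
lemma reduction_baseChange (R : Type*) [CommRing R] [IsDomain R] [IsDiscreteValuationRing R]
    (K : Type*) [Field K] [Algebra R K] [IsFractionRing R K] (W₀ : WeierstrassCurve R)
    [IsMinimal R (W₀⁄K)] : (W₀⁄K).reduction R = W₀.map (IsLocalRing.residue R) := by
  have e : integralModel R (W₀⁄K) = W₀ := by
    apply WeierstrassCurve.map_injective (IsFractionRing.injective R K)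
    exact baseChange_integralModel_eq R (W₀⁄K)
  rw [reduction, e]

/-- The equation `y² = x³ - x` over any commutative ring. -/
def E₀over (A : Type*) [CommRing A] : WeierstrassCurve A := ⟨0, 0, 0, -1, 0⟩

lemma E₀_baseChange_eq (A F : Type*) [CommRing A] [Field F] [Algebra ℚ F] [Algebra A F] :
    E₀⁄F = (E₀over A)⁄F := by
  ext <;> simp [E₀over, WeierstrassCurve.baseChange]

lemma E₀_Δ : E₀.Δ = 64 := by
  simp [WeierstrassCurve.Δ, WeierstrassCurve.b₂, WeierstrassCurve.b₄, WeierstrassCurve.b₆,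
    WeierstrassCurve.b₈]
  norm_num

lemma E₀over_Δ (A : Type*) [CommRing A] : (E₀over A).Δ = 64 := by
  simp [E₀over, WeierstrassCurve.Δ, WeierstrassCurve.b₂, WeierstrassCurve.b₄, WeierstrassCurve.b₆,
    WeierstrassCurve.b₈]
  norm_num

section Prime

variable (p : ℕ) [Fact p.Prime]

instance E₀.isIntegral_padic : IsIntegral ℤ_[p] (E₀⁄ℚ_[p]) :=
  ⟨E₀over ℤ_[p], E₀_baseChange_eq ℤ_[p] ℚ_[p]⟩

lemma E₀_integralModel : integralModel ℤ_[p] (E₀⁄ℚ_[p]) = E₀over ℤ_[p] := by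
  apply WeierstrassCurve.map_injective (IsFractionRing.injective ℤ_[p] ℚ_[p])
  show (integralModel ℤ_[p] (E₀⁄ℚ_[p]))⁄ℚ_[p] = (E₀over ℤ_[p])⁄ℚ_[p]
  rw [baseChange_integralModel_eq, E₀_baseChange_eq ℤ_[p] ℚ_[p]]

/-- `y² = x³ - x` is minimal at every prime: its discriminant `64` is not divisible by `p¹²`. -/
instance E₀.isMinimal_padic : IsMinimal ℤ_[p] (E₀⁄ℚ_[p]) := by
  apply isMinimal_of_Δ_notMem
  rw [E₀_integralModel, E₀over_Δ, PadicInt.maximalIdeal_eq_span_p, Ideal.span_singleton_pow,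
    Ideal.mem_span_singleton]
  intro h
  have h' : ((p : ℤ_[p]) ^ 12) ∣ ((64 : ℤ) : ℤ_[p]) := by simpa using h
  rw [PadicInt.pow_p_dvd_int_iff] at h'
  have h2 : (2 : ℤ) ≤ p := by exact_mod_cast (Fact.out : p.Prime).two_le
  have h3 : (2 : ℤ) ^ 12 ≤ (p : ℤ) ^ 12 := pow_le_pow_left₀ (by norm_num) h2 12
  have h4 := Int.le_of_dvd (by norm_num) h'
  norm_num at h3
  linarith

end Prime

/-- `y² = x³ - x` is a global minimal Weierstrass equation. -/
theorem E₀_isGlobalMinimal : IsGlobalMinimal E₀ := fun p _ => E₀.isMinimal_padic p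

lemma badNumber_E₀ : badNumber E₀ = 64 := by
  simp [badNumber, E₀_Δ]

/-- `c_p(E₀) = 1` for every odd prime `p`. -/
theorem tamagawaNumber_E₀_of_odd (p : ℕ) [Fact p.Prime] (hp : p ≠ 2) :
    tamagawaNumber E₀ p = 1 := by
  apply tamagawaNumber_eq_one_of_not_dvd
  rw [badNumber_E₀, show (64 : ℕ) = 2 ^ 6 by norm_num]
  intro h
  exact hp ((Nat.prime_dvd_prime_iff_eq Fact.out Nat.prime_two).mp
    ((Fact.out : p.Prime).dvd_of_dvd_pow h))

/-- `∏_ℓ c_ℓ(E₀) = c₂(E₀)`. -/
theorem tamagawaProduct_E₀ : tamagawaProduct E₀ = tamagawaNumber E₀ 2 := by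
  let two : Nat.Primes := ⟨2, Nat.prime_two⟩
  rw [tamagawaProduct_eq_prod E₀ {two}]
  · rw [Finset.prod_singleton]
    rfl
  · intro ℓ hℓ
    rw [badNumber_E₀, show (64 : ℕ) = 2 ^ 6 by norm_num] at hℓ
    have := (Nat.prime_dvd_prime_iff_eq ℓ.2 Nat.prime_two).mp (ℓ.2.dvd_of_dvd_pow hℓ)
    exact Finset.mem_singleton.mpr (Subtype.ext this)

end Claimed.Open.R002
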