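import Claimed.Open.R002.SanityE0Induction

/-!
# Sanity, part 12: a checked example of the hypothesis of `Statement`

`Sel_{2^∞}(E₀/ℚ) = 0` for `E₀ : y² = x³ - x`, hence `selmerCorank E₀ 2 = 0`: the hypotheses of
`Claimed.Open.R002.Statement` are met by `(E, q, r) = (E₀, 2, 0)`.

The proof is the classical complete `2`-descent, carried out inside the cohomological definitions
of `Statement.lean`:
* a continuous cocycle `G_ℚ → E₀[2^∞]` has values in some `E₀[2ⁿ]` (compactness of `G_ℚ`);
* induction on `n` reduces to cocycles with values in `E₀[2]`, i.e. to pairs of quadratic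
  characters, i.e. (Kummer theory) to pairs `(d₁, d₃)` of classes in `ℚˣ/ℚˣ²`;
* local triviality at `p` forces `v_p(d₁)` even (all `p`) and `v_p(d₃)` even (`p` odd); at the real
  place it forces `d₃ > 0`; so `d₁ ∈ {±1}`, `d₃ ∈ {1, 2}`;
* these four classes are the coboundaries of the points `O`, `(i, 1 - i)`, `(1 + √2, 2 + √2)` and
  their sum, which are killed by `4`.
-/

set_option autoImplicit false

namespace Claimed.Open.R002

open WeierstrassCurve

noncomputable section

attribute [local instance] Classical.propDecidable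
attribute [-instance] DivisionRing.toRatAlgebra

/-- The `2^∞`-Selmer group of `y² = x³ - x` over `ℚ` is trivial. -/
theorem selmer_E₀_two : Selmer E₀ 2 = ⊥ := by
  rw [eq_bot_iff]
  intro c hc
  obtain ⟨ξ, rfl⟩ := H1.mk_surjective c
  rw [mem_Selmer_iff] at hc
  obtain ⟨n, hn⟩ := exists_uniform_exponent E₀ 2 ξ
  obtain ⟨R, hR, h⟩ := descent_induction n (Z1.incl E₀ 2 ξ) hn hc
  rw [AddSubgroup.mem_bot, H1.mk_eq_zero_iff]
  exact ⟨⟨R, hR⟩, fun τ => Subtype.ext (h τ)⟩

/-- A group of bounded `p`-power exponent (e.g. a finite `p`-group, or `0`) has corank `0`. -/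
theorem corank_eq_zero_of_exponent (p : ℕ) [Fact p.Prime] {A : Type*} [AddCommGroup A] (n : ℕ)
    (h : ∀ a : A, p ^ n • a = 0) : corank p A = 0 := by
  unfold corank
  rw [rank_eq_zero_iff]
  intro f
  refine ⟨(p : ℤ_[p]) ^ n, pow_ne_zero _ (by exact_mod_cast (Fact.out : p.Prime).ne_zero), ?_⟩
  ext a
  have : ((p : ℤ_[p]) ^ n) • f a = p ^ n • f a := by
    rw [← Nat.cast_pow, Nat.cast_smul_eq_nsmul]
  rw [AddMonoidHom.smul_apply, this, ← map_nsmul, h, map_zero, AddMonoidHom.zero_apply]

/-- **The hypothesis of `Statement` is met**: the elliptic curve `y² = x³ - x` has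
`s₂(E) = corank_{ℤ₂} Sel_{2^∞}(E/ℚ) = 0`. -/
theorem selmerCorank_E₀_two : selmerCorank E₀ 2 = 0 := by
  unfold selmerCorank
  apply corank_eq_zero_of_exponent 2 0
  rintro ⟨a, ha⟩
  rw [selmer_E₀_two, AddSubgroup.mem_bot] at ha
  subst ha
  simp

/-- The hypotheses of `Statement` hold for `E = E₀ : y² = x³ - x`, `q = 2`, `r = 0`. -/
theorem hypotheses_met : ∃ (E : WeierstrassCurve ℚ) (_ : E.IsElliptic) (q : ℕ) (_ : Fact q.Prime)
    (r : ℕ), r ≤ 1 ∧ selmerCorank E q = (r : Cardinal) :=
  ⟨E₀, inferInstance, 2, inferInstance, 0, by norm_num, by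
    rw [selmerCorank_E₀_two]; simp⟩

end

end Claimed.Open.R002
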