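import Claimed.Open.R002.SanityE0Action
import Claimed.Open.R002.SanityE5Curve

/-!
# Sanity, part E5.2: Galois action on the points of `E₅ : y² = x³ - 25 x`
-/

set_option autoImplicit false

namespace Claimed.Open.R002

open WeierstrassCurve

noncomputable section

attribute [local instance] Classical.propDecidable

section Action

variable (F : Type*) [Field F] [Algebra ℚ F]

lemma map_eqn₅ {A B Φ : Type*} [Field A] [Field B] [FunLike Φ A B] [RingHomClass Φ A B] (f : Φ)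
    {x y : A} (h : y ^ 2 = x ^ 3 - 25 * x) : (f y) ^ 2 = (f x) ^ 3 - 25 * f x := by
  rw [← map_pow, h, map_sub, map_pow, map_mul, map_ofNat]

lemma smul_pt₅ (σ : GalBar F) {x y : AlgebraicClosure F} (h : y ^ 2 = x ^ 3 - 25 * x) :
    σ • (pt₅ x y h : PointsBar E₅ F) = pt₅ (σ x) (σ y) (map_eqn₅ σ h) := rfl

lemma pointsMap_pt₅ (ι : Emb ℚ F) {x y : AlgebraicClosure ℚ} (h : y ^ 2 = x ^ 3 - 25 * x) :
    pointsMap E₅ F ι (pt₅ x y h : PointsBar E₅ ℚ) = pt₅ (ι x) (ι y) (map_eqn₅ ι h) := rfl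

lemma smul_T1₅ (σ : GalBar F) : σ • (T1₅ : PointsBar E₅ F) = T1₅ := by
  unfold T1₅; rw [smul_pt₅]; exact pt_eq_pt₅ (map_zero σ) (map_zero σ)
lemma smul_T2₅ (σ : GalBar F) : σ • (T2₅ : PointsBar E₅ F) = T2₅ := by
  unfold T2₅; rw [smul_pt₅]; exact pt_eq_pt₅ (map_ofNat σ 5) (map_zero σ)
lemma smul_T3₅ (σ : GalBar F) : σ • (T3₅ : PointsBar E₅ F) = T3₅ := by
  unfold T3₅; rw [smul_pt₅]; exact pt_eq_pt₅ (by rw [map_neg, map_ofNat]) (map_zero σ)

lemma smul_two_torsion₅ (σ : GalBar F) (T : PointsBar E₅ F) (hT : T + T = 0) : σ • T = T := by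
  rcases two_torsion₅ T hT with rfl | rfl | rfl | rfl
  · exact smul_zero σ
  · exact smul_T1₅ F σ
  · exact smul_T2₅ F σ
  · exact smul_T3₅ F σ

lemma pointsMap_T1₅ (ι : Emb ℚ F) : pointsMap E₅ F ι T1₅ = T1₅ := by
  unfold T1₅; rw [pointsMap_pt₅]; exact pt_eq_pt₅ (map_zero ι) (map_zero ι)
lemma pointsMap_T2₅ (ι : Emb ℚ F) : pointsMap E₅ F ι T2₅ = T2₅ := by
  unfold T2₅; rw [pointsMap_pt₅]; exact pt_eq_pt₅ (map_ofNat ι 5) (map_zero ι)
lemma pointsMap_T3₅ (ι : Emb ℚ F) : pointsMap E₅ F ι T3₅ = T3₅ := by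
  unfold T3₅; rw [pointsMap_pt₅]; exact pt_eq_pt₅ (by rw [map_neg, map_ofNat]) (map_zero ι)

lemma e1_pointsMap₅ (ι : Emb ℚ F) (T : PointsBar E₅ ℚ) (hT : T + T = 0) :
    e1₅ (pointsMap E₅ F ι T) = e1₅ T := by
  rcases two_torsion₅ T hT with rfl | rfl | rfl | rfl
  · rw [map_zero]; simp
  · rw [pointsMap_T1₅]; simp
  · rw [pointsMap_T2₅]; simp
  · rw [pointsMap_T3₅]; simp

lemma e3_pointsMap₅ (ι : Emb ℚ F) (T : PointsBar E₅ ℚ) (hT : T + T = 0) :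
    e3₅ (pointsMap E₅ F ι T) = e3₅ T := by
  rcases two_torsion₅ T hT with rfl | rfl | rfl | rfl
  · rw [map_zero]; simp
  · rw [pointsMap_T1₅]; simp
  · rw [pointsMap_T2₅]; simp
  · rw [pointsMap_T3₅]; simp

lemma map_g1₅ {A B Φ : Type*} [Field A] [Field B] [FunLike Φ A B] [RingHomClass Φ A B] (f : Φ)
    (x y : A) : f (g1₅ x y) = g1₅ (f x) (f y) := by
  simp [g1₅, map_div₀, map_add, map_pow, map_mul, map_ofNat]
lemma map_g2₅ {A B Φ : Type*} [Field A] [Field B] [FunLike Φ A B] [RingHomClass Φ A B] (f : Φ)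
    (x y : A) : f (g2₅ x y) = g2₅ (f x) (f y) := by
  simp [g2₅, map_div₀, map_sub, map_pow, map_mul, map_ofNat]
lemma map_g3₅ {A B Φ : Type*} [Field A] [Field B] [FunLike Φ A B] [RingHomClass Φ A B] (f : Φ)
    (x y : A) : f (g3₅ x y) = g3₅ (f x) (f y) := by
  simp [g3₅, map_div₀, map_add, map_sub, map_pow, map_mul, map_ofNat]

end Action

section RationalPoints

attribute [-instance] DivisionRing.toRatAlgebra

/-- A point of `E₅(ℚ̄)` with rational coordinates. -/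
def ratPt₅ (X Y : ℚ) (h : Y ^ 2 = X ^ 3 - 25 * X) : PointsBar E₅ ℚ :=
  pt₅ (algebraMap ℚ (AlgebraicClosure ℚ) X) (algebraMap ℚ (AlgebraicClosure ℚ) Y) (by
    rw [← map_pow, h, map_sub, map_pow, map_mul, map_ofNat])

lemma smul_ratPt₅ (τ : GalBar ℚ) (X Y : ℚ) (h : Y ^ 2 = X ^ 3 - 25 * X) :
    τ • ratPt₅ X Y h = ratPt₅ X Y h := by
  unfold ratPt₅
  rw [smul_pt₅]
  exact pt_eq_pt₅ (τ.commutes X) (τ.commutes Y)

/-- The point `P = (-4, 6)` of infinite order of `y² = x³ - 25 x`. -/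
def P₅ : PointsBar E₅ ℚ := ratPt₅ (-4) 6 (by norm_num)

lemma smul_P₅ (τ : GalBar ℚ) : τ • P₅ = P₅ := smul_ratPt₅ τ _ _ _

end RationalPoints

end

end Claimed.Open.R002
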