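import Mathlib

/-!
# Sanity, part E5.0: the local condition of the complete `2`-descent on `E₅ : y² = x³ - 25 x`

`LC₅ F d₁ d₃` says that the `2`-covering `X = d₁ t₁²`, `X - 5 = d₁ d₃ t₂²`, `X + 5 = d₃ t₃²` of
`y² = x (x - 5) (x + 5)` attached to the pair `(d₁, d₃)` of classes in `ℚˣ/ℚˣ²` has a point over `F`
(`X` is eliminated).
-/

set_option autoImplicit false

namespace Claimed.Open.R002

/-- The `2`-covering of `y² = x³ - 25 x` attached to `(d₁, d₃)` has a point over `F`. -/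
def LC₅ (F : Type*) [Field F] [Algebra ℚ F] (d1 d3 : ℚ) : Prop :=
  ∃ t1 t2 t3 : F,
    algebraMap ℚ F d3 * t3 ^ 2 - algebraMap ℚ F d1 * t1 ^ 2 = 5 ∧
    algebraMap ℚ F d1 * t1 ^ 2 - algebraMap ℚ F d1 * algebraMap ℚ F d3 * t2 ^ 2 = 5

end Claimed.Open.R002
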