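import Claimed.Open.R002.SanityE5Action
import Claimed.Open.R002.SanityE5Defs

/-!
# Sanity, part E5.3: the local step of the `2`-descent on `E₅ : y² = x³ - 25 x`

If an `E₅[2]`-valued cocycle with Kummer parameters `(d₁, d₃)` becomes a coboundary in `E₅(F̄)` on
the decomposition group of a place with completion `F`, then the `2`-covering attached to
`(d₁, d₃)` has a point over `F` (`LC₅ F d₁ d₃`).
-/

set_option autoImplicit false

namespace Claimed.Open.R002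

open WeierstrassCurve

noncomputable section

attribute [local instance] Classical.propDecidable
attribute [-instance] DivisionRing.toRatAlgebra

section LocalLemma

variable (F : Type*) [Field F] [Algebra ℚ F] [CharZero F]

theorem lc₅_of_locTriv
    (ξ : GalBar ℚ → PointsBar E₅ ℚ) (h2 : ∀ τ, ξ τ + ξ τ = 0)
    (α1 α3 : AlgebraicClosure ℚ) (hα1 : α1 ≠ 0) (hα3 : α3 ≠ 0)
    (h1 : ∀ τ : GalBar ℚ, τ α1 = ((e1₅ (ξ τ) : ℤ) : AlgebraicClosure ℚ) * α1)
    (h3 : ∀ τ : GalBar ℚ, τ α3 = ((e3₅ (ξ τ) : ℤ) : AlgebraicClosure ℚ) * α3)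
    (d1 d3 : ℚ) (hd1 : algebraMap ℚ (AlgebraicClosure ℚ) d1 = α1 ^ 2)
    (hd3 : algebraMap ℚ (AlgebraicClosure ℚ) d3 = α3 ^ 2)
    (ι : Emb ℚ F) (Q : PointsBar E₅ F)
    (hQ : ∀ σ : GalBar F, pointsMap E₅ F ι (ξ (resGal F ι σ)) = σ • Q - Q) :
    LC₅ F d1 d3 := by
  have hinj : Function.Injective (algebraMap F (AlgebraicClosure F)) :=
    (algebraMap F (AlgebraicClosure F)).injective
  -- the local 2-torsion valued cocycle and its signs
  set T : GalBar F → PointsBar E₅ F := fun σ => pointsMap E₅ F ι (ξ (resGal F ι σ)) with hT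
  have hT2 : ∀ σ, T σ + T σ = 0 := fun σ => by
    simp only [hT]; rw [← map_add, h2, map_zero]
  have hσQ : ∀ σ : GalBar F, σ • Q = Q + T σ := fun σ => by
    have := hQ σ
    simp only [hT]; rw [this]; abel
  have ha1 : ∀ σ : GalBar F, σ (ι α1) = ((e1₅ (T σ) : ℤ) : AlgebraicClosure F) * ι α1 := fun σ => by
    simp only [hT]
    rw [e1_pointsMap₅ F ι _ (h2 _), ← resGal_commutes, h1, map_mul, map_intCast]
  have ha3 : ∀ σ : GalBar F, σ (ι α3) = ((e3₅ (T σ) : ℤ) : AlgebraicClosure F) * ι α3 := fun σ => by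
    simp only [hT]
    rw [e3_pointsMap₅ F ι _ (h2 _), ← resGal_commutes, h3, map_mul, map_intCast]
  have hιa1 : ι α1 ≠ 0 := (map_ne_zero ι).mpr hα1
  have hιa3 : ι α3 ≠ 0 := (map_ne_zero ι).mpr hα3
  have hD1 : algebraMap F (AlgebraicClosure F) (algebraMap ℚ F d1) = (ι α1) ^ 2 := by
    rw [← IsScalarTower.algebraMap_apply, ← map_pow, ← hd1, AlgHom.commutes]
  have hD3 : algebraMap F (AlgebraicClosure F) (algebraMap ℚ F d3) = (ι α3) ^ 2 := by
    rw [← IsScalarTower.algebraMap_apply, ← map_pow, ← hd3, AlgHom.commutes]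
  by_cases hQ2 : Q + Q = 0
  · -- `Q` is rational, the cocycle is locally zero: `d₁`, `d₃` are squares in `F`; use the point `2P`
    have hT0 : ∀ σ, T σ = 0 := fun σ => by
      have := hσQ σ
      rw [smul_two_torsion₅ F σ Q hQ2] at this
      exact (add_eq_left.mp this.symm)
    obtain ⟨t1, ht1⟩ := exists_of_fixed F (ι α1) (fun σ => by rw [ha1, hT0]; simp)
    obtain ⟨t3, ht3⟩ := exists_of_fixed F (ι α3) (fun σ => by rw [ha3, hT0]; simp)
    have e1 : algebraMap ℚ F d1 = t1 ^ 2 := hinj (by rw [hD1, map_pow, ht1])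
    have e3 : algebraMap ℚ F d3 = t3 ^ 2 := hinj (by rw [hD3, map_pow, ht3])
    have ht10 : t1 ≠ 0 := by
      rintro rfl
      rw [map_zero] at ht1
      exact hιa1 ht1.symm
    have ht30 : t3 ≠ 0 := by
      rintro rfl
      rw [map_zero] at ht3
      exact hιa3 ht3.symm
    refine ⟨41 / (12 * t1), 31 / (12 * t1 * t3), 49 / (12 * t3), ?_, ?_⟩
    · rw [e1, e3]; field_simp; norm_num
    · rw [e1, e3]; field_simp; norm_num
  · have hQ0 : Q ≠ 0 := by rintro rfl; exact hQ2 (add_zero 0)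
    obtain ⟨x, y, h, rfl⟩ := exists_pt₅ Q hQ0
    have hy : y ≠ 0 := by
      rintro rfl
      exact hQ2 (pt_add_self_of_y_eq_zero₅ h)
    -- transformation of the g's
    have hg : ∀ σ : GalBar F,
        σ (g1₅ x y) = ((e1₅ (T σ) : ℤ) : AlgebraicClosure F) * g1₅ x y ∧
        σ (g2₅ x y) = ((e1₅ (T σ) : ℤ) : AlgebraicClosure F) * ((e3₅ (T σ) : ℤ) : AlgebraicClosure F)
          * g2₅ x y ∧
        σ (g3₅ x y) = ((e3₅ (T σ) : ℤ) : AlgebraicClosure F) * g3₅ x y := fun σ => by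
      rw [map_g1₅, map_g2₅, map_g3₅]
      exact g_add₅ (T σ) (hT2 σ) h hy (map_eqn₅ σ h) (by rw [← smul_pt₅]; exact hσQ σ)
    obtain ⟨t1, ht1⟩ := exists_ratio F (g1₅ x y) (ι α1) hιa1 (fun σ => e1₅ (T σ))
      (fun σ => (hg σ).1) ha1
    obtain ⟨t2, ht2⟩ := exists_ratio F (g2₅ x y) (ι α1 * ι α3) (mul_ne_zero hιa1 hιa3)
      (fun σ => e1₅ (T σ) * e3₅ (T σ))
      (fun σ => by rw [(hg σ).2.1]; push_cast; ring)
      (fun σ => by rw [map_mul, ha1, ha3]; push_cast; ring)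
    obtain ⟨t3, ht3⟩ := exists_ratio F (g3₅ x y) (ι α3) hιa3 (fun σ => e3₅ (T σ))
      (fun σ => (hg σ).2.2) ha3
    have hg2 := g2_sq₅ h hy
    have hg3 := g3_sq₅ h hy
    refine ⟨t1, t2, t3, hinj ?_, hinj ?_⟩
    · simp only [map_pow, map_mul, map_sub, map_ofNat, hD1, hD3]
      rw [ht1, ht3] at hg3
      linear_combination hg3
    · simp only [map_pow, map_mul, map_sub, map_ofNat, hD1, hD3]
      rw [ht1, ht2] at hg2
      linear_combination -hg2

end LocalLemma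

/-- the generic local step, including the choice of an embedding -/
lemma lc₅_of_locTrivAt (F : Type*) [Field F] [Algebra ℚ F] [CharZero F]
    (ξ : GalBar ℚ → PointsBar E₅ ℚ) (h2 : ∀ τ, ξ τ + ξ τ = 0)
    (α1 α3 : AlgebraicClosure ℚ) (hα1 : α1 ≠ 0) (hα3 : α3 ≠ 0)
    (h1 : ∀ τ : GalBar ℚ, τ α1 = ((e1₅ (ξ τ) : ℤ) : AlgebraicClosure ℚ) * α1)
    (h3 : ∀ τ : GalBar ℚ, τ α3 = ((e3₅ (ξ τ) : ℤ) : AlgebraicClosure ℚ) * α3)
    (d1 d3 : ℚ) (hd1 : algebraMap ℚ (AlgebraicClosure ℚ) d1 = α1 ^ 2)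
    (hd3 : algebraMap ℚ (AlgebraicClosure ℚ) d3 = α3 ^ 2)
    (hloc : LocTrivAt E₅ F ξ) : LC₅ F d1 d3 := by
  let ι : Emb ℚ F := IsAlgClosed.lift
  obtain ⟨Q, hQ⟩ := hloc ι
  exact lc₅_of_locTriv F ξ h2 α1 α3 hα1 hα3 h1 h3 d1 d3 hd1 hd3 ι Q hQ

end

end Claimed.Open.R002
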