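import Claimed.Open.R002.SanityE5Defs
import Claimed.Open.R002.SanityLocal

/-!
# Sanity, part E5.4a: parity of the valuations of a locally soluble pair `(d₁, d₃)`

If the `2`-covering of `E₅ : y² = x³ - 25 x` attached to `(d₁, d₃)` has a point over `ℚ_p`, then
`v_p(d₁)` is even for `p ≠ 5` and `v_p(d₃)` is even for `p ≠ 2, 5`; if it has a real point then
`d₃ > 0`.
-/

set_option autoImplicit false

namespace Claimed.Open.R002

section Padic

variable {p : ℕ} [hp : Fact p.Prime]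

lemma val_int_eq_zero₅ {n : ℤ} (h : ¬ (p : ℤ) ∣ n) : ((n : ℤ) : ℚ_[p]).valuation = 0 := by
  rw [Padic.valuation_intCast, padicValInt.eq_zero_of_not_dvd h]
  rfl

lemma val_mul_sq₅ {d : ℚ} (hd : d ≠ 0) {t c : ℚ_[p]} (hc : c ≠ 0) (h : (d : ℚ_[p]) * t ^ 2 = c) :
    c.valuation = padicValRat p d + 2 * t.valuation := by
  have ht : t ≠ 0 := by
    rintro rfl
    apply hc
    rw [← h]; ring
  have hd' : (d : ℚ_[p]) ≠ 0 := by exact_mod_cast hd
  rw [← h, Padic.valuation_mul hd' (pow_ne_zero 2 ht), Padic.valuation_pow,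
    Padic.valuation_ratCast]
  push_cast
  ring

lemma not_dvd_five₅ (hp5 : p ≠ 5) : ¬ (p : ℤ) ∣ 5 := by
  intro hd
  have : p ∣ 5 := by exact_mod_cast hd
  exact hp5 ((Nat.prime_dvd_prime_iff_eq hp.1 (by norm_num)).mp this)

lemma not_dvd_ten₅ (hp2 : p ≠ 2) (hp5 : p ≠ 5) : ¬ (p : ℤ) ∣ 10 := by
  intro hd
  have h10 : p ∣ 2 * 5 := by exact_mod_cast hd
  rcases (Nat.Prime.dvd_mul hp.1).mp h10 with h | h
  · exact hp2 ((Nat.prime_dvd_prime_iff_eq hp.1 Nat.prime_two).mp h)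
  · exact hp5 ((Nat.prime_dvd_prime_iff_eq hp.1 (by norm_num)).mp h)

/-- the three equations `X = d₁ t₁²`, `X + 5 = d₃ t₃²`, `X - 5 = d₁ d₃ t₂²` -/
lemma LC₅.exists_X {d1 d3 : ℚ} (h : LC₅ ℚ_[p] d1 d3) :
    ∃ t1 t2 t3 X : ℚ_[p], (d1 : ℚ_[p]) * t1 ^ 2 = X ∧ (d3 : ℚ_[p]) * t3 ^ 2 = X + 5 ∧
      ((d1 * d3 : ℚ) : ℚ_[p]) * t2 ^ 2 = X + -5 := by
  obtain ⟨t1, t2, t3, hA, hB⟩ := h
  simp only [eq_ratCast] at hA hB
  refine ⟨t1, t2, t3, _, rfl, ?_, ?_⟩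
  · linear_combination hA
  · push_cast
    linear_combination -hB

end Padic

theorem LC₅.even_val_d1 {p : ℕ} [Fact p.Prime] (hp5 : p ≠ 5) {d1 d3 : ℚ}
    (h : LC₅ ℚ_[p] d1 d3) (hd1 : d1 ≠ 0) (hd3 : d3 ≠ 0) : Even (padicValRat p d1) := by
  obtain ⟨t1, t2, t3, X, h1, h3, h2⟩ := h.exists_X
  have hd13 : d1 * d3 ≠ 0 := mul_ne_zero hd1 hd3
  have v13 : padicValRat p (d1 * d3) = padicValRat p d1 + padicValRat p d3 :=
    padicValRat.mul hd1 hd3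
  have h5 : (5 : ℚ_[p]) ≠ 0 := by norm_num
  have hm5 : (-5 : ℚ_[p]) ≠ 0 := by norm_num
  have v5 : (5 : ℚ_[p]).valuation = 0 := by
    have := val_int_eq_zero₅ (not_dvd_five₅ hp5)
    simpa using this
  have vm5 : (-5 : ℚ_[p]).valuation = 0 := by
    have := val_int_eq_zero₅ (p := p) (n := -5) (by rw [dvd_neg]; exact not_dvd_five₅ hp5)
    simpa using this
  by_cases hX : X = 0
  · subst hX
    rw [zero_add] at h3 h2
    have e3 := val_mul_sq₅ hd3 h5 h3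
    have e2 := val_mul_sq₅ hd13 hm5 h2
    rw [v5] at e3
    rw [vm5, v13] at e2
    exact ⟨t3.valuation - t2.valuation, by omega⟩
  · have e1 := val_mul_sq₅ hd1 hX h1
    rcases lt_trichotomy X.valuation 0 with hv | hv | hv
    · obtain ⟨hne3, hval3⟩ := padic_val_add_of_lt hX h5 (by rw [v5]; exact hv)
      obtain ⟨hne2, hval2⟩ := padic_val_add_of_lt hX hm5 (by rw [vm5]; exact hv)
      have e3 := val_mul_sq₅ hd3 hne3 h3
      have e2 := val_mul_sq₅ hd13 hne2 h2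
      rw [hval3] at e3
      rw [hval2, v13] at e2
      exact ⟨t3.valuation - t2.valuation, by omega⟩
    · exact ⟨-t1.valuation, by omega⟩
    · obtain ⟨hne3, hval3⟩ := padic_val_add_of_lt h5 hX (by rw [v5]; exact hv)
      obtain ⟨hne2, hval2⟩ := padic_val_add_of_lt hm5 hX (by rw [vm5]; exact hv)
      rw [add_comm] at hne3 hval3 hne2 hval2
      have e3 := val_mul_sq₅ hd3 hne3 h3
      have e2 := val_mul_sq₅ hd13 hne2 h2
      rw [hval3, v5] at e3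
      rw [hval2, vm5, v13] at e2
      exact ⟨t3.valuation - t2.valuation, by omega⟩

theorem LC₅.even_val_d3 {p : ℕ} [Fact p.Prime] (hp2 : p ≠ 2) (hp5 : p ≠ 5) {d1 d3 : ℚ}
    (h : LC₅ ℚ_[p] d1 d3) (hd1 : d1 ≠ 0) (hd3 : d3 ≠ 0) : Even (padicValRat p d3) := by
  obtain ⟨t1, t2, t3, X, h1, h3, h2⟩ := h.exists_X
  have hd13 : d1 * d3 ≠ 0 := mul_ne_zero hd1 hd3
  have v13 : padicValRat p (d1 * d3) = padicValRat p d1 + padicValRat p d3 :=
    padicValRat.mul hd1 hd3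
  have hm5 : (-5 : ℚ_[p]) ≠ 0 := by norm_num
  have hm10 : (-10 : ℚ_[p]) ≠ 0 := by norm_num
  have vm5 : (-5 : ℚ_[p]).valuation = 0 := by
    have := val_int_eq_zero₅ (p := p) (n := -5) (by rw [dvd_neg]; exact not_dvd_five₅ hp5)
    simpa using this
  have vm10 : (-10 : ℚ_[p]).valuation = 0 := by
    have := val_int_eq_zero₅ (p := p) (n := -10) (by rw [dvd_neg]; exact not_dvd_ten₅ hp2 hp5)
    simpa using this
  obtain ⟨Z, hZ⟩ : ∃ Z : ℚ_[p], Z = X + 5 := ⟨_, rfl⟩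
  have h1' : (d1 : ℚ_[p]) * t1 ^ 2 = Z + -5 := by rw [h1, hZ]; ring
  have h2' : ((d1 * d3 : ℚ) : ℚ_[p]) * t2 ^ 2 = Z + -10 := by rw [h2, hZ]; ring
  rw [← hZ] at h3
  by_cases hZ0 : Z = 0
  · subst hZ0
    rw [zero_add] at h1' h2'
    have e1 := val_mul_sq₅ hd1 hm5 h1'
    have e2 := val_mul_sq₅ hd13 hm10 h2'
    rw [vm5] at e1
    rw [vm10, v13] at e2
    exact ⟨t1.valuation - t2.valuation, by omega⟩
  · have e3 := val_mul_sq₅ hd3 hZ0 h3
    rcases lt_trichotomy Z.valuation 0 with hv | hv | hv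
    · obtain ⟨hne1, hval1⟩ := padic_val_add_of_lt hZ0 hm5 (by rw [vm5]; exact hv)
      obtain ⟨hne2, hval2⟩ := padic_val_add_of_lt hZ0 hm10 (by rw [vm10]; exact hv)
      have e1 := val_mul_sq₅ hd1 hne1 h1'
      have e2 := val_mul_sq₅ hd13 hne2 h2'
      rw [hval1] at e1
      rw [hval2, v13] at e2
      exact ⟨t1.valuation - t2.valuation, by omega⟩
    · exact ⟨-t3.valuation, by omega⟩
    · obtain ⟨hne1, hval1⟩ := padic_val_add_of_lt hm5 hZ0 (by rw [vm5]; exact hv)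
      obtain ⟨hne2, hval2⟩ := padic_val_add_of_lt hm10 hZ0 (by rw [vm10]; exact hv)
      rw [add_comm] at hne1 hval1 hne2 hval2
      have e1 := val_mul_sq₅ hd1 hne1 h1'
      have e2 := val_mul_sq₅ hd13 hne2 h2'
      rw [hval1, vm5] at e1
      rw [hval2, vm10, v13] at e2
      exact ⟨t1.valuation - t2.valuation, by omega⟩

theorem LC₅.pos_d3 {d1 d3 : ℚ} (h : LC₅ ℝ d1 d3) (hd3 : d3 ≠ 0) : 0 < d3 := by
  obtain ⟨t1, t2, t3, hA, hB⟩ := h
  simp only [eq_ratCast] at hA hB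
  by_contra hneg
  have hlt : d3 < 0 := lt_of_le_of_ne (not_lt.mp hneg) hd3
  have hlt' : (d3 : ℝ) < 0 := by exact_mod_cast hlt
  have s1 : (d3 : ℝ) * t3 ^ 2 ≤ 0 := mul_nonpos_of_nonpos_of_nonneg hlt'.le (sq_nonneg _)
  have s2 : (d1 : ℝ) * t1 ^ 2 ≤ -5 := by linarith
  have s3 : (d1 : ℝ) < 0 := by
    by_contra hc
    have : 0 ≤ (d1 : ℝ) * t1 ^ 2 := mul_nonneg (not_lt.mp hc) (sq_nonneg _)
    linarith
  have s4 : 0 ≤ (d1 : ℝ) * (d3 : ℝ) * t2 ^ 2 :=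
    mul_nonneg (mul_nonneg_of_nonpos_of_nonpos s3.le hlt'.le) (sq_nonneg _)
  linarith

end Claimed.Open.R002
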