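import Claimed.Open.R002.SanityFamDefs

/-! # Twists of `E₀`, post A1: the invariants of `y² = x³ - d² x` -/

set_option autoImplicit false

namespace Claimed.Open.R002

open WeierstrassCurve

/-- Model: `E₀_baseChange_eq`. -/
theorem Etw_baseChange_eq (d : ℕ) (A F : Type*) [CommRing A] [Field F] [Algebra ℚ F] [Algebra A F] :
    (Etw d)⁄F = (Etwover d A)⁄F := by
  ext <;> simp [Etw, Etwover, WeierstrassCurve.baseChange]

/-- Model: `E₀over_Δ`. -/
theorem Etwover_Δ (d : ℕ) (A : Type*) [CommRing A] : (Etwover d A).Δ = ((64 * d ^ 6 : ℕ) : A) := by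
  simp [Etwover, WeierstrassCurve.Δ, WeierstrassCurve.b₂, WeierstrassCurve.b₄, WeierstrassCurve.b₆,
    WeierstrassCurve.b₈]
  ring

/-- Model: `a6_c₄`. -/
theorem Etwover_c₄ (d : ℕ) (A : Type*) [CommRing A] : (Etwover d A).c₄ = ((48 * d ^ 2 : ℕ) : A) := by
  simp [Etwover, WeierstrassCurve.c₄, WeierstrassCurve.b₂, WeierstrassCurve.b₄]
  ring

/-- Model: `a6_map_residue`. -/
theorem Etwover_map (d : ℕ) (A B : Type*) [CommRing A] [CommRing B] (f : A →+* B) :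
    (Etwover d A).map f = Etwover d B := by
  ext <;> simp [Etwover]

/-- `Δ = 64 d⁶ ≠ 0`. -/
theorem Etw_isElliptic (d : ℕ) (hd : d ≠ 0) : (Etw d).IsElliptic := by
  have h : (Etw d).Δ = ((64 * d ^ 6 : ℕ) : ℚ) := Etwover_Δ d ℚ
  refine ⟨?_⟩
  rw [h, isUnit_iff_ne_zero]
  have : 64 * d ^ 6 ≠ 0 := by positivity
  exact_mod_cast this

/-- Model: `quadraticTwist_E₀_one`. -/
theorem quadraticTwist_E₀_intCast (d : ℤ) : quadraticTwist E₀ (d : ℚ) = Etw d.natAbs := by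
  have h : ((d.natAbs : ℕ) : ℚ) ^ 2 = (d : ℚ) ^ 2 := by
    rw [Nat.cast_natAbs, Int.cast_abs, sq_abs]
  unfold quadraticTwist E₀ Etw
  rw [h]
  ext <;> simp [WeierstrassCurve.b₂, WeierstrassCurve.b₄, WeierstrassCurve.b₆]
  ring

theorem E₅_eq_Etw : E₅ = Etw 5 := by
  unfold E₅ Etw
  ext <;> norm_num

end Claimed.Open.R002
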