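import Claimed.Open.R002.SanityFamDefs

/-! # Twists of `E₀`, post A2: the number of points of `y² = x³ - d² x` over a finite field -/

set_option autoImplicit false

namespace Claimed.Open.R002

open WeierstrassCurve

/-- The affine equation of `Etwover d F` is `y² = x³ - d² x`. -/
theorem fa2_equation_iff (d : ℕ) (F : Type*) [Field F] (x y : F) :
    (Etwover d F).toAffine.Equation x y ↔ y ^ 2 = x ^ 3 - (d : F) ^ 2 * x := by
  rw [WeierstrassCurve.Affine.equation_iff]
  simp only [Etwover]
  constructor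
  · intro h
    linear_combination h
  · intro h
    linear_combination h

/-- If `2 ≠ 0` and `d ≠ 0` in `F`, every solution of the equation is a nonsingular point. -/
theorem fa2_nonsingular (d : ℕ) (F : Type*) [Field F] (hF : ringChar F ≠ 2) (hd : (d : F) ≠ 0)
    {x y : F} (h : y ^ 2 = x ^ 3 - (d : F) ^ 2 * x) : (Etwover d F).toAffine.Nonsingular x y := by
  have h2 : (2 : F) ≠ 0 := Ring.two_ne_zero hF
  have hd2 : (d : F) ^ 2 ≠ 0 := pow_ne_zero 2 hd
  rw [WeierstrassCurve.Affine.nonsingular_iff']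
  refine ⟨(fa2_equation_iff d F x y).2 h, ?_⟩
  simp only [Etwover]
  by_contra hcon
  push Not at hcon
  obtain ⟨h3, h4⟩ := hcon
  have hy : y = 0 := by
    have : 2 * y = 0 := by linear_combination h4
    rcases mul_eq_zero.1 this with h' | h'
    · exact absurd h' h2
    · exact h'
  have hx3 : 3 * x ^ 2 = (d : F) ^ 2 := by linear_combination -h3
  have hx : x * (x ^ 2 - (d : F) ^ 2) = 0 := by
    rw [hy] at h
    linear_combination -h
  rcases mul_eq_zero.1 hx with h' | h'
  · rw [h'] at hx3
    apply hd2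
    rw [← hx3]
    ring
  · have : (2 : F) * (d : F) ^ 2 = 0 := by linear_combination -3 * h' + hx3
    exact (mul_ne_zero h2 hd2) this

/-- Points of `Etwover d F` = the point at infinity and the solutions of `y² = x³ - d² x`. -/
noncomputable def fa2_equiv (d : ℕ) (F : Type*) [Field F] (hF : ringChar F ≠ 2)
    (hd : (d : F) ≠ 0) :
    (Etwover d F).toAffine.Point ≃ Option {p : F × F // p.2 ^ 2 = p.1 ^ 3 - (d : F) ^ 2 * p.1} where
  toFun P := match P with
    | .zero => none
    | .some x y h => some ⟨(x, y), (fa2_equation_iff d F x y).1 h.1⟩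
  invFun o := match o with
    | none => .zero
    | some p => .some p.1.1 p.1.2 (fa2_nonsingular d F hF hd p.2)
  left_inv := by
    rintro (_ | _) <;> rfl
  right_inv := by
    rintro (_ | ⟨⟨x, y⟩, h⟩) <;> rfl

/-- The number of solutions of `y² = x³ - d² x`. -/
theorem fa2_card_sol (d : ℕ) (F : Type*) [Field F] [Fintype F] [DecidableEq F]
    (hF : ringChar F ≠ 2) :
    (Fintype.card {p : F × F // p.2 ^ 2 = p.1 ^ 3 - (d : F) ^ 2 * p.1} : ℤ) =
      (Fintype.card F : ℤ) + ∑ x : F, quadraticChar F (x ^ 3 - (d : F) ^ 2 * x) := by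
  rw [Fintype.card_subtype, Finset.card_filter, Fintype.sum_prod_type]
  push_cast
  have key : ∀ x : F, (∑ y : F, (if y ^ 2 = x ^ 3 - (d : F) ^ 2 * x then 1 else 0 : ℤ)) =
      quadraticChar F (x ^ 3 - (d : F) ^ 2 * x) + 1 := by
    intro x
    rw [← quadraticChar_card_sqrts hF (x ^ 3 - (d : F) ^ 2 * x), Set.toFinset_ofPred,
      Finset.card_filter]
    push_cast
    rfl
  rw [Finset.sum_congr rfl fun x _ => key x, Finset.sum_add_distrib]
  simp only [Finset.sum_const, Finset.card_univ, nsmul_eq_mul, mul_one]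
  ring

/-- Copy of A5 (`a5_equation_iff`, `a5_nonsingular`, `a5_equiv`, `a5_card_sol`, `card_point_E₀over`)
with `x³ - x` replaced by `x³ - d² x`; nonsingularity uses `d ≠ 0` and `2 ≠ 0` in `F`. -/
theorem card_point_Etwover (d : ℕ) (F : Type*) [Field F] [Fintype F] [DecidableEq F]
    (hF : ringChar F ≠ 2) (hd : (d : F) ≠ 0) :
    (Nat.card (Etwover d F).toAffine.Point : ℤ) =
      (Fintype.card F : ℤ) + 1 + ∑ x : F, quadraticChar F (x ^ 3 - (d : F) ^ 2 * x) := by
  rw [Nat.card_congr (fa2_equiv d F hF hd), Nat.card_eq_fintype_card, Fintype.card_option]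
  push_cast
  rw [fa2_card_sol d F hF]
  ring

end Claimed.Open.R002
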