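import Claimed.Open.R002.SanityFamDefs

/-! # Twists of `E₀`, post A3: `∑ ρ(x³ - c² x) = ρ(c) ∑ ρ(x³ - x)`; `ρ(d) = J(d | p)` -/

set_option autoImplicit false

namespace Claimed.Open.R002

/-- Substitute `x = c u` (`Equiv.mulLeft₀ c hc`, `Fintype.sum_equiv`):
`(c u)³ - c² (c u) = c³ (u³ - u)`, `ρ(c³) = ρ(c)` (`map_mul`, `quadraticChar_sq_one`). -/
theorem sum_quadraticChar_sq_mul (F : Type*) [Field F] [Fintype F] [DecidableEq F] {c : F}
    (hc : c ≠ 0) :
    ∑ x : F, quadraticChar F (x ^ 3 - c ^ 2 * x) =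
      quadraticChar F c * ∑ x : F, quadraticChar F (x ^ 3 - x) := by
  rw [Finset.mul_sum]
  refine (Fintype.sum_equiv (Equiv.mulLeft₀ c hc) _ _ fun u => ?_).symm
  have h1 : (Equiv.mulLeft₀ c hc u) ^ 3 - c ^ 2 * (Equiv.mulLeft₀ c hc u) =
      c ^ 2 * (c * (u ^ 3 - u)) := by
    show (c * u) ^ 3 - c ^ 2 * (c * u) = c ^ 2 * (c * (u ^ 3 - u))
    ring
  rw [h1, map_mul, map_mul, map_pow, quadraticChar_sq_one hc, one_mul]

/-- `legendreSym p d = quadraticChar (ZMod p) d` by definition; `jacobiSym.legendreSym.to_jacobiSym`. -/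
theorem quadraticChar_natCast_eq_jacobiSym (d p : ℕ) [Fact p.Prime] :
    quadraticChar (ZMod p) (d : ZMod p) = jacobiSym d p := by
  rw [← jacobiSym.legendreSym.to_jacobiSym, legendreSym]
  simp

end Claimed.Open.R002
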