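import Claimed.Open.R002.SanityFamA1
import Claimed.Open.R002.SanityFamA2
import Claimed.Open.R002.SanityFamA3

/-! # Twists of `E₀`, post A4: the local polynomial at the primes `p ∤ 2 d` -/

set_option autoImplicit false

namespace Claimed.Open.R002

open WeierstrassCurve IsDedekindDomain NumberField Polynomial

/-- Copy of `localPolynomial_E₀_of_ne_two` (A6): `Etw_baseChange_eq`; `Δ = 64 d⁶` (`Etwover_Δ`) is a unit
because `p ∤ 64 d⁶` (`natCast_mem_maximalIdeal_pow` with `k = 1`, `Nat.Prime.dvd_mul`,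
`Nat.Prime.dvd_of_dvd_pow`); `localPolynomial_of_isUnit_Δ`, `Etwover_map`, `card_point_Etwover`
(`(d : k_v) ≠ 0`: transport by `e : k_v ≃+* ZMod p`, `map_natCast`, `ZMod.natCast_eq_zero_iff`),
`sum_quadraticChar_sq_mul`, `sum_quadraticChar_congr e`, `a5_quadraticChar_map e`,
`quadraticChar_natCast_eq_jacobiSym`. -/
theorem localPolynomial_Etw_of_not_dvd (d : ℕ) (v : HeightOneSpectrum (𝓞 ℚ))
    [Fact (primeBelow v).Prime] (h : ¬ primeBelow v ∣ 2 * d) :
    ((Etw d).baseChange (v.adicCompletion ℚ)).localPolynomial (v.adicCompletionIntegers ℚ) =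
      1 - C (jacobiSym d (primeBelow v) * aE (primeBelow v)) * X + C (primeBelow v : ℤ) * X ^ 2 := by
  classical
  have hp := prime_primeBelow v
  have h2 : primeBelow v ≠ 2 := by
    intro h0
    exact h (h0 ▸ Dvd.intro d rfl)
  have hd : ¬ primeBelow v ∣ d := fun h0 => h (Dvd.dvd.mul_left h0 2)
  have e1 : (Etw d).baseChange (v.adicCompletion ℚ) =
      (Etwover d (v.adicCompletionIntegers ℚ))⁄(v.adicCompletion ℚ) :=
    Etw_baseChange_eq d (v.adicCompletionIntegers ℚ) (v.adicCompletion ℚ)
  have hunit : IsUnit (Etwover d (v.adicCompletionIntegers ℚ)).Δ := by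
    rw [Etwover_Δ]
    by_contra hcon
    have hmem : ((64 * d ^ 6 : ℕ) : v.adicCompletionIntegers ℚ) ∈
        IsLocalRing.maximalIdeal (v.adicCompletionIntegers ℚ) ^ 1 := by
      rw [pow_one, IsLocalRing.mem_maximalIdeal, mem_nonunits_iff]
      exact hcon
    rw [natCast_mem_maximalIdeal_pow, pow_one, show (64 : ℕ) = 2 ^ 6 by norm_num] at hmem
    rcases hp.dvd_mul.1 hmem with h3 | h3
    · exact h2 ((Nat.prime_dvd_prime_iff_eq hp Nat.prime_two).mp (hp.dvd_of_dvd_pow h3))
    · exact hd (hp.dvd_of_dvd_pow h3)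
  rw [e1, localPolynomial_of_isUnit_Δ _ _ _ hunit, Etwover_map, card_residueField_completion]
  obtain ⟨e⟩ := nonempty_residueField_equiv_zmod v
  have : Fintype (IsLocalRing.ResidueField (v.adicCompletionIntegers ℚ)) :=
    Fintype.ofEquiv _ e.symm.toEquiv
  have hchar : ringChar (IsLocalRing.ResidueField (v.adicCompletionIntegers ℚ)) ≠ 2 := by
    have hc : CharP (IsLocalRing.ResidueField (v.adicCompletionIntegers ℚ)) (primeBelow v) :=
      charP_of_injective_ringHom (f := e.symm.toRingHom) e.symm.injective (primeBelow v)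
    rw [ringChar.eq _ (primeBelow v)]
    exact h2
  have hd0 : (d : IsLocalRing.ResidueField (v.adicCompletionIntegers ℚ)) ≠ 0 := by
    intro h0
    have h3 : e (d : IsLocalRing.ResidueField (v.adicCompletionIntegers ℚ)) = 0 := by rw [h0, map_zero]
    rw [map_natCast, ZMod.natCast_eq_zero_iff] at h3
    exact hd h3
  have hcount := card_point_Etwover d (IsLocalRing.ResidueField (v.adicCompletionIntegers ℚ)) hchar hd0
  have hcard : (Fintype.card (IsLocalRing.ResidueField (v.adicCompletionIntegers ℚ)) : ℤ) =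
      primeBelow v := by
    rw [← Nat.card_eq_fintype_card, card_residueField_completion]
  have hρ : quadraticChar (IsLocalRing.ResidueField (v.adicCompletionIntegers ℚ))
      (d : IsLocalRing.ResidueField (v.adicCompletionIntegers ℚ)) = jacobiSym d (primeBelow v) := by
    rw [← a5_quadraticChar_map e, map_natCast, quadraticChar_natCast_eq_jacobiSym]
  rw [hcount, hcard, sum_quadraticChar_sq_mul _ hd0, hρ, sum_quadraticChar_congr e, aE]
  congr 3
  ring_nf

end Claimed.Open.R002
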