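import Claimed.Open.R002.SanityFamA1

/-! # Twists of `E₀`, post A5: the local polynomial at the primes `p ∣ 2 d` -/

set_option autoImplicit false

namespace Claimed.Open.R002

open WeierstrassCurve IsDedekindDomain NumberField Polynomial

/-- `p¹² ∤ 64 d⁶` for `d` odd and squarefree: for `p = 2`, `2¹² ∣ 2⁶ d⁶` gives `2 ∣ d`; for `p` odd,
`p¹² ∣ d⁶` gives `p² ∣ d` (e.g. `(Nat.pow_dvd_pow_iff (by norm_num)).mp` for `(p²)⁶ ∣ d⁶`). -/
theorem not_pow_twelve_dvd (d : ℕ) (hd : Squarefree d) (hodd : Odd d) {p : ℕ} (hp : p.Prime) :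
    ¬ p ^ 12 ∣ 64 * d ^ 6 := by
  intro h
  by_cases hp2 : p = 2
  · subst hp2
    have h1 : 2 ^ 6 * 2 ^ 6 ∣ 2 ^ 6 * d ^ 6 := by
      have e : (2 : ℕ) ^ 6 * 2 ^ 6 = 2 ^ 12 := by norm_num
      have e' : (2 : ℕ) ^ 6 = 64 := by norm_num
      rw [e, e']
      exact h
    have h2 : 2 ^ 6 ∣ d ^ 6 := Nat.dvd_of_mul_dvd_mul_left (by positivity) h1
    have h3 : 2 ∣ d := (Nat.pow_dvd_pow_iff (by norm_num)).1 h2
    exact hodd.not_two_dvd_nat h3
  · have hc : (p ^ 12).Coprime (2 ^ 6) := Nat.Coprime.pow 12 6 ((Nat.coprime_primes hp Nat.prime_two).2 hp2)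
    have e' : (2 : ℕ) ^ 6 = 64 := by norm_num
    rw [e'] at hc
    have h1 : p ^ 12 ∣ d ^ 6 := Nat.Coprime.dvd_of_dvd_mul_left hc h
    have h2 : (p ^ 2) ^ 6 ∣ d ^ 6 := by rw [← pow_mul]; exact h1
    have h3 : p ^ 2 ∣ d := (Nat.pow_dvd_pow_iff (by norm_num)).1 h2
    have h4 : IsUnit p := hd p (by rw [← sq]; exact h3)
    exact hp.one_lt.ne' (Nat.isUnit_iff.1 h4)

/-- Copy of `localPolynomial_E₀_two` (A6): `localPolynomial_of_additive` with `Δ = 64 d⁶`, `c₄ = 48 d²`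
(`Etwover_Δ`, `Etwover_c₄`, `natCast_mem_maximalIdeal_pow`, `not_pow_twelve_dvd`); ellipticity from
`Etw_isElliptic` and `Etw_baseChange_eq`. -/
theorem localPolynomial_Etw_of_dvd (d : ℕ) (hd : Squarefree d) (hodd : Odd d)
    (v : HeightOneSpectrum (𝓞 ℚ)) (h : primeBelow v ∣ 2 * d) :
    ((Etw d).baseChange (v.adicCompletion ℚ)).localPolynomial (v.adicCompletionIntegers ℚ) = 1 := by
  have hd0 : d ≠ 0 := hd.ne_zero
  have hp := prime_primeBelow v
  have e1 : (Etw d).baseChange (v.adicCompletion ℚ) =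
      (Etwover d (v.adicCompletionIntegers ℚ))⁄(v.adicCompletion ℚ) :=
    Etw_baseChange_eq d (v.adicCompletionIntegers ℚ) (v.adicCompletion ℚ)
  have hell := Etw_isElliptic d hd0
  have : ((Etwover d (v.adicCompletionIntegers ℚ))⁄(v.adicCompletion ℚ)).IsElliptic := by
    rw [← e1]
    exact inferInstanceAs ((Etw d).map (algebraMap ℚ (v.adicCompletion ℚ))).IsElliptic
  rw [e1]
  apply localPolynomial_of_additive
  · rw [Etwover_Δ, natCast_mem_maximalIdeal_pow]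
    exact not_pow_twelve_dvd d hd hodd hp
  · rw [Etwover_Δ]
    have hmem' : ((64 * d ^ 6 : ℕ) : v.adicCompletionIntegers ℚ) ∈
        IsLocalRing.maximalIdeal (v.adicCompletionIntegers ℚ) ^ 1 := by
      rw [natCast_mem_maximalIdeal_pow, pow_one, show 64 * d ^ 6 = 2 * d * (32 * d ^ 5) by ring]
      exact Dvd.dvd.mul_right h _
    rw [pow_one] at hmem'
    exact hmem'
  · rw [Etwover_c₄]
    have hmem' : ((48 * d ^ 2 : ℕ) : v.adicCompletionIntegers ℚ) ∈
        IsLocalRing.maximalIdeal (v.adicCompletionIntegers ℚ) ^ 1 := by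
      rw [natCast_mem_maximalIdeal_pow, pow_one, show 48 * d ^ 2 = 2 * d * (24 * d) by ring]
      exact Dvd.dvd.mul_right h _
    rw [pow_one] at hmem'
    exact hmem'

end Claimed.Open.R002
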