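import Claimed.Open.R002.SanityFamA4
import Claimed.Open.R002.SanityFamA5

/-! # Twists of `E₀`, post A6: the Hecke recursion for the coefficients of `L(E₀^d, s)` -/

set_option autoImplicit false

namespace Claimed.Open.R002

open WeierstrassCurve IsDedekindDomain NumberField Polynomial

/-- Copy of `LFunction_E₀_prime_mul` (A7) with `localPolynomial_Etw_of_not_dvd`. -/
theorem LFunction_Etw_prime_mul (d p : ℕ) [Fact p.Prime] (hp : ¬ p ∣ 2 * d) (m : ℕ) :
    (Etw d).LFunction (p * m) =
      jacobiSym d p * aE p * (Etw d).LFunction m -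
        p * (if p ∣ m then (Etw d).LFunction (m / p) else 0) := by
  have hpp : p.Prime := Fact.out
  rcases Nat.eq_zero_or_pos m with rfl | hm
  · simp
  obtain ⟨v, rfl⟩ := exists_primeBelow_eq hpp
  obtain ⟨k, n, hn, rfl⟩ := Nat.exists_eq_pow_mul_and_not_dvd hm.ne' (primeBelow v) hpp.ne_one
  have hc : ∀ j, (Etw d).LFunction (primeBelow v ^ j) =
      (PowerSeries.invOfUnit ((1 - C (jacobiSym d (primeBelow v) * aE (primeBelow v)) * X
        + C (primeBelow v : ℤ) * X ^ 2 : ℤ[X]) : PowerSeries ℤ) 1).coeff j := by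
    intro j
    rw [LFunction_primeBelow_pow, localPowerSeries, localPolynomial_Etw_of_not_dvd d v hp]
  cases k with
  | zero =>
    have h1 : primeBelow v * (primeBelow v ^ 0 * n) = primeBelow v ^ 1 * n := by ring
    rw [h1, LFunction_pow_mul (Etw d) hpp 1 hn, hc 1,
      (coeff_invOfUnit_quadratic (jacobiSym d (primeBelow v) * aE (primeBelow v))
        (primeBelow v : ℤ) 0).2.1]
    simp [hn]
  | succ k =>
    have h1 : primeBelow v * (primeBelow v ^ (k + 1) * n) = primeBelow v ^ (k + 2) * n := by ring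
    have h2 : primeBelow v ∣ primeBelow v ^ (k + 1) * n :=
      Dvd.dvd.mul_right (dvd_pow_self _ (Nat.succ_ne_zero k)) n
    have h3 : primeBelow v ^ (k + 1) * n / primeBelow v = primeBelow v ^ k * n := by
      rw [pow_succ', mul_assoc, Nat.mul_div_cancel_left _ hpp.pos]
    rw [h1, if_pos h2, h3, LFunction_pow_mul (Etw d) hpp _ hn, LFunction_pow_mul (Etw d) hpp _ hn,
      LFunction_pow_mul (Etw d) hpp _ hn, hc, hc, hc,
      (coeff_invOfUnit_quadratic (jacobiSym d (primeBelow v) * aE (primeBelow v))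
        (primeBelow v : ℤ) k).1]
    ring

/-- Copy of `LFunction_E₀_two_mul` (A7) with `localPolynomial_Etw_of_dvd`. -/
theorem LFunction_Etw_bad_mul (d : ℕ) (hd : Squarefree d) (hodd : Odd d) {p : ℕ} (hp : p.Prime)
    (h : p ∣ 2 * d) (m : ℕ) : (Etw d).LFunction (p * m) = 0 := by
  rcases Nat.eq_zero_or_pos m with rfl | hm
  · simp
  obtain ⟨v, hv⟩ := exists_primeBelow_eq hp
  obtain ⟨k, n, hn, rfl⟩ := Nat.exists_eq_pow_mul_and_not_dvd hm.ne' p hp.ne_one
  have h1 : p * (p ^ k * n) = p ^ (k + 1) * n := by ring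
  have h2 : (Etw d).LFunction (p ^ (k + 1)) = 0 := by
    have h3 := LFunction_primeBelow_pow (Etw d) v (k + 1)
    rw [hv, localPowerSeries, localPolynomial_Etw_of_dvd d hd hodd v (hv ▸ h)] at h3
    rw [h3]
    have h4 : PowerSeries.invOfUnit (((1 : ℤ[X]) : PowerSeries ℤ)) 1 = 1 := by
      have h5 := PowerSeries.mul_invOfUnit (((1 : ℤ[X]) : PowerSeries ℤ)) 1 (by simp)
      simpa using h5
    rw [h4, PowerSeries.coeff_one]
    simp
  rw [h1, LFunction_pow_mul (Etw d) hp _ hn, h2, zero_mul]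

end Claimed.Open.R002
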