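import Claimed.Open.R002.SanityFamA6

/-! # Twists of `E₀`, post A7: `L(E₀^d, s)` is the twisted Hecke `L`-series -/

set_option autoImplicit false

namespace Claimed.Open.R002

open WeierstrassCurve

/-- Strong induction as in `LFunction_E₀_eq_hecke` (C4): `n = p m`, `p = n.minFac`.
`p ∣ 2 d`: the left side is `0` (`LFunction_Etw_bad_mul`); if `p = 2` then `E₀.LFunction (2 m) = 0`
(`LFunction_E₀_two_mul`), if `p ∣ d` then `J(d | p m) = 0` (`jacobiSym.eq_zero_iff`).
`p ∤ 2 d`: `LFunction_Etw_prime_mul`, `LFunction_E₀_prime_mul`, `jacobiSym.mul_right'`,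
`J(d | p)² = 1` (`jacobiSym.sq_one`), and `m = p (m / p)` if `p ∣ m`. -/
theorem LFunction_Etw_eq (d : ℕ) (hd : Squarefree d) (hodd : Odd d) (n : ℕ) :
    (Etw d).LFunction n = jacobiSym d n * E₀.LFunction n := by
  induction n using Nat.strong_induction_on with
  | _ n ih =>
    rcases Nat.eq_zero_or_pos n with rfl | hn0
    · simp
    rcases eq_or_ne n 1 with rfl | hn1
    · rw [LFunction_one, LFunction_one, jacobiSym.one_right, one_mul]
    have hp : n.minFac.Prime := Nat.minFac_prime hn1
    obtain ⟨m, hm⟩ := Nat.minFac_dvd n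
    set p := n.minFac with hpdef
    have : Fact p.Prime := ⟨hp⟩
    have hm0 : 0 < m := by
      rcases Nat.eq_zero_or_pos m with rfl | h
      · simp at hm; omega
      · exact h
    have hmn : m < n := by
      rw [hm]
      exact lt_mul_of_one_lt_left hm0 hp.one_lt
    have hdiv : m / p < n := lt_of_le_of_lt (Nat.div_le_self m p) hmn
    rw [hm]
    by_cases hbad : p ∣ 2 * d
    · rw [LFunction_Etw_bad_mul d hd hodd hp hbad m]
      rcases (Nat.Prime.dvd_mul hp).1 hbad with h2 | hpd
      · have hp2 : p = 2 := (Nat.prime_dvd_prime_iff_eq hp Nat.prime_two).1 h2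
        rw [hp2, LFunction_E₀_two_mul, mul_zero]
      · have hJ : jacobiSym d (p * m) = 0 := by
          rw [jacobiSym.eq_zero_iff]
          refine ⟨Nat.mul_ne_zero hp.ne_zero hm0.ne', ?_⟩
          rw [Int.gcd_natCast_natCast]
          intro h1
          have := Nat.dvd_gcd hpd (dvd_mul_right p m)
          rw [h1] at this
          exact hp.one_lt.ne' (Nat.dvd_one.1 this)
        rw [hJ, zero_mul]
    · have h2 : p ≠ 2 := by
        intro h
        exact hbad (h ▸ dvd_mul_right 2 d)
      have hpd : ¬ p ∣ d := fun h => hbad (Dvd.dvd.mul_left h 2)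
      have hcop : (d : ℤ).gcd (p : ℤ) = 1 := by
        rw [Int.gcd_natCast_natCast]
        exact ((Nat.Prime.coprime_iff_not_dvd hp).2 hpd).symm
      have hsq : jacobiSym d p * jacobiSym d p = 1 := by
        have := jacobiSym.sq_one hcop
        rwa [sq] at this
      rw [LFunction_Etw_prime_mul d p hbad m, LFunction_E₀_prime_mul p h2 m, ih m hmn,
        ih (m / p) hdiv, jacobiSym.mul_right' _ hp.ne_zero hm0.ne']
      by_cases hpm : p ∣ m
      · obtain ⟨k, hk⟩ := hpm
        have hk0 : k ≠ 0 := by
          rintro rfl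
          simp at hk
          omega
        have hkd : m / p = k := by
          rw [hk]
          exact Nat.mul_div_cancel_left k hp.pos
        rw [if_pos ⟨k, hk⟩, if_pos ⟨k, hk⟩, hkd]
        have hJm : jacobiSym d m = jacobiSym d p * jacobiSym d k := by
          rw [hk]
          exact jacobiSym.mul_right' _ hp.ne_zero hk0
        rw [hJm]
        linear_combination ((p : ℤ) * jacobiSym d k * E₀.LFunction k) * hsq
      · rw [if_neg hpm, if_neg hpm]
        ring

theorem LFunction_Etw_eq_heckeTw (d : ℕ) (hd : Squarefree d) (hodd : Odd d) (n : ℕ) :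
    (Etw d).LFunction n = heckeTw d n := by
  rw [LFunction_Etw_eq d hd hodd, LFunction_E₀_eq_hecke, heckeTw]

end Claimed.Open.R002
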