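import Claimed.Open.R002.SanityFamDefs

/-! # Twists of `E₀`, post B1: the Mellin transform of `oddKernel a · evenKernel b` is entire -/

set_option autoImplicit false

namespace Claimed.Open.R002

noncomputable section FamB1

open Complex Filter Asymptotics Set HurwitzZeta MeasureTheory Topology

/-- the dual kernel -/
def fb1_G (a b : ℝ) (x : ℝ) : ℝ := sinKernel (a : UnitAddCircle) x * cosKernel (b : UnitAddCircle) x

lemma fb1_continuousOn_F (a b : ℝ) : ContinuousOn (oddEven a b) (Ioi 0) :=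
  (continuousOn_oddKernel _).mul (continuousOn_evenKernel _)

lemma fb1_continuousOn_G (a b : ℝ) : ContinuousOn (fb1_G a b) (Ioi 0) :=
  (continuousOn_sinKernel _).mul (continuousOn_cosKernel _)

lemma fb1_functional_equation (a b : ℝ) {x : ℝ} (hx : 0 < x) :
    oddEven a b (1 / x) = x ^ (2 : ℝ) * fb1_G a b x := by
  have h1 : (1 / x) ^ (3 / 2 : ℝ) * (1 / x) ^ (1 / 2 : ℝ) = (1 / x) ^ (2 : ℝ) := by
    rw [← Real.rpow_add (by positivity)]; norm_num
  have h2 : (1 / x) ^ (2 : ℝ) * x ^ (2 : ℝ) = 1 := by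
    rw [← Real.mul_rpow (by positivity) hx.le, one_div, inv_mul_cancel₀ hx.ne', Real.one_rpow]
  have h3 : 0 < (1 / x) ^ (3 / 2 : ℝ) := by positivity
  have h4 : 0 < (1 / x) ^ (1 / 2 : ℝ) := by positivity
  rw [oddEven, fb1_G, oddKernel_functional_equation, evenKernel_functional_equation, one_div_one_div]
  have h5 : x ^ (2 : ℝ) = 1 / ((1 / x) ^ (3 / 2 : ℝ) * (1 / x) ^ (1 / 2 : ℝ)) := by
    rw [h1, eq_div_iff (by positivity), mul_comm]; exact h2
  rw [h5]
  field_simp

lemma fb1_isBigO_one_of_sub {f : ℝ → ℝ} {c p : ℝ} (hp : 0 < p)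
    (h : (fun x => f x - c) =O[atTop] fun x => Real.exp (-p * x)) :
    f =O[atTop] fun _ => (1 : ℝ) := by
  have h0 : (fun x : ℝ => Real.exp (-p * x)) =O[atTop] fun _ => (1 : ℝ) := by
    simpa using (isLittleO_exp_neg_mul_rpow_atTop hp 0).isBigO
  have h1 := (h.trans h0).add (isBigO_const_const c (one_ne_zero' ℝ) atTop)
  simpa using h1

lemma fb1_isBigO_atTop_F (a b : ℝ) :
    ∃ p, 0 < p ∧ oddEven a b =O[atTop] fun x => Real.exp (-p * x) := by
  obtain ⟨p, hp, h1⟩ := isBigO_atTop_oddKernel (a : UnitAddCircle)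
  obtain ⟨q, hq, h2⟩ := isBigO_atTop_evenKernel_sub (b : UnitAddCircle)
  refine ⟨p, hp, ?_⟩
  have h := h1.mul (fb1_isBigO_one_of_sub hq h2)
  simp only [mul_one] at h
  exact h

lemma fb1_isBigO_atTop_G (a b : ℝ) :
    ∃ p, 0 < p ∧ fb1_G a b =O[atTop] fun x => Real.exp (-p * x) := by
  obtain ⟨p, hp, h1⟩ := isBigO_atTop_sinKernel (a : UnitAddCircle)
  obtain ⟨q, hq, h2⟩ := isBigO_atTop_cosKernel_sub (b : UnitAddCircle)
  refine ⟨p, hp, ?_⟩
  have h := h1.mul (fb1_isBigO_one_of_sub hq h2)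
  simp only [mul_one] at h
  exact h

/-- The pair `(oddKernel a · evenKernel b, sinKernel a · cosKernel b)` with its functional equation of
weight `2`. -/
def fb1_FEPair (a b : ℝ) : WeakFEPair ℂ where
  f := fun x : ℝ => (oddEven a b x : ℂ)
  g := fun x : ℝ => (fb1_G a b x : ℂ)
  hf_int := (continuous_ofReal.comp_continuousOn (fb1_continuousOn_F a b)).locallyIntegrableOn
    measurableSet_Ioi
  hg_int := (continuous_ofReal.comp_continuousOn (fb1_continuousOn_G a b)).locallyIntegrableOn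
    measurableSet_Ioi
  k := 2
  hk := by norm_num
  ε := 1
  hε := one_ne_zero
  f₀ := 0
  g₀ := 0
  hf_top r := by
    let ⟨v, hv, hv'⟩ := fb1_isBigO_atTop_F a b
    rw [← isBigO_norm_left] at hv' ⊢
    simpa using hv'.trans (isLittleO_exp_neg_mul_rpow_atTop hv _).isBigO
  hg_top r := by
    let ⟨v, hv, hv'⟩ := fb1_isBigO_atTop_G a b
    rw [← isBigO_norm_left] at hv' ⊢
    simpa using hv'.trans (isLittleO_exp_neg_mul_rpow_atTop hv _).isBigO
  h_feq x hx := by
    simp only [fb1_functional_equation a b hx, one_mul, smul_eq_mul, ofReal_mul]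

lemma fb1_isStrong (a b : ℝ) : IsStrongFEPair (fb1_FEPair a b) where
  hf₀ := rfl
  hg₀ := rfl

end FamB1

/-- Copy of D5 with the parameters `(a, b)` in place of `(1/4, 1/4)` and without rescaling:
`WeakFEPair` with `f = oddKernel a · evenKernel b`, `g = sinKernel a · cosKernel b`, `k = 2`, `ε = 1`,
`f₀ = g₀ = 0`; `IsStrongFEPair.hasMellin`. -/
theorem mellinConvergent_oddEven (a b : ℝ) (s : ℂ) :
    MellinConvergent (fun x : ℝ => (oddEven a b x : ℂ)) s :=
  ((fb1_isStrong a b).hasMellin s).1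

theorem differentiable_mellin_oddEven (a b : ℝ) :
    Differentiable ℂ (mellin fun x : ℝ => (oddEven a b x : ℂ)) := by
  have h := (fb1_isStrong a b).differentiable_Λ
  rw [(fb1_isStrong a b).Λ_eq] at h
  exact h

end Claimed.Open.R002
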