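import Claimed.Open.R002.SanityFamDefs

/-! # Twists of `E₀`, post B2: `oddKernel a · evenKernel b` as a sum over `ℤ²` -/

set_option autoImplicit false

namespace Claimed.Open.R002

open Real

/-- Copy of D4: `HurwitzZeta.hasSum_int_oddKernel a`, `HurwitzZeta.hasSum_int_evenKernel b`, `HasSum.mul`
with `summable_mul_of_summable_norm`. -/
theorem hasSum_oddEven (a b : ℝ) {X : ℝ} (hX : 0 < X) :
    HasSum (fun y : ℤ × ℤ =>
      ((y.1 : ℝ) + a) * rexp (-π * (((y.1 : ℝ) + a) ^ 2 + ((y.2 : ℝ) + b) ^ 2) * X))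
      (oddEven a b X) := by
  have h1 := HurwitzZeta.hasSum_int_oddKernel a hX
  have h2 := HurwitzZeta.hasSum_int_evenKernel b hX
  have h3 := h1.mul h2 (summable_mul_of_summable_norm h1.summable.norm h2.summable.norm)
  refine h3.congr_fun fun y => ?_
  rw [mul_assoc ((y.1 : ℝ) + a) (rexp _) (rexp _), ← Real.exp_add]
  congr 2
  ring

end Claimed.Open.R002
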