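import Mathlib

/-! # Twists of `E₀`, post B3: a sum over `ℤ²` is the finite sum of the sums over the classes mod `M` -/

set_option autoImplicit false

namespace Claimed.Open.R002

/-- The part of `F` carried by one residue class modulo `M`. -/
noncomputable def b3_part {M : ℕ} (F : ℤ × ℤ → ℂ) (r : Fin M × Fin M) : ℤ × ℤ → ℂ :=
  fun x => if x.1 % (M : ℤ) = ((r.1 : ℕ) : ℤ) ∧ x.2 % (M : ℤ) = ((r.2 : ℕ) : ℤ) then F x else 0

theorem b3_inj {M : ℕ} (hM : 0 < M) (r : Fin M × Fin M) :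
    Function.Injective (fun y : ℤ × ℤ =>
      ((((r.1 : ℕ) : ℤ) + (M : ℤ) * y.1, ((r.2 : ℕ) : ℤ) + (M : ℤ) * y.2) : ℤ × ℤ)) := by
  have hM' : (M : ℤ) ≠ 0 := by exact_mod_cast hM.ne'
  rintro ⟨a, b⟩ ⟨c, d⟩ h
  simp only [Prod.mk.injEq] at h
  obtain ⟨h1, h2⟩ := h
  have e1 : a = c := mul_left_cancel₀ hM' (add_left_cancel h1)
  have e2 : b = d := mul_left_cancel₀ hM' (add_left_cancel h2)
  rw [e1, e2]

theorem b3_emod {M : ℕ} (k : Fin M) (y : ℤ) :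
    (((k : ℕ) : ℤ) + (M : ℤ) * y) % (M : ℤ) = ((k : ℕ) : ℤ) := by
  rw [Int.add_mul_emod_self_left]
  exact Int.emod_eq_of_lt (by positivity) (by exact_mod_cast k.2)

theorem b3_part_hasSum {M : ℕ} (hM : 0 < M) {F : ℤ × ℤ → ℂ} (r : Fin M × Fin M) {s : ℂ}
    (h : HasSum
      (fun y : ℤ × ℤ => F (((r.1 : ℕ) : ℤ) + (M : ℤ) * y.1, ((r.2 : ℕ) : ℤ) + (M : ℤ) * y.2)) s) :
    HasSum (b3_part F r) s := by
  refine ((b3_inj hM r).hasSum_iff ?_).1 ?_
  · intro x hx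
    unfold b3_part
    rw [if_neg]
    rintro ⟨h1, h2⟩
    apply hx
    refine ⟨(x.1 / (M : ℤ), x.2 / (M : ℤ)), ?_⟩
    ext
    · simp only
      rw [← h1]
      exact Int.emod_add_mul_ediv x.1 M
    · simp only
      rw [← h2]
      exact Int.emod_add_mul_ediv x.2 M
  · have : (b3_part F r ∘ fun y : ℤ × ℤ =>
        ((((r.1 : ℕ) : ℤ) + (M : ℤ) * y.1, ((r.2 : ℕ) : ℤ) + (M : ℤ) * y.2) : ℤ × ℤ))
        = fun y : ℤ × ℤ =>
          F (((r.1 : ℕ) : ℤ) + (M : ℤ) * y.1, ((r.2 : ℕ) : ℤ) + (M : ℤ) * y.2) := by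
      funext y
      simp only [Function.comp, b3_part]
      rw [if_pos ⟨b3_emod r.1 y.1, b3_emod r.2 y.2⟩]
    rw [this]
    exact h

theorem b3_exists_class {M : ℕ} (hM : 0 < M) (a : ℤ) : ∃ k : Fin M, a % (M : ℤ) = ((k : ℕ) : ℤ) := by
  have hM' : (0 : ℤ) < M := by exact_mod_cast hM
  have h0 : 0 ≤ a % (M : ℤ) := Int.emod_nonneg a hM'.ne'
  have h1 : a % (M : ℤ) < M := Int.emod_lt_of_pos a hM'
  refine ⟨⟨(a % (M : ℤ)).toNat, ?_⟩, ?_⟩
  · have := Int.toNat_of_nonneg h0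
    omega
  · exact (Int.toNat_of_nonneg h0).symm

theorem b3_sum_part {M : ℕ} (hM : 0 < M) (F : ℤ × ℤ → ℂ) (x : ℤ × ℤ) :
    ∑ r : Fin M × Fin M, b3_part F r x = F x := by
  obtain ⟨k1, h1⟩ := b3_exists_class hM x.1
  obtain ⟨k2, h2⟩ := b3_exists_class hM x.2
  rw [Finset.sum_eq_single (k1, k2)]
  · unfold b3_part
    rw [if_pos ⟨h1, h2⟩]
  · rintro ⟨j1, j2⟩ _ hne
    unfold b3_part
    rw [if_neg]
    rintro ⟨e1, e2⟩
    apply hne
    simp only at e1 e2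
    rw [h1] at e1
    rw [h2] at e2
    have f1 : k1 = j1 := Fin.ext (by exact_mod_cast e1)
    have f2 : k2 = j2 := Fin.ext (by exact_mod_cast e2)
    rw [f1, f2]
  · intro h
    exact absurd (Finset.mem_univ _) h

/-- Road: for each `r` the map `y ↦ (r.1 + M y.1, r.2 + M y.2)` is injective, so
`Function.Injective.hasSum_iff` turns `h r` into `HasSum (Set.indicator (class r) F) (S r)`;
`hasSum_sum` over `r`; every `x` lies in exactly one class (`Int.emod_emod_of_dvd`, `Int.emod_add_ediv`,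
`r = (x.1 % M, x.2 % M)`), so `∑ r, indicator (class r) F x = F x` (`Finset.sum_eq_single`).
Alternative: `Int.divModEquiv`, `Equiv.hasSum_iff`, `HasSum.prod_fiberwise` is the wrong direction: use
`hasSum_sum`. -/
theorem hasSum_of_classes_mod {M : ℕ} (hM : 0 < M) (F : ℤ × ℤ → ℂ) (S : Fin M × Fin M → ℂ)
    (h : ∀ r : Fin M × Fin M, HasSum
      (fun y : ℤ × ℤ => F (((r.1 : ℕ) : ℤ) + (M : ℤ) * y.1, ((r.2 : ℕ) : ℤ) + (M : ℤ) * y.2)) (S r)) :
    HasSum F (∑ r, S r) := by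
  have key : HasSum (fun x => ∑ r : Fin M × Fin M, b3_part F r x) (∑ r, S r) :=
    hasSum_sum fun r _ => b3_part_hasSum hM r (h r)
  have e : (fun x => ∑ r : Fin M × Fin M, b3_part F r x) = F := funext (b3_sum_part hM F)
  rwa [e] at key

end Claimed.Open.R002
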