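import Claimed.Open.R002.SanityFamDefs

/-! # Twists of `E₀`, post B4: the weight `J(d | N(primOf x))` is periodic modulo `4 d` and bounded -/

set_option autoImplicit false

namespace Claimed.Open.R002

/-- the norm of `primOf x` as a natural number is odd -/
theorem fb4_odd (x : ℤ × ℤ) : Odd (primOf x).norm.toNat := by
  have h0 := norm_primOf_pos x
  have h1 : ((primOf x).norm.toNat : ℤ) = (primOf x).norm := Int.toNat_of_nonneg h0.le
  have h2 : Odd (((primOf x).norm.toNat : ℕ) : ℤ) := by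
    rw [h1, norm_primOf]
    exact ⟨4 * x.1 ^ 2 + 2 * x.1 + 4 * x.2 ^ 2 + 2 * x.2, by ring⟩
  exact_mod_cast h2

/-- `N(primOf x) = 8 m² + 4 m + 8 n² + 4 n + 1` (`norm_primOf`) is odd, positive (`norm_primOf_pos`) and its
class modulo `4 d` depends only on `x` modulo `4 d`; `jacobiSym.mod_right' d (hb : Odd b) :
J(d | b) = J(d | b % (4 * d))`. -/
theorem twW_add_mul (d : ℕ) (x y : ℤ × ℤ) :
    twW d (x.1 + ((4 * d : ℕ) : ℤ) * y.1, x.2 + ((4 * d : ℕ) : ℤ) * y.2) = twW d x := by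
  unfold twW
  rw [jacobiSym.mod_right' d (fb4_odd _), jacobiSym.mod_right' d (fb4_odd x)]
  congr 1
  have h0 := norm_primOf_pos x
  have h0' := norm_primOf_pos (x.1 + ((4 * d : ℕ) : ℤ) * y.1, x.2 + ((4 * d : ℕ) : ℤ) * y.2)
  have h1 : ((primOf x).norm.toNat : ℤ) = (primOf x).norm := Int.toNat_of_nonneg h0.le
  have h1' : ((primOf (x.1 + ((4 * d : ℕ) : ℤ) * y.1, x.2 + ((4 * d : ℕ) : ℤ) * y.2)).norm.toNat : ℤ)
      = (primOf (x.1 + ((4 * d : ℕ) : ℤ) * y.1, x.2 + ((4 * d : ℕ) : ℤ) * y.2)).norm :=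
    Int.toNat_of_nonneg h0'.le
  have key : ((primOf (x.1 + ((4 * d : ℕ) : ℤ) * y.1, x.2 + ((4 * d : ℕ) : ℤ) * y.2)).norm.toNat : ℤ)
      % ((4 * d : ℕ) : ℤ) = ((primOf x).norm.toNat : ℤ) % ((4 * d : ℕ) : ℤ) := by
    rw [h1, h1', norm_primOf, norm_primOf]
    apply Int.ModEq.symm
    apply (Int.modEq_iff_dvd).2
    refine ⟨8 * (2 * x.1 * y.1 + ((4 * d : ℕ) : ℤ) * y.1 ^ 2) + 4 * y.1
      + 8 * (2 * x.2 * y.2 + ((4 * d : ℕ) : ℤ) * y.2 ^ 2) + 4 * y.2, ?_⟩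
    simp only
    ring
  exact_mod_cast key

/-- `jacobiSym.trichotomy`. -/
theorem abs_twW_le_one (d : ℕ) (x : ℤ × ℤ) : |twW d x| ≤ 1 := by
  unfold twW
  rcases jacobiSym.trichotomy d (primOf x).norm.toNat with h | h | h <;> rw [h] <;> simp

end Claimed.Open.R002
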