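import Claimed.Open.R002.SanityFamB2
import Claimed.Open.R002.SanityFamB4

/-! # Twists of `E₀`, post B5: the sum over one class `r + 4 d ℤ²` -/

set_option autoImplicit false

namespace Claimed.Open.R002

open Real

/-- the real form of the sum over one class -/
theorem fb5_real (d : ℕ) (r : ℕ × ℕ) {t : ℝ} (hX : 0 < 128 * (d : ℝ) ^ 2 * t) :
    HasSum (fun y : ℤ × ℤ => (twW d ((r.1 : ℤ), (r.2 : ℤ)) : ℝ) * (8 * (d : ℝ)) *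
      ((((y.1 : ℝ) + twC d r.1) + ((y.2 : ℝ) + twC d r.2)) *
        rexp (-π * (((y.1 : ℝ) + twC d r.1) ^ 2 + ((y.2 : ℝ) + twC d r.2) ^ 2) * (128 * (d : ℝ) ^ 2 * t))))
      (thetaTwClass d r t) := by
  have A := hasSum_oddEven (twC d r.1) (twC d r.2) hX
  have B := (Equiv.prodComm ℤ ℤ).hasSum_iff.mpr (hasSum_oddEven (twC d r.2) (twC d r.1) hX)
  have C := (A.add B).mul_left ((twW d ((r.1 : ℤ), (r.2 : ℤ)) : ℝ) * (8 * (d : ℝ)))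
  refine C.congr_fun fun y => ?_
  simp only [Function.comp, Equiv.prodComm_apply, Prod.fst_swap, Prod.snd_swap]
  rw [add_comm (((y.2 : ℝ) + twC d r.2) ^ 2) (((y.1 : ℝ) + twC d r.1) ^ 2)]
  ring

/-- With `M = 4 d`, `c_i = twC d r_i = (4 r_i + 1) / (4 M)`, `X = 128 d² t = 8 M² t`:
`Re (primOf (r + M y)) = 2 M ((y₁ + c₁) + (y₂ + c₂))` (`re_primOf_real`),
`N (primOf (r + M y)) = 8 M² ((y₁ + c₁)² + (y₂ + c₂)²)` (`norm_primOf_real`), the weight is `twW d r`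
(`twW_add_mul`); `hasSum_oddEven c₁ c₂` and `hasSum_oddEven c₂ c₁` composed with `Equiv.prodComm ℤ ℤ`;
`HasSum.add`, `HasSum.mul_left`, `Complex.hasSum_ofReal`. -/
theorem hasSum_thetaTwClass (d : ℕ) (hd : 0 < d) (r : ℕ × ℕ) {t : ℝ} (ht : 0 < t) :
    HasSum (fun y : ℤ × ℤ =>
      ((twW d ((r.1 : ℤ) + ((4 * d : ℕ) : ℤ) * y.1, (r.2 : ℤ) + ((4 * d : ℕ) : ℤ) * y.2) : ℤ) : ℂ) *
        ((primOf ((r.1 : ℤ) + ((4 * d : ℕ) : ℤ) * y.1, (r.2 : ℤ) + ((4 * d : ℕ) : ℤ) * y.2)).re : ℂ) *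
        rexp (-π *
          ((primOf ((r.1 : ℤ) + ((4 * d : ℕ) : ℤ) * y.1, (r.2 : ℤ) + ((4 * d : ℕ) : ℤ) * y.2)).norm : ℝ)
            * t))
      (thetaTwClass d r t : ℂ) := by
  have hd' : (0 : ℝ) < d := by exact_mod_cast hd
  have hX : 0 < 128 * (d : ℝ) ^ 2 * t := by positivity
  refine (Complex.hasSum_ofReal.mpr (fb5_real d r hX)).congr_fun fun y => ?_
  have hW := twW_add_mul d ((r.1 : ℤ), (r.2 : ℤ)) y
  simp only at hW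
  have hre : ((primOf ((r.1 : ℤ) + ((4 * d : ℕ) : ℤ) * y.1, (r.2 : ℤ) + ((4 * d : ℕ) : ℤ) * y.2)).re : ℝ) =
      8 * (d : ℝ) * (((y.1 : ℝ) + twC d r.1) + ((y.2 : ℝ) + twC d r.2)) := by
    rw [re_primOf_real]
    unfold twC
    push_cast
    field_simp
    ring
  have hno : ((primOf ((r.1 : ℤ) + ((4 * d : ℕ) : ℤ) * y.1, (r.2 : ℤ) + ((4 * d : ℕ) : ℤ) * y.2)).norm : ℝ) =
      128 * (d : ℝ) ^ 2 * (((y.1 : ℝ) + twC d r.1) ^ 2 + ((y.2 : ℝ) + twC d r.2) ^ 2) := by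
    rw [norm_primOf_real]
    unfold twC
    push_cast
    field_simp
    ring
  have hre' : ((primOf ((r.1 : ℤ) + ((4 * d : ℕ) : ℤ) * y.1, (r.2 : ℤ) + ((4 * d : ℕ) : ℤ) * y.2)).re : ℂ) =
      ((8 * (d : ℝ) * (((y.1 : ℝ) + twC d r.1) + ((y.2 : ℝ) + twC d r.2)) : ℝ) : ℂ) := by
    rw [← hre]
    push_cast
    rfl
  rw [hW, hre', hno]
  have e : -π * (128 * (d : ℝ) ^ 2 * (((y.1 : ℝ) + twC d r.1) ^ 2 + ((y.2 : ℝ) + twC d r.2) ^ 2)) * t =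
      -π * (((y.1 : ℝ) + twC d r.1) ^ 2 + ((y.2 : ℝ) + twC d r.2) ^ 2) * (128 * (d : ℝ) ^ 2 * t) := by ring
  rw [e]
  push_cast
  ring

end Claimed.Open.R002
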