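import Claimed.Open.R002.SanityFamB3
import Claimed.Open.R002.SanityFamB5

/-! # Twists of `E₀`, post B6: the twisted theta series -/

set_option autoImplicit false

namespace Claimed.Open.R002

open Real

/-- `hasSum_of_classes_mod` (`M = 4 d`) with `hasSum_thetaTwClass`; `thetaTw` is the finite sum
(`Complex.ofReal_sum`). -/
theorem hasSum_thetaTw (d : ℕ) (hd : 0 < d) {t : ℝ} (ht : 0 < t) :
    HasSum (fun x : ℤ × ℤ =>
      ((twW d x : ℤ) : ℂ) * ((primOf x).re : ℂ) * rexp (-π * ((primOf x).norm : ℝ) * t))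
      (thetaTw d t : ℂ) := by
  have h := hasSum_of_classes_mod (M := 4 * d) (by positivity)
    (fun x : ℤ × ℤ =>
      ((twW d x : ℤ) : ℂ) * ((primOf x).re : ℂ) * rexp (-π * ((primOf x).norm : ℝ) * t))
    (fun r => (thetaTwClass d ((r.1 : ℕ), (r.2 : ℕ)) t : ℂ))
    (fun r => hasSum_thetaTwClass d hd ((r.1 : ℕ), (r.2 : ℕ)) ht)
  unfold thetaTw
  rw [Complex.ofReal_sum]
  exact h

end Claimed.Open.R002
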