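import Claimed.Open.R002.SanityHecke
import Claimed.Open.R002.SanityE5Curve

/-!
# Sanity for R002: the `L`-functions of the quadratic twists of `E₀` (definitions)

Goal of the files `SanityFam*.lean`: for every odd squarefree `d`, the Hasse–Weil `L`-series of
`E₀^d : y² = x³ - d² x` (Mathlib's `WeierstrassCurve.LSeries`) converges absolutely on `Re s > 3/2` and
extends to an entire function: `∃ L, IsLFunction (quadraticTwist E₀ d) L`.  In particular this holds for
the rank one example `E₅ : y² = x³ - 25 x` of the folder.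

The road: `(E₀^d).LFunction n = J(d | n) · hecke n` (Jacobi symbol); `x ↦ J(d | N(primOf x))` is periodic
modulo `M = 4 d` on `ℤ²`, so the twisted theta series is a finite sum, over the classes `r + M ℤ²`, of
products of two Hurwitz kernels, and the Mellin transform of each product is entire.
-/

set_option autoImplicit false

namespace Claimed.Open.R002

open WeierstrassCurve

/-- The equation `y² = x³ - d² x` over any commutative ring. -/
def Etwover (d : ℕ) (A : Type*) [CommRing A] : WeierstrassCurve A := ⟨0, 0, 0, -(d : A) ^ 2, 0⟩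

/-- The quadratic twist `E₀^d : y² = x³ - d² x`. -/
def Etw (d : ℕ) : WeierstrassCurve ℚ := ⟨0, 0, 0, -(d : ℚ) ^ 2, 0⟩

/-- The coefficients of the twisted Hecke `L`-series. -/
noncomputable def heckeTw (d n : ℕ) : ℤ := jacobiSym d n * hecke n

/-- The weight `J(d | N α)` at `α = primOf x`. -/
noncomputable def twW (d : ℕ) (x : ℤ × ℤ) : ℤ := jacobiSym d (primOf x).norm.toNat

/-- The shift `(4 r + 1) / (4 M)`, `M = 4 d`, of the class `r + M ℤ`. -/
noncomputable def twC (d : ℕ) (r : ℕ) : ℝ := (4 * (r : ℝ) + 1) / (16 * (d : ℝ))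

/-- The product of two Hurwitz kernels. -/
noncomputable def oddEven (a b : ℝ) (x : ℝ) : ℝ :=
  HurwitzZeta.oddKernel (a : UnitAddCircle) x * HurwitzZeta.evenKernel (b : UnitAddCircle) x

/-- The contribution of the class `r + M ℤ²` to the twisted theta series. -/
noncomputable def thetaTwClass (d : ℕ) (r : ℕ × ℕ) (t : ℝ) : ℝ :=
  (twW d ((r.1 : ℤ), (r.2 : ℤ)) : ℝ) * (8 * (d : ℝ)) *
    (oddEven (twC d r.1) (twC d r.2) (128 * (d : ℝ) ^ 2 * t) +
      oddEven (twC d r.2) (twC d r.1) (128 * (d : ℝ) ^ 2 * t))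

/-- The twisted theta series `∑_α J(d | N α) Re α · exp (-π N(α) t)`. -/
noncomputable def thetaTw (d : ℕ) (t : ℝ) : ℝ :=
  ∑ r : Fin (4 * d) × Fin (4 * d), thetaTwClass d ((r.1 : ℕ), (r.2 : ℕ)) t

end Claimed.Open.R002
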