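import Mathlib

/-!
# Sanity for R002: Fermat's right triangle theorem

`a⁴ = b⁴ + c²` has no solution in nonzero integers `b`, `c`.  (Mathlib has the companion equation
`a⁴ + b⁴ = c²`, `not_fermat_42`.)  It is used in `SanityE0Points.lean` to determine the rational
points of `y² = x³ - x`.
-/

set_option autoImplicit false

namespace Claimed.Open.R002

/-- A positive integer which is `± a square` is a square. -/
lemma eq_sq_of_pos {a a0 : ℤ} (ha : 0 < a) (h : a = a0 ^ 2 ∨ a = -a0 ^ 2) : a = a0 ^ 2 := by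
  rcases h with h | h
  · exact h
  · have := sq_nonneg a0
    omega

/-- Parametrisation of a primitive Pythagorean triple with positive entries. -/
lemma pyth_param {m n a : ℤ} (_hm : 0 < m) (hn : 0 < n) (ha : 0 < a) (h : m ^ 2 + n ^ 2 = a ^ 2)
    (hg : Int.gcd m n = 1) (hpar : m % 2 = 1) :
    ∃ p q : ℤ, 0 < p ∧ 0 < q ∧ IsCoprime p q ∧ m = p ^ 2 - q ^ 2 ∧ n = 2 * p * q ∧
      a = p ^ 2 + q ^ 2 := by
  have ht : PythagoreanTriple m n a := by
    delta PythagoreanTriple
    linear_combination h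
  obtain ⟨p, q, h1, h2, h3, h4, -, h6⟩ := ht.coprime_classification' hg hpar ha
  have hp : 0 < p := by
    rcases h6.lt_or_eq with h | h
    · exact h
    · rw [← h] at h2; simp at h2; omega
  have hq : 0 < q := by
    by_contra hq
    rw [not_lt] at hq
    have : 2 * p * q ≤ 0 := mul_nonpos_of_nonneg_of_nonpos (by positivity) hq
    omega
  exact ⟨p, q, hp, hq, Int.isCoprime_iff_gcd_eq_one.mpr h4, h1, h2, h3⟩

/-- The descent step for `b` even. -/
lemma rt_descent_even {p q b₁ : ℤ} (hp : 0 < p) (hq : 0 < q) (hpq : IsCoprime p q)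
    (hm : 0 < p ^ 2 - q ^ 2) (hb : b₁ ^ 2 = p * q * (p ^ 2 - q ^ 2)) :
    ∃ r s t : ℤ, 0 < r ∧ 0 < s ∧ 0 < t ∧ r ^ 4 = s ^ 4 + t ^ 2 ∧ r ≤ p := by
  have hc1 : IsCoprime p (p ^ 2 - q ^ 2) := by
    have : p ^ 2 - q ^ 2 = -(q ^ 2) + p * p := by ring
    rw [this]
    exact (hpq.pow_right.neg_right).add_mul_left_right p
  have hc2 : IsCoprime q (p ^ 2 - q ^ 2) := by
    have : p ^ 2 - q ^ 2 = p ^ 2 + q * (-q) := by ring
    rw [this]
    exact (hpq.symm.pow_right).add_mul_left_right (-q)
  have hc : IsCoprime (p * q) (p ^ 2 - q ^ 2) := hc1.mul_left hc2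
  obtain ⟨e, he⟩ := Int.sq_of_isCoprime hc hb.symm
  have he' : p * q = e ^ 2 := eq_sq_of_pos (by positivity) he
  obtain ⟨t, ht⟩ := Int.sq_of_isCoprime hc.symm (by rw [mul_comm]; exact hb.symm)
  have ht' : p ^ 2 - q ^ 2 = t ^ 2 := eq_sq_of_pos hm ht
  obtain ⟨r, hr⟩ := Int.sq_of_isCoprime hpq he'
  have hr' : p = r ^ 2 := eq_sq_of_pos hp hr
  obtain ⟨s, hs⟩ := Int.sq_of_isCoprime hpq.symm (by rw [mul_comm]; exact he')
  have hs' : q = s ^ 2 := eq_sq_of_pos hq hs
  have hr0 : r ≠ 0 := by rintro rfl; simp at hr'; omega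
  have hs0 : s ≠ 0 := by rintro rfl; simp at hs'; omega
  have ht0 : t ≠ 0 := by rintro rfl; simp at ht'; omega
  refine ⟨|r|, |s|, |t|, abs_pos.mpr hr0, abs_pos.mpr hs0, abs_pos.mpr ht0, ?_, ?_⟩
  · have e4 : ∀ z : ℤ, |z| ^ 4 = z ^ 4 := fun z => by
      rw [show (4 : ℕ) = 2 * 2 by norm_num, pow_mul, pow_mul, sq_abs]
    rw [e4, e4, sq_abs]
    rw [hr', hs'] at ht'
    linear_combination ht'
  · rw [hr', ← sq_abs]
    have : 1 ≤ |r| := Int.one_le_abs hr0
    nlinarith

/-- **Fermat's right triangle theorem**, positive version with a bound for the descent. -/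
lemma rt_aux : ∀ (N : ℕ) (a b c : ℤ), 0 < a → 0 < b → 0 < c → a ≤ N → a ^ 4 = b ^ 4 + c ^ 2 →
    False := by
  intro N
  induction N with
  | zero => intro a b c ha _ _ hN _; simp at hN; omega
  | succ N ih =>
    intro a b c ha hb hc hN h
    -- it suffices to find a solution with smaller `a`
    suffices H : ∃ a' b' c' : ℤ, 0 < a' ∧ 0 < b' ∧ 0 < c' ∧ a' < a ∧ a' ^ 4 = b' ^ 4 + c' ^ 2 by
      obtain ⟨a', b', c', ha', hb', hc', hlt, h'⟩ := H
      exact ih a' b' c' ha' hb' hc' (by push_cast at hN; omega) h'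
    by_cases hg : Int.gcd a b = 1
    swap
    · -- not coprime: divide by the gcd
      set g : ℤ := (Int.gcd a b : ℤ) with hgdef
      have hg0 : 0 < g := by
        have : Int.gcd a b ≠ 0 := by
          intro e
          rw [Int.gcd_eq_zero_iff] at e
          omega
        omega
      have hg2 : 2 ≤ g := by omega
      obtain ⟨a', ha'⟩ : g ∣ a := Int.gcd_dvd_left a b
      obtain ⟨b', hb'⟩ : g ∣ b := Int.gcd_dvd_right a b
      have hdvd : (g ^ 2) ^ 2 ∣ c ^ 2 := by
        refine ⟨a' ^ 4 - b' ^ 4, ?_⟩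
        have : c ^ 2 = a ^ 4 - b ^ 4 := by linear_combination -h
        rw [this, ha', hb']
        ring
      obtain ⟨c', hc'⟩ : g ^ 2 ∣ c := (Int.pow_dvd_pow_iff (by norm_num)).mp hdvd
      have ha'0 : 0 < a' := by
        by_contra hcon
        rw [not_lt] at hcon
        have : g * a' ≤ 0 := mul_nonpos_of_nonneg_of_nonpos hg0.le hcon
        omega
      have hb'0 : 0 < b' := by
        by_contra hcon
        rw [not_lt] at hcon
        have : g * b' ≤ 0 := mul_nonpos_of_nonneg_of_nonpos hg0.le hcon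
        omega
      have hc'0 : 0 < c' := by
        by_contra hcon
        rw [not_lt] at hcon
        have : g ^ 2 * c' ≤ 0 := mul_nonpos_of_nonneg_of_nonpos (by positivity) hcon
        omega
      refine ⟨a', b', c', ha'0, hb'0, hc'0, by nlinarith, ?_⟩
      have hg4 : g ^ 4 ≠ 0 := by positivity
      apply mul_left_cancel₀ hg4
      rw [ha', hb', hc'] at h
      linear_combination h
    · have hcop : IsCoprime a b := Int.isCoprime_iff_gcd_eq_one.mpr hg
      have hcop2 : IsCoprime (b ^ 2) c := by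
        have h1 : IsCoprime (b ^ 2) (c ^ 2) := by
          have : c ^ 2 = a ^ 4 + b ^ 2 * (-(b ^ 2)) := by linear_combination -h
          rw [this]
          exact (hcop.symm.pow (m := 2) (n := 4)).add_mul_left_right _
        exact (IsCoprime.pow_right_iff (by norm_num)).mp h1
      rcases Int.emod_two_eq_zero_or_one b with hbpar | hbpar
      · -- `b` even
        have hapar : a % 2 = 1 := by
          rcases Int.emod_two_eq_zero_or_one a with h0 | h1
          · exfalso
            have h2a : (2 : ℤ) ∣ a := Int.dvd_of_emod_eq_zero h0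
            have h2b : (2 : ℤ) ∣ b := Int.dvd_of_emod_eq_zero hbpar
            have := hcop.isUnit_of_dvd' h2a h2b
            exact absurd this (by decide)
          · exact h1
        have hcpar : c % 2 = 1 := by
          rcases Int.emod_two_eq_zero_or_one c with h0 | h1
          · exfalso
            obtain ⟨c₁, rfl⟩ : (2 : ℤ) ∣ c := Int.dvd_of_emod_eq_zero h0
            obtain ⟨b₁, rfl⟩ : (2 : ℤ) ∣ b := Int.dvd_of_emod_eq_zero hbpar
            have h2 : (2 : ℤ) ∣ a ^ 4 := ⟨8 * b₁ ^ 4 + 2 * c₁ ^ 2, by rw [h]; ring⟩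
            have h2a : (2 : ℤ) ∣ a := Int.Prime.dvd_pow' Nat.prime_two h2
            omega
          · exact h1
        have ht : PythagoreanTriple c (b ^ 2) (a ^ 2) := by
          delta PythagoreanTriple
          linear_combination -h
        obtain ⟨m, n, h1, h2, h3, h4, h5, h6⟩ := ht.coprime_classification'
          (Int.isCoprime_iff_gcd_eq_one.mp hcop2.symm) hcpar (by positivity)
        have hb2 : 0 < b ^ 2 := by positivity
        have hm : 0 < m := by
          rcases h6.lt_or_eq with h' | h'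
          · exact h'
          · rw [← h'] at h2; simp at h2; omega
        have hn : 0 < n := by
          by_contra hcon
          rw [not_lt] at hcon
          have : 2 * m * n ≤ 0 := mul_nonpos_of_nonneg_of_nonpos (by positivity) hcon
          omega
        obtain ⟨b₁, hb₁⟩ : (2 : ℤ) ∣ b := Int.dvd_of_emod_eq_zero hbpar
        obtain ⟨p, q, hp, hq, hpq, hmn, hpos, hapq⟩ : ∃ p q : ℤ, 0 < p ∧ 0 < q ∧ IsCoprime p q ∧
            m * n = (p ^ 2 - q ^ 2) * (2 * p * q) ∧ 0 < p ^ 2 - q ^ 2 ∧ a = p ^ 2 + q ^ 2 := by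
          rcases h5 with ⟨-, hn1⟩ | ⟨hm1, -⟩
          · obtain ⟨p, q, hp, hq, hpq, e1, e2, e3⟩ := pyth_param hn hm ha (by linear_combination -h3)
              (by rw [Int.gcd_comm]; exact h4) hn1
            exact ⟨p, q, hp, hq, hpq, by rw [e1, e2]; ring, by omega, e3⟩
          · obtain ⟨p, q, hp, hq, hpq, e1, e2, e3⟩ := pyth_param hm hn ha (by linear_combination -h3)
              h4 hm1
            exact ⟨p, q, hp, hq, hpq, by rw [e1, e2], by omega, e3⟩
        have hb₁sq : b₁ ^ 2 = p * q * (p ^ 2 - q ^ 2) := by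
          have : (4 : ℤ) * b₁ ^ 2 = 4 * (p * q * (p ^ 2 - q ^ 2)) := by
            have e : b ^ 2 = 2 * (m * n) := by rw [h2]; ring
            rw [hmn, hb₁] at e
            linear_combination e
          linarith
        obtain ⟨r, s, t, hr, hs, ht', heq, hle⟩ := rt_descent_even hp hq hpq hpos hb₁sq
        refine ⟨r, s, t, hr, hs, ht', ?_, heq⟩
        rw [hapq]
        nlinarith
      · -- `b` odd
        have ht : PythagoreanTriple (b ^ 2) c (a ^ 2) := by
          delta PythagoreanTriple
          linear_combination -h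
        have hb22 : b ^ 2 % 2 = 1 := by
          rw [sq, Int.mul_emod, hbpar]
          decide
        obtain ⟨m, n, h1, h2, h3, h4, h5, h6⟩ := ht.coprime_classification'
          (Int.isCoprime_iff_gcd_eq_one.mp hcop2) hb22 (by positivity)
        have hm : 0 < m := by
          rcases h6.lt_or_eq with h' | h'
          · exact h'
          · rw [← h'] at h2; simp at h2; omega
        have hn : n ≠ 0 := by
          rintro rfl
          simp at h2
          omega
        refine ⟨m, |n|, a * b, hm, abs_pos.mpr hn, by positivity, ?_, ?_⟩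
        · have : m ^ 2 < a ^ 2 := by
            have := sq_pos_of_ne_zero hn
            omega
          exact lt_of_pow_lt_pow_left₀ 2 ha.le this
        · have e4 : |n| ^ 4 = n ^ 4 := by
            rw [show (4 : ℕ) = 2 * 2 by norm_num, pow_mul, pow_mul, sq_abs]
          rw [e4, mul_pow, h1, h3]
          ring

/-- **Fermat's right triangle theorem**: `a⁴ = b⁴ + c²` has no solution in integers with
`b, c ≠ 0`. -/
theorem fermat_right_triangle {a b c : ℤ} (hb : b ≠ 0) (hc : c ≠ 0) : a ^ 4 ≠ b ^ 4 + c ^ 2 := by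
  intro h
  have e4 : ∀ z : ℤ, |z| ^ 4 = z ^ 4 := fun z => by
    rw [show (4 : ℕ) = 2 * 2 by norm_num, pow_mul, pow_mul, sq_abs]
  have ha : a ≠ 0 := by
    rintro rfl
    have h1 : 0 < b ^ 4 := by positivity
    have h2 : 0 < c ^ 2 := by positivity
    simp at h
    omega
  refine rt_aux |a|.toNat |a| |b| |c| (abs_pos.mpr ha) (abs_pos.mpr hb) (abs_pos.mpr hc) ?_ ?_
  · rw [Int.toNat_of_nonneg (abs_nonneg a)]
  · rw [e4, e4, sq_abs, h]

end Claimed.Open.R002
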