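import Claimed.Open.R002.SanityHeckeDefs

/-! # Hecke road, post A1: the coefficient of `L(E, s)` at a prime power -/

set_option autoImplicit false

namespace Claimed.Open.R002

open WeierstrassCurve IsDedekindDomain NumberField ArithmeticFunction Filter

/-- Dirichlet convolution at a prime power with a factor that vanishes at the positive powers. -/
theorem a1_mul_apply_prime_pow (f g : ArithmeticFunction ℤ) {p : ℕ} (hp : p.Prime) (k : ℕ)
    (hg1 : g 1 = 1) (hg : ∀ j : ℕ, 1 ≤ j → g (p ^ j) = 0) : (f * g) (p ^ k) = f (p ^ k) := by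
  rw [ArithmeticFunction.mul_apply, Nat.sum_divisorsAntidiagonal (fun a b => f a * g b),
    Nat.sum_divisors_prime_pow hp, Finset.sum_eq_single k]
  · rw [Nat.div_self (pow_pos hp.pos k), hg1, mul_one]
  · intro i hi hik
    have hlt : i < k := lt_of_le_of_ne (Nat.lt_succ_iff.1 (Finset.mem_range.1 hi)) hik
    rw [Nat.pow_div hlt.le hp.pos, hg (k - i) (by omega), mul_zero]
  · intro h
    exact absurd (Finset.mem_range.2 (Nat.lt_succ_self k)) h

/-- A finite product of factors that vanish at the positive powers of `p` does so too. -/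
theorem a1_prod_apply_prime_pow {ι : Type*} (s : Finset ι) (f : ι → ArithmeticFunction ℤ)
    {p : ℕ} (hp : p.Prime) (h1 : ∀ i ∈ s, f i 1 = 1)
    (h0 : ∀ i ∈ s, ∀ j : ℕ, 1 ≤ j → f i (p ^ j) = 0) :
    (∏ i ∈ s, f i) 1 = 1 ∧ ∀ j : ℕ, 1 ≤ j → (∏ i ∈ s, f i) (p ^ j) = 0 := by
  classical
  induction s using Finset.induction_on with
  | empty =>
    refine ⟨by simp, fun j hj => ?_⟩
    rw [Finset.prod_empty, ArithmeticFunction.one_apply_ne]
    exact (Nat.one_lt_pow (by omega) hp.one_lt).ne'
  | insert a s ha ih =>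
    obtain ⟨ih1, ih0⟩ := ih (fun i hi => h1 i (Finset.mem_insert_of_mem hi))
      (fun i hi => h0 i (Finset.mem_insert_of_mem hi))
    rw [Finset.prod_insert ha]
    refine ⟨?_, fun j hj => ?_⟩
    · rw [ArithmeticFunction.mul_apply_one, h1 a (Finset.mem_insert_self a s), ih1, one_mul]
    · rw [a1_mul_apply_prime_pow _ _ hp j ih1 ih0, h0 a (Finset.mem_insert_self a s) j hj]

theorem a1_eulerFactorAt_apply_self_pow (E : WeierstrassCurve ℚ) (v : HeightOneSpectrum (𝓞 ℚ))
    (k : ℕ) :
    eulerFactorAt E v (primeBelow v ^ k) = ((E.baseChange (v.adicCompletion ℚ)).localPowerSeries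
      (v.adicCompletionIntegers ℚ)).coeff k := by
  have h := ofPowerSeries_apply_pow (prime_primeBelow v).one_lt
    ((E.baseChange (v.adicCompletion ℚ)).localPowerSeries (v.adicCompletionIntegers ℚ)) k
  rw [← h, eulerFactorAt, localEulerFactor, card_residueField_completion]

theorem a1_eulerFactorAt_apply_pow_of_ne (E : WeierstrassCurve ℚ)
    {v w : HeightOneSpectrum (𝓞 ℚ)} (h : w ≠ v) (j : ℕ) (hj : 1 ≤ j) :
    eulerFactorAt E w (primeBelow v ^ j) = 0 := by
  rw [eulerFactorAt, localEulerFactor, card_residueField_completion,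
    ofPowerSeries_apply (prime_primeBelow w).one_lt, Function.extend_apply', Pi.zero_apply]
  rintro ⟨k, hk⟩
  rcases Nat.eq_zero_or_pos k with rfl | hk0
  · have h1 : 1 < primeBelow v ^ j := Nat.one_lt_pow (by omega) (prime_primeBelow v).one_lt
    simp at hk
    omega
  · have hd : primeBelow w ∣ primeBelow v ^ j := hk ▸ dvd_pow_self _ hk0.ne'
    exact h (primeBelow_injective
      ((Nat.prime_dvd_prime_iff_eq (prime_primeBelow w) (prime_primeBelow v)).1
        ((prime_primeBelow w).dvd_of_dvd_pow hd)))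

/-- The `p ^ k`-th Dirichlet coefficient of `L(E, s)` is the coefficient of `T ^ k` in `1 / f_p(T)`
(extends `LFunction_primeBelow_eq_coeff`, the case `k = 1`). -/
theorem LFunction_primeBelow_pow (E : WeierstrassCurve ℚ) (v : HeightOneSpectrum (𝓞 ℚ)) (k : ℕ) :
    E.LFunction (primeBelow v ^ k) = ((E.baseChange (v.adicCompletion ℚ)).localPowerSeries
      (v.adicCompletionIntegers ℚ)).coeff k := by
  classical
  obtain ⟨s, hs⟩ := eventually_atTop.1 (eventually_prod_eulerFactorAt_eq E (primeBelow v ^ k))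
  have hsub : s ≤ insert v (s.erase v) := by
    intro w hw
    by_cases hwv : w = v
    · exact hwv ▸ Finset.mem_insert_self _ _
    · exact Finset.mem_insert_of_mem (Finset.mem_erase.2 ⟨hwv, hw⟩)
  obtain ⟨h1, h0⟩ := a1_prod_apply_prime_pow (s.erase v) (eulerFactorAt E) (prime_primeBelow v)
    (fun w _ => (isMultiplicative_eulerFactorAt E w).map_one)
    (fun w hw j hj => a1_eulerFactorAt_apply_pow_of_ne E (Finset.ne_of_mem_erase hw) j hj)
  rw [← hs _ hsub, Finset.prod_insert (Finset.notMem_erase v s),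
    a1_mul_apply_prime_pow _ _ (prime_primeBelow v) k h1 h0, a1_eulerFactorAt_apply_self_pow]

end Claimed.Open.R002
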