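import Claimed.Open.R002.SanityHeckeDefs

/-! # Hecke road, post A2: the local polynomial of an integral equation with unit discriminant -/

set_option autoImplicit false

namespace Claimed.Open.R002

open WeierstrassCurve Polynomial

variable (R : Type*) [CommRing R] [IsDomain R] [IsDiscreteValuationRing R]
variable (K : Type*) [Field K] [Algebra R K] [IsFractionRing R K]

/-- Tools: `hasGoodReduction_of_isUnit_Δ`, `exists_vc_lift`, `reduction_smul`, `vcEquiv`,
`reduction_baseChange` (all in this folder); `W.minimal R = C • W` by definition. -/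
theorem localPolynomial_of_isUnit_Δ (W₀ : WeierstrassCurve R) (h : IsUnit W₀.Δ) :
    (W₀⁄K).localPolynomial R =
      1 - C ((Nat.card (IsLocalRing.ResidueField R) : ℤ) + 1 -
          (Nat.card (W₀.map (IsLocalRing.residue R)).toAffine.Point : ℤ)) * X +
        C (Nat.card (IsLocalRing.ResidueField R) : ℤ) * X ^ 2 := by
  classical
  -- the generic fibre is an elliptic curve with an integral equation
  have hell : (W₀⁄K).IsElliptic := by
    refine ⟨?_⟩
    have : (W₀⁄K).Δ = algebraMap R K W₀.Δ := WeierstrassCurve.map_Δ W₀ (algebraMap R K)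
    rw [this]
    exact h.map (algebraMap R K)
  have hint : IsIntegral R (W₀⁄K) := ⟨W₀, rfl⟩
  have e : integralModel R (W₀⁄K) = W₀ := by
    apply WeierstrassCurve.map_injective (IsFractionRing.injective R K)
    exact baseChange_integralModel_eq R (W₀⁄K)
  have hgood : (W₀⁄K).HasGoodReduction R :=
    hasGoodReduction_of_isUnit_Δ R (W₀⁄K) (by rw [e]; exact h)
  have hmin : IsMinimal R (W₀⁄K) := hgood.toIsMinimal
  -- the chosen minimal equation
  set Cv : VariableChange K := ((W₀⁄K).exists_isMinimal R).choose with hCv
  have hW' : (W₀⁄K).minimal R = Cv • (W₀⁄K) := rfl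
  have hmin' : IsMinimal R (Cv • (W₀⁄K)) := ((W₀⁄K).exists_isMinimal R).choose_spec
  obtain ⟨C₀, hC₀⟩ := exists_vc_lift R hmin hmin'
  have hmin'' : IsMinimal R (C₀.map (algebraMap R K) • (W₀⁄K)) := by rw [hC₀]; exact hmin'
  have hred : (C₀.map (algebraMap R K) • (W₀⁄K)).reduction R =
      C₀.map (IsLocalRing.residue R) • W₀.map (IsLocalRing.residue R) := by
    rw [reduction_smul R C₀, reduction_baseChange R K W₀]
  have hell₀ : (W₀.map (IsLocalRing.residue R)).IsElliptic := by
    rw [← reduction_baseChange R K W₀]
    exact (hasGoodReduction_iff_isElliptic_reduction R).mp hgood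
  have hgood' : (C₀.map (algebraMap R K) • (W₀⁄K)).HasGoodReduction R := by
    rw [hasGoodReduction_iff_isElliptic_reduction R, hred]
    infer_instance
  have hcard : Nat.card ((C₀.map (algebraMap R K) • (W₀⁄K)).reduction R).toAffine.Point =
      Nat.card (W₀.map (IsLocalRing.residue R)).toAffine.Point := by
    rw [hred]
    exact Nat.card_congr (vcEquiv (W₀.map (IsLocalRing.residue R))
      (C₀.map (IsLocalRing.residue R))).toEquiv
  unfold localPolynomial
  simp only [hW', ← hC₀]
  rw [if_pos hgood', hcard]

end Claimed.Open.R002
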