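import Claimed.Open.R002.SanityHeckeDefs

/-! # Hecke road, post A3: the local polynomial in the additive case -/

set_option autoImplicit false

namespace Claimed.Open.R002

open WeierstrassCurve Polynomial

variable (R : Type*) [CommRing R] [IsDomain R] [IsDiscreteValuationRing R]
variable (K : Type*) [Field K] [Algebra R K] [IsFractionRing R K]

/-- Tools: `isMinimal_of_Δ_notMem`, `exists_vc_lift`, `variableChange_Δ`, `variableChange_c₄`:
the minimal model is `C • W` with `C` over `R`, `u` a unit, so `Δ` and `c₄` stay in `𝔪`. -/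
theorem localPolynomial_of_additive (W₀ : WeierstrassCurve R) [(W₀⁄K).IsElliptic]
    (h12 : W₀.Δ ∉ IsLocalRing.maximalIdeal R ^ 12) (hΔ : W₀.Δ ∈ IsLocalRing.maximalIdeal R)
    (hc : W₀.c₄ ∈ IsLocalRing.maximalIdeal R) :
    (W₀⁄K).localPolynomial R = 1 := by
  have inj := IsFractionRing.injective R K
  have hint : IsIntegral R (W₀⁄K) := ⟨W₀, rfl⟩
  have hmodel : integralModel R (W₀⁄K) = W₀ := by
    apply WeierstrassCurve.map_injective inj
    exact baseChange_integralModel_eq R (W₀⁄K)
  have hmin : IsMinimal R (W₀⁄K) := isMinimal_of_Δ_notMem R (W₀⁄K) (by rwa [hmodel])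
  have hmin' : IsMinimal R ((W₀⁄K).minimal R) := inferInstance
  obtain ⟨C₀, hC₀⟩ := exists_vc_lift R hmin (C := ((W₀⁄K).exists_isMinimal R).choose) hmin'
  have hW' : (W₀⁄K).minimal R = (C₀ • W₀)⁄K := by
    show ((W₀⁄K).exists_isMinimal R).choose • (W₀⁄K) = (C₀ • W₀).map (algebraMap R K)
    rw [← hC₀]
    exact map_variableChange W₀ C₀ (algebraMap R K)
  have hadd : ((W₀⁄K).minimal R).HasAdditiveReduction R := by
    rw [hasAdditiveReduction_iff]
    refine ⟨hmin', ?_, ?_⟩
    · rw [hW', baseChange, map_Δ, IsDedekindDomain.HeightOneSpectrum.valuation_lt_one_iff_mem,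
        variableChange_Δ]
      exact Ideal.mul_mem_left _ _ hΔ
    · rw [hW', baseChange, map_c₄, IsDedekindDomain.HeightOneSpectrum.valuation_lt_one_iff_mem,
        variableChange_c₄]
      exact Ideal.mul_mem_left _ _ hc
  have h1 : ¬ ((W₀⁄K).minimal R).HasGoodReduction R := hadd.not_hasGoodReduction
  have h2 : ¬ ((W₀⁄K).minimal R).HasMultiplicativeReduction R := hadd.not_hasMultiplicativeReduction
  have h3 : ¬ ((W₀⁄K).minimal R).HasSplitMultiplicativeReduction R := fun h => h2 h.1
  unfold localPolynomial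
  rw [if_neg h1, if_neg h3, if_neg h2]

end Claimed.Open.R002
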