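import Claimed.Open.R002.SanityHeckeDefs

/-! # Hecke road, post A5: the number of points of `y² = x³ - x` over a finite field -/

set_option autoImplicit false

namespace Claimed.Open.R002

open WeierstrassCurve

/-- The affine equation of `E₀over F` is `y² = x³ - x`. -/
theorem a5_equation_iff (F : Type*) [Field F] (x y : F) :
    (E₀over F).toAffine.Equation x y ↔ y ^ 2 = x ^ 3 - x := by
  rw [WeierstrassCurve.Affine.equation_iff]
  simp only [E₀over]
  constructor
  · intro h
    linear_combination h
  · intro h
    linear_combination h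

/-- In characteristic `≠ 2` every solution of the equation is a nonsingular point. -/
theorem a5_nonsingular (F : Type*) [Field F] (hF : ringChar F ≠ 2) {x y : F}
    (h : y ^ 2 = x ^ 3 - x) : (E₀over F).toAffine.Nonsingular x y := by
  have h2 : (2 : F) ≠ 0 := Ring.two_ne_zero hF
  rw [WeierstrassCurve.Affine.nonsingular_iff']
  refine ⟨(a5_equation_iff F x y).2 h, ?_⟩
  simp only [E₀over]
  by_contra hcon
  push Not at hcon
  obtain ⟨h3, h4⟩ := hcon
  have hy : y = 0 := by
    have : 2 * y = 0 := by linear_combination h4
    rcases mul_eq_zero.1 this with h' | h'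
    · exact absurd h' h2
    · exact h'
  have hx3 : 3 * x ^ 2 = 1 := by linear_combination -h3
  have hx : x * (x ^ 2 - 1) = 0 := by
    rw [hy] at h
    linear_combination -h
  rcases mul_eq_zero.1 hx with h' | h'
  · rw [h'] at hx3
    simp at hx3
  · have : (2 : F) = 0 := by linear_combination -3 * h' + hx3
    exact h2 this

/-- Points of `E₀over F` = the point at infinity and the solutions of `y² = x³ - x`. -/
noncomputable def a5_equiv (F : Type*) [Field F] (hF : ringChar F ≠ 2) :
    (E₀over F).toAffine.Point ≃ Option {p : F × F // p.2 ^ 2 = p.1 ^ 3 - p.1} where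
  toFun P := match P with
    | .zero => none
    | .some x y h => some ⟨(x, y), (a5_equation_iff F x y).1 h.1⟩
  invFun o := match o with
    | none => .zero
    | some p => .some p.1.1 p.1.2 (a5_nonsingular F hF p.2)
  left_inv := by
    rintro (_ | _) <;> rfl
  right_inv := by
    rintro (_ | ⟨⟨x, y⟩, h⟩) <;> rfl

/-- The number of solutions of `y² = x³ - x`. -/
theorem a5_card_sol (F : Type*) [Field F] [Fintype F] [DecidableEq F] (hF : ringChar F ≠ 2) :
    (Fintype.card {p : F × F // p.2 ^ 2 = p.1 ^ 3 - p.1} : ℤ) =
      (Fintype.card F : ℤ) + ∑ x : F, quadraticChar F (x ^ 3 - x) := by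
  rw [Fintype.card_subtype, Finset.card_filter, Fintype.sum_prod_type]
  push_cast
  have key : ∀ x : F, (∑ y : F, (if y ^ 2 = x ^ 3 - x then 1 else 0 : ℤ)) =
      quadraticChar F (x ^ 3 - x) + 1 := by
    intro x
    rw [← quadraticChar_card_sqrts hF (x ^ 3 - x), Set.toFinset_ofPred, Finset.card_filter]
    push_cast
    rfl
  rw [Finset.sum_congr rfl fun x _ => key x, Finset.sum_add_distrib]
  simp only [Finset.sum_const, Finset.card_univ, nsmul_eq_mul, mul_one]
  ring

/-- `#E₀(F) = q + 1 + ∑_x ρ(x³ - x)`.  Tool: `quadraticChar_card_sqrts`; the curve is nonsingular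
(`Δ = 64 ≠ 0`), so points = `0` and the solutions of the equation. -/
theorem card_point_E₀over (F : Type*) [Field F] [Fintype F] [DecidableEq F] (hF : ringChar F ≠ 2) :
    (Nat.card (E₀over F).toAffine.Point : ℤ) =
      (Fintype.card F : ℤ) + 1 + ∑ x : F, quadraticChar F (x ^ 3 - x) := by
  rw [Nat.card_congr (a5_equiv F hF), Nat.card_eq_fintype_card, Fintype.card_option]
  push_cast
  rw [a5_card_sol F hF]
  ring

/-- The quadratic character is invariant under ring isomorphisms. -/
theorem a5_quadraticChar_map {F F' : Type*} [Field F] [Fintype F] [DecidableEq F]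
    [Field F'] [Fintype F'] [DecidableEq F'] (e : F ≃+* F') (a : F) :
    quadraticChar F' (e a) = quadraticChar F a := by
  have h0 : e a = 0 ↔ a = 0 := EmbeddingLike.map_eq_zero_iff
  have hs : IsSquare (e a) ↔ IsSquare a := by
    constructor
    · rintro ⟨b, hb⟩
      refine ⟨e.symm b, ?_⟩
      apply e.injective
      rw [hb, map_mul, e.apply_symm_apply]
    · rintro ⟨b, hb⟩
      exact ⟨e b, by rw [hb, map_mul]⟩
  simp only [quadraticChar_apply, quadraticCharFun, h0, hs]

/-- The character sum only depends on the field up to isomorphism. -/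
theorem sum_quadraticChar_congr {F F' : Type*} [Field F] [Fintype F] [DecidableEq F]
    [Field F'] [Fintype F'] [DecidableEq F'] (e : F ≃+* F') :
    ∑ x : F, quadraticChar F (x ^ 3 - x) = ∑ x : F', quadraticChar F' (x ^ 3 - x) := by
  refine Fintype.sum_equiv e.toEquiv _ _ fun x => ?_
  rw [← a5_quadraticChar_map e]
  simp

end Claimed.Open.R002
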