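import Claimed.Open.R002.SanityHeckeA2
import Claimed.Open.R002.SanityHeckeA3
import Claimed.Open.R002.SanityHeckeA4
import Claimed.Open.R002.SanityHeckeA5

/-! # Hecke road, post A6: the local polynomials of `E₀` (integration of A2 .. A5) -/

set_option autoImplicit false

namespace Claimed.Open.R002

open WeierstrassCurve IsDedekindDomain NumberField Polynomial

theorem a6_map_residue (A B : Type*) [CommRing A] [CommRing B] (f : A →+* B) :
    (E₀over A).map f = E₀over B := by
  ext <;> simp [E₀over]

theorem a6_c₄ (A : Type*) [CommRing A] : (E₀over A).c₄ = 48 := by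
  simp [E₀over, WeierstrassCurve.c₄, WeierstrassCurve.b₂, WeierstrassCurve.b₄]
  norm_num

/-- `E₀⁄K_v = (E₀over O_v)⁄K_v` (`E₀_baseChange_eq`), `Δ = 64` (`E₀over_Δ`) is a unit for odd `p`
(A4), `(E₀over O_v).map residue = E₀over k_v`, then A2, A5, `card_residueField_completion`. -/
theorem localPolynomial_E₀_of_ne_two (v : HeightOneSpectrum (𝓞 ℚ)) [Fact (primeBelow v).Prime]
    (h : primeBelow v ≠ 2) :
    (E₀.baseChange (v.adicCompletion ℚ)).localPolynomial (v.adicCompletionIntegers ℚ) =
      1 - C (aE (primeBelow v)) * X + C (primeBelow v : ℤ) * X ^ 2 := by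
  classical
  have e1 : E₀.baseChange (v.adicCompletion ℚ) =
      (E₀over (v.adicCompletionIntegers ℚ))⁄(v.adicCompletion ℚ) :=
    E₀_baseChange_eq (v.adicCompletionIntegers ℚ) (v.adicCompletion ℚ)
  have hunit : IsUnit (E₀over (v.adicCompletionIntegers ℚ)).Δ := by
    rw [E₀over_Δ]
    by_contra hcon
    have hmem : ((64 : ℕ) : v.adicCompletionIntegers ℚ) ∈
        IsLocalRing.maximalIdeal (v.adicCompletionIntegers ℚ) ^ 1 := by
      rw [pow_one, IsLocalRing.mem_maximalIdeal, mem_nonunits_iff]
      simpa using hcon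
    rw [natCast_mem_maximalIdeal_pow, pow_one, show (64 : ℕ) = 2 ^ 6 by norm_num] at hmem
    exact h ((Nat.prime_dvd_prime_iff_eq (prime_primeBelow v) Nat.prime_two).mp
      ((prime_primeBelow v).dvd_of_dvd_pow hmem))
  rw [e1, localPolynomial_of_isUnit_Δ _ _ _ hunit, a6_map_residue, card_residueField_completion]
  obtain ⟨e⟩ := nonempty_residueField_equiv_zmod v
  have : Fintype (IsLocalRing.ResidueField (v.adicCompletionIntegers ℚ)) :=
    Fintype.ofEquiv _ e.symm.toEquiv
  have hchar : ringChar (IsLocalRing.ResidueField (v.adicCompletionIntegers ℚ)) ≠ 2 := by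
    have hc : CharP (IsLocalRing.ResidueField (v.adicCompletionIntegers ℚ)) (primeBelow v) :=
      charP_of_injective_ringHom (f := e.symm.toRingHom) e.symm.injective (primeBelow v)
    rw [ringChar.eq _ (primeBelow v)]
    exact h
  have hcount := card_point_E₀over (IsLocalRing.ResidueField (v.adicCompletionIntegers ℚ)) hchar
  have hcard : (Fintype.card (IsLocalRing.ResidueField (v.adicCompletionIntegers ℚ)) : ℤ) =
      primeBelow v := by
    rw [← Nat.card_eq_fintype_card, card_residueField_completion]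
  rw [hcount, hcard, sum_quadraticChar_congr e, aE]
  congr 3
  ring_nf

/-- `Δ = 64 = 2⁶`, `c₄ = 48`: additive reduction at `2` (A3, A4). -/
theorem localPolynomial_E₀_two (v : HeightOneSpectrum (𝓞 ℚ)) (h : primeBelow v = 2) :
    (E₀.baseChange (v.adicCompletion ℚ)).localPolynomial (v.adicCompletionIntegers ℚ) = 1 := by
  have e1 : E₀.baseChange (v.adicCompletion ℚ) =
      (E₀over (v.adicCompletionIntegers ℚ))⁄(v.adicCompletion ℚ) :=
    E₀_baseChange_eq (v.adicCompletionIntegers ℚ) (v.adicCompletion ℚ)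
  have : ((E₀over (v.adicCompletionIntegers ℚ))⁄(v.adicCompletion ℚ)).IsElliptic := by
    rw [← e1]; infer_instance
  rw [e1]
  apply localPolynomial_of_additive
  · rw [E₀over_Δ]
    intro hmem
    have hmem' : ((64 : ℕ) : v.adicCompletionIntegers ℚ) ∈
        IsLocalRing.maximalIdeal (v.adicCompletionIntegers ℚ) ^ 12 := by simpa using hmem
    rw [natCast_mem_maximalIdeal_pow, h] at hmem'
    norm_num at hmem'
  · rw [E₀over_Δ]
    have hmem' : ((64 : ℕ) : v.adicCompletionIntegers ℚ) ∈
        IsLocalRing.maximalIdeal (v.adicCompletionIntegers ℚ) ^ 1 := by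
      rw [natCast_mem_maximalIdeal_pow, h]; norm_num
    simpa using hmem'
  · rw [a6_c₄]
    have hmem' : ((48 : ℕ) : v.adicCompletionIntegers ℚ) ∈
        IsLocalRing.maximalIdeal (v.adicCompletionIntegers ℚ) ^ 1 := by
      rw [natCast_mem_maximalIdeal_pow, h]; norm_num
    simpa using hmem'

end Claimed.Open.R002
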