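import Claimed.Open.R002.SanityHeckeA1
import Claimed.Open.R002.SanityHeckeA6

/-! # Hecke road, post A7: the Hecke recursion for the coefficients of `L(E₀, s)` -/

set_option autoImplicit false

namespace Claimed.Open.R002

open WeierstrassCurve IsDedekindDomain NumberField Polynomial

/-- Generic: coefficients of `1 / (1 - a T + q T²)`. -/
theorem coeff_invOfUnit_quadratic (a q : ℤ) (k : ℕ) :
    (PowerSeries.invOfUnit ((1 - C a * X + C q * X ^ 2 : ℤ[X]) : PowerSeries ℤ) 1).coeff (k + 2) =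
      a * (PowerSeries.invOfUnit ((1 - C a * X + C q * X ^ 2 : ℤ[X]) : PowerSeries ℤ) 1).coeff (k + 1)
        - q * (PowerSeries.invOfUnit ((1 - C a * X + C q * X ^ 2 : ℤ[X]) : PowerSeries ℤ) 1).coeff k
      ∧ (PowerSeries.invOfUnit ((1 - C a * X + C q * X ^ 2 : ℤ[X]) : PowerSeries ℤ) 1).coeff 1 = a
      ∧ (PowerSeries.invOfUnit ((1 - C a * X + C q * X ^ 2 : ℤ[X]) : PowerSeries ℤ) 1).coeff 0 = 1 := by
  have hφ' : ((1 - C a * X + C q * X ^ 2 : ℤ[X]) : PowerSeries ℤ) =
      1 - PowerSeries.C a * PowerSeries.X + PowerSeries.C q * PowerSeries.X ^ 2 := by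
    simp only [Polynomial.coe_add, Polynomial.coe_sub, Polynomial.coe_mul, Polynomial.coe_one,
      Polynomial.coe_C, Polynomial.coe_X, Polynomial.coe_pow]
  rw [hφ']
  set φ : PowerSeries ℤ :=
    1 - PowerSeries.C a * PowerSeries.X + PowerSeries.C q * PowerSeries.X ^ 2 with hφ
  set ψ := PowerSeries.invOfUnit φ 1 with hψ
  have hc : φ.constantCoeff = ((1 : ℤˣ) : ℤ) := by simp [hφ]
  have h1 : φ * ψ = 1 := PowerSeries.mul_invOfUnit φ 1 hc
  have h2 : ψ = 1 + PowerSeries.C a * (PowerSeries.X * ψ) -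
      PowerSeries.C q * (PowerSeries.X ^ 2 * ψ) := by
    rw [hφ] at h1
    linear_combination h1
  have h0 : ψ.coeff 0 = 1 := by
    simp [hψ]
  refine ⟨?_, ?_, h0⟩
  · have h3 := congrArg (PowerSeries.coeff (k + 2)) h2
    rw [map_sub, map_add, PowerSeries.coeff_C_mul, PowerSeries.coeff_C_mul,
      PowerSeries.coeff_X_pow_mul, show k + 2 = (k + 1) + 1 from rfl,
      PowerSeries.coeff_succ_X_mul, PowerSeries.coeff_one] at h3
    simpa using h3
  · have h3 := congrArg (PowerSeries.coeff 1) h2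
    rw [map_sub, map_add, PowerSeries.coeff_C_mul, PowerSeries.coeff_C_mul,
      show (1 : ℕ) = 0 + 1 from rfl, PowerSeries.coeff_succ_X_mul, h0, PowerSeries.coeff_one,
      PowerSeries.coeff_X_pow_mul'] at h3
    simpa using h3

/-- multiplicativity at `p ^ j * n`, `p ∤ n`. -/
theorem LFunction_pow_mul (E : WeierstrassCurve ℚ) {p : ℕ} (hp : p.Prime) (j : ℕ) {n : ℕ}
    (hn : ¬ p ∣ n) : E.LFunction (p ^ j * n) = E.LFunction (p ^ j) * E.LFunction n :=
  (isMultiplicative_LFunction E).map_mul_of_coprime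
    (Nat.Coprime.pow_left j ((Nat.Prime.coprime_iff_not_dvd hp).2 hn))

/-- From `isMultiplicative_LFunction`, A1 (`LFunction_primeBelow_pow`), A6 and
`exists_primeBelow_eq`: write `m = p ^ k * n` with `p ∤ n`. -/
theorem LFunction_E₀_prime_mul (p : ℕ) [Fact p.Prime] (hp : p ≠ 2) (m : ℕ) :
    E₀.LFunction (p * m) =
      aE p * E₀.LFunction m - p * (if p ∣ m then E₀.LFunction (m / p) else 0) := by
  have hpp : p.Prime := Fact.out
  rcases Nat.eq_zero_or_pos m with rfl | hm
  · simp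
  obtain ⟨v, rfl⟩ := exists_primeBelow_eq hpp
  obtain ⟨k, n, hn, rfl⟩ := Nat.exists_eq_pow_mul_and_not_dvd hm.ne' (primeBelow v) hpp.ne_one
  have hc : ∀ j, E₀.LFunction (primeBelow v ^ j) =
      (PowerSeries.invOfUnit ((1 - C (aE (primeBelow v)) * X + C (primeBelow v : ℤ) * X ^ 2 : ℤ[X]) :
        PowerSeries ℤ) 1).coeff j := by
    intro j
    rw [LFunction_primeBelow_pow, localPowerSeries, localPolynomial_E₀_of_ne_two v hp]
  cases k with
  | zero =>
    have h1 : primeBelow v * (primeBelow v ^ 0 * n) = primeBelow v ^ 1 * n := by ring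
    rw [h1, LFunction_pow_mul E₀ hpp 1 hn, hc 1,
      (coeff_invOfUnit_quadratic (aE (primeBelow v)) (primeBelow v : ℤ) 0).2.1]
    simp [hn]
  | succ k =>
    have h1 : primeBelow v * (primeBelow v ^ (k + 1) * n) = primeBelow v ^ (k + 2) * n := by ring
    have h2 : primeBelow v ∣ primeBelow v ^ (k + 1) * n :=
      Dvd.dvd.mul_right (dvd_pow_self _ (Nat.succ_ne_zero k)) n
    have h3 : primeBelow v ^ (k + 1) * n / primeBelow v = primeBelow v ^ k * n := by
      rw [pow_succ', mul_assoc, Nat.mul_div_cancel_left _ hpp.pos]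
    rw [h1, if_pos h2, h3, LFunction_pow_mul E₀ hpp _ hn, LFunction_pow_mul E₀ hpp _ hn,
      LFunction_pow_mul E₀ hpp _ hn, hc, hc, hc,
      (coeff_invOfUnit_quadratic (aE (primeBelow v)) (primeBelow v : ℤ) k).1]
    ring

theorem LFunction_E₀_two_mul (m : ℕ) : E₀.LFunction (2 * m) = 0 := by
  rcases Nat.eq_zero_or_pos m with rfl | hm
  · simp
  obtain ⟨v, hv⟩ := exists_primeBelow_eq Nat.prime_two
  obtain ⟨k, n, hn, rfl⟩ := Nat.exists_eq_pow_mul_and_not_dvd hm.ne' 2 (by norm_num)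
  have h1 : 2 * (2 ^ k * n) = 2 ^ (k + 1) * n := by ring
  have h2 : E₀.LFunction (2 ^ (k + 1)) = 0 := by
    have h3 := LFunction_primeBelow_pow E₀ v (k + 1)
    rw [hv, localPowerSeries, localPolynomial_E₀_two v hv] at h3
    rw [h3]
    have h4 : PowerSeries.invOfUnit (((1 : ℤ[X]) : PowerSeries ℤ)) 1 = 1 := by
      have h5 := PowerSeries.mul_invOfUnit (((1 : ℤ[X]) : PowerSeries ℤ)) 1 (by simp)
      simpa using h5
    rw [h4, PowerSeries.coeff_one]
    simp
  rw [h1, LFunction_pow_mul E₀ Nat.prime_two _ hn, h2, zero_mul]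

end Claimed.Open.R002
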