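import Claimed.Open.R002.SanityHeckeDefs

/-! # Hecke road, post B1: `a_p = 0` for `p ≡ 3 (4)`; a quartic character for `p ≡ 1 (4)` -/

set_option autoImplicit false

namespace Claimed.Open.R002

/-- `x ↦ -x` and `ρ(-1) = -1`. -/
theorem aE_eq_zero_of_mod_four_eq_three (p : ℕ) [Fact p.Prime] (h : p % 4 = 3) : aE p = 0 := by
  have hp2 : ringChar (ZMod p) ≠ 2 := by
    rw [ZMod.ringChar_zmod_n]
    rintro rfl
    simp at h
  have hneg : quadraticChar (ZMod p) (-1) = -1 := by
    rw [quadraticChar_neg_one hp2, ZMod.card, ZMod.χ₄_nat_three_mod_four h]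
  have hS : ∑ x : ZMod p, quadraticChar (ZMod p) (x ^ 3 - x) =
      - ∑ x : ZMod p, quadraticChar (ZMod p) (x ^ 3 - x) := by
    calc ∑ x : ZMod p, quadraticChar (ZMod p) (x ^ 3 - x)
        = ∑ x : ZMod p, quadraticChar (ZMod p) ((-x) ^ 3 - (-x)) :=
          (Equiv.sum_comp (Equiv.neg (ZMod p))
            (fun x => quadraticChar (ZMod p) (x ^ 3 - x))).symm
      _ = ∑ x : ZMod p, - quadraticChar (ZMod p) (x ^ 3 - x) := by
          refine Finset.sum_congr rfl fun x _ => ?_
          have e : (-x) ^ 3 - (-x) = (-1) * (x ^ 3 - x) := by ring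
          rw [e, map_mul, hneg, neg_one_mul]
      _ = _ := Finset.sum_neg_distrib _
  unfold aE
  omega

/-- A character `χ` of order four with values in `ℤ[i]` whose square is the quadratic character. -/
def IsQuartic (p : ℕ) [Fact p.Prime] (χ : MulChar (ZMod p) GaussianInt) : Prop :=
  orderOf χ = 4 ∧ χ ^ 2 = (quadraticChar (ZMod p)).ringHomComp (Int.castRingHom GaussianInt)

/-- `i` is a primitive fourth root of unity in `ℤ[i]`. -/
theorem b1_isPrimitiveRoot_I : IsPrimitiveRoot (⟨0, 1⟩ : GaussianInt) 4 := by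
  refine IsPrimitiveRoot.mk_of_lt _ (by norm_num) (by decide) fun l h0 h4 => ?_
  interval_cases l <;> decide

/-- Tool: `MulChar.exists_mulChar_orderOf` with the primitive fourth root of unity `⟨0, 1⟩`;
`χ ^ 2` is trivial on squares, has values `± 1`, is not `1`; nonsquare * nonsquare = square. -/
theorem exists_isQuartic (p : ℕ) [Fact p.Prime] (h : p % 4 = 1) :
    ∃ χ : MulChar (ZMod p) GaussianInt, IsQuartic p χ := by
  have hdvd : 4 ∣ Fintype.card (ZMod p) - 1 := by
    rw [ZMod.card]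
    omega
  obtain ⟨χ, hord⟩ := MulChar.exists_mulChar_orderOf (ZMod p) hdvd b1_isPrimitiveRoot_I
  refine ⟨χ, hord, ?_⟩
  have h4 : χ ^ 4 = 1 := by
    rw [← hord]
    exact pow_orderOf_eq_one χ
  have h2 : χ ^ 2 ≠ 1 := by
    intro h'
    have := orderOf_dvd_of_pow_eq_one h'
    rw [hord] at this
    norm_num at this
  -- `χ ^ 2` is `1` on nonzero squares
  have hsq : ∀ a : ZMod p, a ≠ 0 → IsSquare a → (χ ^ 2) a = 1 := by
    rintro a ha ⟨c, rfl⟩
    have hc : c ≠ 0 := fun h0 => ha (by rw [h0, mul_zero])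
    have e : (χ ^ 2) (c * c) = (χ ^ 4) c := by
      rw [MulChar.pow_apply' _ (by norm_num), MulChar.pow_apply' _ (by norm_num), map_mul]
      ring
    rw [e, h4, MulChar.one_apply (isUnit_iff_ne_zero.mpr hc)]
  -- a unit on which `χ ^ 2` is `-1`
  obtain ⟨a₀, ha₀⟩ := MulChar.ne_one_iff.mp h2
  have ha₀0 : (a₀ : ZMod p) ≠ 0 := a₀.ne_zero
  have hns : ¬ IsSquare (a₀ : ZMod p) := fun hs => ha₀ (hsq _ ha₀0 hs)
  have hm1 : (χ ^ 2) (a₀ : ZMod p) = -1 := by
    have e : (χ ^ 2) (a₀ : ZMod p) ^ 2 = 1 := by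
      have e' : (χ ^ 2) (a₀ : ZMod p) ^ 2 = (χ ^ 4) (a₀ : ZMod p) := by
        rw [MulChar.pow_apply' _ (by norm_num), MulChar.pow_apply' _ (by norm_num)]
        ring
      rw [e', h4, MulChar.one_apply a₀.isUnit]
    rcases sq_eq_one_iff.mp e with h1 | h1
    · exact absurd h1 ha₀
    · exact h1
  refine MulChar.ext fun a => ?_
  rw [MulChar.ringHomComp_apply]
  have ha0 : (a : ZMod p) ≠ 0 := a.ne_zero
  rcases quadraticChar_dichotomy ha0 with h1 | h1
  · rw [h1, hsq _ ha0 ((quadraticChar_one_iff_isSquare ha0).mp h1)]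
    simp
  · have h3 : quadraticChar (ZMod p) ((a : ZMod p) * a₀) = 1 := by
      rw [map_mul, h1, quadraticChar_neg_one_iff_not_isSquare.mpr hns]
      norm_num
    have h5 := hsq _ (mul_ne_zero ha0 ha₀0)
      ((quadraticChar_one_iff_isSquare (mul_ne_zero ha0 ha₀0)).mp h3)
    rw [map_mul, hm1] at h5
    rw [h1]
    have : (χ ^ 2) (a : ZMod p) = -1 := by linear_combination -h5
    rw [this]
    simp

end Claimed.Open.R002
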