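import Claimed.Open.R002.SanityHeckeB1

/-! # Hecke road, post B2: the character sum of `y² = x³ - x` as a sum of two Jacobi sums -/

set_option autoImplicit false

namespace Claimed.Open.R002

/-- `∑_x g(x²) = ∑_u (1 + ρ(u)) g(u)`. -/
theorem hkB2_sum_sq {F R : Type} [Field F] [Fintype F] [DecidableEq F] [CommRing R]
    (hF : ringChar F ≠ 2) (g : F → R) :
    ∑ x : F, g (x ^ 2) = ∑ u : F, (((quadraticChar F u : ℤ) : R) + 1) * g u := by
  rw [← Finset.sum_fiberwise (s := Finset.univ) (g := fun x : F => x ^ 2) (f := fun x => g (x ^ 2))]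
  refine Finset.sum_congr rfl fun u _ => ?_
  have h1 : ∑ x ∈ Finset.univ.filter (fun x : F => x ^ 2 = u), g (x ^ 2) =
      ∑ x ∈ Finset.univ.filter (fun x : F => x ^ 2 = u), g u :=
    Finset.sum_congr rfl fun x hx => by rw [(Finset.mem_filter.1 hx).2]
  rw [h1, Finset.sum_const, nsmul_eq_mul]
  congr 1
  have h2 := quadraticChar_card_sqrts hF u
  have h3 : ({x : F | x ^ 2 = u}.toFinset) = Finset.univ.filter (fun x : F => x ^ 2 = u) := by
    ext x; simp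
  rw [h3] at h2
  have h4 := congrArg (fun z : ℤ => (z : R)) h2
  simpa using h4

/-- `ρ(x³ - x) = ρ(x) ρ(x² - 1) = χ(x²) ρ(x² - 1)`; `∑_x f(x²) = ∑_u (1 + ρ(u)) f(u)`
(`quadraticChar_card_sqrts`); `ρ(u - 1) = ρ(1 - u)` as `ρ(-1) = 1`; `χ ρ = χ³ = χ⁻¹`. -/
theorem sum_quadraticChar_eq_jacobiSum (p : ℕ) [Fact p.Prime] (h : p % 4 = 1)
    (χ : MulChar (ZMod p) GaussianInt) (hχ : IsQuartic p χ) :
    ((∑ x : ZMod p, quadraticChar (ZMod p) (x ^ 3 - x) : ℤ) : GaussianInt) =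
      jacobiSum χ (χ ^ 2) + jacobiSum χ⁻¹ (χ ^ 2) := by
  obtain ⟨h4, h2⟩ := hχ
  have hF : ringChar (ZMod p) ≠ 2 := by
    rw [ZMod.ringChar_zmod_n]
    rintro rfl
    omega
  have hρ : ∀ a : ZMod p, ((quadraticChar (ZMod p) a : ℤ) : GaussianInt) = (χ ^ 2) a := by
    intro a
    rw [h2]
    rfl
  have hinv : χ⁻¹ = χ ^ 3 := by
    have h5 : χ ^ 4 = 1 := by rw [← h4]; exact pow_orderOf_eq_one χ
    rw [inv_eq_iff_mul_eq_one, ← pow_succ']
    exact h5
  have hneg : ∀ u : ZMod p, (χ ^ 2) (u - 1) = (χ ^ 2) (1 - u) := by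
    intro u
    have h6 : u - 1 = (-1) * (1 - u) := by ring
    rw [h6, map_mul, MulChar.pow_apply' χ two_ne_zero, ← map_pow]
    simp
  rw [Int.cast_sum]
  have h7 : ∀ x : ZMod p, ((quadraticChar (ZMod p) (x ^ 3 - x) : ℤ) : GaussianInt) =
      (fun u : ZMod p => χ u * (χ ^ 2) (1 - u)) (x ^ 2) := by
    intro x
    have h8 : x ^ 3 - x = x * (x ^ 2 - 1) := by ring
    simp only
    rw [hρ, h8, map_mul, hneg, MulChar.pow_apply' χ two_ne_zero x, map_pow]
  rw [Finset.sum_congr rfl fun x _ => h7 x,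
    hkB2_sum_sq hF (fun u : ZMod p => χ u * (χ ^ 2) (1 - u)), jacobiSum, jacobiSum, hinv,
    ← Finset.sum_add_distrib]
  refine Finset.sum_congr rfl fun u _ => ?_
  rw [hρ, MulChar.pow_apply' χ two_ne_zero u, MulChar.pow_apply' χ three_ne_zero u]
  ring

end Claimed.Open.R002
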