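import Claimed.Open.R002.SanityHeckeB1

/-! # Hecke road, post B3: conjugate and norm of the Jacobi sum -/

set_option autoImplicit false

namespace Claimed.Open.R002

/-- the conjugate of a value of a character with values in `ℤ[i]` is the value of the inverse character -/
theorem heckeB3_star_apply (p : ℕ) [Fact p.Prime] (χ : MulChar (ZMod p) GaussianInt) (x : ZMod p) :
    star (χ x) = χ⁻¹ x := by
  by_cases hx : IsUnit x
  · have hu : IsUnit (χ x) := hx.map χ
    have h1 : (χ x).norm = 1 := (Zsqrtd.norm_eq_one_iff' (by norm_num) _).2 hu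
    have h2 : χ x * star (χ x) = 1 := by
      rw [← Zsqrtd.norm_eq_mul_conj, h1]
      rfl
    have h3 : χ x * χ⁻¹ x = 1 := by
      have : (χ * χ⁻¹) x = 1 := by
        rw [mul_inv_cancel]
        exact MulChar.one_apply hx
      rwa [MulChar.mul_apply] at this
    exact hu.mul_left_cancel (h2.trans h3.symm)
  · rw [MulChar.map_nonunit χ hx, MulChar.map_nonunit χ⁻¹ hx, star_zero]

theorem heckeB3_star_sq_apply (p : ℕ) [Fact p.Prime] (χ : MulChar (ZMod p) GaussianInt) (hχ : IsQuartic p χ) (x : ZMod p) :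
    star ((χ ^ 2) x) = (χ ^ 2) x := by
  rw [hχ.2, MulChar.ringHomComp_apply]
  simp

/-- `star ∘ χ = χ⁻¹` (values are `0` or units of `ℤ[i]`, of norm one), `star ∘ χ² = χ²`. -/
theorem jacobiSum_inv_eq_star (p : ℕ) [Fact p.Prime]
    (χ : MulChar (ZMod p) GaussianInt) (hχ : IsQuartic p χ) :
    jacobiSum χ⁻¹ (χ ^ 2) = star (jacobiSum χ (χ ^ 2)) := by
  unfold jacobiSum
  rw [star_sum]
  refine Finset.sum_congr rfl fun x _ => ?_
  rw [star_mul', heckeB3_star_apply, heckeB3_star_sq_apply p χ hχ]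

/-- Tool: `jacobiSum_mul_jacobiSum_inv` over `ℂ` through `GaussianInt.toComplex` (injective) and
`jacobiSum_ringHomComp`; `χ ≠ 1`, `χ² ≠ 1`, `χ³ ≠ 1` by `orderOf χ = 4`; `(χ²)⁻¹ = χ²`. -/
theorem norm_jacobiSum (p : ℕ) [Fact p.Prime]
    (χ : MulChar (ZMod p) GaussianInt) (hχ : IsQuartic p χ) :
    (jacobiSum χ (χ ^ 2)).norm = p := by
  have ho := hχ.1
  have hne : ∀ k : ℕ, 0 < k → k < 4 → χ ^ k ≠ 1 := by
    intro k hk0 hk4 hk
    have := orderOf_le_of_pow_eq_one hk0 hk
    omega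
  have h1 : χ ≠ 1 := by simpa using hne 1 (by norm_num) (by norm_num)
  have h2 : χ ^ 2 ≠ 1 := hne 2 (by norm_num) (by norm_num)
  have h3 : χ * χ ^ 2 ≠ 1 := by
    have := hne 3 (by norm_num) (by norm_num)
    rwa [show χ ^ 3 = χ * χ ^ 2 by rw [pow_succ' χ 2]] at this
  have h4 : χ ^ 4 = 1 := by rw [← ho]; exact pow_orderOf_eq_one χ
  have hinv : (χ ^ 2)⁻¹ = χ ^ 2 := by
    rw [inv_eq_iff_mul_eq_one, ← pow_add]
    exact h4
  set f : GaussianInt →+* ℂ := GaussianInt.toComplex with hf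
  have hfi : Function.Injective f := GaussianInt.toComplex_injective
  have hchar : ringChar ℂ ≠ ringChar (ZMod p) := by
    rw [ringChar.eq_zero, ZMod.ringChar_zmod_n]
    exact (Fact.out : p.Prime).ne_zero.symm
  have key := jacobiSum_mul_jacobiSum_inv hchar ((MulChar.ringHomComp_ne_one_iff hfi).2 h1)
    ((MulChar.ringHomComp_ne_one_iff hfi).2 h2) (by
      rw [← MulChar.ringHomComp_mul]
      exact (MulChar.ringHomComp_ne_one_iff hfi).2 h3)
  rw [MulChar.ringHomComp_inv, MulChar.ringHomComp_inv, hinv, jacobiSum_ringHomComp, jacobiSum_ringHomComp, ← map_mul,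
    ZMod.card, jacobiSum_inv_eq_star p χ hχ, ← Zsqrtd.norm_eq_mul_conj] at key
  have key2 : f ((jacobiSum χ (χ ^ 2)).norm : GaussianInt) = f ((p : ℤ) : GaussianInt) := by
    rw [key]
    simp
  have key3 := hfi key2
  exact_mod_cast key3

end Claimed.Open.R002
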