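import Claimed.Open.R002.SanityHeckeB1

/-! # Hecke road, post B4: `-J(χ, χ²) ≡ 1 mod (2 + 2i)` -/

set_option autoImplicit false

namespace Claimed.Open.R002

open Finset in
/-- Mathlib's private `jacobiSum_eq_aux`, reproved. -/
theorem b4_jacobiSum_eq {F R : Type*} [Field F] [Fintype F] [DecidableEq F] [CommRing R]
    (χ ψ : MulChar F R) :
    jacobiSum χ ψ = ∑ x : F, χ x + ∑ x : F, ψ x - Fintype.card F +
                      ∑ x ∈ univ \ {0, 1}, (χ x - 1) * (ψ (1 - x) - 1) := by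
  rw [jacobiSum]
  conv =>
    enter [1, 2, x]
    rw [show ∀ x y : R, x * y = x + y - 1 + (x - 1) * (y - 1) by intros; ring]
  rw [sum_add_distrib, sum_sub_distrib, sum_add_distrib]
  conv => enter [1, 1, 1, 2, 2, x]; rw [← Equiv.subLeft_apply 1]
  rw [(Equiv.subLeft 1).sum_comp ψ, Fintype.card_eq_sum_ones, Nat.cast_sum, Nat.cast_one,
    sum_sdiff_eq_sub (subset_univ _), ← sub_zero (_ - _ + _), add_sub_assoc]
  congr
  rw [sum_pair zero_ne_one, sub_zero, ψ.map_one, χ.map_one, sub_self, mul_zero, zero_mul, add_zero]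

/-- a fourth root of unity of `ℤ[i]` is `≡ 1 mod (1 + i)` -/
theorem b4_dvd_sub_one (u : GaussianInt) (hu : u ^ 4 = 1) : (⟨1, 1⟩ : GaussianInt) ∣ u - 1 := by
  have hn : u.norm ^ 4 = 1 := by
    have h0 := congrArg Zsqrtd.norm hu
    have h1 : Zsqrtd.norm (u ^ 4) = u.norm ^ 4 := map_pow Zsqrtd.normMonoidHom u 4
    rwa [h1, Zsqrtd.norm_one] at h0
  have hn0 : 0 ≤ u.norm := GaussianInt.norm_nonneg u
  have hn1 : u.norm = 1 := by
    by_contra hne
    rcases lt_or_gt_of_ne hne with h | h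
    · have : u.norm = 0 := by omega
      rw [this] at hn
      norm_num at hn
    · have : (2 : ℤ) ^ 4 ≤ u.norm ^ 4 := pow_le_pow_left₀ (by norm_num) (by omega) 4
      rw [hn] at this
      norm_num at this
  rw [Zsqrtd.norm_def] at hn1
  have h1 : u.re * u.re + u.im * u.im = 1 := by linarith
  -- `re + im` is odd
  refine ⟨⟨(u.re - 1 + u.im) / 2, (u.im - (u.re - 1)) / 2⟩, ?_⟩
  have hpar : (u.re - 1 + u.im) % 2 = 0 := by
    have h2 : (u.re * u.re + u.im * u.im) % 2 = 1 := by rw [h1]; rfl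
    rcases Int.emod_two_eq_zero_or_one u.re with ha | ha <;>
      rcases Int.emod_two_eq_zero_or_one u.im with hb | hb <;>
      simp [Int.add_emod, Int.mul_emod, Int.sub_emod, ha, hb] at h2 ⊢
  have hpar' : (u.im - (u.re - 1)) % 2 = 0 := by omega
  obtain ⟨a, ha⟩ : ∃ a, u.re - 1 + u.im = 2 * a := ⟨_, (Int.mul_ediv_cancel' (Int.dvd_of_emod_eq_zero hpar)).symm⟩
  obtain ⟨b, hb⟩ : ∃ b, u.im - (u.re - 1) = 2 * b := ⟨_, (Int.mul_ediv_cancel' (Int.dvd_of_emod_eq_zero hpar')).symm⟩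
  rw [ha, hb, Int.mul_ediv_cancel_left _ two_ne_zero, Int.mul_ediv_cancel_left _ two_ne_zero]
  ext
  · simp only [Zsqrtd.re_sub, Zsqrtd.re_one, Zsqrtd.re_mul]
    linarith
  · simp only [Zsqrtd.im_sub, Zsqrtd.im_one, Zsqrtd.im_mul]
    linarith

/-- `J = ∑_{t ≠ 0, 1} χ(t) ρ(1 - t)`, and `χ(t) ρ(1-t) = χ(t) + ρ(1-t) - 1 + (χ(t) - 1)(ρ(1-t) - 1)`
with `(1 + i) ∣ χ(t) - 1`, `2 ∣ ρ(1-t) - 1`, so the last product is divisible by `2 + 2i`;
`∑_t χ(t) = 0 = ∑_t ρ(t)`; so `J ≡ -p ≡ -1`, as `(2+2i) ∣ 4`. -/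
theorem primary_neg_jacobiSum (p : ℕ) [Fact p.Prime] (h : p % 4 = 1)
    (χ : MulChar (ZMod p) GaussianInt) (hχ : IsQuartic p χ) :
    Primary (-jacobiSum χ (χ ^ 2)) := by
  classical
  obtain ⟨ho, hsq⟩ := hχ
  have h1 : χ ≠ 1 := by
    intro h1
    rw [h1, orderOf_one] at ho
    norm_num at ho
  have h2 : χ ^ 2 ≠ 1 := by
    intro h2
    have := orderOf_dvd_of_pow_eq_one h2
    rw [ho] at this
    norm_num at this
  have h4 : χ ^ 4 = 1 := by rw [← ho]; exact pow_orderOf_eq_one χ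
  have hJ := b4_jacobiSum_eq χ (χ ^ 2)
  rw [MulChar.sum_eq_zero_of_ne_one h1, MulChar.sum_eq_zero_of_ne_one h2, ZMod.card] at hJ
  have hS : (⟨2, 2⟩ : GaussianInt) ∣
      ∑ x ∈ Finset.univ \ {0, 1}, (χ x - 1) * ((χ ^ 2) (1 - x) - 1) := by
    refine Finset.dvd_sum (fun x hx => ?_)
    simp only [Finset.mem_sdiff, Finset.mem_univ, Finset.mem_insert, Finset.mem_singleton, not_or,
      true_and] at hx
    have e : (⟨2, 2⟩ : GaussianInt) = ⟨1, 1⟩ * 2 := by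
      ext <;> simp [Zsqrtd.re_mul, Zsqrtd.im_mul]
    rw [e]
    refine mul_dvd_mul ?_ ?_
    · apply b4_dvd_sub_one
      rw [← MulChar.pow_apply' χ (by norm_num : (4 : ℕ) ≠ 0), h4,
        MulChar.one_apply (isUnit_iff_ne_zero.2 hx.1)]
    · have hne : (1 : ZMod p) - x ≠ 0 := sub_ne_zero.2 (Ne.symm hx.2)
      rw [hsq, MulChar.ringHomComp_apply]
      rcases quadraticChar_dichotomy hne with hq | hq <;> rw [hq]
      · simp
      · refine ⟨-1, ?_⟩
        simp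
        norm_num
  have h4d : (⟨2, 2⟩ : GaussianInt) ∣ 4 := by
    refine ⟨⟨1, -1⟩, ?_⟩
    ext <;> simp [Zsqrtd.re_mul, Zsqrtd.im_mul]
  have hp : (⟨2, 2⟩ : GaussianInt) ∣ (p : GaussianInt) - 1 := by
    have hp4 : p = 4 * (p / 4) + 1 := by omega
    have : (p : GaussianInt) - 1 = 4 * ((p / 4 : ℕ) : GaussianInt) := by
      conv_lhs => rw [hp4]
      push_cast
      ring
    rw [this]
    exact Dvd.dvd.mul_right h4d _
  unfold Primary
  rw [hJ]
  have e : -(0 + 0 - (p : GaussianInt) +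
      ∑ x ∈ Finset.univ \ {0, 1}, (χ x - 1) * ((χ ^ 2) (1 - x) - 1)) - 1
      = ((p : GaussianInt) - 1) - ∑ x ∈ Finset.univ \ {0, 1}, (χ x - 1) * ((χ ^ 2) (1 - x) - 1) := by
    ring
  rw [e]
  exact dvd_sub hp hS

end Claimed.Open.R002
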