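import Claimed.Open.R002.SanityHeckeB2
import Claimed.Open.R002.SanityHeckeB3
import Claimed.Open.R002.SanityHeckeB4

/-! # Hecke road, post B5: `a_p = π + π̄` with `π` primary of norm `p` (integration of B1 .. B4) -/

set_option autoImplicit false

namespace Claimed.Open.R002

/-- `π = -J(χ, χ²)`. -/
theorem exists_primary_of_mod_four_eq_one (p : ℕ) [Fact p.Prime] (h : p % 4 = 1) :
    ∃ π : GaussianInt, Primary π ∧ π.norm = p ∧ 2 * π.re = aE p := by
  obtain ⟨χ, hχ⟩ := exists_isQuartic p h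
  refine ⟨-jacobiSum χ (χ ^ 2), primary_neg_jacobiSum p h χ hχ, ?_, ?_⟩
  · rw [Zsqrtd.norm_neg, norm_jacobiSum p χ hχ]
  · have h1 := sum_quadraticChar_eq_jacobiSum p h χ hχ
    rw [jacobiSum_inv_eq_star p χ hχ] at h1
    have h2 := congrArg Zsqrtd.re h1
    rw [Zsqrtd.re_intCast, Zsqrtd.re_add, Zsqrtd.re_star] at h2
    rw [aE, h2, Zsqrtd.re_neg]
    ring

end Claimed.Open.R002
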