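import Claimed.Open.R002.SanityHeckeDefs

/-! # Hecke road, post C1: primary Gaussian integers -/

set_option autoImplicit false

namespace Claimed.Open.R002

/-- coordinates: `α - 1 = (2 + 2i)(x + y i)`. -/
theorem primary_iff {α : GaussianInt} :
    Primary α ↔ ∃ x y : ℤ, α.re = 1 + 2 * x - 2 * y ∧ α.im = 2 * x + 2 * y := by
  unfold Primary
  constructor
  · rintro ⟨γ, hγ⟩
    refine ⟨γ.re, γ.im, ?_, ?_⟩
    · have := congrArg Zsqrtd.re hγ
      simp only [Zsqrtd.re_sub, Zsqrtd.re_one, Zsqrtd.re_mul] at this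
      linarith
    · have := congrArg Zsqrtd.im hγ
      simp only [Zsqrtd.im_sub, Zsqrtd.im_one, Zsqrtd.im_mul] at this
      linarith
  · rintro ⟨x, y, h1, h2⟩
    refine ⟨⟨x, y⟩, ?_⟩
    apply Zsqrtd.ext
    · simp only [Zsqrtd.re_sub, Zsqrtd.re_one, Zsqrtd.re_mul]
      linarith
    · simp only [Zsqrtd.im_sub, Zsqrtd.im_one, Zsqrtd.im_mul]
      linarith

theorem Primary.mul {α β : GaussianInt} (hα : Primary α) (hβ : Primary β) : Primary (α * β) := by
  unfold Primary at *
  have : α * β - 1 = (α - 1) * β + (β - 1) := by ring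
  rw [this]
  exact dvd_add (Dvd.dvd.mul_right hα β) hβ

theorem Primary.star {α : GaussianInt} (hα : Primary α) : Primary (star α) := by
  obtain ⟨x, y, h1, h2⟩ := primary_iff.1 hα
  refine primary_iff.2 ⟨-y, -x, ?_, ?_⟩
  · rw [Zsqrtd.re_star, h1]; ring
  · rw [Zsqrtd.im_star, h2]; ring

/-- `β - 1 = (α β - 1) - (α - 1) β`. -/
theorem Primary.of_mul {α β : GaussianInt} (hα : Primary α) (hαβ : Primary (α * β)) :
    Primary β := by
  unfold Primary at *
  have : β - 1 = (α * β - 1) - (α - 1) * β := by ring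
  rw [this]
  exact dvd_sub hαβ (Dvd.dvd.mul_right hα β)

theorem Primary.norm_mod_two {α : GaussianInt} (hα : Primary α) : α.norm % 2 = 1 := by
  obtain ⟨x, y, h1, h2⟩ := primary_iff.1 hα
  have : α.norm = 2 * (2 * (x - y) * (x - y) + 2 * (x - y) + 2 * (x + y) * (x + y)) + 1 := by
    rw [Zsqrtd.norm_def, h1, h2]; ring
  omega

theorem primary_one : Primary 1 := by
  unfold Primary
  simp

theorem primary_natCast {p : ℕ} (h : p % 4 = 1) : Primary (p : GaussianInt) := by
  refine primary_iff.2 ⟨(p / 4 : ℕ), -(p / 4 : ℕ), ?_, ?_⟩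
  · rw [Zsqrtd.re_natCast]
    omega
  · rw [Zsqrtd.im_natCast]
    ring

theorem primary_neg_natCast {p : ℕ} (h : p % 4 = 3) : Primary (-(p : GaussianInt)) := by
  refine primary_iff.2 ⟨-((p / 4 : ℕ) + 1), ((p / 4 : ℕ) + 1), ?_, ?_⟩
  · rw [Zsqrtd.re_neg, Zsqrtd.re_natCast]
    omega
  · rw [Zsqrtd.im_neg, Zsqrtd.im_natCast]
    ring

/-- The only primary unit is `1`. -/
theorem Primary.eq_one_of_norm {α : GaussianInt} (hα : Primary α) (h : α.norm = 1) : α = 1 := by
  obtain ⟨x, y, h1, h2⟩ := primary_iff.1 hα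
  rw [Zsqrtd.norm_def] at h
  have hr1 : α.re ≤ 1 := by nlinarith [mul_self_nonneg α.im]
  have hr2 : -1 ≤ α.re := by nlinarith [mul_self_nonneg α.im]
  have hi1 : α.im ≤ 1 := by nlinarith [mul_self_nonneg α.re]
  have hi2 : -1 ≤ α.im := by nlinarith [mul_self_nonneg α.re]
  have him : α.im = 0 := by omega
  have hre : α.re = 1 := by omega
  apply Zsqrtd.ext
  · rw [hre]; rfl
  · rw [him]; rfl

theorem star_mem_primSet {n : ℕ} {α : GaussianInt} (h : α ∈ primSet n) : star α ∈ primSet n := by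
  rw [mem_primSet] at h ⊢
  refine ⟨h.1.star, ?_⟩
  rw [← h.2, Zsqrtd.norm_def, Zsqrtd.norm_def, Zsqrtd.re_star, Zsqrtd.im_star]
  ring

/-- The imaginary parts cancel (`α ↦ star α` permutes `primSet n`). -/
theorem sum_primSet (n : ℕ) : ∑ α ∈ primSet n, α = ((hecke n : ℤ) : GaussianInt) := by
  let reH : GaussianInt →+ ℤ := ⟨⟨Zsqrtd.re, rfl⟩, fun _ _ => rfl⟩
  let imH : GaussianInt →+ ℤ := ⟨⟨Zsqrtd.im, rfl⟩, fun _ _ => rfl⟩
  apply Zsqrtd.ext
  · have : (∑ α ∈ primSet n, α).re = ∑ α ∈ primSet n, α.re := map_sum reH _ _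
    rw [this, Zsqrtd.re_intCast]
    rfl
  · have : (∑ α ∈ primSet n, α).im = ∑ α ∈ primSet n, α.im := map_sum imH _ _
    rw [this, Zsqrtd.im_intCast]
    refine Finset.sum_involution (fun α _ => star α) ?_ ?_ ?_ ?_
    · intro α _
      rw [Zsqrtd.im_star]; ring
    · intro α _ h0 h
      have := congrArg Zsqrtd.im h
      rw [Zsqrtd.im_star] at this
      omega
    · intro α hα
      exact star_mem_primSet hα
    · intro α _
      exact star_star α

theorem primSet_two_mul (m : ℕ) : primSet (2 * m) = ∅ := by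
  rw [Finset.eq_empty_iff_forall_notMem]
  intro α hα
  rw [mem_primSet] at hα
  have := hα.1.norm_mod_two
  rw [hα.2] at this
  push_cast at this
  omega

theorem hecke_two_mul (m : ℕ) : hecke (2 * m) = 0 := by
  unfold hecke
  rw [primSet_two_mul]
  rfl

theorem hecke_zero : hecke 0 = 0 := hecke_two_mul 0

theorem primSet_one : primSet 1 = {1} := by
  ext α
  rw [mem_primSet, Finset.mem_singleton]
  constructor
  · rintro ⟨h1, h2⟩
    exact h1.eq_one_of_norm (by exact_mod_cast h2)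
  · rintro rfl
    exact ⟨primary_one, by simp⟩

theorem hecke_one : hecke 1 = 1 := by
  unfold hecke
  rw [primSet_one, Finset.sum_singleton]
  rfl

end Claimed.Open.R002
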