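import Claimed.Open.R002.SanityHeckeC1

/-! # Hecke road, post C2: the Hecke recursion at a split prime -/

set_option autoImplicit false

namespace Claimed.Open.R002

/-- A Gaussian integer whose norm is a prime number is prime. -/
theorem prime_of_norm_eq_prime {p : ℕ} (hp : p.Prime) {π : GaussianInt} (hN : π.norm = p) :
    Prime π := by
  have hirr : Irreducible π := by
    constructor
    · intro hu
      have h1 := Zsqrtd.norm_eq_one_iff.2 hu
      rw [hN, Int.natAbs_natCast] at h1
      exact hp.one_lt.ne' h1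
    · intro a b hab
      have h1 : a.norm * b.norm = p := by rw [← Zsqrtd.norm_mul, ← hab, hN]
      have h2 : a.norm.natAbs * b.norm.natAbs = p := by
        have := congrArg Int.natAbs h1
        rwa [Int.natAbs_mul, Int.natAbs_natCast] at this
      rcases hp.eq_one_or_self_of_dvd _ ⟨_, h2.symm⟩ with h | h
      · exact Or.inl (Zsqrtd.norm_eq_one_iff.1 h)
      · right
        apply Zsqrtd.norm_eq_one_iff.1
        rw [h] at h2
        exact Nat.eq_of_mul_eq_mul_left hp.pos (by rw [h2, mul_one])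
  exact hirr.prime

/-- `p = π π̄`. -/
theorem natCast_eq_mul_star {p : ℕ} {π : GaussianInt} (hN : π.norm = p) :
    (p : GaussianInt) = π * star π := by
  rw [← Zsqrtd.norm_eq_mul_conj, hN]
  simp

/-- The real part of a primary Gaussian integer is odd. -/
theorem Primary.re_ne_zero {π : GaussianInt} (hπ : Primary π) : π.re ≠ 0 := by
  obtain ⟨c, hc⟩ := hπ
  have h1 := congrArg Zsqrtd.re hc
  simp only [Zsqrtd.re_sub, Zsqrtd.re_one, Zsqrtd.re_mul] at h1
  omega

theorem add_star_eq_intCast (π : GaussianInt) : π + star π = ((2 * π.re : ℤ) : GaussianInt) := by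
  apply Zsqrtd.ext
  · simp only [Zsqrtd.re_add, Zsqrtd.re_star, Zsqrtd.re_intCast]
    ring
  · simp only [Zsqrtd.im_add, Zsqrtd.im_star, Zsqrtd.im_intCast]
    ring

/-- `π` and `π̄` are not associated. -/
theorem not_dvd_star_of_primary {p : ℕ} (hp : p.Prime) {π : GaussianInt} (hπ : Primary π)
    (hN : π.norm = p) : ¬ π ∣ star π := by
  intro h
  have hp' : Prime (p : ℤ) := Nat.prime_iff_prime_int.1 hp
  obtain ⟨c, hc⟩ : π ∣ ((2 * π.re : ℤ) : GaussianInt) := by
    rw [← add_star_eq_intCast]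
    exact dvd_add dvd_rfl h
  have h2 : (p : ℤ) ∣ (2 * π.re) * (2 * π.re) :=
    ⟨c.norm, by rw [← hN, ← Zsqrtd.norm_mul, ← hc, Zsqrtd.norm_intCast]⟩
  have h3 : (p : ℤ) ∣ 2 * π.re := by
    rcases hp'.dvd_or_dvd h2 with h | h <;> exact h
  have hodd : π.norm % 2 = 1 := hπ.norm_mod_two
  have hp2 : (2 : ℤ) ≤ p := by exact_mod_cast hp.two_le
  have h4 : (p : ℤ) ∣ π.re := by
    rcases hp'.dvd_or_dvd h3 with h | h
    · exfalso
      have h5 := Int.le_of_dvd (by norm_num) h
      rw [hN] at hodd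
      omega
    · exact h
  have h0 := hπ.re_ne_zero
  obtain ⟨k, hk⟩ := h4
  have hk0 : k ≠ 0 := by
    rintro rfl
    rw [mul_zero] at hk
    exact h0 hk
  have hn : π.re * π.re + π.im * π.im = p := by
    have := hN
    rw [Zsqrtd.norm_def] at this
    linarith
  have hk1 : 1 ≤ k * k := by
    have : 0 < k * k := mul_self_pos.2 hk0
    omega
  rw [hk] at hn
  have h6 : (p : ℤ) * p ≤ (p * k) * (p * k) := by
    have : (p : ℤ) * p * 1 ≤ p * p * (k * k) :=
      mul_le_mul_of_nonneg_left hk1 (mul_self_nonneg _)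
    calc (p : ℤ) * p = p * p * 1 := by ring
      _ ≤ p * p * (k * k) := this
      _ = (p * k) * (p * k) := by ring
  nlinarith [mul_self_nonneg π.im]

/-- In `ℤ[i]` (then `sum_primSet`): `primSet (p m) = A ∪ B`, `A = π • primSet m`,
`B = π̄ • primSet m`, `A ∩ B = p • primSet (m / p)` (empty if `p ∤ m`).  `π`, `π̄` are prime (norm a
prime number), `p = π π̄ ∣ N(α) = α ᾱ` gives `π ∣ α` or `π̄ ∣ α`; `π`, `π̄` are not associated
(`π ∣ π̄` would give `π ∣ 2 Re π`, `p ∣ 4 (Re π)²`, `p ∣ Re π`, absurd as `(Re π)² + (Im π)² = p`),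
so `π ∣ α` and `π̄ ∣ α` give `p ∣ α`.  Cofactors are primary by `Primary.of_mul`. -/
theorem hecke_prime_mul_of_split (p : ℕ) (hp : p.Prime) (π : GaussianInt) (hπ : Primary π)
    (hN : π.norm = p) (m : ℕ) :
    hecke (p * m) = 2 * π.re * hecke m - p * (if p ∣ m then hecke (m / p) else 0) := by
  classical
  have hπp : Prime π := prime_of_norm_eq_prime hp hN
  have hπ0 : π ≠ 0 := hπp.ne_zero
  have hs0 : star π ≠ 0 := by
    intro h
    apply hπ0
    have := congrArg star h
    rwa [star_star, star_zero] at this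
  have hpp : (p : GaussianInt) = π * star π := natCast_eq_mul_star hN
  have hp0 : (p : GaussianInt) ≠ 0 := by
    rw [hpp]
    exact mul_ne_zero hπ0 hs0
  have hpZ : (p : ℤ) ≠ 0 := by exact_mod_cast hp.ne_zero
  have hsN : (star π).norm = p := by rw [Zsqrtd.norm_conj, hN]
  obtain ⟨A, hA⟩ : ∃ A, A = (primSet m).image (fun β => π * β) := ⟨_, rfl⟩
  obtain ⟨B, hB⟩ : ∃ B, B = (primSet m).image (fun β => star π * β) := ⟨_, rfl⟩
  obtain ⟨D, hD⟩ : ∃ D, D = if p ∣ m then
      (primSet (m / p)).image (fun β => (p : GaussianInt) * β) else ∅ := ⟨_, rfl⟩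
  have hU : primSet (p * m) = A ∪ B := by
    ext α
    rw [mem_primSet, Finset.mem_union, hA, hB, Finset.mem_image, Finset.mem_image]
    constructor
    · rintro ⟨h1, h2⟩
      have h3 : π ∣ α * star α := by
        rw [← Zsqrtd.norm_eq_mul_conj, h2]
        push_cast
        rw [hpp]
        exact ⟨star π * m, by ring⟩
      rcases hπp.dvd_or_dvd h3 with ⟨β, hβ⟩ | ⟨β, hβ⟩
      · left
        refine ⟨β, mem_primSet.2 ⟨hπ.of_mul (hβ ▸ h1), ?_⟩, hβ.symm⟩
        have : (p : ℤ) * β.norm = p * m := by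
          rw [← hN, ← Zsqrtd.norm_mul, ← hβ, h2, hN]
          push_cast
          ring
        exact mul_left_cancel₀ hpZ this
      · right
        have hα : α = star π * star β := by
          have := congrArg star hβ
          rwa [star_star, star_mul'] at this
        refine ⟨star β, mem_primSet.2 ⟨hπ.star.of_mul (hα ▸ h1), ?_⟩, hα.symm⟩
        have : (p : ℤ) * (star β).norm = p * m := by
          rw [← hsN, ← Zsqrtd.norm_mul, ← hα, h2, hsN]
          push_cast
          ring
        exact mul_left_cancel₀ hpZ this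
    · rintro (⟨β, hβ, rfl⟩ | ⟨β, hβ, rfl⟩)
      · obtain ⟨h1, h2⟩ := mem_primSet.1 hβ
        refine ⟨hπ.mul h1, ?_⟩
        rw [Zsqrtd.norm_mul, hN, h2]
        push_cast
        ring
      · obtain ⟨h1, h2⟩ := mem_primSet.1 hβ
        refine ⟨hπ.star.mul h1, ?_⟩
        rw [Zsqrtd.norm_mul, hsN, h2]
        push_cast
        ring
  have hI : A ∩ B = D := by
    ext α
    rw [Finset.mem_inter, hA, hB, Finset.mem_image, Finset.mem_image]
    constructor
    · rintro ⟨⟨β, hβ, rfl⟩, ⟨γ, hγ, hγe⟩⟩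
      obtain ⟨hβ1, hβ2⟩ := mem_primSet.1 hβ
      have h1 : π ∣ star π * γ := ⟨β, hγe⟩
      rcases hπp.dvd_or_dvd h1 with h | ⟨δ, hδ⟩
      · exact absurd h (not_dvd_star_of_primary hp hπ hN)
      · have hβe : β = star π * δ := by
          apply mul_left_cancel₀ hπ0
          rw [← hγe, hδ]
          ring
        have hδ1 : Primary δ := hπ.star.of_mul (hβe ▸ hβ1)
        have hδ2 : (m : ℤ) = p * δ.norm := by
          rw [← hβ2, hβe, Zsqrtd.norm_mul, hsN]
        have hdvd : p ∣ m := by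
          have : (p : ℤ) ∣ m := ⟨_, hδ2⟩
          exact_mod_cast this
        rw [hD, if_pos hdvd, Finset.mem_image]
        refine ⟨δ, mem_primSet.2 ⟨hδ1, ?_⟩, ?_⟩
        · rw [Int.natCast_div, hδ2, Int.mul_ediv_cancel_left _ hpZ]
        · rw [hβe, hpp]
          ring
    · intro hα
      by_cases hdvd : p ∣ m
      · rw [hD, if_pos hdvd, Finset.mem_image] at hα
        obtain ⟨δ, hδ, rfl⟩ := hα
        obtain ⟨h1, h2⟩ := mem_primSet.1 hδ
        have hm : (p : ℤ) * δ.norm = m := by
          rw [h2, Int.natCast_div, Int.mul_ediv_cancel' (by exact_mod_cast hdvd)]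
        refine ⟨⟨star π * δ, mem_primSet.2 ⟨hπ.star.mul h1, ?_⟩, ?_⟩,
          ⟨π * δ, mem_primSet.2 ⟨hπ.mul h1, ?_⟩, ?_⟩⟩
        · rw [Zsqrtd.norm_mul, hsN, hm]
        · rw [hpp]
          ring
        · rw [Zsqrtd.norm_mul, hN, hm]
        · rw [hpp]
          ring
      · rw [hD, if_neg hdvd] at hα
        exact absurd hα (Finset.notMem_empty _)
  have hsA : ∑ α ∈ A, α = π * ((hecke m : ℤ) : GaussianInt) := by
    rw [hA, Finset.sum_image (fun x _ y _ h => mul_left_cancel₀ hπ0 h), ← Finset.mul_sum,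
      sum_primSet]
  have hsB : ∑ α ∈ B, α = star π * ((hecke m : ℤ) : GaussianInt) := by
    rw [hB, Finset.sum_image (fun x _ y _ h => mul_left_cancel₀ hs0 h), ← Finset.mul_sum,
      sum_primSet]
  have hsD : ∑ α ∈ D, α =
      (p : GaussianInt) * (((if p ∣ m then hecke (m / p) else 0 : ℤ)) : GaussianInt) := by
    by_cases hdvd : p ∣ m
    · rw [hD, if_pos hdvd, if_pos hdvd,
        Finset.sum_image (fun x _ y _ h => mul_left_cancel₀ hp0 h), ← Finset.mul_sum, sum_primSet]
    · rw [hD, if_neg hdvd, if_neg hdvd, Finset.sum_empty, Int.cast_zero, mul_zero]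
  have hsum := Finset.sum_union_inter (s₁ := A) (s₂ := B) (f := fun α : GaussianInt => α)
  rw [← hU, hI, sum_primSet, hsA, hsB, hsD] at hsum
  have e := add_star_eq_intCast π
  have key : ((hecke (p * m) : ℤ) : GaussianInt) =
      ((2 * π.re * hecke m - p * (if p ∣ m then hecke (m / p) else 0) : ℤ) : GaussianInt) := by
    rw [Int.cast_sub, Int.cast_mul, Int.cast_mul (p : ℤ), Int.cast_natCast]
    linear_combination hsum + ((hecke m : ℤ) : GaussianInt) * e
  exact Int.cast_injective key

end Claimed.Open.R002
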