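import Claimed.Open.R002.SanityHeckeC1

/-! # Hecke road, post C3: the Hecke recursion at an inert prime -/

set_option autoImplicit false

namespace Claimed.Open.R002

/-- An inert prime divides every Gaussian integer whose norm it divides. -/
theorem c3_dvd_of_norm {p : ℕ} (hp : p.Prime) (h3 : p % 4 = 3) {n : ℕ} {α : GaussianInt}
    (hα : α.norm = ((p * n : ℕ) : ℤ)) : (p : GaussianInt) ∣ α := by
  have := Fact.mk hp
  have hpp := GaussianInt.prime_of_nat_prime_of_mod_four_eq_three p h3
  have h1 : (p : GaussianInt) ∣ α * star α := by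
    rw [← Zsqrtd.norm_eq_mul_conj, hα]
    push_cast
    exact Dvd.intro _ rfl
  rcases hpp.dvd_or_dvd h1 with h | h
  · exact h
  · obtain ⟨c, hc⟩ := h
    refine ⟨star c, ?_⟩
    have := congrArg star hc
    simpa using this

/-- `p` is prime in `ℤ[i]` (`GaussianInt.prime_of_nat_prime_of_mod_four_eq_three`); `p ∣ α ᾱ` gives
`p ∣ α`; `α = (-p) β` with `β` primary, `N(β) = m / p`. -/
theorem hecke_prime_mul_of_inert (p : ℕ) (hp : p.Prime) (h3 : p % 4 = 3) (m : ℕ) :
    hecke (p * m) = -(p * (if p ∣ m then hecke (m / p) else 0)) := by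
  classical
  have hp0 : (p : ℤ) ≠ 0 := by exact_mod_cast hp.ne_zero
  have hnegp : Primary (-(p : GaussianInt)) := primary_neg_natCast h3
  by_cases hpm : p ∣ m
  · obtain ⟨k, rfl⟩ := hpm
    rw [if_pos (Dvd.intro _ rfl), Nat.mul_div_cancel_left _ hp.pos]
    have himg : primSet (p * (p * k)) = (primSet k).image (fun β => -(p : GaussianInt) * β) := by
      ext α
      rw [Finset.mem_image, mem_primSet]
      constructor
      · rintro ⟨hα, hN⟩
        obtain ⟨γ, rfl⟩ := c3_dvd_of_norm hp h3 hN
        refine ⟨-γ, mem_primSet.2 ⟨?_, ?_⟩, by ring⟩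
        · exact Primary.of_mul hnegp (by simpa using hα)
        · rw [Zsqrtd.norm_mul, Zsqrtd.norm_natCast] at hN
          rw [Zsqrtd.norm_neg]
          push_cast at hN
          have : (p : ℤ) * p * γ.norm = p * p * k := by linarith
          exact mul_left_cancel₀ (mul_ne_zero hp0 hp0) this
      · rintro ⟨β, hβ, rfl⟩
        rw [mem_primSet] at hβ
        refine ⟨hnegp.mul hβ.1, ?_⟩
        rw [Zsqrtd.norm_mul, Zsqrtd.norm_neg, Zsqrtd.norm_natCast, hβ.2]
        push_cast
        ring
    unfold hecke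
    rw [himg, Finset.sum_image]
    · rw [Finset.mul_sum, ← Finset.sum_neg_distrib]
      refine Finset.sum_congr rfl fun β _ => ?_
      simp [Zsqrtd.re_mul]
    · intro a _ b _ hab
      exact mul_left_cancel₀ (neg_ne_zero.2 (by exact_mod_cast hp.ne_zero)) hab
  · rw [if_neg hpm, mul_zero, neg_zero]
    unfold hecke
    have hempty : primSet (p * m) = ∅ := by
      rw [Finset.eq_empty_iff_forall_notMem]
      intro α hα
      rw [mem_primSet] at hα
      obtain ⟨γ, rfl⟩ := c3_dvd_of_norm hp h3 hα.2
      have hN := hα.2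
      rw [Zsqrtd.norm_mul, Zsqrtd.norm_natCast] at hN
      push_cast at hN
      have h1 : (p : ℤ) * γ.norm = m := mul_left_cancel₀ hp0 (by linarith)
      apply hpm
      have h2 : (p : ℤ) ∣ m := ⟨_, h1.symm⟩
      exact_mod_cast h2
    rw [hempty, Finset.sum_empty]

end Claimed.Open.R002
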