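import Claimed.Open.R002.SanityHeckeA7
import Claimed.Open.R002.SanityHeckeB5
import Claimed.Open.R002.SanityHeckeC2
import Claimed.Open.R002.SanityHeckeC3

/-! # Hecke road, post C4: `L(E₀, s)` is the Hecke `L`-series (integration of A, B, C) -/

set_option autoImplicit false

namespace Claimed.Open.R002

/-- Strong induction on `n`: `n = p m` with `p = n.minFac`; both sides satisfy the same recursion. -/
theorem LFunction_E₀_eq_hecke (n : ℕ) : E₀.LFunction n = hecke n := by
  induction n using Nat.strong_induction_on with
  | _ n ih =>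
    rcases Nat.eq_zero_or_pos n with rfl | hn0
    · rw [hecke_zero]; simp
    rcases eq_or_ne n 1 with rfl | hn1
    · rw [hecke_one, LFunction_one]
    have hp : n.minFac.Prime := Nat.minFac_prime hn1
    obtain ⟨m, hm⟩ := Nat.minFac_dvd n
    set p := n.minFac with hpdef
    have : Fact p.Prime := ⟨hp⟩
    have hm0 : 0 < m := by
      rcases Nat.eq_zero_or_pos m with rfl | h
      · simp at hm; omega
      · exact h
    have hmn : m < n := by
      rw [hm]
      exact lt_mul_of_one_lt_left hm0 hp.one_lt
    have hdiv : m / p < n := lt_of_le_of_lt (Nat.div_le_self m p) hmn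
    rw [hm]
    rcases eq_or_ne p 2 with h2 | h2
    · rw [h2, LFunction_E₀_two_mul, hecke_two_mul]
    · rw [LFunction_E₀_prime_mul p h2 m, ih m hmn, ih (m / p) hdiv]
      have hodd : p % 2 = 1 := (hp.eq_two_or_odd).resolve_left h2
      have h4 : p % 4 = 1 ∨ p % 4 = 3 := by omega
      rcases h4 with h4 | h4
      · obtain ⟨π, hπ, hN, hre⟩ := exists_primary_of_mod_four_eq_one p h4
        rw [hecke_prime_mul_of_split p hp π hπ hN m, hre]
      · rw [hecke_prime_mul_of_inert p hp h4 m, aE_eq_zero_of_mod_four_eq_three p h4]
        ring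

end Claimed.Open.R002
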