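import Claimed.Open.R002.SanityHeckeDefs

/-! # Hecke road, post D1: the parametrisation of the primary Gaussian integers -/

set_option autoImplicit false

namespace Claimed.Open.R002

theorem primOf_injective : Function.Injective primOf := by
  rintro ⟨a, b⟩ ⟨c, d⟩ h
  have h1 : (primOf (a, b)).re = (primOf (c, d)).re := by rw [h]
  have h2 : (primOf (a, b)).im = (primOf (c, d)).im := by rw [h]
  simp only [primOf] at h1 h2
  ext
  · show a = c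
    omega
  · show b = d
    omega

/-- `primOf (m, n) = 1 + (2 + 2i) (m - n i)`. -/
theorem primary_iff_exists_primOf (α : GaussianInt) : Primary α ↔ ∃ x, primOf x = α := by
  constructor
  · rintro ⟨⟨u, v⟩, h⟩
    have h1 : (α - 1).re = ((⟨2, 2⟩ : GaussianInt) * ⟨u, v⟩).re := by rw [h]
    have h2 : (α - 1).im = ((⟨2, 2⟩ : GaussianInt) * ⟨u, v⟩).im := by rw [h]
    simp only [Zsqrtd.re_sub, Zsqrtd.im_sub, Zsqrtd.re_one, Zsqrtd.im_one, Zsqrtd.re_mul,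
      Zsqrtd.im_mul] at h1 h2
    refine ⟨(u, -v), ?_⟩
    ext
    · show 1 + 2 * u + 2 * (-v) = α.re
      linarith
    · show 2 * u - 2 * (-v) = α.im
      linarith
  · rintro ⟨⟨m, n⟩, rfl⟩
    refine ⟨⟨m, -n⟩, ?_⟩
    ext
    · simp only [primOf, Zsqrtd.re_sub, Zsqrtd.re_one, Zsqrtd.re_mul]
      ring
    · simp only [primOf, Zsqrtd.im_sub, Zsqrtd.im_one, Zsqrtd.im_mul]
      ring

theorem norm_primOf (x : ℤ × ℤ) :
    (primOf x).norm = 8 * x.1 ^ 2 + 4 * x.1 + 8 * x.2 ^ 2 + 4 * x.2 + 1 := by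
  rw [Zsqrtd.norm_def]
  simp only [primOf]
  ring

/-- For an integer `m`: `m² + m ≥ 0`. -/
theorem d1_sq_add_self_nonneg (m : ℤ) : 0 ≤ m ^ 2 + m := by
  rcases le_or_gt 0 m with h | h
  · positivity
  · nlinarith

theorem norm_primOf_pos (x : ℤ × ℤ) : 0 < (primOf x).norm := by
  rw [norm_primOf]
  nlinarith [d1_sq_add_self_nonneg x.1, d1_sq_add_self_nonneg x.2, sq_nonneg x.1, sq_nonneg x.2]

/-- `N(α) = 8 ((m + 1/4)² + (n + 1/4)²)`, `Re α = 2 ((m + 1/4) + (n + 1/4))`. -/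
theorem norm_primOf_real (x : ℤ × ℤ) :
    ((primOf x).norm : ℝ) = 8 * (((x.1 : ℝ) + 1 / 4) ^ 2 + ((x.2 : ℝ) + 1 / 4) ^ 2) := by
  rw [norm_primOf]
  push_cast
  ring

theorem re_primOf_real (x : ℤ × ℤ) :
    ((primOf x).re : ℝ) = 2 * (((x.1 : ℝ) + 1 / 4) + ((x.2 : ℝ) + 1 / 4)) := by
  simp only [primOf]
  push_cast
  ring

/-- `(Re α)² ≤ N(α)`. -/
theorem abs_re_primOf_le (x : ℤ × ℤ) :
    |((primOf x).re : ℝ)| ≤ ((primOf x).norm : ℝ) ^ (1 / 2 : ℝ) := by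
  rw [← Real.sqrt_eq_rpow]
  apply Real.abs_le_sqrt
  rw [norm_primOf_real, re_primOf_real]
  nlinarith [sq_nonneg (((x.1 : ℝ) + 1 / 4) - ((x.2 : ℝ) + 1 / 4))]

/-- `N(α) ≥ max(|m|, |n|)²` (indeed `8 m² + 4 m ≥ 4 m²`). -/
theorem sq_le_norm_primOf (x : ℤ × ℤ) :
    (x.1 : ℝ) ^ 2 + (x.2 : ℝ) ^ 2 ≤ ((primOf x).norm : ℝ) := by
  have h : x.1 ^ 2 + x.2 ^ 2 ≤ (primOf x).norm := by
    rw [norm_primOf]
    nlinarith [d1_sq_add_self_nonneg x.1, d1_sq_add_self_nonneg x.2, sq_nonneg x.1,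
      sq_nonneg x.2]
  exact_mod_cast h

end Claimed.Open.R002
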