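import Claimed.Open.R002.SanityHeckeD1

/-! # Hecke road, post D2: regrouping a sum over the primary Gaussian integers by the norm -/

set_option autoImplicit false

namespace Claimed.Open.R002

/-- The fibre of `x ↦ N(primOf x)` over `n` is in bijection with `primSet n`. -/
noncomputable def primFibreEquiv (n : ℕ) :
    ((fun x : ℤ × ℤ => (primOf x).norm.toNat) ⁻¹' {n}) ≃ (primSet n : Set GaussianInt) :=
  Equiv.ofBijective
    (fun b => ⟨primOf b.1, by
      have hb : (primOf b.1).norm.toNat = n := b.2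
      rw [Finset.mem_coe, mem_primSet]
      refine ⟨(primary_iff_exists_primOf _).2 ⟨b.1, rfl⟩, ?_⟩
      have h0 := Int.toNat_of_nonneg (norm_primOf_pos b.1).le
      rw [hb] at h0
      exact h0.symm⟩)
    ⟨fun a b h => Subtype.ext (primOf_injective (congrArg Subtype.val h)), fun α => by
      have hα := mem_primSet.1 (Finset.mem_coe.1 α.2)
      obtain ⟨x, hx⟩ := (primary_iff_exists_primOf _).1 hα.1
      refine ⟨⟨x, ?_⟩, Subtype.ext hx⟩
      change (primOf x).norm.toNat = n
      rw [hx, hα.2, Int.toNat_natCast]⟩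

theorem primFibreEquiv_apply (n : ℕ)
    (b : ((fun x : ℤ × ℤ => (primOf x).norm.toNat) ⁻¹' {n})) :
    ((primFibreEquiv n b : (primSet n : Set GaussianInt)) : GaussianInt) = primOf b.1 := rfl

/-- Regrouping by the norm, with values in any complete normed group. -/
theorem hasSum_sum_primSet_gen {E : Type*} [NormedAddCommGroup E] [CompleteSpace E]
    (f : GaussianInt → E) (hf : Summable fun x : ℤ × ℤ => f (primOf x)) :
    HasSum (fun n : ℕ => ∑ α ∈ primSet n, f α) (∑' x : ℤ × ℤ, f (primOf x)) := by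
  have h := hf.hasSum.tsum_fiberwise (fun x : ℤ × ℤ => (primOf x).norm.toNat)
  have e : (fun n : ℕ => ∑ α ∈ primSet n, f α) =
      fun n : ℕ => ∑' b : ((fun x : ℤ × ℤ => (primOf x).norm.toNat) ⁻¹' {n}), f (primOf b.1) := by
    funext n
    rw [← Finset.tsum_subtype' (primSet n) f, ← (primFibreEquiv n).tsum_eq]
    rfl
  rw [e]
  exact h

/-- Fibres of `x ↦ (primOf x).norm.toNat`: the fibre over `n` is in bijection with `primSet n`
(D1).  Tools: `HasSum.sigma`, `Equiv.sigmaFiberEquiv`, `hasSum_fintype` / `Finset.hasSum`. -/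
theorem hasSum_sum_primSet (f : GaussianInt → ℂ) (hf : Summable fun x : ℤ × ℤ => f (primOf x)) :
    HasSum (fun n : ℕ => ∑ α ∈ primSet n, f α) (∑' x : ℤ × ℤ, f (primOf x)) :=
  hasSum_sum_primSet_gen f hf

theorem summable_sum_primSet_norm (f : GaussianInt → ℂ)
    (hf : Summable fun x : ℤ × ℤ => ‖f (primOf x)‖) :
    Summable fun n : ℕ => ∑ α ∈ primSet n, ‖f α‖ :=
  (hasSum_sum_primSet_gen (fun α => ‖f α‖) hf).summable

end Claimed.Open.R002
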