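import Claimed.Open.R002.SanityLFunction
import Claimed.Open.R002.SanityE0Minimal

/-!
# Sanity for R002: a positive example of `IsLFunction` (definitions)

Goal of the files `SanityHecke*.lean`: `∃ L, IsLFunction E₀ L` for `E₀ : y² = x³ - x`, i.e. Mathlib's
Hasse–Weil `L`-series of `E₀` converges absolutely on `Re s > 3/2` and extends to an entire function.

The road: `E₀.LFunction n = hecke n`, where `hecke n` is the sum of `Re α` over the primary Gaussian
integers `α ≡ 1 mod (2 + 2i)` of norm `n`; the theta series `∑ Re α · exp (-π N(α) t)` is a product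
of two of Mathlib's Hurwitz kernels, whose Mellin transform is entire.
-/

set_option autoImplicit false

namespace Claimed.Open.R002

open WeierstrassCurve

/-- `α ≡ 1 mod (2 + 2i)`. -/
def Primary (α : GaussianInt) : Prop := (⟨2, 2⟩ : GaussianInt) ∣ α - 1

open Classical in
/-- The primary Gaussian integers of norm `n`. -/
noncomputable def primSet (n : ℕ) : Finset GaussianInt :=
  ((Finset.Icc (-(n : ℤ)) n ×ˢ Finset.Icc (-(n : ℤ)) n).image
    (fun ab : ℤ × ℤ => (⟨ab.1, ab.2⟩ : GaussianInt))).filter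
      (fun α => Primary α ∧ α.norm = n)

theorem mem_primSet {n : ℕ} {α : GaussianInt} : α ∈ primSet n ↔ Primary α ∧ α.norm = n := by
  classical
  unfold primSet
  rw [Finset.mem_filter]
  refine ⟨fun h => h.2, fun h => ⟨?_, h⟩⟩
  rw [Finset.mem_image]
  refine ⟨(α.re, α.im), ?_, rfl⟩
  have hn : α.re * α.re + α.im * α.im = n := by
    have := h.2
    rw [Zsqrtd.norm_def] at this
    linarith
  rw [Finset.mem_product, Finset.mem_Icc, Finset.mem_Icc]
  have key : ∀ z : ℤ, |z| ≤ z * z := fun z => by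
    rcases abs_cases z with ⟨h, h'⟩ | ⟨h, h'⟩ <;> rw [h] <;> nlinarith
  have h1 := key α.re
  have h2 := key α.im
  have h3 := abs_le.mp (h1.trans (by nlinarith [mul_self_nonneg α.im] : α.re * α.re ≤ (n : ℤ)))
  have h4 := abs_le.mp (h2.trans (by nlinarith [mul_self_nonneg α.re] : α.im * α.im ≤ (n : ℤ)))
  exact ⟨h3, h4⟩

/-- The `n`-th coefficient of the Hecke `L`-series: `∑ Re α` over the primary `α` of norm `n`. -/
noncomputable def hecke (n : ℕ) : ℤ := ∑ α ∈ primSet n, α.re

/-- `a_p = -∑_x (x³ - x / p)`, the trace of Frobenius of `y² = x³ - x` over `𝔽_p`. -/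
noncomputable def aE (p : ℕ) [Fact p.Prime] : ℤ :=
  -∑ x : ZMod p, quadraticChar (ZMod p) (x ^ 3 - x)

/-- The parametrisation `(m, n) ↦ 1 + (2 + 2i)(m - n i)` of the primary Gaussian integers. -/
def primOf (x : ℤ × ℤ) : GaussianInt := ⟨1 + 2 * x.1 + 2 * x.2, 2 * x.1 - 2 * x.2⟩

/-- The theta series `∑_α Re α · exp (-π N(α) t)`, as a product of two Hurwitz kernels. -/
noncomputable def thetaE (t : ℝ) : ℝ :=
  4 * HurwitzZeta.oddKernel ((1 / 4 : ℝ) : UnitAddCircle) (8 * t) *
    HurwitzZeta.evenKernel ((1 / 4 : ℝ) : UnitAddCircle) (8 * t)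

end Claimed.Open.R002
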