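import Claimed.Open.R002.SanityHeckeDefs

/-! # Hecke road, post E1: positivity of `evenKernel (1/4)` and of `oddKernel (1/4)` on `[1, ∞)`      (pen: helper88) -/

set_option autoImplicit false

namespace Claimed.Open.R002

open Real HurwitzZeta

/-- `HurwitzZeta.hasSum_int_evenKernel (1/4)`: a sum of positive terms. -/
theorem evenKernel_quarter_pos {x : ℝ} (hx : 0 < x) :
    0 < HurwitzZeta.evenKernel ((1 / 4 : ℝ) : UnitAddCircle) x := by
  have h := hasSum_int_evenKernel (1 / 4) hx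
  rw [← h.tsum_eq]
  exact h.summable.tsum_pos (fun n => (exp_pos _).le) 0 (exp_pos _)

theorem e1_three_lt_exp : (3 : ℝ) < rexp (3 / 2) := by
  have h1 : rexp (3 / 2) = rexp 1 * rexp (1 / 2) := by rw [← Real.exp_add]; norm_num
  have h2 : (1 : ℝ) / 2 + 1 ≤ rexp (1 / 2) := Real.add_one_le_exp _
  have h3 := Real.exp_one_gt_d9
  rw [h1]
  nlinarith

theorem e1_pair {u v A B : ℝ} (hu : 0 < u) (hv : v ≤ 3 * u) (hAB : A + 3 / 2 ≤ B) :
    v * rexp (-B) < u * rexp (-A) := by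
  have h1 : rexp (-B) ≤ rexp (-A) * rexp (-(3 / 2)) := by
    rw [← Real.exp_add]
    exact Real.exp_le_exp.mpr (by linarith)
  have h2 : 3 * rexp (-(3 / 2)) < 1 := by
    rw [Real.exp_neg]
    have := e1_three_lt_exp
    have hpos : 0 < rexp (3 / 2) := exp_pos _
    rw [← div_eq_mul_inv, div_lt_one hpos]
    exact this
  have hA : 0 < rexp (-A) := exp_pos _
  have hB : 0 < rexp (-B) := exp_pos _
  calc v * rexp (-B) ≤ 3 * u * rexp (-B) := by nlinarith
    _ ≤ 3 * u * (rexp (-A) * rexp (-(3 / 2))) := by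
        apply mul_le_mul_of_nonneg_left h1; positivity
    _ = u * rexp (-A) * (3 * rexp (-(3 / 2))) := by ring
    _ < u * rexp (-A) * 1 := by
        apply mul_lt_mul_of_pos_left h2; positivity
    _ = u * rexp (-A) := by ring

/-- `HurwitzZeta.hasSum_int_oddKernel (1/4)` and `HasSum.nat_add_neg_add_one`: the sum over `k : ℕ` of
`(k + 1/4) exp (-π (k + 1/4)² x) - (k + 3/4) exp (-π (k + 3/4)² x)`; each term is positive for
`x ≥ 1`: `(k + 3/4)² - (k + 1/4)² = k + 1/2`, `exp (-π (k + 1/2) x) ≤ exp (-π / 2) < 1/3 ≤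
(k + 1/4) / (k + 3/4)`. -/
theorem oddKernel_quarter_pos_of_one_le {x : ℝ} (hx : 1 ≤ x) :
    0 < HurwitzZeta.oddKernel ((1 / 4 : ℝ) : UnitAddCircle) x := by
  have hx0 : 0 < x := by linarith
  have h := (hasSum_int_oddKernel (1 / 4) hx0).nat_add_neg_add_one
  rw [← h.tsum_eq]
  have hterm : ∀ n : ℕ, 0 < (((n : ℤ) : ℝ) + 1 / 4) * rexp (-π * (((n : ℤ) : ℝ) + 1 / 4) ^ 2 * x) +
      (((-((n : ℤ) + 1) : ℤ) : ℝ) + 1 / 4) * rexp (-π * (((-((n : ℤ) + 1) : ℤ) : ℝ) + 1 / 4) ^ 2 * x) := by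
    intro n
    have hn : (0 : ℝ) ≤ (n : ℝ) := Nat.cast_nonneg n
    have hp := Real.pi_gt_three
    have key := e1_pair (u := (n : ℝ) + 1 / 4) (v := (n : ℝ) + 3 / 4)
      (A := π * ((n : ℝ) + 1 / 4) ^ 2 * x) (B := π * ((n : ℝ) + 3 / 4) ^ 2 * x)
      (by positivity) (by linarith) (by
        have : π * ((n : ℝ) + 3 / 4) ^ 2 * x - π * ((n : ℝ) + 1 / 4) ^ 2 * x
            = π * x * ((n : ℝ) + 1 / 2) := by ring
        have h2 : (3 : ℝ) / 2 ≤ π * x * ((n : ℝ) + 1 / 2) := by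
          have : (3 : ℝ) ≤ π * x := by nlinarith
          nlinarith
        linarith)
    push_cast
    have e1 : -π * ((n : ℝ) + 1 / 4) ^ 2 * x = -(π * ((n : ℝ) + 1 / 4) ^ 2 * x) := by ring
    have e2 : -π * (-((n : ℝ) + 1) + 1 / 4) ^ 2 * x = -(π * ((n : ℝ) + 3 / 4) ^ 2 * x) := by ring
    have e3 : (-((n : ℝ) + 1) + 1 / 4) = -((n : ℝ) + 3 / 4) := by ring
    rw [e1, e2, e3]
    linarith
  exact h.summable.tsum_pos (fun n => (hterm n).le) 0 (hterm 0)

end Claimed.Open.R002
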