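import Claimed.Open.R002.SanityPeriod
import Claimed.Open.R002.SanityE0Minimal
import Claimed.Open.R002.SanityHeightModel

/-!
# A non-example: a Weierstrass equation that is not globally minimal

`E₁ : y² = x³ - 16 x` is another Weierstrass equation of the curve `E₀ : y² = x³ - x`
(`(x, y) ↦ (4 x, 8 y)`).  It has integral coefficients, but

* it is **not** a global minimal equation (`not_isGlobalMinimal_E₁`);
* the integral of its own invariant differential is *half* the real period
  (`periodIntegral_E₀_eq_two_mul`), and `IsRealPeriod` rejects it (`not_isRealPeriod_E₁`): the real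
  period of `E₁` in the sense of `Statement.lean` is the integral of the Néron differential, i.e.
  `periodIntegral E₀` (`isRealPeriod_E₁_iff`);
* the regulators of the two equations agree (`isRegulator_E₁_iff`).

So `MainStatement` for the equation `E₁` involves the same `Ω` and `Reg` as for `E₀`.
-/

set_option autoImplicit false

namespace Claimed.Open.R002

open WeierstrassCurve
open scoped Classical

noncomputable section

/-- The equation `y² = x³ - 16 x`. -/
def E₁ : WeierstrassCurve ℚ := ⟨0, 0, 0, -16, 0⟩

/-- The change of variables `(x, y) ↦ (4 x, 8 y)`. -/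
def C₁ : VariableChange ℚ := ⟨Units.mk0 2 two_ne_zero, 0, 0, 0⟩

theorem C₁_smul_E₁ : C₁ • E₁ = E₀ := by
  ext <;> simp [C₁, E₁, E₀, variableChange_def]
  norm_num

instance E₁.isElliptic : E₁.IsElliptic := by
  rw [isElliptic_iff]
  simp [E₁, WeierstrassCurve.Δ, WeierstrassCurve.b₂, WeierstrassCurve.b₄, WeierstrassCurve.b₆,
    WeierstrassCurve.b₈]

/-- **Non-example**: the integral equation `y² = x³ - 16 x` is not globally minimal. -/
theorem not_isGlobalMinimal_E₁ : ¬ IsGlobalMinimal E₁ := fun h => by
  have h2 : IsGlobalMinimal (C₁ • E₁) := by rw [C₁_smul_E₁]; exact E₀_isGlobalMinimal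
  have h3 := abs_u_eq_one_of_isGlobalMinimal h h2
  norm_num [C₁] at h3

/-- The real period of `E₁` is the period integral of the minimal equation `E₀`. -/
theorem isRealPeriod_E₁_iff (Ω : ℝ) : IsRealPeriod E₁ Ω ↔ Ω = periodIntegral E₀ := by
  have h0 : IsRealPeriod E₁ (periodIntegral E₀) :=
    ⟨C₁, by rw [C₁_smul_E₁]; exact E₀_isGlobalMinimal, by rw [C₁_smul_E₁]⟩
  exact ⟨fun h => h.unique h0, fun h => h ▸ h0⟩

/-- `∫_{E(ℝ)} |dx / 2y|` for the equation `E₁` is half of the real period. -/
theorem periodIntegral_E₀_eq_two_mul : periodIntegral E₀ = 2 * periodIntegral E₁ := by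
  rw [← C₁_smul_E₁, periodIntegral_smul]
  norm_num [C₁]

/-- **Non-example**: the period integral of the non-minimal equation is not the real period. -/
theorem not_isRealPeriod_E₁ : ¬ IsRealPeriod E₁ (periodIntegral E₁) := fun h => by
  have h1 := (isRealPeriod_E₁_iff _).1 h
  have h2 := periodIntegral_pos E₁
  rw [periodIntegral_E₀_eq_two_mul] at h1
  linarith

/-- The two equations have the same regulator. -/
theorem isRegulator_E₁_iff (R : ℝ) : IsRegulator E₁ R ↔ IsRegulator E₀ R := by
  rw [← C₁_smul_E₁, isRegulator_smul_iff]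

end

end Claimed.Open.R002
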