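import Claimed.Open.R002.SanityHecke
import Claimed.Open.R002.SanityNonMinimal

/-!
# Sanity for R002: `IsLFunction` does not depend on the Weierstrass equation (an example)

`Statement` applies `IsLFunction` to an arbitrary Weierstrass equation over `ℚ`; Mathlib's `LFunction` passes
to a minimal equation at each prime.  Checked here on the non-minimal equation `E₁ : y² = x³ - 16 x` of the
curve `E₀ : y² = x³ - x` (`SanityNonMinimal.lean`): all local polynomials agree, `E₁.LFunction = E₀.LFunction`,
and `heckeL` is the `L`-function of `E₁` too.  (The period integral of `E₁`, by contrast, is half that of `E₀`.)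
-/

set_option autoImplicit false

namespace Claimed.Open.R002

open WeierstrassCurve IsDedekindDomain NumberField Polynomial

section Local

variable (R : Type*) [CommRing R] [IsDomain R] [IsDiscreteValuationRing R]
variable (K : Type*) [Field K] [Algebra R K] [IsFractionRing R K]

/-- `localPolynomial_of_additive` for an arbitrary equation `C • W` of the curve. -/
theorem localPolynomial_smul_of_additive (W₀ : WeierstrassCurve R) [(W₀⁄K).IsElliptic]
    (C : VariableChange K)
    (h12 : W₀.Δ ∉ IsLocalRing.maximalIdeal R ^ 12) (hΔ : W₀.Δ ∈ IsLocalRing.maximalIdeal R)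
    (hc : W₀.c₄ ∈ IsLocalRing.maximalIdeal R) :
    (C • (W₀⁄K)).localPolynomial R = 1 := by
  have inj := IsFractionRing.injective R K
  have hint : IsIntegral R (W₀⁄K) := ⟨W₀, rfl⟩
  have hmodel : integralModel R (W₀⁄K) = W₀ := by
    apply WeierstrassCurve.map_injective inj
    exact baseChange_integralModel_eq R (W₀⁄K)
  have hmin : IsMinimal R (W₀⁄K) := isMinimal_of_Δ_notMem R (W₀⁄K) (by rwa [hmodel])
  have hmin' : IsMinimal R ((C • (W₀⁄K)).minimal R) := inferInstance
  have hD : (C • (W₀⁄K)).minimal R =
      (((C • (W₀⁄K)).exists_isMinimal R).choose * C) • (W₀⁄K) := by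
    rw [mul_smul]
    rfl
  obtain ⟨C₀, hC₀⟩ := exists_vc_lift R hmin
    (C := ((C • (W₀⁄K)).exists_isMinimal R).choose * C) (by rw [← hD]; exact hmin')
  have hW' : (C • (W₀⁄K)).minimal R = (C₀ • W₀)⁄K := by
    rw [hD, ← hC₀]
    exact map_variableChange W₀ C₀ (algebraMap R K)
  have hadd : ((C • (W₀⁄K)).minimal R).HasAdditiveReduction R := by
    rw [hasAdditiveReduction_iff]
    refine ⟨hmin', ?_, ?_⟩
    · rw [hW', baseChange, map_Δ, IsDedekindDomain.HeightOneSpectrum.valuation_lt_one_iff_mem,
        variableChange_Δ]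
      exact Ideal.mul_mem_left _ _ hΔ
    · rw [hW', baseChange, map_c₄, IsDedekindDomain.HeightOneSpectrum.valuation_lt_one_iff_mem,
        variableChange_c₄]
      exact Ideal.mul_mem_left _ _ hc
  have h1 : ¬ ((C • (W₀⁄K)).minimal R).HasGoodReduction R := hadd.not_hasGoodReduction
  have h2 : ¬ ((C • (W₀⁄K)).minimal R).HasMultiplicativeReduction R :=
    hadd.not_hasMultiplicativeReduction
  have h3 : ¬ ((C • (W₀⁄K)).minimal R).HasSplitMultiplicativeReduction R := fun h => h2 h.1
  unfold localPolynomial
  rw [if_neg h1, if_neg h3, if_neg h2]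

end Local

/-- `y² = x³ - 16 x` over any ring -/
def E₁over (A : Type*) [CommRing A] : WeierstrassCurve A := ⟨0, 0, 0, -16, 0⟩

theorem E₁_baseChange_eq (A F : Type*) [CommRing A] [Field F] [Algebra ℚ F] [Algebra A F] :
    E₁⁄F = (E₁over A)⁄F := by
  ext <;> simp [E₁, E₁over, WeierstrassCurve.baseChange, map_ofNat]

theorem E₁over_Δ (A : Type*) [CommRing A] : (E₁over A).Δ = 262144 := by
  simp [E₁over, WeierstrassCurve.Δ, WeierstrassCurve.b₂, WeierstrassCurve.b₄, WeierstrassCurve.b₆,
    WeierstrassCurve.b₈]
  norm_num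

theorem E₁over_map (A B : Type*) [CommRing A] [CommRing B] (f : A →+* B) :
    (E₁over A).map f = E₁over B := by
  ext <;> simp [E₁over, map_ofNat]

/-- over a field of characteristic `≠ 2` the two equations have the same number of points -/
theorem card_point_E₁over (k : Type*) [Field k] (h2 : (2 : k) ≠ 0) :
    Nat.card (E₁over k).toAffine.Point = Nat.card (E₀over k).toAffine.Point := by
  classical
  have e : (⟨Units.mk0 2 h2, 0, 0, 0⟩ : VariableChange k) • E₁over k = E₀over k := by
    ext <;> simp [E₁over, E₀over, variableChange_def]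
    field_simp
    norm_num
  rw [← e]
  exact (Nat.card_congr (vcEquiv (E₁over k) _).toEquiv).symm

/-- **All local polynomials of the two equations agree.** -/
theorem localPolynomial_E₁_eq (v : HeightOneSpectrum (𝓞 ℚ)) :
    (E₁.baseChange (v.adicCompletion ℚ)).localPolynomial (v.adicCompletionIntegers ℚ) =
      (E₀.baseChange (v.adicCompletion ℚ)).localPolynomial (v.adicCompletionIntegers ℚ) := by
  have e0 : E₀.baseChange (v.adicCompletion ℚ) =
      (E₀over (v.adicCompletionIntegers ℚ))⁄(v.adicCompletion ℚ) :=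
    E₀_baseChange_eq (v.adicCompletionIntegers ℚ) (v.adicCompletion ℚ)
  by_cases h : primeBelow v = 2
  · -- additive reduction; `E₁` is not minimal at `2`
    rw [localPolynomial_E₀_two v h]
    have e1 : E₁.baseChange (v.adicCompletion ℚ) =
        (C₁⁻¹.map (algebraMap ℚ (v.adicCompletion ℚ))) •
          ((E₀over (v.adicCompletionIntegers ℚ))⁄(v.adicCompletion ℚ)) := by
      rw [← e0]
      have h1 : E₁ = C₁⁻¹ • E₀ := by rw [← C₁_smul_E₁, inv_smul_smul]
      conv_lhs => rw [h1]
      exact (map_variableChange E₀ C₁⁻¹ (algebraMap ℚ (v.adicCompletion ℚ))).symm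
    have : ((E₀over (v.adicCompletionIntegers ℚ))⁄(v.adicCompletion ℚ)).IsElliptic := by
      rw [← e0]; infer_instance
    rw [e1]
    apply localPolynomial_smul_of_additive
    · rw [E₀over_Δ]
      intro hmem
      have hmem' : ((64 : ℕ) : v.adicCompletionIntegers ℚ) ∈
          IsLocalRing.maximalIdeal (v.adicCompletionIntegers ℚ) ^ 12 := by simpa using hmem
      rw [natCast_mem_maximalIdeal_pow, h] at hmem'
      norm_num at hmem'
    · rw [E₀over_Δ]
      have hmem' : ((64 : ℕ) : v.adicCompletionIntegers ℚ) ∈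
          IsLocalRing.maximalIdeal (v.adicCompletionIntegers ℚ) ^ 1 := by
        rw [natCast_mem_maximalIdeal_pow, h]; norm_num
      simpa using hmem'
    · rw [a6_c₄]
      have hmem' : ((48 : ℕ) : v.adicCompletionIntegers ℚ) ∈
          IsLocalRing.maximalIdeal (v.adicCompletionIntegers ℚ) ^ 1 := by
        rw [natCast_mem_maximalIdeal_pow, h]; norm_num
      simpa using hmem'
  · -- good reduction of both equations
    have e1 : E₁.baseChange (v.adicCompletion ℚ) =
        (E₁over (v.adicCompletionIntegers ℚ))⁄(v.adicCompletion ℚ) :=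
      E₁_baseChange_eq (v.adicCompletionIntegers ℚ) (v.adicCompletion ℚ)
    have hpow : ∀ k : ℕ, IsUnit (((2 ^ k : ℕ) : v.adicCompletionIntegers ℚ)) := by
      intro k
      by_contra hcon
      have hmem : ((2 ^ k : ℕ) : v.adicCompletionIntegers ℚ) ∈
          IsLocalRing.maximalIdeal (v.adicCompletionIntegers ℚ) ^ 1 := by
        rw [pow_one, IsLocalRing.mem_maximalIdeal, mem_nonunits_iff]
        exact hcon
      rw [natCast_mem_maximalIdeal_pow, pow_one] at hmem
      exact h ((Nat.prime_dvd_prime_iff_eq (prime_primeBelow v) Nat.prime_two).mp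
        ((prime_primeBelow v).dvd_of_dvd_pow hmem))
    have hunit0 : IsUnit (E₀over (v.adicCompletionIntegers ℚ)).Δ := by
      rw [E₀over_Δ]
      simpa using hpow 6
    have hunit1 : IsUnit (E₁over (v.adicCompletionIntegers ℚ)).Δ := by
      rw [E₁over_Δ]
      simpa using hpow 18
    have h2 : (2 : IsLocalRing.ResidueField (v.adicCompletionIntegers ℚ)) ≠ 0 := by
      have hu : IsUnit ((2 : v.adicCompletionIntegers ℚ)) := by simpa using hpow 1
      have h3 := (hu.map (IsLocalRing.residue (v.adicCompletionIntegers ℚ))).ne_zero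
      rwa [map_ofNat] at h3
    rw [e0, e1, localPolynomial_of_isUnit_Δ _ _ _ hunit0, localPolynomial_of_isUnit_Δ _ _ _ hunit1,
      E₁over_map, a6_map_residue, card_point_E₁over _ h2]

/-- **Mathlib's formal `L`-series does not see the change of equation.** -/
theorem LFunction_E₁ : E₁.LFunction = E₀.LFunction := by
  unfold WeierstrassCurve.LFunction
  congr 1
  funext v
  unfold localEulerFactor localPowerSeries
  rw [localPolynomial_E₁_eq]

/-- **`heckeL` is the `L`-function of the non-minimal equation `E₁ : y² = x³ - 16 x` as well.** -/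
theorem isLFunction_E₁_heckeL : IsLFunction E₁ heckeL := by
  have h := isLFunction_E₀_heckeL
  unfold IsLFunction WeierstrassCurve.LSeries at h ⊢
  rw [LFunction_E₁]
  exact h

theorem isLFunction_E₁_iff (L : ℂ → ℂ) : IsLFunction E₁ L ↔ IsLFunction E₀ L := by
  unfold IsLFunction WeierstrassCurve.LSeries
  rw [LFunction_E₁]

end Claimed.Open.R002
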