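import Mathlib

/-! # Hecke road II (value at `s = 1`), post V1a: two-sided bound of `evenKernel (1/4)` -/

set_option autoImplicit false

namespace Claimed.Open.R002

open Real HurwitzZeta

/-- `r = exp (-π x / 2) ≤ 1/2` for `x ≥ 1`. -/
theorem v1a_r_le_half {x : ℝ} (hx : 1 ≤ x) : rexp (-π * x / 2) ≤ 1 / 2 := by
  have h1 : (2 : ℝ) ≤ rexp (π * x / 2) := by
    have h2 := Real.add_one_le_exp (π * x / 2)
    have h3 := Real.pi_gt_three
    nlinarith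
  have h2 : rexp (-π * x / 2) = (rexp (π * x / 2))⁻¹ := by
    rw [← Real.exp_neg]; congr 1; ring
  rw [h2, one_div]
  exact inv_anti₀ (by norm_num) h1

/-- the term of `n ≥ 0`. -/
theorem v1a_term_pos (x : ℝ) (n : ℕ) :
    rexp (-π * (((n : ℤ) : ℝ) + 1 / 4) ^ 2 * x) =
      rexp (-π * x / 16) * rexp (-π * x / 2) ^ (2 * n ^ 2 + n) := by
  rw [← Real.exp_nat_mul, ← Real.exp_add]
  congr 1
  push_cast
  ring

/-- the term of `-(n + 1)`. -/
theorem v1a_term_neg (x : ℝ) (n : ℕ) :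
    rexp (-π * (((-((n : ℤ) + 1) : ℤ) : ℝ) + 1 / 4) ^ 2 * x) =
      rexp (-π * x / 16) * rexp (-π * x / 2) ^ (2 * n ^ 2 + 3 * n + 1) := by
  rw [← Real.exp_nat_mul, ← Real.exp_add]
  congr 1
  push_cast
  ring

/-- `r ^ (1 + (m + 2) + k) ≤ r (1/2) ^ (m + 2)` for `0 ≤ r ≤ 1/2`. -/
theorem v1a_pow_le {r : ℝ} (h0 : 0 ≤ r) (h2 : r ≤ 1 / 2) (m k : ℕ) :
    r ^ (1 + (m + 2) + k) ≤ r * (1 / 2 : ℝ) ^ (m + 2) := by
  have h1 : r ≤ 1 := by linarith
  rw [pow_add, pow_add, pow_one]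
  have ha : r ^ (m + 2) ≤ (1 / 2 : ℝ) ^ (m + 2) := pow_le_pow_left₀ h0 h2 _
  have hb : r ^ k ≤ 1 := pow_le_one₀ h0 h1
  have hc : 0 ≤ r ^ (m + 2) := pow_nonneg h0 _
  have hd : 0 ≤ r ^ k := pow_nonneg h0 _
  calc r * r ^ (m + 2) * r ^ k ≤ r * r ^ (m + 2) * 1 :=
        mul_le_mul_of_nonneg_left hb (mul_nonneg h0 hc)
    _ = r * r ^ (m + 2) := mul_one _
    _ ≤ r * (1 / 2 : ℝ) ^ (m + 2) := mul_le_mul_of_nonneg_left ha h0

/-- `evenKernel (1/4) x = ∑_{n ∈ ℤ} exp (-π (n + 1/4)² x) = ∑_{j ≥ 1 odd} exp (-π j² x / 16)` (`hasSum_int_evenKernel (1/4)`;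
`n ≥ 0 ↦ j = 4 n + 1`, `n = -m-1 ↦ j = 4 m + 3`).  Lower bound: the term `n = 0`, all terms are positive (`le_hasSum`).
Upper bound: with `E = exp (-π x / 16)`, `r = exp (-π x / 2) ≤ exp (-π / 2) < 1/2`: the term of `j = 2 k + 1` is `E r ^ (k (k + 1) / 2) ≤ E r ^ k`, better
`≤ E r ^ (k + 1)` for `k ≥ 2`; `1 + r + r³ / (1 - r) ≤ 1 + 2 r`.  (Any other proof is welcome, e.g. `|n + 1/4|² ≥ …` and a geometric series over `ℤ`.) -/
theorem evenKernel_quarter_bounds {x : ℝ} (hx : 1 ≤ x) :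
    rexp (-π * x / 16) ≤ evenKernel ((1 / 4 : ℝ) : UnitAddCircle) x ∧
      evenKernel ((1 / 4 : ℝ) : UnitAddCircle) x ≤
        rexp (-π * x / 16) * (1 + 2 * rexp (-π * x / 2)) := by
  have hx0 : 0 < x := by linarith
  have hs := hasSum_int_evenKernel (1 / 4 : ℝ) hx0
  have hr2 := v1a_r_le_half hx
  have hE0 : 0 < rexp (-π * x / 16) := exp_pos _
  have hr0 : 0 < rexp (-π * x / 2) := exp_pos _
  constructor
  · have h := le_hasSum hs 0 (fun _ _ => (exp_pos _).le)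
    calc rexp (-π * x / 16) = rexp (-π * (((0 : ℤ) : ℝ) + 1 / 4) ^ 2 * x) := by
          congr 1; push_cast; ring
      _ ≤ _ := h
  · have hg := hs.nat_add_neg_add_one
    have hh : HasSum (fun n : ℕ => rexp (-π * x / 16) * rexp (-π * x / 2) * (1 / 2 : ℝ) ^ n
        + if n = 0 then rexp (-π * x / 16) else 0)
        (rexp (-π * x / 16) * rexp (-π * x / 2) * 2 + rexp (-π * x / 16)) :=
      (hasSum_geometric_two.mul_left (rexp (-π * x / 16) * rexp (-π * x / 2))).add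
        (hasSum_ite_eq 0 (rexp (-π * x / 16)))
    have hle : ∀ n : ℕ,
        rexp (-π * (((n : ℤ) : ℝ) + 1 / 4) ^ 2 * x)
          + rexp (-π * (((-((n : ℤ) + 1) : ℤ) : ℝ) + 1 / 4) ^ 2 * x) ≤
        rexp (-π * x / 16) * rexp (-π * x / 2) * (1 / 2 : ℝ) ^ n
          + if n = 0 then rexp (-π * x / 16) else 0 := by
      intro n
      rw [v1a_term_pos, v1a_term_neg]
      rcases n with _ | m
      · simp
        linarith
      · have e1 : 2 * (m + 1) ^ 2 + (m + 1) = 1 + (m + 2) + (2 * m ^ 2 + 4 * m) := by ring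
        have e2 : 2 * (m + 1) ^ 2 + 3 * (m + 1) + 1 = 1 + (m + 2) + (2 * m ^ 2 + 6 * m + 3) := by
          ring
        rw [e1, e2]
        have h1 := v1a_pow_le hr0.le hr2 m (2 * m ^ 2 + 4 * m)
        have h2 := v1a_pow_le hr0.le hr2 m (2 * m ^ 2 + 6 * m + 3)
        have h3 : (1 / 2 : ℝ) ^ (m + 1) = 2 * (1 / 2 : ℝ) ^ (m + 2) := by
          rw [pow_succ (1 / 2 : ℝ) (m + 1)]; ring
        rw [if_neg (Nat.succ_ne_zero m), add_zero, h3, ← mul_add]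
        calc rexp (-π * x / 16) * (rexp (-π * x / 2) ^ (1 + (m + 2) + (2 * m ^ 2 + 4 * m))
              + rexp (-π * x / 2) ^ (1 + (m + 2) + (2 * m ^ 2 + 6 * m + 3)))
            ≤ rexp (-π * x / 16) * (rexp (-π * x / 2) * (1 / 2 : ℝ) ^ (m + 2)
              + rexp (-π * x / 2) * (1 / 2 : ℝ) ^ (m + 2)) :=
              mul_le_mul_of_nonneg_left (add_le_add h1 h2) hE0.le
          _ = _ := by ring
    calc evenKernel ((1 / 4 : ℝ) : UnitAddCircle) x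
        ≤ rexp (-π * x / 16) * rexp (-π * x / 2) * 2 + rexp (-π * x / 16) :=
          hasSum_le hle hg hh
      _ = _ := by ring

end Claimed.Open.R002
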