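import Mathlib

/-! # Hecke road II (value at `s = 1`), post V1b: two-sided bound of `oddKernel (1/4)` -/

set_option autoImplicit false

namespace Claimed.Open.R002

open Real HurwitzZeta

private theorem v1b_key (a b x : ℝ) (ha : 0 ≤ a) (h : b ≤ a * (1 + π * x * (b ^ 2 - a ^ 2))) :
    b * rexp (-π * b ^ 2 * x) ≤ a * rexp (-π * a ^ 2 * x) := by
  have e : rexp (-π * a ^ 2 * x) = rexp (-π * b ^ 2 * x) * rexp (π * x * (b ^ 2 - a ^ 2)) := by
    rw [← Real.exp_add]; congr 1; ring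
  have h1 : 1 + π * x * (b ^ 2 - a ^ 2) ≤ rexp (π * x * (b ^ 2 - a ^ 2)) := by
    linarith [Real.add_one_le_exp (π * x * (b ^ 2 - a ^ 2))]
  calc b * rexp (-π * b ^ 2 * x) ≤ a * (1 + π * x * (b ^ 2 - a ^ 2)) * rexp (-π * b ^ 2 * x) :=
        mul_le_mul_of_nonneg_right h (Real.exp_pos _).le
    _ ≤ a * rexp (π * x * (b ^ 2 - a ^ 2)) * rexp (-π * b ^ 2 * x) :=
        mul_le_mul_of_nonneg_right (mul_le_mul_of_nonneg_left h1 ha) (Real.exp_pos _).le
    _ = a * rexp (-π * a ^ 2 * x) := by rw [e]; ring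

/-- `oddKernel (1/4) x = ∑_{n ∈ ℤ} (n + 1/4) exp (-π (n + 1/4)² x)` (`hasSum_int_oddKernel (1/4)`) `= (1/4) ∑_{k ≥ 0} (-1)^k (2k+1) exp (-π (2k+1)² x / 16)`.
Lower bound: pair `n` with `-n-1` (`HasSum.nat_add_neg_add_one`): the pair `n = 0` is `(E - 3 E⁹) / 4`, the pairs `n ≥ 1` are `≥ 0`:
`(n + 3/4) / (n + 1/4) ≤ 3 ≤ exp (π x (n + 1/2))`.
Upper bound: take the term `n = 0` out and pair `-m-1` with `m+1`: `(m + 5/4) exp (-π (m + 5/4)² x) ≤ (m + 3/4) exp (-π (m + 3/4)² x)` as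
`(m + 5/4) / (m + 3/4) ≤ 5/3 ≤ exp (π x (m + 1))`.   (`exp 1 > 2.7`, `π > 3`.) -/
theorem oddKernel_quarter_bounds {x : ℝ} (hx : 1 ≤ x) :
    (rexp (-π * x / 16) - 3 * rexp (-9 * π * x / 16)) / 4 ≤
        oddKernel ((1 / 4 : ℝ) : UnitAddCircle) x ∧
      oddKernel ((1 / 4 : ℝ) : UnitAddCircle) x ≤ rexp (-π * x / 16) / 4 := by
  have hx0 : 0 < x := lt_of_lt_of_le one_pos hx
  have hS := hasSum_int_oddKernel (1 / 4) hx0
  have hpi : 3 < π := Real.pi_gt_three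
  have hpx : 3 ≤ π * x := by nlinarith
  constructor
  · have h1 := hS.nat_add_neg_add_one
    have h2 := sum_le_hasSum {0} (fun n hn => ?_) h1
    · rw [Finset.sum_singleton] at h2
      refine le_trans (le_of_eq ?_) h2
      have e1 : -π * x / 16 = -π * (((0 : ℕ) : ℤ) + 1 / 4 : ℝ) ^ 2 * x := by push_cast; ring
      have e2 : -9 * π * x / 16 = -π * (((-(((0 : ℕ) : ℤ) + 1) : ℤ) : ℝ) + 1 / 4) ^ 2 * x := by
        push_cast; ring
      rw [e1, e2]
      push_cast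
      ring
    · have hn1 : 1 ≤ n := Nat.one_le_iff_ne_zero.2 (by simpa using hn)
      have hn1' : (1 : ℝ) ≤ n := by exact_mod_cast hn1
      have hk := v1b_key ((n : ℝ) + 1 / 4) ((n : ℝ) + 3 / 4) x (by positivity) (by
        have e : π * x * (((n : ℝ) + 3 / 4) ^ 2 - ((n : ℝ) + 1 / 4) ^ 2) = π * x * ((n : ℝ) + 1 / 2) := by ring
        rw [e]
        have h3 : 3 * 1 ≤ π * x * ((n : ℝ) + 1 / 2) :=
          mul_le_mul hpx (by linarith) (by norm_num) (by linarith)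
        nlinarith)
      have e3 : (((-((n : ℤ) + 1) : ℤ) : ℝ) + 1 / 4) = -((n : ℝ) + 3 / 4) := by push_cast; ring
      rw [e3, neg_sq]
      push_cast
      linarith
  · have h1 := hS.nat_add_neg.neg
    have h2 := sum_le_hasSum {0} (fun n hn => ?_) h1
    · rw [Finset.sum_singleton] at h2
      have e1 : -π * x / 16 = -π * ((0 : ℝ) + 1 / 4) ^ 2 * x := by ring
      rw [e1]
      push_cast at h2
      simp only [neg_zero] at h2
      linarith
    · have hn1 : 1 ≤ n := Nat.one_le_iff_ne_zero.2 (by simpa using hn)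
      have hn1' : (1 : ℝ) ≤ n := by exact_mod_cast hn1
      have hk := v1b_key ((n : ℝ) - 1 / 4) ((n : ℝ) + 1 / 4) x (by linarith) (by
        have e : π * x * (((n : ℝ) + 1 / 4) ^ 2 - ((n : ℝ) - 1 / 4) ^ 2) = π * x * (n : ℝ) := by ring
        rw [e]
        have h3 : 3 * 1 ≤ π * x * (n : ℝ) := mul_le_mul hpx hn1' (by norm_num) (by linarith)
        nlinarith)
      have e3 : (((-(n : ℤ) : ℤ) : ℝ) + 1 / 4) = -((n : ℝ) - 1 / 4) := by push_cast; ring
      rw [e3, neg_sq]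
      push_cast
      linarith

end Claimed.Open.R002
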