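import Mathlib

/-! # Hecke road II (value at `s = 1`), post V1c: two-sided bound of `sinKernel (1/4)` -/

set_option autoImplicit false

namespace Claimed.Open.R002

open Real HurwitzZeta

/-- the general term of `hasSum_nat_sinKernel (1/4)` -/
private noncomputable def v1c_g (y : ℝ) (n : ℕ) : ℝ :=
  2 * n * Real.sin (2 * π * (1 / 4) * n) * rexp (-π * n ^ 2 * y)

/-- the moduli of the odd terms decrease -/
private theorem v1c_step {y m : ℝ} (hy : 1 / 8 ≤ y) (hm : 1 ≤ m) :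
    (m + 2) * rexp (-π * (m + 2) ^ 2 * y) ≤ m * rexp (-π * m ^ 2 * y) := by
  have hpi := Real.pi_gt_three
  set t : ℝ := π * ((4 * m + 4) * y) with ht
  have ht3 : 3 ≤ t := by
    have h1 : 1 ≤ (4 * m + 4) * y := by nlinarith
    have h2 : π * 1 ≤ π * ((4 * m + 4) * y) := mul_le_mul_of_nonneg_left h1 (by linarith)
    rw [ht]
    linarith
  have e : rexp (-π * (m + 2) ^ 2 * y) = rexp (-π * m ^ 2 * y) * rexp (-t) := by
    rw [← Real.exp_add]
    congr 1
    rw [ht]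
    ring
  have h3 : 0 < rexp (-t) := Real.exp_pos _
  have h4 : rexp (-t) * 4 ≤ 1 := by
    have h1 : t + 1 ≤ rexp t := Real.add_one_le_exp t
    have h2 : rexp (-t) * rexp t = 1 := by
      rw [← Real.exp_add]
      simp
    nlinarith
  rw [e]
  have hp : 0 < rexp (-π * m ^ 2 * y) := Real.exp_pos _
  have h5 : (m + 2) * rexp (-t) ≤ m := by nlinarith
  calc (m + 2) * (rexp (-π * m ^ 2 * y) * rexp (-t))
      = ((m + 2) * rexp (-t)) * rexp (-π * m ^ 2 * y) := by ring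
    _ ≤ m * rexp (-π * m ^ 2 * y) := mul_le_mul_of_nonneg_right h5 hp.le

private theorem v1c_g0 (y : ℝ) (K : ℕ) : v1c_g y (4 * K) = 0 := by
  have h : 2 * π * (1 / 4) * ((4 * K : ℕ) : ℝ) = 0 + K * (2 * π) := by
    push_cast
    ring
  unfold v1c_g
  rw [h, Real.sin_add_nat_mul_two_pi, Real.sin_zero]
  ring

private theorem v1c_g1 (y : ℝ) (K : ℕ) :
    v1c_g y (4 * K + 1) = 2 * ((4 * K + 1 : ℝ) * rexp (-π * (4 * K + 1 : ℝ) ^ 2 * y)) := by
  have h : 2 * π * (1 / 4) * ((4 * K + 1 : ℕ) : ℝ) = π / 2 + K * (2 * π) := by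
    push_cast
    ring
  unfold v1c_g
  rw [h, Real.sin_add_nat_mul_two_pi, Real.sin_pi_div_two]
  push_cast
  ring

private theorem v1c_g2 (y : ℝ) (K : ℕ) : v1c_g y (4 * K + 2) = 0 := by
  have h : 2 * π * (1 / 4) * ((4 * K + 2 : ℕ) : ℝ) = π + K * (2 * π) := by
    push_cast
    ring
  unfold v1c_g
  rw [h, Real.sin_add_nat_mul_two_pi, Real.sin_pi]
  ring

private theorem v1c_g3 (y : ℝ) (K : ℕ) :
    v1c_g y (4 * K + 3) = -(2 * ((4 * K + 3 : ℝ) * rexp (-π * (4 * K + 3 : ℝ) ^ 2 * y))) := by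
  have h : 2 * π * (1 / 4) * ((4 * K + 3 : ℕ) : ℝ) = (π / 2 + π) + K * (2 * π) := by
    push_cast
    ring
  unfold v1c_g
  rw [h, Real.sin_add_nat_mul_two_pi, Real.sin_add_pi, Real.sin_pi_div_two]
  push_cast
  ring

/-- the partial sums up to `4 K` increase -/
private theorem v1c_low_step {y : ℝ} (hy : 1 / 8 ≤ y) (K : ℕ) :
    ∑ n ∈ Finset.range (4 * K), v1c_g y n ≤ ∑ n ∈ Finset.range (4 * (K + 1)), v1c_g y n := by
  have e : 4 * (K + 1) = 4 * K + 3 + 1 := by ring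
  rw [e, Finset.sum_range_succ, Finset.sum_range_succ, Finset.sum_range_succ,
    Finset.sum_range_succ, v1c_g0, v1c_g1, v1c_g2, v1c_g3]
  have h := v1c_step (m := 4 * K + 1) hy (by
    have : (0 : ℝ) ≤ K := Nat.cast_nonneg K
    linarith)
  have e2 : (4 * (K : ℝ) + 1 + 2) = 4 * K + 3 := by ring
  rw [e2] at h
  linarith

/-- the partial sums up to `4 K + 2` decrease -/
private theorem v1c_up_step {y : ℝ} (hy : 1 / 8 ≤ y) (K : ℕ) :
    ∑ n ∈ Finset.range (4 * (K + 1) + 2), v1c_g y n ≤ ∑ n ∈ Finset.range (4 * K + 2), v1c_g y n := by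
  have e : 4 * (K + 1) + 2 = 4 * K + 2 + 1 + 1 + 1 + 1 := by ring
  rw [e, Finset.sum_range_succ, Finset.sum_range_succ, Finset.sum_range_succ,
    Finset.sum_range_succ]
  have a2 : v1c_g y (4 * K + 2) = 0 := v1c_g2 y K
  have a3 : v1c_g y (4 * K + 2 + 1) = _ := v1c_g3 y K
  have a4 : v1c_g y (4 * K + 2 + 1 + 1) = 0 := v1c_g0 y (K + 1)
  have a5 : v1c_g y (4 * K + 2 + 1 + 1 + 1) = _ := v1c_g1 y (K + 1)
  rw [a2, a3, a4, a5]
  have h := v1c_step (m := 4 * K + 3) hy (by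
    have : (0 : ℝ) ≤ K := Nat.cast_nonneg K
    linarith)
  have e2 : (4 * (K : ℝ) + 3 + 2) = 4 * ((K + 1 : ℕ) : ℝ) + 1 := by
    push_cast
    ring
  rw [e2] at h
  linarith

/-- `sinKernel (1/4) y = ∑_{n ≥ 0} 2 n sin (π n / 2) exp (-π n² y)` (`hasSum_nat_sinKernel (1/4)`) `= 2 ∑_{k ≥ 0} (-1)^k (2k+1) exp (-π (2k+1)² y)`.
Group the terms four by four (`HasSum` along `n = 4 k + i`, e.g. `HasSum.sigma` / `Nat.divModEquiv`, or compare partial sums `∑ n ∈ range (4 K)`,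
`HasSum.tendsto_sum_nat` + `ge_of_tendsto`): `sin (π n / 2) = 0, 1, 0, -1`.  Lower bound: the block `k = 0` is `2 (e^{-π y} - 3 e^{-9 π y})`, the other blocks are `≥ 0`
(`(4k+3) / (4k+1) ≤ 3 ≤ exp (π y (16 k + 8))`, `8 π y ≥ π`).  Upper bound: shift the blocks by two: `(4k+5) e^{-π (4k+5)² y} ≤ (4k+3) e^{-π (4k+3)² y}`. -/
theorem sinKernel_quarter_bounds {y : ℝ} (hy : 1 / 8 ≤ y) :
    2 * (rexp (-π * y) - 3 * rexp (-9 * π * y)) ≤ sinKernel ((1 / 4 : ℝ) : UnitAddCircle) y ∧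
      sinKernel ((1 / 4 : ℝ) : UnitAddCircle) y ≤ 2 * rexp (-π * y) := by
  have hy0 : 0 < y := by linarith
  have hS : Filter.Tendsto (fun N : ℕ => ∑ n ∈ Finset.range N, v1c_g y n) Filter.atTop
      (nhds (sinKernel ((1 / 4 : ℝ) : UnitAddCircle) y)) :=
    (hasSum_nat_sinKernel (1 / 4) hy0).tendsto_sum_nat
  constructor
  · have hmono : Monotone fun K : ℕ => ∑ n ∈ Finset.range (4 * K), v1c_g y n :=
      monotone_nat_of_le_succ (v1c_low_step hy)
    have h1 : ∑ n ∈ Finset.range (4 * 1), v1c_g y n =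
        2 * (rexp (-π * y) - 3 * rexp (-9 * π * y)) := by
      have a0 : v1c_g y 0 = 0 := v1c_g0 y 0
      have a1 : v1c_g y 1 = _ := v1c_g1 y 0
      have a2 : v1c_g y 2 = 0 := v1c_g2 y 0
      have a3 : v1c_g y 3 = _ := v1c_g3 y 0
      have e1 : -π * (4 * ((0 : ℕ) : ℝ) + 1) ^ 2 * y = -π * y := by
        push_cast
        ring
      have e3 : -π * (4 * ((0 : ℕ) : ℝ) + 3) ^ 2 * y = -9 * π * y := by
        push_cast
        ring
      rw [e1] at a1
      rw [e3] at a3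
      have e : 4 * 1 = 0 + 1 + 1 + 1 + 1 := by norm_num
      rw [e, Finset.sum_range_succ, Finset.sum_range_succ, Finset.sum_range_succ,
        Finset.sum_range_succ, Finset.sum_range_zero]
      have b1 : v1c_g y (0 + 1) = _ := a1
      have b2 : v1c_g y (0 + 1 + 1) = 0 := a2
      have b3 : v1c_g y (0 + 1 + 1 + 1) = _ := a3
      rw [a0, b1, b2, b3]
      push_cast
      ring
    have hT : Filter.Tendsto (fun K : ℕ => ∑ n ∈ Finset.range (4 * (K + 1)), v1c_g y n)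
        Filter.atTop (nhds (sinKernel ((1 / 4 : ℝ) : UnitAddCircle) y)) :=
      hS.comp (Filter.tendsto_atTop_mono (fun K => by omega : ∀ K : ℕ, K ≤ 4 * (K + 1))
        Filter.tendsto_id)
    refine ge_of_tendsto' hT fun K => ?_
    rw [← h1]
    exact hmono (by omega)
  · have hanti : Antitone fun K : ℕ => ∑ n ∈ Finset.range (4 * K + 2), v1c_g y n :=
      antitone_nat_of_succ_le (v1c_up_step hy)
    have h0 : ∑ n ∈ Finset.range (4 * 0 + 2), v1c_g y n = 2 * rexp (-π * y) := by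
      have a0 : v1c_g y 0 = 0 := v1c_g0 y 0
      have a1 : v1c_g y 1 = _ := v1c_g1 y 0
      have e1 : -π * (4 * ((0 : ℕ) : ℝ) + 1) ^ 2 * y = -π * y := by
        push_cast
        ring
      rw [e1] at a1
      have e : 4 * 0 + 2 = 0 + 1 + 1 := by norm_num
      rw [e, Finset.sum_range_succ, Finset.sum_range_succ, Finset.sum_range_zero]
      have b1 : v1c_g y (0 + 1) = _ := a1
      rw [a0, b1]
      push_cast
      ring
    have hT : Filter.Tendsto (fun K : ℕ => ∑ n ∈ Finset.range (4 * K + 2), v1c_g y n)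
        Filter.atTop (nhds (sinKernel ((1 / 4 : ℝ) : UnitAddCircle) y)) :=
      hS.comp (Filter.tendsto_atTop_mono (fun K => by omega : ∀ K : ℕ, K ≤ 4 * K + 2)
        Filter.tendsto_id)
    refine le_of_tendsto' hT fun K => ?_
    rw [← h0]
    exact hanti (Nat.zero_le K)

end Claimed.Open.R002
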