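import Mathlib

/-! # Hecke road II (value at `s = 1`), post V1d: two-sided bound of `cosKernel (1/4)` -/

set_option autoImplicit false

namespace Claimed.Open.R002

open Real HurwitzZeta

/-- the four values of `cos (π (n + 1) / 2)` -/
private theorem v1d_cos (k : ℕ) :
    Real.cos (2 * π * (1 / 4) * (((4 * k : ℕ) : ℝ) + 1)) = 0 ∧
    Real.cos (2 * π * (1 / 4) * (((4 * k + 1 : ℕ) : ℝ) + 1)) = -1 ∧
    Real.cos (2 * π * (1 / 4) * (((4 * k + 2 : ℕ) : ℝ) + 1)) = 0 ∧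
    Real.cos (2 * π * (1 / 4) * (((4 * k + 3 : ℕ) : ℝ) + 1)) = 1 := by
  refine ⟨?_, ?_, ?_, ?_⟩
  · rw [show 2 * π * (1 / 4) * (((4 * k : ℕ) : ℝ) + 1) = π / 2 + k * (2 * π) by push_cast; ring,
      Real.cos_add_nat_mul_two_pi, Real.cos_pi_div_two]
  · rw [show 2 * π * (1 / 4) * (((4 * k + 1 : ℕ) : ℝ) + 1) = π + k * (2 * π) by push_cast; ring,
      Real.cos_add_nat_mul_two_pi, Real.cos_pi]
  · rw [show 2 * π * (1 / 4) * (((4 * k + 2 : ℕ) : ℝ) + 1) = (π / 2 + π) + k * (2 * π) by push_cast; ring,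
      Real.cos_add_nat_mul_two_pi, Real.cos_add_pi, Real.cos_pi_div_two, neg_zero]
  · rw [show 2 * π * (1 / 4) * (((4 * k + 3 : ℕ) : ℝ) + 1) = ((k + 1 : ℕ) : ℝ) * (2 * π) by push_cast; ring,
      Real.cos_nat_mul_two_pi]

/-- `cosKernel (1/4) y - 1 = ∑_{n ≥ 0} 2 cos (π (n + 1) / 2) exp (-π (n + 1)² y)` (`hasSum_nat_cosKernel₀ (1/4)`) `= 2 ∑_{m ≥ 1} (-1)^m exp (-4 π m² y)`:
an alternating series with decreasing terms, so it lies in `[-2 exp (-4 π y), 0]`.  (Blocks of four, as in V1c: `cos (π (n+1) / 2) = 0, -1, 0, 1`.) -/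
theorem cosKernel_quarter_bounds {y : ℝ} (hy : 0 < y) :
    1 - 2 * rexp (-4 * π * y) ≤ cosKernel ((1 / 4 : ℝ) : UnitAddCircle) y ∧
      cosKernel ((1 / 4 : ℝ) : UnitAddCircle) y ≤ 1 := by
  have hS := hasSum_nat_cosKernel₀ (1 / 4) hy
  set f : ℕ → ℝ := fun n : ℕ ↦ 2 * Real.cos (2 * π * (1 / 4) * (n + 1)) * rexp (-π * (n + 1) ^ 2 * y) with hf
  have f0 : ∀ k : ℕ, f (4 * k) = 0 := by
    intro k; simp only [hf]; rw [(v1d_cos k).1]; ring
  have f1 : ∀ k : ℕ, f (4 * k + 1) = -2 * rexp (-π * (4 * k + 2) ^ 2 * y) := by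
    intro k; simp only [hf]; rw [(v1d_cos k).2.1]
    rw [show ((4 * k + 1 : ℕ) : ℝ) + 1 = 4 * k + 2 by push_cast; ring]; ring
  have f2 : ∀ k : ℕ, f (4 * k + 2) = 0 := by
    intro k; simp only [hf]; rw [(v1d_cos k).2.2.1]; ring
  have f3 : ∀ k : ℕ, f (4 * k + 3) = 2 * rexp (-π * (4 * k + 4) ^ 2 * y) := by
    intro k; simp only [hf]; rw [(v1d_cos k).2.2.2]
    rw [show ((4 * k + 3 : ℕ) : ℝ) + 1 = 4 * k + 4 by push_cast; ring]; ring
  have hmono : ∀ a b : ℝ, 0 ≤ a → a ≤ b → rexp (-π * b ^ 2 * y) ≤ rexp (-π * a ^ 2 * y) := by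
    intro a b ha hab
    apply Real.exp_le_exp.2
    have h1 : a ^ 2 ≤ b ^ 2 := pow_le_pow_left₀ ha hab 2
    have h2 : 0 < π * y := mul_pos Real.pi_pos hy
    nlinarith
  have hA : ∀ k : ℕ, ∑ n ∈ Finset.range (4 * k), f n ≤ 0 := by
    intro k
    induction k with
    | zero => simp
    | succ k ih =>
      rw [show 4 * (k + 1) = 4 * k + 3 + 1 by ring, Finset.sum_range_succ, Finset.sum_range_succ,
        Finset.sum_range_succ, Finset.sum_range_succ, f0, f1, f2, f3]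
      have := hmono (4 * k + 2) (4 * k + 4) (by positivity) (by linarith)
      linarith
  have hB : ∀ k : ℕ, -2 * rexp (-4 * π * y) ≤ ∑ n ∈ Finset.range (4 * k + 2), f n := by
    intro k
    induction k with
    | zero =>
      have h0 := f0 0
      have h1 := f1 0
      simp only [Nat.cast_zero, mul_zero, zero_add] at h0 h1
      rw [show 4 * 0 + 2 = 0 + 1 + 1 by norm_num, Finset.sum_range_succ, Finset.sum_range_succ, Finset.sum_range_zero,
        h0, h1]
      rw [show -π * (2 : ℝ) ^ 2 * y = -4 * π * y by ring]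
      linarith
    | succ k ih =>
      rw [show 4 * (k + 1) + 2 = 4 * k + 2 + 1 + 1 + 1 + 1 by ring, Finset.sum_range_succ, Finset.sum_range_succ,
        Finset.sum_range_succ, Finset.sum_range_succ, f2, show 4 * k + 2 + 1 = 4 * k + 3 by ring, f3,
        show 4 * k + 3 + 1 = 4 * (k + 1) by ring, f0, show 4 * k + 5 = 4 * (k + 1) + 1 by ring, f1]
      have := hmono (4 * k + 4) (4 * ((k + 1 : ℕ) : ℝ) + 2) (by positivity) (by push_cast; linarith)
      linarith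
  have h4 : Filter.Tendsto (fun k : ℕ => 4 * k) Filter.atTop Filter.atTop :=
    Filter.tendsto_atTop_mono (fun k => by simp only [id]; omega) Filter.tendsto_id
  have h42 : Filter.Tendsto (fun k : ℕ => 4 * k + 2) Filter.atTop Filter.atTop :=
    Filter.tendsto_atTop_mono (fun k => by simp only [id]; omega) Filter.tendsto_id
  have hle : cosKernel ((1 / 4 : ℝ) : UnitAddCircle) y - 1 ≤ 0 :=
    le_of_tendsto' (hS.tendsto_sum_nat.comp h4) hA
  have hge : -2 * rexp (-4 * π * y) ≤ cosKernel ((1 / 4 : ℝ) : UnitAddCircle) y - 1 :=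
    ge_of_tendsto' (hS.tendsto_sum_nat.comp h42) hB
  constructor <;> linarith

end Claimed.Open.R002
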