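import Claimed.Open.R002.SanityHeckeD5
import Claimed.Open.R002.SanityHeckeV1a
import Claimed.Open.R002.SanityHeckeV1b
import Claimed.Open.R002.SanityHeckeV1c
import Claimed.Open.R002.SanityHeckeV1d

/-! # Hecke road II (value at `s = 1`), post V2: two-sided bounds of the theta series and of its dual -/

set_option autoImplicit false

namespace Claimed.Open.R002

open Real HurwitzZeta

/-- `exp (-4 π t) ≤ exp (-3 / 2) ≤ 1 / 4` for `t ≥ 1/8`. -/
theorem v2_exp_le_quarter {t : ℝ} (ht : 1 / 8 ≤ t) : rexp (-(4 * π * t)) ≤ 1 / 4 := by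
  have h1 : (3 / 2 : ℝ) ≤ 4 * π * t := by nlinarith [Real.pi_gt_three]
  have h2 : (4 : ℝ) ≤ rexp (4 * π * t) := by
    have h3 : rexp (3 / 2) ≤ rexp (4 * π * t) := Real.exp_le_exp.2 h1
    have h4 : (4 : ℝ) ≤ rexp (3 / 2) := by
      have h6 := Real.quadratic_le_exp_of_nonneg (x := 1 / 2) (by norm_num)
      have h5 : rexp (3 / 2) = rexp (1 / 2) * rexp 1 := by rw [← Real.exp_add]; norm_num
      have h7 := Real.exp_one_gt_d9
      rw [h5]
      nlinarith
    linarith
  rw [Real.exp_neg, inv_eq_one_div]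
  exact one_div_le_one_div_of_le (by norm_num) h2

/-- V1a, V1b at `x = 8 t ≥ 1`: `E = exp (-π t / 2)`, `E² = exp (-π t)`, `E · E⁹ = exp (-5 π t)`; the lower bound of `oddKernel` is `≥ 0` (`3 ≤ exp (4 π t)`). -/
theorem thetaE_bounds {t : ℝ} (ht : 1 / 8 ≤ t) :
    rexp (-π * t) - 3 * rexp (-5 * π * t) ≤ thetaE t ∧
      thetaE t ≤ rexp (-π * t) + 2 * rexp (-5 * π * t) := by
  have hx : (1 : ℝ) ≤ 8 * t := by linarith
  obtain ⟨e1, e2⟩ := evenKernel_quarter_bounds hx
  obtain ⟨o1, o2⟩ := oddKernel_quarter_bounds hx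
  set ev := evenKernel ((1 / 4 : ℝ) : UnitAddCircle) (8 * t) with hev
  set od := oddKernel ((1 / 4 : ℝ) : UnitAddCircle) (8 * t) with hod
  set E := rexp (-π * (8 * t) / 16) with hE
  have hEpos : 0 < E := exp_pos _
  have hEE : E * E = rexp (-π * t) := by
    rw [hE, ← Real.exp_add]; congr 1; ring
  have hE9 : E * rexp (-9 * π * (8 * t) / 16) = rexp (-5 * π * t) := by
    rw [hE, ← Real.exp_add]; congr 1; ring
  have hEr : E * E * rexp (-π * (8 * t) / 2) = rexp (-5 * π * t) := by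
    rw [hE, ← Real.exp_add, ← Real.exp_add]; congr 1; ring
  -- the lower bound of the odd kernel is nonnegative
  have h3 : 3 * rexp (-9 * π * (8 * t) / 16) ≤ E := by
    have h4 : rexp (-9 * π * (8 * t) / 16) = E * rexp (-(4 * π * t)) := by
      rw [hE, ← Real.exp_add]; congr 1; ring
    have h5 : rexp (-(4 * π * t)) ≤ 1 / 4 := v2_exp_le_quarter ht
    rw [h4]
    nlinarith
  have hth : thetaE t = 4 * od * ev := rfl
  rw [hth]
  constructor
  · have : (E - 3 * rexp (-9 * π * (8 * t) / 16)) / 4 * E ≤ od * ev :=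
      mul_le_mul o1 e1 hEpos.le (le_trans (by linarith) o1)
    nlinarith
  · have hod0 : 0 ≤ od := le_trans (by linarith) o1
    have : od * ev ≤ E / 4 * (E * (1 + 2 * rexp (-π * (8 * t) / 2))) :=
      mul_le_mul o2 e2 (le_trans hEpos.le e1) (by positivity)
    nlinarith

/-- V1c, V1d at `y = x / 8 ≥ 1/8`: both lower bounds are `≥ 0`; drop the term `+ 6 exp (-13 π y)`. -/
theorem thetaEDual_bounds {x : ℝ} (hx : 1 ≤ x) :
    (rexp (-π * x / 8) - 2 * rexp (-5 * π * x / 8) - 3 * rexp (-9 * π * x / 8)) / 8 ≤ thetaEDual x ∧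
      thetaEDual x ≤ rexp (-π * x / 8) / 8 := by
  have hy : (1 / 8 : ℝ) ≤ x / 8 := by linarith
  obtain ⟨s1, s2⟩ := sinKernel_quarter_bounds hy
  obtain ⟨c1, c2⟩ := cosKernel_quarter_bounds (y := x / 8) (by linarith)
  set sn := sinKernel ((1 / 4 : ℝ) : UnitAddCircle) (x / 8) with hsn
  set cs := cosKernel ((1 / 4 : ℝ) : UnitAddCircle) (x / 8) with hcs
  have hth : thetaEDual x = 1 / 16 * sn * cs := rfl
  set A := rexp (-π * (x / 8)) with hA
  set B := rexp (-9 * π * (x / 8)) with hB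
  set C := rexp (-4 * π * (x / 8)) with hC
  have hApos : 0 < A := exp_pos _
  have hBpos : 0 < B := exp_pos _
  have hCpos : 0 < C := exp_pos _
  have hC3 : C ≤ 1 / 4 := by
    have := v2_exp_le_quarter hy
    rw [hC]
    convert this using 2
    ring
  have hBA : B = A * (C * C) := by
    rw [hA, hB, hC, ← Real.exp_add, ← Real.exp_add]; congr 1; ring
  have e1 : rexp (-π * x / 8) = A := by rw [hA]; congr 1; ring
  have e2 : rexp (-5 * π * x / 8) = A * C := by
    rw [hA, hC, ← Real.exp_add]; congr 1; ring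
  have e3 : rexp (-9 * π * x / 8) = B := by rw [hB]; congr 1; ring
  rw [hth, e1, e2, e3]
  have hs0 : 0 ≤ 2 * (A - 3 * B) := by
    rw [hBA]
    nlinarith [mul_pos hApos hCpos]
  have hc0 : 0 ≤ 1 - 2 * C := by linarith
  constructor
  · have : 2 * (A - 3 * B) * (1 - 2 * C) ≤ sn * cs :=
      mul_le_mul s1 c1 hc0 (le_trans hs0 s1)
    nlinarith [mul_pos hBpos hCpos]
  · have : sn * cs ≤ 2 * A * 1 :=
      mul_le_mul s2 c2 (le_trans hc0 c1) (by positivity)
    nlinarith

/-- for `x ≥ 1` (in fact for all `x > 0`) -/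
theorem thetaEDual_pos {x : ℝ} (hx : 8 ≤ x) : 0 < thetaEDual x := by
  obtain ⟨h1, -⟩ := thetaEDual_bounds (x := x) (by linarith)
  refine lt_of_lt_of_le ?_ h1
  have hy : (1 / 8 : ℝ) ≤ x / 8 := by linarith
  have hC3 := v2_exp_le_quarter hy
  set A := rexp (-π * x / 8) with hA
  set C := rexp (-(4 * π * (x / 8))) with hC
  have hApos : 0 < A := exp_pos _
  have hCpos : 0 < C := exp_pos _
  have e2 : rexp (-5 * π * x / 8) = A * C := by
    rw [hA, hC, ← Real.exp_add]; congr 1; ring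
  have e3 : rexp (-9 * π * x / 8) = A * (C * C) := by
    rw [hA, hC, ← Real.exp_add, ← Real.exp_add]; congr 1; ring
  rw [e2, e3]
  have : 0 < A * (1 - 2 * C - 3 * (C * C)) := by
    apply mul_pos hApos
    nlinarith
  linarith

end Claimed.Open.R002
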