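import Claimed.Open.R002.SanityHeckeE5

/-! # Hecke road II (value at `s = 1`), post V3a: `L(E₀, 1) = π ∫₀^∞ θ(t) dt` -/

set_option autoImplicit false

namespace Claimed.Open.R002

open Real MeasureTheory Set

theorem integrableOn_thetaE : IntegrableOn thetaE (Ioi 0) := e4_integrableOn

/-- the same for the dual theta series (`thetaEFEPair.symm`) -/
theorem integrableOn_thetaEDual {a : ℝ} (ha : 0 < a) : IntegrableOn thetaEDual (Ioi a) := by
  have hs : IsStrongFEPair thetaEFEPair.symm := ⟨rfl, rfl⟩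
  have h : MellinConvergent (fun t : ℝ => (thetaEDual t : ℂ)) 1 := (hs.hasMellin 1).1
  unfold MellinConvergent at h
  have h1 : IntegrableOn (fun t : ℝ => (thetaEDual t : ℂ)) (Ioi 0) := by simpa using h
  have h2 : IntegrableOn thetaEDual (Ioi 0) := by
    have h3 := h1.re
    simp only [Complex.ofReal_re, RCLike.re_to_complex] at h3
    exact h3
  exact h2.mono_set (Ioi_subset_Ioi ha.le)

/-- unfold `heckeL`, `mellin`; `π ^ (1 : ℂ) = π`, `Γ 1 = 1`, `t ^ (1 - 1 : ℂ) = 1`, `integral_ofReal`. -/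
theorem heckeL_one_eq_integral : heckeL 1 = ((π * ∫ t in Ioi (0 : ℝ), thetaE t : ℝ) : ℂ) := by
  have h := integral_ofReal (𝕜 := ℂ) (μ := volume.restrict (Ioi (0 : ℝ))) (f := thetaE)
  rw [heckeL, mellin]
  simp only [sub_self, Complex.cpow_zero, one_smul]
  have h' : ∫ t in Ioi (0 : ℝ), ((thetaE t : ℝ) : ℂ) = ((∫ t in Ioi (0 : ℝ), thetaE t : ℝ) : ℂ) := h
  rw [h']
  simp

end Claimed.Open.R002
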