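import Claimed.Open.R002.SanityHeckeV3a

/-! # Hecke road II (value at `s = 1`), post V3b: the integral of the theta series, cut by the functional equation -/

set_option autoImplicit false

namespace Claimed.Open.R002

open Real MeasureTheory Set

/-- the piece near `0`, turned over by `x ↦ x⁻¹` and the functional equation -/
private theorem v3b_small {c : ℝ} (hc : 0 < c) :
    ∫ t in Ioc (0 : ℝ) c, thetaE t = ∫ x in Ioi (1 / c), thetaEDual x := by
  have hsub : Ioc (0 : ℝ) c ⊆ Ioi 0 := fun x hx => hx.1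
  have h1 : ∫ t in Ioc (0 : ℝ) c, thetaE t
      = ∫ y in Ioi (0 : ℝ), (Ioc (0 : ℝ) c).indicator thetaE y := by
    rw [setIntegral_indicator measurableSet_Ioc, inter_eq_self_of_subset_right hsub]
  have h2 := integral_comp_rpow_Ioi ((Ioc (0 : ℝ) c).indicator thetaE)
    (p := -1) (by norm_num)
  have hsub' : Ici (1 / c) ⊆ Ioi (0 : ℝ) := fun x hx =>
    lt_of_lt_of_le (by positivity) (mem_Ici.1 hx)
  have h3 : ∫ x in Ioi (0 : ℝ), (|(-1 : ℝ)| * x ^ ((-1 : ℝ) - 1)) •
        (Ioc (0 : ℝ) c).indicator thetaE (x ^ (-1 : ℝ))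
      = ∫ x in Ioi (0 : ℝ), (Ici (1 / c)).indicator thetaEDual x := by
    refine setIntegral_congr_fun measurableSet_Ioi ?_
    intro x hx
    have hx0 : (0 : ℝ) < x := hx
    have hinv : x ^ (-1 : ℝ) = 1 / x := by
      rw [Real.rpow_neg_one, one_div]
    have hiff : (1 / x ∈ Ioc (0 : ℝ) c) ↔ x ∈ Ici (1 / c) := by
      constructor
      · intro h
        have h2 : 1 / x ≤ c := h.2
        rw [mem_Ici, div_le_iff₀ hc]
        rw [div_le_iff₀ hx0] at h2
        linarith
      · intro h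
        have h2 : 1 / c ≤ x := h
        refine ⟨by positivity, ?_⟩
        rw [div_le_iff₀ hx0]
        rw [div_le_iff₀ hc] at h2
        linarith
    show (|(-1 : ℝ)| * x ^ ((-1 : ℝ) - 1)) •
        (Ioc (0 : ℝ) c).indicator thetaE (x ^ (-1 : ℝ)) = _
    rw [hinv]
    by_cases hm : x ∈ Ici (1 / c)
    · rw [indicator_of_mem hm, indicator_of_mem (hiff.2 hm), thetaE_one_div hx0, smul_eq_mul]
      have e1 : x ^ ((-1 : ℝ) - 1) * x ^ (2 : ℝ) = 1 := by
        rw [← Real.rpow_add hx0]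
        norm_num
      have e2 : |(-1 : ℝ)| = 1 := by norm_num
      rw [e2, one_mul, ← mul_assoc, e1, one_mul]
    · rw [indicator_of_notMem hm, indicator_of_notMem (fun h => hm (hiff.1 h)), smul_zero]
  rw [h1, ← h2, h3, setIntegral_indicator measurableSet_Ici,
    inter_eq_self_of_subset_right hsub', integral_Ici_eq_integral_Ioi]

/-- `∫_0^c θ(t) dt = ∫_{1/c}^∞ θ(1/x) x⁻² dx = ∫_{1/c}^∞ θ*(x) dx` (`thetaE_one_div`).  Change of variables: `MeasureTheory.integral_comp_rpow_Ioi` with `p = -1`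
applied to `g = indicator (Ioc 0 c) thetaE` (`g (x⁻¹) = indicator (Ici (1/c)) …`), or `integral_comp_inv_Ioi`-type lemmas;
`Ioi 0 = Ioc 0 c ∪ Ioi c` (`setIntegral_union`, `integrableOn_thetaE`). -/
theorem integral_thetaE_split {c : ℝ} (hc : 0 < c) :
    ∫ t in Ioi (0 : ℝ), thetaE t =
      (∫ t in Ioi c, thetaE t) + ∫ x in Ioi (1 / c), thetaEDual x := by
  have hU : Ioi (0 : ℝ) = Ioc 0 c ∪ Ioi c := (Ioc_union_Ioi_eq_Ioi hc.le).symm
  have hd : Disjoint (Ioc (0 : ℝ) c) (Ioi c) := by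
    rw [Set.disjoint_left]
    intro x hx hx'
    exact absurd hx.2 (not_le.2 hx')
  have hi1 : IntegrableOn thetaE (Ioc 0 c) :=
    integrableOn_thetaE.mono_set (fun x hx => hx.1)
  have hi2 : IntegrableOn thetaE (Ioi c) :=
    integrableOn_thetaE.mono_set (fun x hx => lt_trans hc hx)
  rw [hU, setIntegral_union hd measurableSet_Ioi hi1 hi2, v3b_small hc, add_comm]

end Claimed.Open.R002
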