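import Claimed.Open.R002.SanityHeckeV3a
import Claimed.Open.R002.SanityHeckeV2

/-! # Hecke road II (value at `s = 1`), post V3c: the two tails -/

set_option autoImplicit false

namespace Claimed.Open.R002

open Real MeasureTheory Set

/-- `∫_c^∞ exp (-a t) dt = exp (-a c) / a` (`integral_exp_mul_Ioi` / `integral_exp_neg_mul_Ioi`-type lemmas, `integrableOn_exp_mul_Ioi`), `setIntegral_mono_on` with
`thetaE_bounds` (`3/8 ≥ 1/8`) and `integrableOn_thetaE.mono_set`. -/
theorem integral_thetaE_tail_bounds :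
    (rexp (-(3 * π / 8)) - 3 / 5 * rexp (-(15 * π / 8))) / π ≤ ∫ t in Ioi (3 / 8 : ℝ), thetaE t ∧
      ∫ t in Ioi (3 / 8 : ℝ), thetaE t ≤ (rexp (-(3 * π / 8)) + 2 / 5 * rexp (-(15 * π / 8))) / π := by
  have hπ := Real.pi_pos
  have ha : -π < 0 := by linarith
  have hb : -5 * π < 0 := by linarith
  have i1 := integrableOn_exp_mul_Ioi ha (3 / 8)
  have i2 := integrableOn_exp_mul_Ioi hb (3 / 8)
  have v1 := integral_exp_mul_Ioi ha (3 / 8)
  have v2 := integral_exp_mul_Ioi hb (3 / 8)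
  have e1 : rexp (-π * (3 / 8)) = rexp (-(3 * π / 8)) := by congr 1; ring
  have e2 : rexp (-5 * π * (3 / 8)) = rexp (-(15 * π / 8)) := by congr 1; ring
  rw [e1] at v1
  rw [e2] at v2
  have hth : IntegrableOn thetaE (Ioi (3 / 8)) :=
    integrableOn_thetaE.mono_set (Ioi_subset_Ioi (by norm_num))
  have hmem : ∀ t ∈ Ioi (3 / 8 : ℝ), (1 / 8 : ℝ) ≤ t := fun t ht => by
    have : (3 / 8 : ℝ) < t := ht
    linarith
  constructor
  · have hlo : ∫ t in Ioi (3 / 8 : ℝ), (rexp (-π * t) - 3 * rexp (-5 * π * t)) =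
        (rexp (-(3 * π / 8)) - 3 / 5 * rexp (-(15 * π / 8))) / π := by
      rw [integral_sub i1 (i2.const_mul 3), integral_const_mul, v1, v2]
      field_simp
    rw [← hlo]
    exact setIntegral_mono_on (i1.sub (i2.const_mul 3)) hth measurableSet_Ioi
      fun t ht => (thetaE_bounds (hmem t ht)).1
  · have hhi : ∫ t in Ioi (3 / 8 : ℝ), (rexp (-π * t) + 2 * rexp (-5 * π * t)) =
        (rexp (-(3 * π / 8)) + 2 / 5 * rexp (-(15 * π / 8))) / π := by
      rw [integral_add i1 (i2.const_mul 2), integral_const_mul, v1, v2]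
      field_simp
    rw [← hhi]
    exact setIntegral_mono_on hth (i1.add (i2.const_mul 2)) measurableSet_Ioi
      fun t ht => (thetaE_bounds (hmem t ht)).2

/-- the same with `thetaEDual_bounds` (`8/3 ≥ 1`): `∫_{8/3}^∞ exp (-π x / 8) / 8 dx = exp (-π / 3) / π`, `∫ 2 exp (-5 π x / 8) / 8 = 2 exp (-5 π / 3) / (5 π)`,
`∫ 3 exp (-9 π x / 8) / 8 = exp (-3 π) / (3 π)`. -/
theorem integral_thetaEDual_tail_bounds :
    (rexp (-(π / 3)) - 2 / 5 * rexp (-(5 * π / 3)) - 1 / 3 * rexp (-(3 * π))) / π ≤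
        ∫ x in Ioi (8 / 3 : ℝ), thetaEDual x ∧
      ∫ x in Ioi (8 / 3 : ℝ), thetaEDual x ≤ rexp (-(π / 3)) / π := by
  have hπ := Real.pi_pos
  have ha : -π / 8 < 0 := by linarith
  have hb : -5 * π / 8 < 0 := by linarith
  have hc : -9 * π / 8 < 0 := by linarith
  have i1 := integrableOn_exp_mul_Ioi ha (8 / 3)
  have i2 := integrableOn_exp_mul_Ioi hb (8 / 3)
  have i3 := integrableOn_exp_mul_Ioi hc (8 / 3)
  have v1 := integral_exp_mul_Ioi ha (8 / 3)
  have v2 := integral_exp_mul_Ioi hb (8 / 3)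
  have v3 := integral_exp_mul_Ioi hc (8 / 3)
  have e1 : rexp (-π / 8 * (8 / 3)) = rexp (-(π / 3)) := by congr 1; ring
  have e2 : rexp (-5 * π / 8 * (8 / 3)) = rexp (-(5 * π / 3)) := by congr 1; ring
  have e3 : rexp (-9 * π / 8 * (8 / 3)) = rexp (-(3 * π)) := by congr 1; ring
  rw [e1] at v1
  rw [e2] at v2
  rw [e3] at v3
  have hth : IntegrableOn thetaEDual (Ioi (8 / 3)) := integrableOn_thetaEDual (by norm_num)
  have hmem : ∀ x ∈ Ioi (8 / 3 : ℝ), (1 : ℝ) ≤ x := fun x hx => by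
    have : (8 / 3 : ℝ) < x := hx
    linarith
  have r1 : ∀ x : ℝ, rexp (-π * x / 8) = rexp (-π / 8 * x) := fun x => by congr 1; ring
  have r2 : ∀ x : ℝ, rexp (-5 * π * x / 8) = rexp (-5 * π / 8 * x) := fun x => by congr 1; ring
  have r3 : ∀ x : ℝ, rexp (-9 * π * x / 8) = rexp (-9 * π / 8 * x) := fun x => by congr 1; ring
  constructor
  · have hlo : ∫ x in Ioi (8 / 3 : ℝ), (1 / 8 * rexp (-π / 8 * x) - 2 / 8 * rexp (-5 * π / 8 * x) -
          3 / 8 * rexp (-9 * π / 8 * x)) =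
        (rexp (-(π / 3)) - 2 / 5 * rexp (-(5 * π / 3)) - 1 / 3 * rexp (-(3 * π))) / π := by
      have j12 : IntegrableOn (fun x : ℝ => 1 / 8 * rexp (-π / 8 * x) -
          2 / 8 * rexp (-5 * π / 8 * x)) (Ioi (8 / 3)) := (i1.const_mul _).sub (i2.const_mul _)
      rw [integral_sub j12 (i3.const_mul _),
        integral_sub (i1.const_mul _) (i2.const_mul _), integral_const_mul, integral_const_mul,
        integral_const_mul, v1, v2, v3]
      field_simp
      ring
    rw [← hlo]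
    refine setIntegral_mono_on (((i1.const_mul _).sub (i2.const_mul _)).sub (i3.const_mul _)) hth
      measurableSet_Ioi fun x hx => ?_
    have := (thetaEDual_bounds (hmem x hx)).1
    rw [r1, r2, r3] at this
    linarith
  · have hhi : ∫ x in Ioi (8 / 3 : ℝ), (1 / 8 * rexp (-π / 8 * x)) = rexp (-(π / 3)) / π := by
      rw [integral_const_mul, v1]
      field_simp
    rw [← hhi]
    refine setIntegral_mono_on hth (i1.const_mul _) measurableSet_Ioi fun x hx => ?_
    have := (thetaEDual_bounds (hmem x hx)).2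
    rw [r1] at this
    linarith

end Claimed.Open.R002
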