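import Mathlib

/-! # Hecke road II (value at `s = 1`), post V3d: seven numerical inequalities -/

set_option autoImplicit false

namespace Claimed.Open.R002

open Real

private theorem v3d_lt {x c : ℝ} (h : 1 < c * rexp x) : rexp (-x) < c := by
  have hx := Real.exp_pos x
  rw [Real.exp_neg, inv_eq_one_div, div_lt_iff₀ hx]
  exact h

private theorem v3d_gt {x c : ℝ} (h : c * rexp x < 1) : c < rexp (-x) := by
  have hx := Real.exp_pos x
  rw [Real.exp_neg, inv_eq_one_div, lt_div_iff₀ hx]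
  exact h

/-- `exp 1 · (1 + y) ≤ exp x` for `1 + y ≤ x`. -/
private theorem v3d_lower {x y : ℝ} (h : 1 + y ≤ x) : rexp 1 * (y + 1) ≤ rexp x := by
  calc rexp 1 * (y + 1) ≤ rexp 1 * rexp y :=
        mul_le_mul_of_nonneg_left (Real.add_one_le_exp y) (Real.exp_pos 1).le
    _ = rexp (1 + y) := (Real.exp_add 1 y).symm
    _ ≤ rexp x := Real.exp_le_exp.2 h

/-- `exp x · (1 - y) ≤ exp 1` for `x ≤ 1 + y`, `y ≤ 1`. -/
private theorem v3d_upper {x y : ℝ} (h : x ≤ 1 + y) (hy : y ≤ 1) : rexp x * (1 - y) ≤ rexp 1 := by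
  have h1 : rexp x ≤ rexp 1 * rexp y := by
    rw [← Real.exp_add]
    exact Real.exp_le_exp.2 h
  have h2 : 1 - y ≤ rexp (-y) := by
    have := Real.add_one_le_exp (-y)
    linarith
  have h3 : rexp y * rexp (-y) = 1 := by rw [← Real.exp_add]; simp
  calc rexp x * (1 - y) ≤ (rexp 1 * rexp y) * (1 - y) :=
        mul_le_mul_of_nonneg_right h1 (by linarith)
    _ ≤ (rexp 1 * rexp y) * rexp (-y) :=
        mul_le_mul_of_nonneg_left h2 (mul_pos (Real.exp_pos 1) (Real.exp_pos y)).le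
    _ = rexp 1 := by rw [mul_assoc, h3, mul_one]

/-- `2.7 ^ k ≤ exp x` for `k ≤ x`. -/
private theorem v3d_pow {x : ℝ} (k : ℕ) (h : (k : ℝ) ≤ x) : (2.7 : ℝ) ^ k ≤ rexp x := by
  have he : (2.7 : ℝ) ≤ rexp 1 := by
    have := Real.exp_one_gt_d9
    linarith
  calc (2.7 : ℝ) ^ k ≤ rexp 1 ^ k := pow_le_pow_left₀ (by norm_num) he k
    _ = rexp (k : ℝ) := by rw [← Real.exp_nat_mul, mul_one]
    _ ≤ rexp x := Real.exp_le_exp.2 h

/-- `3.1415 < π < 3.1416` (`Real.pi_gt_d4`, `Real.pi_lt_d4`), `2.7182818283 < exp 1 < 2.7182818286` (`Real.exp_one_gt_d9`, `Real.exp_one_lt_d9`),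
`1 + x ≤ exp x` (`Real.add_one_le_exp`), so `exp x ≤ 1 / (1 - x)` for `x < 1`.
`exp (3π/8) ≥ exp 1 · exp 0.178 ≥ 2.718 · 1.178 > 3.2`;  `exp (3π/8) ≤ exp 1 / (1 - 0.1782) < 3.3077 < 1 / 0.30`;
`exp (π/3) ≥ 2.71828 · 1.047 > 2.846 > 1 / 0.352`;  `exp (π/3) ≤ 2.7182819 / (1 - 0.0472) < 2.853 < 1 / 0.35`;
`exp (15π/8) ≥ exp 5 ≥ 2.7⁵ > 100`, `exp (5π/3) ≥ exp 5 > 100`, `exp (3π) ≥ exp 9 ≥ 2.7⁹ > 1000`. -/
theorem exp_pi_numerics :
    rexp (-(3 * π / 8)) < 0.3125 ∧ 0.30 < rexp (-(3 * π / 8)) ∧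
      rexp (-(π / 3)) < 0.352 ∧ 0.35 < rexp (-(π / 3)) ∧
      rexp (-(15 * π / 8)) < 0.01 ∧ rexp (-(5 * π / 3)) < 0.01 ∧ rexp (-(3 * π)) < 0.001 := by
  have hp1 := Real.pi_gt_d4
  have hp2 := Real.pi_lt_d4
  have he1 := Real.exp_one_gt_d9
  have he2 := Real.exp_one_lt_d9
  refine ⟨v3d_lt ?_, v3d_gt ?_, v3d_lt ?_, v3d_gt ?_, v3d_lt ?_, v3d_lt ?_, v3d_lt ?_⟩
  · have := v3d_lower (x := 3 * π / 8) (y := 0.178) (by linarith)
    nlinarith
  · have := v3d_upper (x := 3 * π / 8) (y := 0.1782) (by linarith) (by norm_num)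
    nlinarith
  · have := v3d_lower (x := π / 3) (y := 0.047) (by linarith)
    nlinarith
  · have := v3d_upper (x := π / 3) (y := 0.0472) (by linarith) (by norm_num)
    nlinarith
  · have := v3d_pow (x := 15 * π / 8) 5 (by push_cast; linarith)
    norm_num at this ⊢
    linarith
  · have := v3d_pow (x := 5 * π / 3) 5 (by push_cast; linarith)
    norm_num at this ⊢
    linarith
  · have := v3d_pow (x := 3 * π) 9 (by push_cast; linarith)
    norm_num at this ⊢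
    linarith

end Claimed.Open.R002
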