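import Claimed.Open.R002.SanityHeckeV3b
import Claimed.Open.R002.SanityHeckeV3c
import Claimed.Open.R002.SanityHeckeV3d

/-! # Hecke road II (value at `s = 1`), post V4: `L(E₀, 1) ∈ (0.63, 0.67)`; the analytic rank of `E₀` is `0` -/

set_option autoImplicit false

namespace Claimed.Open.R002

open Real MeasureTheory Set

/-- the value `L(E₀, 1) = π ∫₀^∞ θ(t) dt`, as a real number -/
noncomputable def heckeValue : ℝ := π * ∫ t in Ioi (0 : ℝ), thetaE t

theorem heckeL_one_eq : heckeL 1 = (heckeValue : ℂ) := heckeL_one_eq_integral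

/-- `setIntegral_pos_iff_support_of_nonneg_ae` with `thetaE_pos`, `integrableOn_thetaE`  (independent of the numerics). -/
theorem heckeValue_pos : 0 < heckeValue := by
  unfold heckeValue
  refine mul_pos Real.pi_pos ?_
  rw [setIntegral_pos_iff_support_of_nonneg_ae]
  · have hsub : Ioi (0 : ℝ) ⊆ Function.support thetaE ∩ Ioi 0 := fun t ht =>
      ⟨(thetaE_pos ht).ne', ht⟩
    refine lt_of_lt_of_le ?_ (measure_mono hsub)
    simp
  · rw [Filter.EventuallyLE, ae_restrict_iff' measurableSet_Ioi]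
    exact Filter.Eventually.of_forall fun t ht => (thetaE_pos ht).le
  · exact integrableOn_thetaE

/-- `integral_thetaE_split` at `c = 3/8` (`1 / (3/8) = 8/3`), the two tails (V3c), the numerics (V3d):
`0.30 - 0.6 · 0.01 + 0.35 - 0.4 · 0.01 - 0.001 / 3 > 0.63`, `0.3125 + 0.4 · 0.01 + 0.352 < 0.67`.  (Truth: `0.6555143…`.) -/
theorem heckeValue_window : 0.63 < heckeValue ∧ heckeValue < 0.67 := by
  obtain ⟨a1, a2⟩ := integral_thetaE_tail_bounds
  obtain ⟨b1, b2⟩ := integral_thetaEDual_tail_bounds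
  obtain ⟨n1, n2, n3, n4, n5, n6, n7⟩ := exp_pi_numerics
  have hs := integral_thetaE_split (c := 3 / 8) (by norm_num)
  rw [show (1 : ℝ) / (3 / 8) = 8 / 3 by norm_num] at hs
  have hπ := Real.pi_pos
  rw [div_le_iff₀ hπ] at a1 b1
  rw [le_div_iff₀ hπ] at a2 b2
  unfold heckeValue
  rw [hs]
  constructor <;> nlinarith

/-- the identity theorem, as in `IsLFunction.unique` of `Sanity.lean` (which this file cannot import) -/
theorem IsLFunction.eq_heckeL {L : ℂ → ℂ} (h : IsLFunction E₀ L) : L = heckeL := by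
  have h₂ := isLFunction_E₀_heckeL
  have a₁ : AnalyticOnNhd ℂ L Set.univ := fun z _ => h.1.analyticAt z
  have a₂ : AnalyticOnNhd ℂ heckeL Set.univ := fun z _ => h₂.1.analyticAt z
  refine a₁.eq_of_eventuallyEq a₂ (z₀ := 2) ?_
  have hopen : IsOpen {s : ℂ | 3 / 2 < s.re} := isOpen_lt continuous_const Complex.continuous_re
  have hmem : (2 : ℂ) ∈ {s : ℂ | 3 / 2 < s.re} := by
    simp only [Set.mem_ofPred_eq, Complex.re_ofNat]; norm_num
  filter_upwards [hopen.mem_nhds hmem] with s hs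
  rw [(h.2 s hs).2, (h₂.2 s hs).2]

/-- **The analytic rank of `y² = x³ - x` is `0`**, for the `L`-function in the sense of `Statement.lean`:  `L(E₀, 1) > 0`. -/
theorem IsLFunction.analyticOrderAt_E₀ {L : ℂ → ℂ} (h : IsLFunction E₀ L) :
    L 1 = (heckeValue : ℂ) ∧ L 1 ≠ 0 ∧ analyticOrderAt L 1 = 0 := by
  have h1 : L 1 = (heckeValue : ℂ) := by rw [h.eq_heckeL, heckeL_one_eq]
  have h2 : L 1 ≠ 0 := by
    rw [h1]
    exact_mod_cast heckeValue_pos.ne'
  exact ⟨h1, h2, (h.1.analyticAt 1).analyticOrderAt_eq_zero.mpr h2⟩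

end Claimed.Open.R002
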