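import Mathlib

/-! # Hecke road II, posts W1 .. W4: four pieces of the real period of `y² = x³ - x` (pure real analysis) -/

set_option autoImplicit false

namespace Claimed.Open.R002

open Real MeasureTheory Set

/-- the integrand `1 / √(4 x³ - 4 x)` of the real period of `y² = x³ - x` -/
noncomputable def perE (x : ℝ) : ℝ := (Real.sqrt (4 * x ^ 3 - 4 * x))⁻¹

/-- `(x - 1)^(-1/2)` is integrable on `(1, 2]` -/
theorem w1_intervalIntegrable :
    IntervalIntegrable (fun x : ℝ => (x - 1) ^ (-(1 / 2) : ℝ)) volume 1 2 := by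
  have h := (intervalIntegral.intervalIntegrable_rpow' (a := (1 : ℝ) - 1) (b := (2 : ℝ) - 1)
    (r := (-(1 / 2) : ℝ)) (by norm_num)).comp_sub_right 1
  simpa using h

/-- `∫_1^2 (x - 1)^(-1/2) dx = 2` -/
theorem w1_integral : ∫ x in Ioc (1 : ℝ) 2, (x - 1) ^ (-(1 / 2) : ℝ) = 2 := by
  rw [← intervalIntegral.integral_of_le (by norm_num : (1 : ℝ) ≤ 2),
    intervalIntegral.integral_comp_sub_right (fun x : ℝ => x ^ (-(1 / 2) : ℝ)) 1,
    integral_rpow (Or.inl (by norm_num))]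
  norm_num

theorem w1_rpow {u : ℝ} (hu : 0 < u) : u ^ (-(1 / 2) : ℝ) = (Real.sqrt u)⁻¹ := by
  rw [Real.rpow_neg hu.le, Real.sqrt_eq_rpow]

/-- **W1.**  On `(1, 2]`: `8 (x - 1) ≤ 4 x³ - 4 x = 4 x (x + 1) (x - 1) ≤ 24 (x - 1)`, `∫_1^2 (x - 1)^(-1/2) dx = 2` (`integral_rpow`, `r = -1/2 > -1`, after a translation);
`2 / √24 = 0.408…`, `2 / √8 = 0.7071…`.  `hint` is the integrability of the integrand (it comes from the folder). -/
theorem perE_piece_one (hint : IntegrableOn perE (Ioc 1 2)) :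
    0.40 ≤ ∫ x in Ioc (1 : ℝ) 2, perE x ∧ ∫ x in Ioc (1 : ℝ) 2, perE x ≤ 0.71 := by
  have hg : IntegrableOn (fun x : ℝ => (x - 1) ^ (-(1 / 2) : ℝ)) (Ioc 1 2) :=
    (intervalIntegrable_iff_integrableOn_Ioc_of_le (by norm_num)).1 w1_intervalIntegrable
  constructor
  · have h1 : ∫ x in Ioc (1 : ℝ) 2, (1 / 5 : ℝ) * (x - 1) ^ (-(1 / 2) : ℝ) ≤ ∫ x in Ioc (1 : ℝ) 2, perE x := by
      refine setIntegral_mono_on (hg.const_mul _) hint measurableSet_Ioc fun x hx => ?_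
      have hu : 0 < x - 1 := by linarith [hx.1]
      have hw : 0 < 4 * x ^ 3 - 4 * x := by
        have : 4 * x ^ 3 - 4 * x = 4 * x * (x + 1) * (x - 1) := by ring
        rw [this]
        have hx0 : 0 < x := by linarith [hx.1]
        positivity
      have hle : 4 * x ^ 3 - 4 * x ≤ 5 ^ 2 * (x - 1) := by
        have h2 : x ≤ 2 := hx.2
        have h1 : 1 < x := hx.1
        have : 4 * x ^ 3 - 4 * x = 4 * x * (x + 1) * (x - 1) := by ring
        rw [this]
        have h3 : 4 * x * (x + 1) ≤ 24 := by nlinarith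
        nlinarith
      have hs : Real.sqrt (4 * x ^ 3 - 4 * x) ≤ 5 * Real.sqrt (x - 1) := by
        calc Real.sqrt (4 * x ^ 3 - 4 * x) ≤ Real.sqrt (5 ^ 2 * (x - 1)) := Real.sqrt_le_sqrt hle
          _ = 5 * Real.sqrt (x - 1) := by
            rw [Real.sqrt_mul (by norm_num), Real.sqrt_sq (by norm_num)]
      show (1 / 5 : ℝ) * (x - 1) ^ (-(1 / 2) : ℝ) ≤ (Real.sqrt (4 * x ^ 3 - 4 * x))⁻¹
      rw [w1_rpow hu]
      have hsu : 0 < Real.sqrt (x - 1) := Real.sqrt_pos.2 hu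
      have hsw : 0 < Real.sqrt (4 * x ^ 3 - 4 * x) := Real.sqrt_pos.2 hw
      have e : (1 / 5 : ℝ) * (Real.sqrt (x - 1))⁻¹ = (5 * Real.sqrt (x - 1))⁻¹ := by
        rw [mul_inv]; norm_num
      rw [e]
      exact (inv_le_inv₀ (by positivity) hsw).2 hs
    rw [integral_const_mul, w1_integral] at h1
    norm_num at h1 ⊢
    linarith
  · have h1 : ∫ x in Ioc (1 : ℝ) 2, perE x ≤ ∫ x in Ioc (1 : ℝ) 2, (71 / 200 : ℝ) * (x - 1) ^ (-(1 / 2) : ℝ) := by
      refine setIntegral_mono_on hint (hg.const_mul _) measurableSet_Ioc fun x hx => ?_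
      have hu : 0 < x - 1 := by linarith [hx.1]
      have hle : (200 / 71 : ℝ) ^ 2 * (x - 1) ≤ 4 * x ^ 3 - 4 * x := by
        have h1 : 1 < x := hx.1
        have : 4 * x ^ 3 - 4 * x = 4 * x * (x + 1) * (x - 1) := by ring
        rw [this]
        have h3 : (8 : ℝ) ≤ 4 * x * (x + 1) := by nlinarith
        have h4 : (200 / 71 : ℝ) ^ 2 ≤ 8 := by norm_num
        nlinarith
      have hs : 200 / 71 * Real.sqrt (x - 1) ≤ Real.sqrt (4 * x ^ 3 - 4 * x) := by
        calc 200 / 71 * Real.sqrt (x - 1) = Real.sqrt ((200 / 71 : ℝ) ^ 2 * (x - 1)) := by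
              rw [Real.sqrt_mul (by norm_num), Real.sqrt_sq (by norm_num)]
          _ ≤ Real.sqrt (4 * x ^ 3 - 4 * x) := Real.sqrt_le_sqrt hle
      show (Real.sqrt (4 * x ^ 3 - 4 * x))⁻¹ ≤ (71 / 200 : ℝ) * (x - 1) ^ (-(1 / 2) : ℝ)
      rw [w1_rpow hu]
      have hsu : 0 < Real.sqrt (x - 1) := Real.sqrt_pos.2 hu
      have e : (71 / 200 : ℝ) * (Real.sqrt (x - 1))⁻¹ = (200 / 71 * Real.sqrt (x - 1))⁻¹ := by
        rw [mul_inv]; norm_num
      rw [e]
      exact (inv_le_inv₀ (lt_of_lt_of_le (by positivity) hs) (by positivity)).2 hs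
    rw [integral_const_mul, w1_integral] at h1
    norm_num at h1 ⊢
    linarith

end Claimed.Open.R002
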