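import Claimed.Open.R002.SanityHeckeE5
import Claimed.Open.R002.SanityE0BSD

/-!
# Sanity for R002: the exact value `L(E₀, 1) = Ω / 8` (definitions)

`thA`, `thB`, `thC` are Jacobi's `θ₃`, `θ₄`, `θ₂` at the nome `exp (-π t)`, `thP t` is
`∑_{a ≡ 1 (4)} a exp (-π a² t)` (one half of `θ₁'`), all written with Mathlib's Hurwitz kernels.
-/

set_option autoImplicit false

namespace Claimed.Open.R002

/-- `θ₃`: `∑_{n ∈ ℤ} exp (-π n² t)`. -/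
noncomputable def thA (t : ℝ) : ℝ := HurwitzZeta.evenKernel 0 t

/-- `θ₄`: `∑_{n ∈ ℤ} (-1)ⁿ exp (-π n² t)`. -/
noncomputable def thB (t : ℝ) : ℝ := HurwitzZeta.cosKernel ((1 / 2 : ℝ) : UnitAddCircle) t

/-- `θ₂`: `∑_{n ∈ ℤ} exp (-π (n + 1/2)² t)`. -/
noncomputable def thC (t : ℝ) : ℝ := HurwitzZeta.evenKernel ((1 / 2 : ℝ) : UnitAddCircle) t

/-- `∑_{n ∈ ℤ} (4 n + 1) exp (-π (4 n + 1)² t)`. -/
noncomputable def thP (t : ℝ) : ℝ :=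
  4 * HurwitzZeta.oddKernel ((1 / 4 : ℝ) : UnitAddCircle) (16 * t)

/-- `∑_{n ∈ ℤ} n² exp (-π n² t)`, so that `thA' = -π thA1`. -/
noncomputable def thA1 (t : ℝ) : ℝ := ∑' n : ℤ, (n : ℝ) ^ 2 * Real.exp (-Real.pi * (n : ℝ) ^ 2 * t)

/-- `∑_{n ∈ ℤ} (-1)ⁿ n² exp (-π n² t)`, so that `thB' = -π thB1`. -/
noncomputable def thB1 (t : ℝ) : ℝ :=
  ∑' n : ℤ, (-1 : ℝ) ^ n * (n : ℝ) ^ 2 * Real.exp (-Real.pi * (n : ℝ) ^ 2 * t)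

/-- `μ(t) = θ₃ / θ₄` at the nome `exp (-2 π t)`. -/
noncomputable def muE (t : ℝ) : ℝ := thA (2 * t) / thB (2 * t)

end Claimed.Open.R002
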