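import Claimed.Open.R002.SanityHeckeX0

/-! # Exact value, post X1: the four theta series as sums; functional equations; positivity -/

set_option autoImplicit false

namespace Claimed.Open.R002

open Real

/-- `HurwitzZeta.hasSum_int_evenKernel 0`. -/
theorem hasSum_thA {t : ℝ} (ht : 0 < t) :
    HasSum (fun n : ℤ => rexp (-π * (n : ℝ) ^ 2 * t)) (thA t) := by
  have h := HurwitzZeta.hasSum_int_evenKernel 0 ht
  simp only [add_zero] at h
  rw [thA, ← QuotientAddGroup.mk_zero]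
  exact h

theorem x1_cexp (n : ℤ) :
    Complex.exp (2 * (π : ℂ) * Complex.I * ((1 / 2 : ℝ) : ℂ) * (n : ℂ)) = (-1 : ℂ) ^ n := by
  rw [show 2 * (π : ℂ) * Complex.I * ((1 / 2 : ℝ) : ℂ) * (n : ℂ) = (n : ℂ) * ((π : ℂ) * Complex.I) by
    push_cast; ring, Complex.exp_int_mul, Complex.exp_pi_mul_I]

/-- `HurwitzZeta.hasSum_int_cosKernel (1/2)` (complex): `cexp (2 π I (1/2) n) = (-1) ^ n`. -/
theorem hasSum_thB {t : ℝ} (ht : 0 < t) :
    HasSum (fun n : ℤ => (-1 : ℝ) ^ n * rexp (-π * (n : ℝ) ^ 2 * t)) (thB t) := by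
  have h := HurwitzZeta.hasSum_int_cosKernel (1 / 2) ht
  rw [← Complex.hasSum_ofReal, thB]
  have e : (fun n : ℤ => (((-1 : ℝ) ^ n * rexp (-π * (n : ℝ) ^ 2 * t) : ℝ) : ℂ)) =
      fun n : ℤ => Complex.exp (2 * (π : ℂ) * Complex.I * ((1 / 2 : ℝ) : ℂ) * (n : ℂ)) *
        ((rexp (-π * (n : ℝ) ^ 2 * t) : ℝ) : ℂ) := by
    funext n
    rw [x1_cexp]
    push_cast
    rfl
  rw [e]
  exact h

/-- `HurwitzZeta.hasSum_int_evenKernel (1/2)`. -/
theorem hasSum_thC {t : ℝ} (ht : 0 < t) :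
    HasSum (fun n : ℤ => rexp (-π * ((n : ℝ) + 1 / 2) ^ 2 * t)) (thC t) :=
  HurwitzZeta.hasSum_int_evenKernel (1 / 2) ht

/-- `HurwitzZeta.hasSum_int_oddKernel (1/4)` at `16 t`. -/
theorem hasSum_thP {t : ℝ} (ht : 0 < t) :
    HasSum (fun n : ℤ => (4 * (n : ℝ) + 1) * rexp (-π * (4 * (n : ℝ) + 1) ^ 2 * t)) (thP t) := by
  have h := (HurwitzZeta.hasSum_int_oddKernel (1 / 4) (x := 16 * t) (by positivity)).mul_left 4
  have e : (fun n : ℤ => (4 * (n : ℝ) + 1) * rexp (-π * (4 * (n : ℝ) + 1) ^ 2 * t)) =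
      fun n : ℤ => 4 * (((n : ℝ) + 1 / 4) * rexp (-π * ((n : ℝ) + 1 / 4) ^ 2 * (16 * t))) := by
    funext n
    rw [show -π * (4 * (n : ℝ) + 1) ^ 2 * t = -π * ((n : ℝ) + 1 / 4) ^ 2 * (16 * t) by ring]
    ring
  rw [e, thP]
  exact h

/-- `HurwitzZeta.evenKernel_functional_equation (1/2)`. -/
theorem thC_eq_thB {t : ℝ} (ht : 0 < t) : thC t = 1 / t ^ (1 / 2 : ℝ) * thB (1 / t) := by
  have _ := ht
  exact HurwitzZeta.evenKernel_functional_equation _ t

/-- `HurwitzZeta.evenKernel_functional_equation 0`, `HurwitzZeta.evenKernel_eq_cosKernel_of_zero`. -/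
theorem thA_eq_thA {t : ℝ} (ht : 0 < t) : thA t = 1 / t ^ (1 / 2 : ℝ) * thA (1 / t) := by
  have _ := ht
  have h := HurwitzZeta.evenKernel_functional_equation 0 t
  rw [← HurwitzZeta.evenKernel_eq_cosKernel_of_zero] at h
  exact h

theorem one_le_thA {t : ℝ} (ht : 0 < t) : 1 ≤ thA t := by
  have h := le_hasSum (hasSum_thA ht) 0 fun j _ => (Real.exp_pos _).le
  simpa using h

theorem thC_pos {t : ℝ} (ht : 0 < t) : 0 < thC t := by
  rw [← (hasSum_thC ht).tsum_eq]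
  exact (hasSum_thC ht).summable.tsum_pos (fun _ => (Real.exp_pos _).le) 0 (Real.exp_pos _)

/-- By `thC_eq_thB` at `1 / t`. -/
theorem thB_pos {t : ℝ} (ht : 0 < t) : 0 < thB t := by
  have ht' : 0 < 1 / t := by positivity
  have h := thC_eq_thB ht'
  have hC := thC_pos ht'
  rw [h, one_div_one_div] at hC
  exact (mul_pos_iff_of_pos_left (one_div_pos.mpr (rpow_pos_of_pos ht' _))).mp hC

theorem thP_pos {t : ℝ} (ht : 0 < t) : 0 < thP t := by
  rw [thP]
  exact mul_pos (by norm_num) (oddKernel_quarter_pos (by positivity))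

end Claimed.Open.R002
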