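import Claimed.Open.R002.SanityHeckeX1

/-! # Exact value, post X6: `θ₄ (q)² = θ₃ (q²)² - θ₂ (q²)²` -/

set_option autoImplicit false

namespace Claimed.Open.R002

open Real

/-- the rotation onto the pairs `(a, b)` with `a ≡ b (2)` -/
def x6_rot0 (p : ℤ × ℤ) : ℤ × ℤ := (p.1 + p.2, p.1 - p.2)

/-- the rotation onto the pairs `(a, b)` with `a ≢ b (2)` -/
def x6_rot1 (p : ℤ × ℤ) : ℤ × ℤ := (p.1 + p.2 + 1, p.1 - p.2)

theorem x6_rot0_inj : Function.Injective x6_rot0 := by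
  rintro ⟨a, b⟩ ⟨c, d⟩ h
  simp only [x6_rot0, Prod.mk.injEq] at h
  obtain ⟨h1, h2⟩ := h
  ext <;> simp only <;> omega

theorem x6_rot1_inj : Function.Injective x6_rot1 := by
  rintro ⟨a, b⟩ ⟨c, d⟩ h
  simp only [x6_rot1, Prod.mk.injEq] at h
  obtain ⟨h1, h2⟩ := h
  ext <;> simp only <;> omega

theorem x6_isCompl : IsCompl (Set.range x6_rot0) (Set.range x6_rot1) := by
  constructor
  · rw [Set.disjoint_left]
    rintro _ ⟨⟨a, b⟩, rfl⟩ ⟨⟨c, d⟩, h⟩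
    simp only [x6_rot0, x6_rot1, Prod.mk.injEq] at h
    omega
  · rw [codisjoint_iff]
    change Set.range x6_rot0 ∪ Set.range x6_rot1 = Set.univ
    rw [Set.eq_univ_iff_forall]
    rintro ⟨a, b⟩
    rcases Int.even_or_odd' (a - b) with ⟨k, hk | hk⟩
    · left
      exact ⟨(a - k, k), by simp only [x6_rot0, Prod.mk.injEq]; omega⟩
    · right
      exact ⟨(a - k - 1, k), by simp only [x6_rot1, Prod.mk.injEq]; omega⟩

/-- product of two real series as a series over the pairs -/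
theorem x6_hasSum_mul {f g : ℤ → ℝ} {a b : ℝ} (hf : HasSum f a) (hg : HasSum g b) :
    HasSum (fun p : ℤ × ℤ => f p.1 * g p.2) (a * b) :=
  hf.mul hg (summable_mul_of_summable_norm hf.summable.norm hg.summable.norm)

/-- As X5, with the sign `(-1)^(a + b)`: `+1` on the pairs with `a ≡ b (2)`, `-1` on the others. -/
theorem thB_sq {t : ℝ} (ht : 0 < t) : thB t ^ 2 = thA (2 * t) ^ 2 - thC (2 * t) ^ 2 := by
  have h2t : 0 < 2 * t := by positivity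
  have HB := x6_hasSum_mul (hasSum_thB ht) (hasSum_thB ht)
  have HA := x6_hasSum_mul (hasSum_thA h2t) (hasSum_thA h2t)
  have HC := (x6_hasSum_mul (hasSum_thC h2t) (hasSum_thC h2t)).neg
  set F : ℤ × ℤ → ℝ := fun p => (-1 : ℝ) ^ p.1 * rexp (-π * (p.1 : ℝ) ^ 2 * t) *
    ((-1 : ℝ) ^ p.2 * rexp (-π * (p.2 : ℝ) ^ 2 * t)) with hF
  have e0 : F ∘ x6_rot0 = fun p : ℤ × ℤ =>
      rexp (-π * (p.1 : ℝ) ^ 2 * (2 * t)) * rexp (-π * (p.2 : ℝ) ^ 2 * (2 * t)) := by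
    funext p
    obtain ⟨m, n⟩ := p
    simp only [hF, Function.comp_apply, x6_rot0]
    have s : (-1 : ℝ) ^ (m + n) * (-1 : ℝ) ^ (m - n) = 1 := by
      rw [← zpow_add₀ (by norm_num : (-1 : ℝ) ≠ 0)]
      exact Even.neg_one_zpow ⟨m, by ring⟩
    have e : rexp (-π * ((m + n : ℤ) : ℝ) ^ 2 * t) * rexp (-π * ((m - n : ℤ) : ℝ) ^ 2 * t)
        = rexp (-π * (m : ℝ) ^ 2 * (2 * t)) * rexp (-π * (n : ℝ) ^ 2 * (2 * t)) := by
      rw [← Real.exp_add, ← Real.exp_add]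
      congr 1
      push_cast
      ring
    calc _ = ((-1 : ℝ) ^ (m + n) * (-1 : ℝ) ^ (m - n)) *
          (rexp (-π * ((m + n : ℤ) : ℝ) ^ 2 * t) * rexp (-π * ((m - n : ℤ) : ℝ) ^ 2 * t)) := by ring
      _ = _ := by rw [s, e, one_mul]
  have e1 : F ∘ x6_rot1 = fun p : ℤ × ℤ =>
      -(rexp (-π * ((p.1 : ℝ) + 1 / 2) ^ 2 * (2 * t)) * rexp (-π * ((p.2 : ℝ) + 1 / 2) ^ 2 * (2 * t))) := by
    funext p
    obtain ⟨m, n⟩ := p
    simp only [hF, Function.comp_apply, x6_rot1]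
    have s : (-1 : ℝ) ^ (m + n + 1) * (-1 : ℝ) ^ (m - n) = -1 := by
      rw [← zpow_add₀ (by norm_num : (-1 : ℝ) ≠ 0)]
      exact Odd.neg_one_zpow ⟨m, by ring⟩
    have e : rexp (-π * ((m + n + 1 : ℤ) : ℝ) ^ 2 * t) * rexp (-π * ((m - n : ℤ) : ℝ) ^ 2 * t)
        = rexp (-π * ((m : ℝ) + 1 / 2) ^ 2 * (2 * t)) * rexp (-π * ((n : ℝ) + 1 / 2) ^ 2 * (2 * t)) := by
      rw [← Real.exp_add, ← Real.exp_add]
      congr 1
      push_cast
      ring
    calc _ = ((-1 : ℝ) ^ (m + n + 1) * (-1 : ℝ) ^ (m - n)) *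
          (rexp (-π * ((m + n + 1 : ℤ) : ℝ) ^ 2 * t) * rexp (-π * ((m - n : ℤ) : ℝ) ^ 2 * t)) := by ring
      _ = _ := by rw [s, e, neg_one_mul]
  have H0 : HasSum (fun x : Set.range x6_rot0 => F x) (thA (2 * t) * thA (2 * t)) := by
    rw [x6_rot0_inj.hasSum_range_iff, e0]
    exact HA
  have H1 : HasSum (fun x : Set.range x6_rot1 => F x) (-(thC (2 * t) * thC (2 * t))) := by
    rw [x6_rot1_inj.hasSum_range_iff, e1]
    exact HC
  have H : HasSum F (thA (2 * t) * thA (2 * t) + -(thC (2 * t) * thC (2 * t))) :=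
    HasSum.add_isCompl (f := F) x6_isCompl H0 H1
  have := HB.unique H
  rw [sq, sq, sq, this]
  ring

end Claimed.Open.R002
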