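import Claimed.Open.R002.SanityHeckeX1

/-! # Exact value, post X3: `θ₃ θ₄ (q) = θ₄ (q²)²` -/

set_option autoImplicit false

namespace Claimed.Open.R002

open Real

/-- The rotation `(c, d) ↦ (c + d, c - d)` and its shift exhaust `ℤ × ℤ`. -/
theorem x3_hasSum_rot {F : ℤ × ℤ → ℝ} {S₀ S₁ : ℝ}
    (h0 : HasSum (fun p : ℤ × ℤ => F (p.1 + p.2, p.1 - p.2)) S₀)
    (h1 : HasSum (fun p : ℤ × ℤ => F (p.1 + p.2 + 1, p.1 - p.2)) S₁) : HasSum F (S₀ + S₁) := by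
  set i₀ : ℤ × ℤ → ℤ × ℤ := fun p => (p.1 + p.2, p.1 - p.2) with hi₀
  set i₁ : ℤ × ℤ → ℤ × ℤ := fun p => (p.1 + p.2 + 1, p.1 - p.2) with hi₁
  have inj₀ : Function.Injective i₀ := by
    rintro ⟨a, b⟩ ⟨c, d⟩ h
    simp only [hi₀, Prod.mk.injEq] at h
    ext <;> simp <;> omega
  have inj₁ : Function.Injective i₁ := by
    rintro ⟨a, b⟩ ⟨c, d⟩ h
    simp only [hi₁, Prod.mk.injEq] at h
    ext <;> simp <;> omega
  have hc : IsCompl (Set.range i₀) (Set.range i₁) := by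
    constructor
    · rw [Set.disjoint_left]
      rintro _ ⟨⟨a, b⟩, rfl⟩ ⟨⟨c, d⟩, h⟩
      simp only [hi₀, hi₁, Prod.mk.injEq] at h
      omega
    · rw [codisjoint_iff_le_sup]
      rintro ⟨a, b⟩ -
      rcases Int.even_or_odd (a + b) with ⟨k, hk⟩ | ⟨k, hk⟩
      · left
        refine ⟨(k, a - k), ?_⟩
        simp only [hi₀, Prod.mk.injEq]
        omega
      · right
        refine ⟨(k, a - k - 1), ?_⟩
        simp only [hi₁, Prod.mk.injEq]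
        omega
  exact HasSum.add_isCompl hc (inj₀.hasSum_range_iff.2 h0) (inj₁.hasSum_range_iff.2 h1)

/-- Product of two absolutely convergent real series. -/
theorem x3_hasSum_mul {f g : ℤ → ℝ} {a b : ℝ} (hf : HasSum f a) (hg : HasSum g b)
    (hf' : Summable fun n => ‖f n‖) (hg' : Summable fun n => ‖g n‖) :
    HasSum (fun p : ℤ × ℤ => f p.1 * g p.2) (a * b) :=
  hf.mul hg (summable_mul_of_summable_norm hf' hg')

theorem x3_norm_A {t : ℝ} (ht : 0 < t) : Summable fun n : ℤ => ‖rexp (-π * (n : ℝ) ^ 2 * t)‖ := by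
  simpa only [Real.norm_eq_abs, abs_of_pos (Real.exp_pos _)] using (hasSum_thA ht).summable

theorem x3_norm_B {t : ℝ} (ht : 0 < t) :
    Summable fun n : ℤ => ‖(-1 : ℝ) ^ n * rexp (-π * (n : ℝ) ^ 2 * t)‖ := by
  have : ∀ n : ℤ, ‖(-1 : ℝ) ^ n * rexp (-π * (n : ℝ) ^ 2 * t)‖ = rexp (-π * (n : ℝ) ^ 2 * t) := by
    intro n
    rw [norm_mul, norm_zpow, norm_neg, norm_one, one_zpow, one_mul, Real.norm_eq_abs,
      abs_of_pos (Real.exp_pos _)]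
  simpa only [this] using (hasSum_thA ht).summable

theorem x3_norm_C {t : ℝ} (ht : 0 < t) :
    Summable fun n : ℤ => ‖rexp (-π * ((n : ℝ) + 1 / 2) ^ 2 * t)‖ := by
  simpa only [Real.norm_eq_abs, abs_of_pos (Real.exp_pos _)] using (hasSum_thC ht).summable

/-- The alternating half-integer theta series vanishes. -/
theorem x3_hasSum_altC {t : ℝ} (ht : 0 < t) :
    HasSum (fun n : ℤ => (-1 : ℝ) ^ n * rexp (-π * ((n : ℝ) + 1 / 2) ^ 2 * t)) 0 := by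
  have hn : ∀ n : ℤ, ‖(-1 : ℝ) ^ n * rexp (-π * ((n : ℝ) + 1 / 2) ^ 2 * t)‖ =
      rexp (-π * ((n : ℝ) + 1 / 2) ^ 2 * t) := by
    intro n
    rw [norm_mul, norm_zpow, norm_neg, norm_one, one_zpow, one_mul, Real.norm_eq_abs,
      abs_of_pos (Real.exp_pos _)]
  have hs : Summable fun n : ℤ => (-1 : ℝ) ^ n * rexp (-π * ((n : ℝ) + 1 / 2) ^ 2 * t) :=
    Summable.of_norm (by simpa only [hn] using (hasSum_thC ht).summable)
  obtain ⟨s, hs⟩ := hs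
  have h2 := (Equiv.subLeft (-1 : ℤ)).hasSum_iff.2 hs
  have h3 : ((fun n : ℤ => (-1 : ℝ) ^ n * rexp (-π * ((n : ℝ) + 1 / 2) ^ 2 * t)) ∘ (Equiv.subLeft (-1 : ℤ))) =
      fun n : ℤ => -((-1 : ℝ) ^ n * rexp (-π * ((n : ℝ) + 1 / 2) ^ 2 * t)) := by
    funext n
    simp only [Function.comp, Equiv.subLeft_apply]
    have e1 : (-1 : ℝ) ^ (-1 - n) = -((-1 : ℝ) ^ n) := by
      rw [zpow_sub₀ (by norm_num : (-1 : ℝ) ≠ 0), zpow_neg_one]
      have : ((-1 : ℝ) ^ n) * ((-1 : ℝ) ^ n) = 1 := by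
        rw [← mul_zpow]; norm_num
      field_simp
      nlinarith [this]
    have e2 : (((-1 - n : ℤ) : ℝ) + 1 / 2) ^ 2 = ((n : ℝ) + 1 / 2) ^ 2 := by
      push_cast; ring
    rw [e1, e2]; ring
  rw [h3] at h2
  have : s = 0 := by
    have := h2.unique hs.neg
    linarith
  rwa [this] at hs

theorem x3_norm_altC {t : ℝ} (ht : 0 < t) :
    Summable fun n : ℤ => ‖(-1 : ℝ) ^ n * rexp (-π * ((n : ℝ) + 1 / 2) ^ 2 * t)‖ := by
  have hn : ∀ n : ℤ, ‖(-1 : ℝ) ^ n * rexp (-π * ((n : ℝ) + 1 / 2) ^ 2 * t)‖ =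
      rexp (-π * ((n : ℝ) + 1 / 2) ^ 2 * t) := by
    intro n
    rw [norm_mul, norm_zpow, norm_neg, norm_one, one_zpow, one_mul, Real.norm_eq_abs,
      abs_of_pos (Real.exp_pos _)]
  simpa only [hn] using (hasSum_thC ht).summable

theorem x3_sign_sq (n : ℤ) : ((-1 : ℝ) ^ n) * ((-1 : ℝ) ^ n) = 1 := by
  rw [← mul_zpow]; norm_num

theorem x3_sign_add (m n : ℤ) : (-1 : ℝ) ^ (m + n) = (-1 : ℝ) ^ m * (-1 : ℝ) ^ n :=
  zpow_add₀ (by norm_num) m n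

theorem x3_sign_sub (m n : ℤ) : (-1 : ℝ) ^ (m - n) = (-1 : ℝ) ^ m * (-1 : ℝ) ^ n := by
  have h : (-1 : ℝ) ^ (m - n) * ((-1 : ℝ) ^ n * (-1 : ℝ) ^ n) = (-1 : ℝ) ^ m * (-1 : ℝ) ^ n := by
    rw [← mul_assoc, ← x3_sign_add, sub_add_cancel]
  rwa [x3_sign_sq, mul_one] at h

/-- Both sides are sums over `ℤ × ℤ` (products of absolutely convergent series).  The map
`(c, d) ↦ (a, b) = (c + d, c - d)` is a bijection onto the pairs with `a ≡ b (2)`,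
`a² + b² = 2 (c² + d²)`, `(-1)^b = (-1)^(c + d)`; the pairs with `a ≢ b (2)` cancel under
`(a, b) ↦ (b, a)`, which changes the sign `(-1)^b`. -/
theorem thA_mul_thB {t : ℝ} (ht : 0 < t) : thA t * thB t = thB (2 * t) ^ 2 := by
  have h2t : 0 < 2 * t := by positivity
  have hF := x3_hasSum_mul (hasSum_thA ht) (hasSum_thB ht) (x3_norm_A ht) (x3_norm_B ht)
  have h0 := x3_hasSum_mul (hasSum_thB h2t) (hasSum_thB h2t) (x3_norm_B h2t) (x3_norm_B h2t)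
  have h1 := x3_hasSum_mul (x3_hasSum_altC h2t) (x3_hasSum_altC h2t) (x3_norm_altC h2t) (x3_norm_altC h2t)
  have e0 : (fun p : ℤ × ℤ => rexp (-π * ((p.1 + p.2 : ℤ) : ℝ) ^ 2 * t) *
        ((-1 : ℝ) ^ (p.1 - p.2) * rexp (-π * ((p.1 - p.2 : ℤ) : ℝ) ^ 2 * t))) =
      fun p : ℤ × ℤ => ((-1 : ℝ) ^ p.1 * rexp (-π * (p.1 : ℝ) ^ 2 * (2 * t))) *
        ((-1 : ℝ) ^ p.2 * rexp (-π * (p.2 : ℝ) ^ 2 * (2 * t))) := by
    funext p
    rw [x3_sign_sub, mul_mul_mul_comm ((-1 : ℝ) ^ p.1), mul_left_comm, ← Real.exp_add, ← Real.exp_add]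
    congr 2; push_cast; ring
  have e1 : (fun p : ℤ × ℤ => rexp (-π * ((p.1 + p.2 + 1 : ℤ) : ℝ) ^ 2 * t) *
        ((-1 : ℝ) ^ (p.1 - p.2) * rexp (-π * ((p.1 - p.2 : ℤ) : ℝ) ^ 2 * t))) =
      fun p : ℤ × ℤ => ((-1 : ℝ) ^ p.1 * rexp (-π * ((p.1 : ℝ) + 1 / 2) ^ 2 * (2 * t))) *
        ((-1 : ℝ) ^ p.2 * rexp (-π * ((p.2 : ℝ) + 1 / 2) ^ 2 * (2 * t))) := by
    funext p
    rw [x3_sign_sub, mul_mul_mul_comm ((-1 : ℝ) ^ p.1), mul_left_comm, ← Real.exp_add, ← Real.exp_add]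
    congr 2; push_cast; ring
  have key := x3_hasSum_rot
    (F := fun p : ℤ × ℤ => rexp (-π * (p.1 : ℝ) ^ 2 * t) * ((-1 : ℝ) ^ p.2 * rexp (-π * (p.2 : ℝ) ^ 2 * t)))
    (S₀ := thB (2 * t) * thB (2 * t)) (S₁ := 0 * 0)
    (by rw [e0]; exact h0) (by rw [e1]; exact h1)
  have := hF.unique key
  rw [sq, this]; ring

end Claimed.Open.R002
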