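import Claimed.Open.R002.SanityHeckeX1

/-! # Exact value, post X4: `θ₂ (q)² = 2 θ₂ (q²) θ₃ (q²)` -/

set_option autoImplicit false

namespace Claimed.Open.R002

open Real

/-- the rotation onto the pairs `(a, b)` with `a ≡ b (2)` -/
def x4_rot0 (p : ℤ × ℤ) : ℤ × ℤ := (p.1 + p.2, p.1 - p.2)

/-- the rotation onto the pairs `(a, b)` with `a ≢ b (2)` -/
def x4_rot1 (p : ℤ × ℤ) : ℤ × ℤ := (p.1 + p.2, p.1 - p.2 - 1)

theorem x4_rot0_inj : Function.Injective x4_rot0 := by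
  rintro ⟨a, b⟩ ⟨c, d⟩ h
  simp only [x4_rot0, Prod.mk.injEq] at h
  obtain ⟨h1, h2⟩ := h
  ext <;> simp only <;> omega

theorem x4_rot1_inj : Function.Injective x4_rot1 := by
  rintro ⟨a, b⟩ ⟨c, d⟩ h
  simp only [x4_rot1, Prod.mk.injEq] at h
  obtain ⟨h1, h2⟩ := h
  ext <;> simp only <;> omega

theorem x4_isCompl : IsCompl (Set.range x4_rot0) (Set.range x4_rot1) := by
  constructor
  · rw [Set.disjoint_left]
    rintro _ ⟨⟨a, b⟩, rfl⟩ ⟨⟨c, d⟩, h⟩
    simp only [x4_rot0, x4_rot1, Prod.mk.injEq] at h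
    omega
  · rw [codisjoint_iff]
    change Set.range x4_rot0 ∪ Set.range x4_rot1 = Set.univ
    rw [Set.eq_univ_iff_forall]
    rintro ⟨a, b⟩
    rcases Int.even_or_odd' (a - b) with ⟨k, hk | hk⟩
    · left
      exact ⟨(a - k, k), by simp only [x4_rot0, Prod.mk.injEq]; omega⟩
    · right
      exact ⟨(a - k, k), by simp only [x4_rot1, Prod.mk.injEq]; omega⟩

/-- product of two real series as a series over the pairs -/
theorem x4_hasSum_mul {f g : ℤ → ℝ} {a b : ℝ} (hf : HasSum f a) (hg : HasSum g b) :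
    HasSum (fun p : ℤ × ℤ => f p.1 * g p.2) (a * b) :=
  hf.mul hg (summable_mul_of_summable_norm hf.summable.norm hg.summable.norm)

/-- `thC t ^ 2 = ∑_{m, n} exp (-π ((m + 1/2)² + (n + 1/2)²) t)`; put `u = m + n + 1`, `v = m - n`
(`u ≢ v (2)`): `(m + 1/2)² + (n + 1/2)² = (u² + v²) / 2`.  The pairs with `u` odd, `v` even are
`u = 2 k + 1`, `v = 2 l`: `(u² + v²) / 2 = 2 ((k + 1/2)² + l²)`: they give `thC (2 t) thA (2 t)`;
the pairs with `u` even, `v` odd give the same. -/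
theorem thC_sq {t : ℝ} (ht : 0 < t) : thC t ^ 2 = 2 * thC (2 * t) * thA (2 * t) := by
  have h2t : 0 < 2 * t := by positivity
  have HC := x4_hasSum_mul (hasSum_thC ht) (hasSum_thC ht)
  have HCA := x4_hasSum_mul (hasSum_thC h2t) (hasSum_thA h2t)
  have HAC := x4_hasSum_mul (hasSum_thA h2t) (hasSum_thC h2t)
  set F : ℤ × ℤ → ℝ := fun p => rexp (-π * ((p.1 : ℝ) + 1 / 2) ^ 2 * t) *
    rexp (-π * ((p.2 : ℝ) + 1 / 2) ^ 2 * t) with hF
  have e0 : F ∘ x4_rot0 = fun p : ℤ × ℤ =>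
      rexp (-π * ((p.1 : ℝ) + 1 / 2) ^ 2 * (2 * t)) * rexp (-π * (p.2 : ℝ) ^ 2 * (2 * t)) := by
    funext p
    obtain ⟨m, n⟩ := p
    simp only [hF, Function.comp_apply, x4_rot0]
    rw [← Real.exp_add, ← Real.exp_add]
    congr 1
    push_cast
    ring
  have e1 : F ∘ x4_rot1 = fun p : ℤ × ℤ =>
      rexp (-π * (p.1 : ℝ) ^ 2 * (2 * t)) * rexp (-π * ((p.2 : ℝ) + 1 / 2) ^ 2 * (2 * t)) := by
    funext p
    obtain ⟨m, n⟩ := p
    simp only [hF, Function.comp_apply, x4_rot1]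
    rw [← Real.exp_add, ← Real.exp_add]
    congr 1
    push_cast
    ring
  have H0 : HasSum (fun x : Set.range x4_rot0 => F x) (thC (2 * t) * thA (2 * t)) := by
    rw [x4_rot0_inj.hasSum_range_iff, e0]
    exact HCA
  have H1 : HasSum (fun x : Set.range x4_rot1 => F x) (thA (2 * t) * thC (2 * t)) := by
    rw [x4_rot1_inj.hasSum_range_iff, e1]
    exact HAC
  have H : HasSum F (thC (2 * t) * thA (2 * t) + thA (2 * t) * thC (2 * t)) :=
    HasSum.add_isCompl (f := F) x4_isCompl H0 H1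
  have := HC.unique H
  rw [sq, this]
  ring

end Claimed.Open.R002
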