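import Claimed.Open.R002.SanityHeckeX1

/-! # Exact value, post X8: asymptotics at infinity -/

set_option autoImplicit false

namespace Claimed.Open.R002

open Real Filter Topology

/-- a function which differs from `c` by `O (exp (-p x))`, `p > 0`, tends to `c` -/
theorem x8_tendsto_of_isBigO {f : ℝ → ℝ} {c p : ℝ} (hp : 0 < p)
    (h : (fun x => f x - c) =O[atTop] fun x => rexp (-p * x)) : Tendsto f atTop (𝓝 c) := by
  have h0 : Tendsto (fun x : ℝ => rexp (-p * x)) atTop (𝓝 0) := by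
    refine Real.tendsto_exp_atBot.comp ?_
    have : Tendsto (fun x : ℝ => p * x) atTop atTop := tendsto_id.const_mul_atTop hp
    refine (tendsto_neg_atTop_atBot.comp this).congr fun x => ?_
    simp only [Function.comp]
    ring
  have h1 := h.trans_tendsto h0
  have h2 := h1.add_const c
  simpa using h2

/-- `HurwitzZeta.isBigO_atTop_evenKernel_sub 0`. -/
theorem tendsto_thA_atTop : Tendsto thA atTop (𝓝 1) := by
  obtain ⟨p, hp, h⟩ := HurwitzZeta.isBigO_atTop_evenKernel_sub 0
  simp only [if_true] at h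
  exact x8_tendsto_of_isBigO hp h

/-- `HurwitzZeta.isBigO_atTop_cosKernel_sub (1/2)`. -/
theorem tendsto_thB_atTop : Tendsto thB atTop (𝓝 1) := by
  obtain ⟨p, hp, h⟩ := HurwitzZeta.isBigO_atTop_cosKernel_sub ((1 / 2 : ℝ) : UnitAddCircle)
  exact x8_tendsto_of_isBigO hp h

theorem x8_half_ne_zero : ((1 / 2 : ℝ) : UnitAddCircle) ≠ 0 := by
  intro h
  rw [AddCircle.coe_eq_zero_iff] at h
  obtain ⟨n, hn⟩ := h
  have h1 : (2 * n : ℤ) = 1 := by
    have : (2 : ℝ) * n = 1 := by
      simp only [zsmul_eq_mul, mul_one] at hn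
      linarith
    exact_mod_cast this
  omega

/-- `HurwitzZeta.isBigO_atTop_evenKernel_sub (1/2)` (`(1/2 : UnitAddCircle) ≠ 0`). -/
theorem tendsto_thC_atTop : Tendsto thC atTop (𝓝 0) := by
  obtain ⟨p, hp, h⟩ := HurwitzZeta.isBigO_atTop_evenKernel_sub ((1 / 2 : ℝ) : UnitAddCircle)
  rw [if_neg x8_half_ne_zero] at h
  exact x8_tendsto_of_isBigO hp h

/-- `exp (-π a t) → 0` for `a > 0` -/
theorem x8_tendsto_exp {a : ℝ} (ha : 0 < a) :
    Tendsto (fun t : ℝ => rexp (-π * a * t)) atTop (𝓝 0) := by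
  refine Real.tendsto_exp_atBot.comp ?_
  have : Tendsto (fun x : ℝ => π * a * x) atTop atTop :=
    tendsto_id.const_mul_atTop (mul_pos pi_pos ha)
  have h2 := tendsto_neg_atTop_atBot.comp this
  refine h2.congr fun x => ?_
  simp only [Function.comp]
  ring

/-- `exp (-π a t) ≤ exp (-π a)` for `a ≥ 0`, `t ≥ 1` -/
theorem x8_exp_le {a t : ℝ} (ha : 0 ≤ a) (ht : 1 ≤ t) : rexp (-π * a * t) ≤ rexp (-π * a) := by
  apply Real.exp_le_exp.2
  have : 0 ≤ π * a * (t - 1) := mul_nonneg (mul_nonneg pi_pos.le ha) (by linarith)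
  nlinarith

/-- `thP t * exp (π t) → 1` -/
theorem x8_tendsto_thP : Tendsto (fun t => thP t * rexp (π * t)) atTop (𝓝 1) := by
  set f : ℝ → ℤ → ℝ := fun t n => (4 * (n : ℝ) + 1) * rexp (-π * ((4 * (n : ℝ) + 1) ^ 2 - 1) * t)
    with hf
  have hterm : ∀ (t : ℝ) (n : ℤ), f t n
      = (4 * (n : ℝ) + 1) * rexp (-π * (4 * (n : ℝ) + 1) ^ 2 * t) * rexp (π * t) := by
    intro t n
    simp only [hf]
    rw [mul_assoc (4 * (n : ℝ) + 1) (rexp _) (rexp _), ← Real.exp_add]
    congr 2
    ring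
  have hsum : ∀ t : ℝ, 0 < t → ∑' n, f t n = thP t * rexp (π * t) := by
    intro t ht
    have h := (hasSum_thP ht).mul_right (rexp (π * t))
    rw [← h.tsum_eq]
    exact tsum_congr fun n => hterm t n
  have hnn : ∀ n : ℤ, (0 : ℝ) ≤ (4 * (n : ℝ) + 1) ^ 2 - 1 := by
    intro n
    have h1 : (0 : ℤ) ≤ (4 * n + 1) ^ 2 - 1 := by
      rcases le_or_gt 0 n with h | h
      · nlinarith
      · nlinarith
    exact_mod_cast h1
  have hpos : ∀ n : ℤ, n ≠ 0 → (0 : ℝ) < (4 * (n : ℝ) + 1) ^ 2 - 1 := by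
    intro n hn
    have h1 : (0 : ℤ) < (4 * n + 1) ^ 2 - 1 := by
      rcases lt_or_gt_of_ne hn with h | h
      · nlinarith
      · nlinarith
    exact_mod_cast h1
  have hb : Summable fun n : ℤ => |f 1 n| := by
    have h := ((hasSum_thP one_pos).mul_right (rexp (π * 1))).summable
    have h2 : Summable (f 1) := h.congr fun n => (hterm 1 n).symm
    exact h2.abs
  have key := tendsto_tsum_of_dominated_convergence (𝓕 := atTop) (f := f)
    (g := fun n : ℤ => if n = 0 then (1 : ℝ) else 0) (bound := fun n => |f 1 n|) hb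
    (fun n => by
      by_cases hn : n = 0
      · subst hn
        simp [hf]
      · simp only [hn, if_false]
        have := (x8_tendsto_exp (hpos n hn)).const_mul (4 * (n : ℝ) + 1)
        simpa [hf] using this)
    (by
      filter_upwards [eventually_ge_atTop (1 : ℝ)] with t ht n
      rw [Real.norm_eq_abs, hf]
      simp only [abs_mul, abs_of_pos (Real.exp_pos _), mul_one]
      exact mul_le_mul_of_nonneg_left (x8_exp_le (hnn n) ht) (abs_nonneg _))
  rw [tsum_ite_eq] at key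
  refine key.congr' ?_
  filter_upwards [eventually_gt_atTop (0 : ℝ)] with t ht
  exact hsum t ht

/-- `thC (4 t) * exp (π t) → 2` -/
theorem x8_tendsto_thC : Tendsto (fun t => thC (4 * t) * rexp (π * t)) atTop (𝓝 2) := by
  set f : ℝ → ℤ → ℝ := fun t n => rexp (-π * (4 * (n : ℝ) ^ 2 + 4 * (n : ℝ)) * t) with hf
  have hterm : ∀ (t : ℝ) (n : ℤ), f t n
      = rexp (-π * ((n : ℝ) + 1 / 2) ^ 2 * (4 * t)) * rexp (π * t) := by
    intro t n
    simp only [hf]
    rw [← Real.exp_add]
    congr 1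
    ring
  have hsum : ∀ t : ℝ, 0 < t → ∑' n, f t n = thC (4 * t) * rexp (π * t) := by
    intro t ht
    have h := (hasSum_thC (t := 4 * t) (by positivity)).mul_right (rexp (π * t))
    rw [← h.tsum_eq]
    exact tsum_congr fun n => hterm t n
  have hnn : ∀ n : ℤ, (0 : ℝ) ≤ 4 * (n : ℝ) ^ 2 + 4 * (n : ℝ) := by
    intro n
    have h1 : (0 : ℤ) ≤ 4 * n ^ 2 + 4 * n := by
      rcases le_or_gt 0 n with h | h
      · nlinarith
      · nlinarith
    exact_mod_cast h1
  have hpos : ∀ n : ℤ, n ≠ 0 → n ≠ -1 → (0 : ℝ) < 4 * (n : ℝ) ^ 2 + 4 * (n : ℝ) := by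
    intro n hn hn'
    have h1 : (0 : ℤ) < 4 * n ^ 2 + 4 * n := by
      rcases lt_or_gt_of_ne hn with h | h
      · have : n ≤ -2 := by omega
        nlinarith
      · nlinarith
    exact_mod_cast h1
  have hb : Summable fun n : ℤ => f 1 n := by
    have h := ((hasSum_thC (t := 4 * 1) (by norm_num)).mul_right (rexp (π * 1))).summable
    exact h.congr fun n => (hterm 1 n).symm
  have key := tendsto_tsum_of_dominated_convergence (𝓕 := atTop) (f := f)
    (g := fun n : ℤ => if n ∈ ({0, -1} : Finset ℤ) then (1 : ℝ) else 0) (bound := fun n => f 1 n) hb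
    (fun n => by
      by_cases hn : n = 0
      · subst hn
        simp [hf]
      by_cases hn' : n = -1
      · subst hn'
        have : ∀ t : ℝ, f t (-1) = 1 := by
          intro t
          rw [hf]
          simp only [Int.cast_neg, Int.cast_one]
          rw [show -π * (4 * (-1 : ℝ) ^ 2 + 4 * (-1 : ℝ)) * t = 0 by ring, Real.exp_zero]
        simp only [this]
        simp
      · have hmem : n ∉ ({0, -1} : Finset ℤ) := by simp [hn, hn']
        simp only [hmem, if_false]
        exact x8_tendsto_exp (hpos n hn hn'))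
    (by
      filter_upwards [eventually_ge_atTop (1 : ℝ)] with t ht n
      rw [Real.norm_eq_abs, hf]
      simp only [abs_of_pos (Real.exp_pos _), mul_one]
      exact x8_exp_le (hnn n) ht)
  have h2 : ∑' n : ℤ, (if n ∈ ({0, -1} : Finset ℤ) then (1 : ℝ) else 0) = 2 := by
    rw [tsum_eq_sum (s := ({0, -1} : Finset ℤ)) (fun n hn => by simp only [hn, if_false])]
    rw [Finset.sum_ite_mem, Finset.inter_self]
    simp
  rw [h2] at key
  refine key.congr' ?_
  filter_upwards [eventually_gt_atTop (0 : ℝ)] with t ht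
  exact hsum t ht

/-- `thC (4 t) = 2 ∑_{d ≡ 1 (4)} w_d`, `thP t = ∑_{d ≡ 1 (4)} d w_d`, `w_d = exp (-π d² t)`
(`d = 4 n + 1`; for `thC`: `n ↦ -1 - n` exchanges even and odd `n`).  So
`|2 thP t / thC (4 t) - 1| ≤ ∑_{d ≠ 1} |d - 1| w_d / w_1 ≤ K exp (-8 π (t - 1))` for `t ≥ 1`, as
`d² - 1 ≥ 8` for `d ≠ 1`. -/
theorem tendsto_thP_div_thC : Tendsto (fun t => thP t / thC (4 * t)) atTop (𝓝 (1 / 2)) := by
  have h := x8_tendsto_thP.div x8_tendsto_thC two_ne_zero
  refine h.congr fun t => ?_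
  simp only [Pi.div_apply]
  rw [mul_div_mul_right _ _ (Real.exp_pos _).ne']

end Claimed.Open.R002
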