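import Claimed.Open.R002.SanityHeckeX2
import Claimed.Open.R002.SanityHeckeX3
import Claimed.Open.R002.SanityHeckeX4
import Claimed.Open.R002.SanityHeckeX7
import Claimed.Open.R002.SanityHeckeX8

/-! # Exact value, post X9: Jacobi's derivative formula `θ₁' = θ₂ θ₃ θ₄` -/

set_option autoImplicit false

namespace Claimed.Open.R002

open Real Filter Topology

/-- The quotient `θ₁' / (2 θ₂ θ₃ θ₄)`. -/
noncomputable def x9_j (t : ℝ) : ℝ := thP t / (thC (4 * t) * thA (4 * t) * thB (4 * t))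

theorem x9_j_two_mul {t : ℝ} (ht : 0 < t) : x9_j (2 * t) = x9_j t := by
  have h2t : 0 < 2 * t := by positivity
  have h4t : 0 < 4 * t := by positivity
  have h8t : 0 < 8 * t := by positivity
  -- the two product formulas at `2 t`
  have e1 := thetaE_eq_thP_mul_thC h2t
  have e2 := thetaE_eq_thP_mul_thB h2t
  have e3 := thA_mul_thB h4t
  have e4 := thC_sq h4t
  have r1 : 2 * t / 2 = t := by ring
  have r2 : 2 * (2 * t) = 4 * t := by ring
  have r3 : 4 * (2 * t) = 8 * t := by ring
  have r4 : 2 * (4 * t) = 8 * t := by ring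
  rw [r1, r2] at e1
  rw [r3] at e2
  rw [r4] at e3 e4
  have hC4 := thC_pos h4t
  have hC8 := thC_pos h8t
  have hA4 := lt_of_lt_of_le one_pos (one_le_thA h4t)
  have hA8 := lt_of_lt_of_le one_pos (one_le_thA h8t)
  have hB4 := thB_pos h4t
  have hB8 := thB_pos h8t
  unfold x9_j
  rw [r3, div_eq_div_iff (by positivity) (by positivity)]
  -- `thP t * thC (4 t) / 2 = thP (2 t) * thB (8 t)`
  have key : thP t * thC (4 * t) = 2 * (thP (2 * t) * thB (8 * t)) := by
    have := e1.symm.trans e2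
    linarith
  have : thP (2 * t) * (thC (4 * t) * thA (4 * t) * thB (4 * t)) * thC (4 * t) =
      thP t * (thC (8 * t) * thA (8 * t) * thB (8 * t)) * thC (4 * t) := by
    calc thP (2 * t) * (thC (4 * t) * thA (4 * t) * thB (4 * t)) * thC (4 * t)
        = thP (2 * t) * (thC (4 * t) ^ 2) * (thA (4 * t) * thB (4 * t)) := by ring
      _ = thP (2 * t) * (2 * thC (8 * t) * thA (8 * t)) * (thB (8 * t) ^ 2) := by rw [e4, e3]
      _ = (2 * (thP (2 * t) * thB (8 * t))) * (thC (8 * t) * thA (8 * t) * thB (8 * t)) := by ring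
      _ = thP t * (thC (8 * t) * thA (8 * t) * thB (8 * t)) * thC (4 * t) := by rw [← key]; ring
  exact mul_right_cancel₀ hC4.ne' this

theorem x9_j_pow {t : ℝ} (ht : 0 < t) (n : ℕ) : x9_j (2 ^ n * t) = x9_j t := by
  induction n with
  | zero => simp
  | succ n ih =>
    have : (2 : ℝ) ^ (n + 1) * t = 2 * (2 ^ n * t) := by ring
    rw [this, x9_j_two_mul (by positivity), ih]

theorem x9_tendsto_j : Tendsto x9_j atTop (𝓝 (1 / 2)) := by
  have h4 : Tendsto (fun t : ℝ => 4 * t) atTop atTop :=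
    Tendsto.const_mul_atTop (by norm_num) tendsto_id
  have hA := tendsto_thA_atTop.comp h4
  have hB := tendsto_thB_atTop.comp h4
  have h := (tendsto_thP_div_thC.div (hA.mul hB) (by norm_num))
  have e : (1 / 2 : ℝ) / (1 * 1) = 1 / 2 := by norm_num
  rw [e] at h
  refine h.congr (fun t => ?_)
  simp only [Function.comp, x9_j, Pi.div_apply]
  rw [div_div, mul_assoc]

theorem x9_j_eq {t : ℝ} (ht : 0 < t) : x9_j t = 1 / 2 := by
  have h1 : Tendsto (fun n : ℕ => (2 : ℝ) ^ n * t) atTop atTop :=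
    Tendsto.atTop_mul_const ht (tendsto_pow_atTop_atTop_of_one_lt (by norm_num))
  have h2 := x9_tendsto_j.comp h1
  have h3 : (x9_j ∘ fun n : ℕ => (2 : ℝ) ^ n * t) = fun _ => x9_j t := by
    funext n
    exact x9_j_pow ht n
  rw [h3] at h2
  exact tendsto_nhds_unique tendsto_const_nhds h2

/-- `j t = thP t / (thC (4 t) thA (4 t) thB (4 t))` satisfies `j (t / 2) = j t`: by X2 and X7,
`thP (t / 2) = 2 thP t thB (4 t) / thC (2 t)`; by X4 and X3 at `2 t`,
`thC (2 t)² = 2 thC (4 t) thA (4 t)`, `thA (2 t) thB (2 t) = thB (4 t)²`.  So `j t = j (2 ^ n t)`,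
which tends to `1 / 2` (X8). -/
theorem thP_eq {t : ℝ} (ht : 0 < t) : thP t = thC (4 * t) * thA (4 * t) * thB (4 * t) / 2 := by
  have h4t : 0 < 4 * t := by positivity
  have hC4 := thC_pos h4t
  have hA4 := lt_of_lt_of_le one_pos (one_le_thA h4t)
  have hB4 := thB_pos h4t
  have h := x9_j_eq ht
  unfold x9_j at h
  rw [div_eq_iff (by positivity)] at h
  rw [h]
  ring

end Claimed.Open.R002
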