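import Claimed.Open.R002.SanityHeckeX5
import Claimed.Open.R002.SanityHeckeX6
import Claimed.Open.R002.SanityHeckeX9

/-! # Exact value, post X10: `θ₃⁴ = θ₄⁴ + θ₂⁴`; the theta series of `E₀` is `θ₂² θ₃ θ₄ / 4` -/

set_option autoImplicit false

namespace Claimed.Open.R002

open Real

/-- `A⁴ - B⁴ = (A² - B²)(A² + B²) = 2 C(2t)² · 2 A(2t)² = (2 C(2t) A(2t))² = C⁴` (X5, X6, X4). -/
theorem thA_pow_four {t : ℝ} (ht : 0 < t) : thA t ^ 4 = thB t ^ 4 + thC t ^ 4 := by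
  have h1 := thA_sq ht
  have h2 := thB_sq ht
  have h3 := thC_sq ht
  have e1 : thA t ^ 4 = (thA t ^ 2) ^ 2 := by ring
  have e2 : thB t ^ 4 = (thB t ^ 2) ^ 2 := by ring
  have e3 : thC t ^ 4 = (thC t ^ 2) ^ 2 := by ring
  rw [e1, e2, e3, h1, h2, h3]
  ring

/-- X7, X9, then X4 and X3 at `2 t`. -/
theorem thetaE_eq_theta {t : ℝ} (ht : 0 < t) :
    thetaE t = thC (2 * t) ^ 2 * thA (2 * t) * thB (2 * t) / 4 := by
  have h2t : 0 < 2 * t := by positivity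
  have h3 := thA_mul_thB h2t
  have h4 := thC_sq h2t
  have e : 2 * (2 * t) = 4 * t := by ring
  rw [e] at h3 h4
  rw [thetaE_eq_thP_mul_thB ht, thP_eq ht, h4, mul_assoc (2 * thC (4 * t) * thA (4 * t)), h3]
  ring

/-- X9, X4 and X3 at `2 t`. -/
theorem thP_sq {t : ℝ} (ht : 0 < t) :
    thP t ^ 2 = thC (2 * t) ^ 4 * thA (2 * t) * thB (2 * t) / 16 := by
  have h2t : 0 < 2 * t := by positivity
  have h3 := thA_mul_thB h2t
  have h4 := thC_sq h2t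
  have e : 2 * (2 * t) = 4 * t := by ring
  rw [e] at h3 h4
  have e4 : thC (2 * t) ^ 4 = (thC (2 * t) ^ 2) ^ 2 := by ring
  rw [thP_eq ht, e4, h4, mul_assoc ((2 * thC (4 * t) * thA (4 * t)) ^ 2), h3]
  ring

end Claimed.Open.R002
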