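import Claimed.Open.R002.SanityHeckeX1

/-! # Exact value, post X11: termwise derivatives of `θ₃` and `θ₄` -/

set_option autoImplicit false

namespace Claimed.Open.R002

open Real

/-- The Gaussian second moment is summable (Mathlib's bound for the terms of `jacobiTheta₂`). -/
theorem x11_summable {t : ℝ} (ht : 0 < t) :
    Summable (fun n : ℤ => (n : ℝ) ^ 2 * rexp (-π * (n : ℝ) ^ 2 * t)) := by
  have h := summable_pow_mul_jacobiTheta₂_term_bound 0 ht 2
  refine h.congr fun n => ?_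
  have h1 : ((|n| : ℤ) : ℝ) ^ 2 = (n : ℝ) ^ 2 := by
    rw [Int.cast_abs, sq_abs]
  rw [h1]
  congr 2
  ring

/-- The same with a bounded coefficient. -/
theorem x11_summable_coeff (c : ℤ → ℝ) (hc : ∀ n, |c n| ≤ 1) {t : ℝ} (ht : 0 < t) :
    Summable (fun n : ℤ => c n * (n : ℝ) ^ 2 * rexp (-π * (n : ℝ) ^ 2 * t)) := by
  refine Summable.of_norm_bounded (x11_summable ht) fun n => ?_
  rw [mul_assoc, norm_mul, Real.norm_eq_abs, Real.norm_eq_abs,
    abs_of_nonneg (mul_nonneg (sq_nonneg (n : ℝ)) (exp_pos _).le)]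
  exact mul_le_of_le_one_left (mul_nonneg (sq_nonneg (n : ℝ)) (exp_pos _).le) (hc n)

/-- Termwise differentiation of a theta series with bounded coefficients. -/
theorem x11_hasDerivAt (c : ℤ → ℝ) (hc : ∀ n, |c n| ≤ 1) {t : ℝ} (ht : 0 < t) :
    HasDerivAt (fun z : ℝ => ∑' n : ℤ, c n * rexp (-π * (n : ℝ) ^ 2 * z))
      (-π * ∑' n : ℤ, c n * (n : ℝ) ^ 2 * rexp (-π * (n : ℝ) ^ 2 * t)) t := by
  have hu : Summable (fun n : ℤ => π * ((n : ℝ) ^ 2 * rexp (-π * (n : ℝ) ^ 2 * (t / 2)))) :=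
    (x11_summable (half_pos ht)).mul_left π
  have key : HasDerivAt (fun z : ℝ => ∑' n : ℤ, c n * rexp (-π * (n : ℝ) ^ 2 * z))
      (∑' n : ℤ, -π * (c n * (n : ℝ) ^ 2 * rexp (-π * (n : ℝ) ^ 2 * t))) t := by
    refine hasDerivAt_tsum_of_isPreconnected (t := Set.Ioi (t / 2))
      (g := fun (n : ℤ) (z : ℝ) => c n * rexp (-π * (n : ℝ) ^ 2 * z))
      (g' := fun (n : ℤ) (z : ℝ) => -π * (c n * (n : ℝ) ^ 2 * rexp (-π * (n : ℝ) ^ 2 * z)))
      hu isOpen_Ioi isPreconnected_Ioi (fun n y _ => ?_) (fun n y hy => ?_) (y₀ := t)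
      (half_lt_self ht) ?_ (half_lt_self ht)
    · have h := (((hasDerivAt_id y).const_mul (-π * (n : ℝ) ^ 2)).exp).const_mul (c n)
      simp only [id, mul_one] at h
      have e : -π * (c n * (n : ℝ) ^ 2 * rexp (-π * (n : ℝ) ^ 2 * y))
          = c n * (rexp (-π * (n : ℝ) ^ 2 * y) * (-π * (n : ℝ) ^ 2)) := by ring
      rw [e]
      exact h
    · have hy' : t / 2 < y := hy
      have h1 : rexp (-π * (n : ℝ) ^ 2 * y) ≤ rexp (-π * (n : ℝ) ^ 2 * (t / 2)) := by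
        apply exp_le_exp.mpr
        have : 0 ≤ π * (n : ℝ) ^ 2 := mul_nonneg pi_pos.le (sq_nonneg _)
        nlinarith
      rw [norm_mul, norm_neg, Real.norm_eq_abs, abs_of_pos pi_pos, mul_assoc, norm_mul,
        Real.norm_eq_abs, Real.norm_eq_abs,
        abs_of_nonneg (mul_nonneg (sq_nonneg (n : ℝ)) (exp_pos _).le)]
      refine mul_le_mul_of_nonneg_left ?_ pi_pos.le
      calc |c n| * ((n : ℝ) ^ 2 * rexp (-π * (n : ℝ) ^ 2 * y))
          ≤ 1 * ((n : ℝ) ^ 2 * rexp (-π * (n : ℝ) ^ 2 * y)) :=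
            mul_le_mul_of_nonneg_right (hc n) (mul_nonneg (sq_nonneg (n : ℝ)) (exp_pos _).le)
        _ = (n : ℝ) ^ 2 * rexp (-π * (n : ℝ) ^ 2 * y) := one_mul _
        _ ≤ (n : ℝ) ^ 2 * rexp (-π * (n : ℝ) ^ 2 * (t / 2)) :=
            mul_le_mul_of_nonneg_left h1 (sq_nonneg _)
    · refine Summable.of_norm_bounded (hasSum_thA ht).summable fun n => ?_
      rw [norm_mul, Real.norm_eq_abs, Real.norm_eq_abs, abs_of_pos (exp_pos _)]
      exact mul_le_of_le_one_left (exp_pos _).le (hc n)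
  rwa [tsum_mul_left] at key

theorem x11_abs_neg_one_zpow (n : ℤ) : |(-1 : ℝ) ^ n| ≤ 1 := by
  rw [abs_zpow, abs_neg, abs_one, one_zpow]

theorem hasSum_thA1 {t : ℝ} (ht : 0 < t) :
    HasSum (fun n : ℤ => (n : ℝ) ^ 2 * rexp (-π * (n : ℝ) ^ 2 * t)) (thA1 t) :=
  (x11_summable ht).hasSum

theorem hasSum_thB1 {t : ℝ} (ht : 0 < t) :
    HasSum (fun n : ℤ => (-1 : ℝ) ^ n * (n : ℝ) ^ 2 * rexp (-π * (n : ℝ) ^ 2 * t)) (thB1 t) :=
  (x11_summable_coeff (fun n => (-1 : ℝ) ^ n) x11_abs_neg_one_zpow ht).hasSum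

/-- `hasDerivAt_tsum_of_isPreconnected` on `Ioi (t / 2)` with the summable bound
`π n² exp (-π n² t / 2)`, and `hasSum_thA` (or the differentiability of `jacobiTheta₂`). -/
theorem hasDerivAt_thA {t : ℝ} (ht : 0 < t) : HasDerivAt thA (-π * thA1 t) t := by
  have h := x11_hasDerivAt (fun _ => 1) (fun _ => by simp) ht
  simp only [one_mul] at h
  refine h.congr_of_eventuallyEq ?_
  filter_upwards [lt_mem_nhds ht] with z hz
  exact (hasSum_thA hz).tsum_eq.symm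

theorem hasDerivAt_thB {t : ℝ} (ht : 0 < t) : HasDerivAt thB (-π * thB1 t) t := by
  have h := x11_hasDerivAt (fun n => (-1 : ℝ) ^ n) x11_abs_neg_one_zpow ht
  refine h.congr_of_eventuallyEq ?_
  filter_upwards [lt_mem_nhds ht] with z hz
  exact (hasSum_thB hz).tsum_eq.symm

end Claimed.Open.R002
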