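import Claimed.Open.R002.SanityHeckeX11

/-! # Exact value, post X12: the Wronskian of `θ₃`, `θ₄` is a square -/

set_option autoImplicit false

namespace Claimed.Open.R002

open Real

/-- product of two real sums -/
theorem x12_mul {ι κ : Type*} {f : ι → ℝ} {g : κ → ℝ} {s u : ℝ} (hf : HasSum f s) (hg : HasSum g u) :
    HasSum (fun x : ι × κ => f x.1 * g x.2) (s * u) :=
  hf.mul hg (summable_mul_of_summable_norm hf.summable.norm hg.summable.norm)

/-- a sum over two complementary injective images -/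
theorem x12_split {β γ : Type*} {f : β → ℝ} {r0 r1 : γ → β} (h0 : Function.Injective r0)
    (h1 : Function.Injective r1) (hc : IsCompl (Set.range r0) (Set.range r1)) {a b : ℝ}
    (ha : HasSum (f ∘ r0) a) (hb : HasSum (f ∘ r1) b) : HasSum f (a + b) :=
  (h0.hasSum_range_iff.2 ha).add_isCompl hc (h1.hasSum_range_iff.2 hb)

theorem x12_compl_int :
    IsCompl (Set.range fun k : ℤ => 2 * k) (Set.range fun k : ℤ => 2 * k + 1) := by
  refine IsCompl.of_eq ?_ ?_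
  · ext x
    simp only [Set.inf_eq_inter, Set.mem_inter_iff, Set.mem_range, Set.bot_eq_empty,
      Set.mem_empty_iff_false, iff_false, not_and]
    rintro ⟨k, rfl⟩ ⟨j, hj⟩
    omega
  · ext x
    simp only [Set.sup_eq_union, Set.mem_union, Set.mem_range, Set.top_eq_univ, Set.mem_univ,
      iff_true]
    rcases Int.even_or_odd' x with ⟨k, rfl | rfl⟩
    · exact Or.inl ⟨k, rfl⟩
    · exact Or.inr ⟨k, rfl⟩

/-- the rotation onto the pairs with even sum -/
def x12r0 (x : ℤ × ℤ) : ℤ × ℤ := (x.1 + x.2, x.1 - x.2)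

/-- the rotation onto the pairs with odd sum -/
def x12r1 (x : ℤ × ℤ) : ℤ × ℤ := (x.1 + x.2 + 1, x.1 - x.2)

theorem x12_r0_inj : Function.Injective x12r0 := by
  rintro ⟨m, n⟩ ⟨m', n'⟩ h
  simp only [x12r0, Prod.mk.injEq] at h
  obtain ⟨h1, h2⟩ := h
  ext <;> simp only <;> omega

theorem x12_r1_inj : Function.Injective x12r1 := by
  rintro ⟨m, n⟩ ⟨m', n'⟩ h
  simp only [x12r1, Prod.mk.injEq] at h
  obtain ⟨h1, h2⟩ := h
  ext <;> simp only <;> omega

theorem x12_compl_rot : IsCompl (Set.range x12r0) (Set.range x12r1) := by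
  refine IsCompl.of_eq ?_ ?_
  · ext x
    simp only [Set.inf_eq_inter, Set.mem_inter_iff, Set.mem_range, Set.bot_eq_empty,
      Set.mem_empty_iff_false, iff_false, not_and]
    rintro ⟨⟨m, n⟩, rfl⟩ ⟨⟨m', n'⟩, hj⟩
    simp only [x12r0, x12r1, Prod.mk.injEq] at hj
    omega
  · ext ⟨a, b⟩
    simp only [Set.sup_eq_union, Set.mem_union, Set.mem_range, Set.top_eq_univ, Set.mem_univ,
      iff_true]
    rcases Int.even_or_odd' (a + b) with ⟨m, h | h⟩
    · refine Or.inl ⟨(m, a - m), ?_⟩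
      simp only [x12r0, Prod.mk.injEq]
      omega
    · refine Or.inr ⟨(m, a - 1 - m), ?_⟩
      simp only [x12r1, Prod.mk.injEq]
      omega

theorem x12_sign_sq (n : ℤ) : (-1 : ℝ) ^ n * (-1 : ℝ) ^ n = 1 := by
  rw [← mul_zpow]
  norm_num

theorem x12_sign_sub (m n : ℤ) : (-1 : ℝ) ^ (m - n) = (-1 : ℝ) ^ m * (-1 : ℝ) ^ n := by
  rw [zpow_sub₀ (by norm_num : (-1 : ℝ) ≠ 0), div_eq_iff (zpow_ne_zero _ (by norm_num)), mul_assoc,
    x12_sign_sq, mul_one]

theorem x12_sign_neg (m : ℤ) : (-1 : ℝ) ^ (-m) = (-1 : ℝ) ^ m := by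
  have := x12_sign_sub 0 m
  simpa using this

theorem x12_sign_abs (m : ℤ) : |(-1 : ℝ) ^ m| = 1 := by
  rw [abs_zpow]
  simp

/-- the double series of the left side -/
noncomputable def x12F (t : ℝ) (x : ℤ × ℤ) : ℝ :=
  ((x.1 : ℝ) ^ 2 * rexp (-π * (x.1 : ℝ) ^ 2 * t)) * ((-1 : ℝ) ^ x.2 * rexp (-π * (x.2 : ℝ) ^ 2 * t)) -
    rexp (-π * (x.1 : ℝ) ^ 2 * t) * ((-1 : ℝ) ^ x.2 * (x.2 : ℝ) ^ 2 * rexp (-π * (x.2 : ℝ) ^ 2 * t))

theorem x12_hasSum_F {t : ℝ} (ht : 0 < t) :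
    HasSum (x12F t) (thA1 t * thB t - thA t * thB1 t) :=
  (x12_mul (hasSum_thA1 ht) (hasSum_thB ht)).sub (x12_mul (hasSum_thA ht) (hasSum_thB1 ht))

/-- the odd series of the even part -/
noncomputable def x12h (t : ℝ) (m : ℤ) : ℝ := (-1 : ℝ) ^ m * (m : ℝ) * rexp (-π * (m : ℝ) ^ 2 * (2 * t))

theorem x12_abs_le_sq (m : ℤ) : |(m : ℝ)| ≤ (m : ℝ) ^ 2 := by
  have h : |m| ≤ m ^ 2 := by
    rcases abs_cases m with ⟨h, h'⟩ | ⟨h, h'⟩ <;> rw [h] <;> nlinarith
  exact_mod_cast h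

theorem x12_hasSum_h {t : ℝ} (ht : 0 < t) : HasSum (x12h t) 0 := by
  have hs : Summable (x12h t) := by
    refine Summable.of_norm_bounded (hasSum_thA1 (by positivity : 0 < 2 * t)).summable (fun m => ?_)
    rw [x12h, Real.norm_eq_abs, abs_mul, abs_mul, x12_sign_abs, one_mul, abs_of_pos (exp_pos _)]
    exact mul_le_mul_of_nonneg_right (x12_abs_le_sq m) (exp_pos _).le
  have h1 := hs.hasSum
  have h2 : HasSum (fun m : ℤ => x12h t (-m)) (∑' m, x12h t m) := (Equiv.neg ℤ).hasSum_iff.2 h1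
  have h3 : (fun m : ℤ => x12h t (-m)) = fun m => -x12h t m := by
    funext m
    simp only [x12h, x12_sign_neg]
    push_cast
    ring_nf
  rw [h3] at h2
  have h4 := h2.unique h1.neg
  have h5 : (∑' m, x12h t m) = 0 := by linarith
  rw [h5] at h1
  exact h1

theorem x12_F_r0 (t : ℝ) : x12F t ∘ x12r0 = fun x : ℤ × ℤ => 4 * (x12h t x.1 * x12h t x.2) := by
  funext ⟨m, n⟩
  simp only [Function.comp, x12F, x12r0, x12h, x12_sign_sub]
  push_cast
  have e1 : rexp (-π * ((m : ℝ) + n) ^ 2 * t) * rexp (-π * ((m : ℝ) - n) ^ 2 * t) =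
      rexp (-π * (m : ℝ) ^ 2 * (2 * t)) * rexp (-π * (n : ℝ) ^ 2 * (2 * t)) := by
    rw [← exp_add, ← exp_add]
    congr 1
    ring
  linear_combination (((m : ℝ) + n) ^ 2 - ((m : ℝ) - n) ^ 2) * ((-1 : ℝ) ^ m * (-1 : ℝ) ^ n) * e1

/-- the series of the odd part -/
noncomputable def x12g (t : ℝ) (m : ℤ) : ℝ :=
  (-1 : ℝ) ^ m * (2 * (m : ℝ) + 1) * rexp (-π * (2 * (m : ℝ) + 1) ^ 2 * (t / 2))

theorem x12_F_r1 (t : ℝ) : x12F t ∘ x12r1 = fun x : ℤ × ℤ => x12g t x.1 * x12g t x.2 := by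
  funext ⟨m, n⟩
  simp only [Function.comp, x12F, x12r1, x12g, x12_sign_sub]
  push_cast
  have e1 : rexp (-π * ((m : ℝ) + n + 1) ^ 2 * t) * rexp (-π * ((m : ℝ) - n) ^ 2 * t) =
      rexp (-π * (2 * (m : ℝ) + 1) ^ 2 * (t / 2)) * rexp (-π * (2 * (n : ℝ) + 1) ^ 2 * (t / 2)) := by
    rw [← exp_add, ← exp_add]
    congr 1
    ring
  linear_combination (((m : ℝ) + n + 1) ^ 2 - ((m : ℝ) - n) ^ 2) * ((-1 : ℝ) ^ m * (-1 : ℝ) ^ n) * e1

theorem x12_hasSum_g {t : ℝ} (ht : 0 < t) : HasSum (x12g t) (thP (t / 2) + thP (t / 2)) := by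
  have hP := hasSum_thP (by positivity : 0 < t / 2)
  have i0 : Function.Injective fun k : ℤ => 2 * k := fun a b h => by simp only at h; omega
  have i1 : Function.Injective fun k : ℤ => 2 * k + 1 := fun a b h => by simp only at h; omega
  refine x12_split i0 i1 x12_compl_int ?_ ?_
  · convert hP using 1
    funext k
    simp only [Function.comp, x12g, Even.neg_one_zpow (even_two_mul k)]
    push_cast
    ring_nf
  · have hinv : Function.Involutive fun k : ℤ => -k - 1 := fun k => by simp only; omega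
    have h2 := (hinv.toPerm).hasSum_iff.2 hP
    convert h2 using 1
    funext k
    have hodd : Odd (2 * k + 1) := ⟨k, rfl⟩
    simp only [Function.comp, x12g, Odd.neg_one_zpow hodd, Function.Involutive.coe_toPerm]
    push_cast
    ring_nf

/-- The left side is `∑_{a, b} (a² - b²) (-1)^b exp (-π (a² + b²) t)`.  Put
`u = a + b`, `v = a - b` (a bijection onto the pairs with `u ≡ v (2)`), `a² - b² = u v`,
`a² + b² = (u² + v²) / 2`, `(-1)^b = (-1)^((u - v) / 2)`.  `u, v` even, `u = 2 u'`, `v = 2 v'`: the sum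
`4 ∑ u' v' (-1)^(u' - v') exp (-2 π (u'² + v'²) t)` is a product of two odd sums, so `0`.  `u, v` odd:
`(-1)^((u - v) / 2) = χ(u) χ(v)`, `χ(u) = 1` for `u ≡ 1 (4)`, `-1` for `u ≡ 3 (4)`; the sum is
`(∑_{u odd} χ(u) u exp (-π u² t / 2))² = (2 thP (t / 2))²`. -/
theorem thA1_mul_thB_sub {t : ℝ} (ht : 0 < t) :
    thA1 t * thB t - thA t * thB1 t = 4 * thP (t / 2) ^ 2 := by
  have h0 : HasSum (x12F t ∘ x12r0) (4 * (0 * 0)) := by
    rw [x12_F_r0]
    exact (x12_mul (x12_hasSum_h ht) (x12_hasSum_h ht)).mul_left 4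
  have h1 : HasSum (x12F t ∘ x12r1) ((thP (t / 2) + thP (t / 2)) * (thP (t / 2) + thP (t / 2))) := by
    rw [x12_F_r1]
    exact x12_mul (x12_hasSum_g ht) (x12_hasSum_g ht)
  have h2 := x12_split x12_r0_inj x12_r1_inj x12_compl_rot h0 h1
  rw [(x12_hasSum_F ht).unique h2]
  ring

end Claimed.Open.R002
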