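import Claimed.Open.R002.SanityHeckeX10
import Claimed.Open.R002.SanityHeckeX12

/-! # Exact value, post X13: the differential equation of `μ = θ₃ / θ₄` -/

set_option autoImplicit false

namespace Claimed.Open.R002

open Real

/-- `A⁴ - B⁴ = C⁴ > 0`. -/
theorem one_lt_muE {t : ℝ} (ht : 0 < t) : 1 < muE t := by
  have h2 : 0 < 2 * t := by positivity
  have hB := thB_pos h2
  have hC := thC_pos h2
  have hA : 0 < thA (2 * t) := lt_of_lt_of_le one_pos (one_le_thA h2)
  have h4 := thA_pow_four h2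
  unfold muE
  rw [one_lt_div hB]
  have h : thB (2 * t) ^ 4 < thA (2 * t) ^ 4 := by
    rw [h4]
    have := pow_pos hC 4
    linarith
  exact lt_of_pow_lt_pow_left₀ 4 hA.le h

/-- `√(μ⁴ - 1) = C² / B²` at `2 t` (X10). -/
theorem sqrt_muE {t : ℝ} (ht : 0 < t) :
    Real.sqrt (muE t ^ 4 - 1) = thC (2 * t) ^ 2 / thB (2 * t) ^ 2 := by
  have h2 : 0 < 2 * t := by positivity
  have hB := thB_pos h2
  have h4 := thA_pow_four h2
  have h : muE t ^ 4 - 1 = (thC (2 * t) ^ 2 / thB (2 * t) ^ 2) ^ 2 := by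
    unfold muE
    rw [div_pow, h4]
    field_simp
    ring
  rw [h]
  exact Real.sqrt_sq (by positivity)

/-- The chain rule for `s ↦ f (2 s)`. -/
theorem x13_hasDerivAt_two_mul {f : ℝ → ℝ} {f' t : ℝ} (hf : HasDerivAt f f' (2 * t)) :
    HasDerivAt (fun s : ℝ => f (2 * s)) (f' * 2) t := by
  have h : HasDerivAt (fun s : ℝ => 2 * s) 2 t := by
    simpa using (hasDerivAt_id t).const_mul (2 : ℝ)
  exact hf.comp t h

/-- `μ' = 2 (A' B - A B') / B² = -2 π (A1 B - A B1) / B² = -8 π P(t)² / B² = -(π / 2) C⁴ A / B`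
(at `2 t`; X11, X12, `thP_sq`), and `thetaE = C² A B / 4`. -/
theorem hasDerivAt_muE {t : ℝ} (ht : 0 < t) :
    HasDerivAt muE (-(2 * π * thetaE t * Real.sqrt (muE t ^ 4 - 1))) t := by
  have h2 : 0 < 2 * t := by positivity
  have hB := thB_pos h2
  have hA' := x13_hasDerivAt_two_mul (hasDerivAt_thA h2)
  have hB' := x13_hasDerivAt_two_mul (hasDerivAt_thB h2)
  have hd := hA'.div hB' hB.ne'
  have hW := thA1_mul_thB_sub h2
  rw [mul_div_cancel_left₀ t (two_ne_zero), thP_sq ht] at hW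
  have he : (-π * thA1 (2 * t) * 2 * thB (2 * t) - thA (2 * t) * (-π * thB1 (2 * t) * 2))
      / thB (2 * t) ^ 2 = -(2 * π * thetaE t * Real.sqrt (muE t ^ 4 - 1)) := by
    have h1 : -π * thA1 (2 * t) * 2 * thB (2 * t) - thA (2 * t) * (-π * thB1 (2 * t) * 2)
        = -(2 * π) * (thA1 (2 * t) * thB (2 * t) - thA (2 * t) * thB1 (2 * t)) := by ring
    rw [h1, hW, sqrt_muE ht, thetaE_eq_theta ht]
    field_simp
    ring
  rw [← he]
  exact hd

end Claimed.Open.R002
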