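import Claimed.Open.R002.SanityHeckeX8
import Claimed.Open.R002.SanityHeckeX13

/-! # Exact value, post X14: `μ` is a decreasing bijection of `(0, ∞)` onto `(1, ∞)` -/

set_option autoImplicit false

namespace Claimed.Open.R002

open Real Filter Topology Set

theorem tendsto_muE_atTop : Tendsto muE atTop (𝓝 1) := by
  have h2 : Tendsto (fun t : ℝ => 2 * t) atTop atTop := tendsto_id.const_mul_atTop two_pos
  have h := (tendsto_thA_atTop.comp h2).div (tendsto_thB_atTop.comp h2) one_ne_zero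
  rw [div_one] at h
  exact h

/-- `μ(t) = A(1/(2t)) / C(1/(2t))`. -/
theorem x14_muE_eq {t : ℝ} (ht : 0 < t) : muE t = thA (1 / (2 * t)) / thC (1 / (2 * t)) := by
  have hs : 0 < 2 * t := by positivity
  have hr : 0 < (2 * t) ^ (1 / 2 : ℝ) := Real.rpow_pos_of_pos hs _
  have hA := thA_eq_thA hs
  have hC := thC_eq_thB (one_div_pos.2 hs)
  have e1 : (1 / (2 * t)) ^ (1 / 2 : ℝ) = 1 / (2 * t) ^ (1 / 2 : ℝ) := by
    rw [one_div (2 * t), Real.inv_rpow hs.le, one_div ((2 * t) ^ (1 / 2 : ℝ))]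
  rw [e1, one_div_one_div, one_div_one_div] at hC
  have hB := thB_pos hs
  unfold muE
  rw [hC, hA]
  field_simp

/-- `μ(t) = A(2t) / B(2t) = A(1/(2t)) / C(1/(2t))` by the functional equations of X1, `A ≥ 1`,
`C → 0` at infinity (X8). -/
theorem tendsto_muE_zero : Tendsto muE (𝓝[>] 0) atTop := by
  have hC : Tendsto thC atTop (𝓝[>] 0) := by
    rw [tendsto_nhdsWithin_iff]
    refine ⟨tendsto_thC_atTop, ?_⟩
    filter_upwards [eventually_gt_atTop 0] with s hs using thC_pos hs
  have hinv : Tendsto (fun s => (thC s)⁻¹) atTop atTop := hC.inv_tendsto_nhdsGT_zero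
  have hg : Tendsto (fun s => thA s / thC s) atTop atTop := by
    refine tendsto_atTop_mono' _ ?_ hinv
    filter_upwards [eventually_gt_atTop 0] with s hs
    rw [div_eq_mul_inv]
    exact le_mul_of_one_le_left (inv_nonneg.2 (thC_pos hs).le) (one_le_thA hs)
  have hs : Tendsto (fun t : ℝ => 1 / (2 * t)) (𝓝[>] 0) atTop := by
    have := tendsto_inv_nhdsGT_zero (𝕜 := ℝ) |>.const_mul_atTop (by norm_num : (0 : ℝ) < 1 / 2)
    refine this.congr fun t => ?_
    rw [one_div (2 * t), mul_inv, one_div]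
  refine (hg.comp hs).congr' ?_
  filter_upwards [self_mem_nhdsWithin] with t ht
  exact (x14_muE_eq ht).symm

theorem x14_continuousOn_muE : ContinuousOn muE (Ioi 0) := fun _ ht =>
  (hasDerivAt_muE ht).continuousAt.continuousWithinAt

/-- The derivative is negative (`hasDerivAt_muE`, `thetaE_pos`, `one_lt_muE`). -/
theorem strictAntiOn_muE : StrictAntiOn muE (Ioi 0) := by
  refine strictAntiOn_of_deriv_neg (convex_Ioi 0) x14_continuousOn_muE fun t ht => ?_
  rw [interior_Ioi] at ht
  have ht' : 0 < t := ht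
  rw [(hasDerivAt_muE ht').deriv]
  have h1 := thetaE_pos ht'
  have h2 : 0 < Real.sqrt (muE t ^ 4 - 1) := by
    apply Real.sqrt_pos.2
    have := one_lt_muE ht'
    have h4 : 1 < muE t ^ 4 := one_lt_pow₀ this (by norm_num)
    linarith
  have := Real.pi_pos
  have : 0 < 2 * π * thetaE t * Real.sqrt (muE t ^ 4 - 1) := by positivity
  linarith

/-- Intermediate value theorem with the two limits. -/
theorem image_muE : muE '' Ioi 0 = Ioi 1 := by
  apply Subset.antisymm
  · rintro _ ⟨t, ht, rfl⟩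
    exact one_lt_muE ht
  · intro y hy
    have hy' : 1 < y := hy
    obtain ⟨a, ha0, ha⟩ : ∃ a : ℝ, 0 < a ∧ muE a < y :=
      ((eventually_gt_atTop 0).and (tendsto_muE_atTop.eventually (gt_mem_nhds hy'))).exists
    obtain ⟨b, hb0, hb⟩ : ∃ b : ℝ, 0 < b ∧ y < muE b := by
      have h1 : ∀ᶠ t in 𝓝[>] (0 : ℝ), 0 < t := self_mem_nhdsWithin
      exact (h1.and (tendsto_muE_zero.eventually (eventually_gt_atTop y))).exists
    exact isPreconnected_Ioi.intermediate_value (a := a) (b := b) ha0 hb0 x14_continuousOn_muE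
      ⟨ha.le, hb.le⟩

end Claimed.Open.R002
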