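import Claimed.Open.R002.SanityHeckeX14

/-! # Exact value, post X15: the two components of the period integral -/

set_option autoImplicit false

namespace Claimed.Open.R002

open Real Set MeasureTheory

/-- The change of variables `x = f t`, `t ∈ Ioi 0`, in the period integral. -/
theorem x15_subst (f f' : ℝ → ℝ) (S : Set ℝ) (himg : f '' Ioi 0 = S) (hinj : InjOn f (Ioi 0))
    (hder : ∀ t ∈ Ioi (0 : ℝ), HasDerivAt f (f' t) t)
    (hval : ∀ t ∈ Ioi (0 : ℝ),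
      |f' t| * (Real.sqrt (4 * f t ^ 3 - 4 * f t))⁻¹ = 2 * π * thetaE t) :
    ∫ x in S, (Real.sqrt (4 * x ^ 3 - 4 * x))⁻¹ = 2 * π * ∫ t in Ioi (0 : ℝ), thetaE t := by
  rw [← himg, integral_image_eq_integral_abs_deriv_smul measurableSet_Ioi
    (fun t ht => (hder t ht).hasDerivWithinAt) hinj, ← integral_const_mul]
  refine setIntegral_congr_fun measurableSet_Ioi fun t ht => ?_
  show |f' t| • (Real.sqrt (4 * f t ^ 3 - 4 * f t))⁻¹ = 2 * π * thetaE t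
  rw [smul_eq_mul, hval t ht]

theorem x15_muE_pos {t : ℝ} (ht : 0 < t) : 0 < muE t := lt_trans one_pos (one_lt_muE ht)

theorem x15_sqrt_pos {t : ℝ} (ht : 0 < t) : 0 < Real.sqrt (muE t ^ 4 - 1) := by
  apply Real.sqrt_pos.2
  have h := one_lt_muE ht
  have h2 : 1 < muE t ^ 4 := one_lt_pow₀ h (by norm_num)
  linarith

theorem x15_injOn_sq : InjOn (fun t => muE t ^ 2) (Ioi 0) := by
  intro a ha b hb hab
  have h1 : muE a = muE b :=
    (pow_left_inj₀ (x15_muE_pos ha).le (x15_muE_pos hb).le (by norm_num)).1 hab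
  exact strictAntiOn_muE.injOn ha hb h1

theorem x15_image_sq : (fun t => muE t ^ 2) '' Ioi 0 = Ioi 1 := by
  ext x
  constructor
  · rintro ⟨t, ht, rfl⟩
    exact one_lt_pow₀ (one_lt_muE ht) (by norm_num)
  · intro hx
    have hx1 : (1 : ℝ) < x := hx
    have h1 : Real.sqrt x ∈ Ioi (1 : ℝ) := by
      show 1 < Real.sqrt x
      rw [Real.lt_sqrt (by norm_num)]
      linarith
    rw [← image_muE] at h1
    obtain ⟨t, ht, h⟩ := h1
    exact ⟨t, ht, by show muE t ^ 2 = x; rw [h, Real.sq_sqrt (by linarith)]⟩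

/-- `x = μ(t)²` maps `Ioi 0` injectively onto `Ioi 1`, `x' = 2 μ μ' = -2 π thetaE √(4 x³ - 4 x)`
as `√(4 μ⁶ - 4 μ²) = 2 μ √(μ⁴ - 1)`; `MeasureTheory.integral_image_eq_integral_abs_deriv_smul`. -/
theorem integral_Ioi_one :
    ∫ x in Ioi (1 : ℝ), (Real.sqrt (4 * x ^ 3 - 4 * x))⁻¹ = 2 * π * ∫ t in Ioi (0 : ℝ), thetaE t := by
  refine x15_subst (fun t => muE t ^ 2)
    (fun t => 2 * muE t * -(2 * π * thetaE t * Real.sqrt (muE t ^ 4 - 1))) _ x15_image_sq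
    x15_injOn_sq (fun t ht => ?_) (fun t ht => ?_)
  · have h := (hasDerivAt_muE ht).fun_pow 2
    simpa using h
  · have hμ := x15_muE_pos ht
    have hs := x15_sqrt_pos ht
    have hθ := thetaE_pos ht
    have e1 : Real.sqrt (4 * (muE t ^ 2) ^ 3 - 4 * muE t ^ 2) =
        2 * muE t * Real.sqrt (muE t ^ 4 - 1) := by
      have : 4 * (muE t ^ 2) ^ 3 - 4 * muE t ^ 2 = (2 * muE t) ^ 2 * (muE t ^ 4 - 1) := by ring
      rw [this, Real.sqrt_mul (by positivity), Real.sqrt_sq (by positivity)]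
    show |2 * muE t * -(2 * π * thetaE t * Real.sqrt (muE t ^ 4 - 1))| *
      (Real.sqrt (4 * (muE t ^ 2) ^ 3 - 4 * muE t ^ 2))⁻¹ = 2 * π * thetaE t
    rw [e1, mul_neg, abs_neg, abs_of_pos (by positivity)]
    field_simp

theorem x15_injOn_neg_inv : InjOn (fun t => -(muE t ^ 2)⁻¹) (Ioi 0) := by
  intro a ha b hb hab
  have h1 : muE a ^ 2 = muE b ^ 2 := inv_injective (neg_injective hab)
  exact x15_injOn_sq ha hb h1

theorem x15_image_neg_inv : (fun t => -(muE t ^ 2)⁻¹) '' Ioi 0 = Ioo (-1) 0 := by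
  ext x
  constructor
  · rintro ⟨t, ht, rfl⟩
    have h1 : 1 < muE t ^ 2 := one_lt_pow₀ (one_lt_muE ht) (by norm_num)
    have h2 : (muE t ^ 2)⁻¹ < 1 := inv_lt_one_of_one_lt₀ h1
    have h3 : 0 < (muE t ^ 2)⁻¹ := by positivity
    exact ⟨by show -1 < -(muE t ^ 2)⁻¹; linarith, by show -(muE t ^ 2)⁻¹ < 0; linarith⟩
  · rintro ⟨hx1, hx0⟩
    have hy : (-x)⁻¹ ∈ Ioi (1 : ℝ) := by
      show 1 < (-x)⁻¹
      exact (one_lt_inv₀ (by linarith)).2 (by linarith)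
    rw [← x15_image_sq] at hy
    obtain ⟨t, ht, h⟩ := hy
    refine ⟨t, ht, ?_⟩
    show -(muE t ^ 2)⁻¹ = x
    have h' : muE t ^ 2 = (-x)⁻¹ := h
    rw [h', inv_inv, neg_neg]

/-- `x = -1 / μ(t)²` maps `Ioi 0` injectively onto `Ioo (-1) 0`, `x' = 2 μ' / μ³`,
`√(4 x³ - 4 x) = 2 √(μ⁴ - 1) / μ³`. -/
theorem integral_Ioo_neg_one_zero :
    ∫ x in Ioo (-1 : ℝ) 0, (Real.sqrt (4 * x ^ 3 - 4 * x))⁻¹ =
      2 * π * ∫ t in Ioi (0 : ℝ), thetaE t := by
  refine x15_subst (fun t => -(muE t ^ 2)⁻¹)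
    (fun t => -(-(2 * muE t * -(2 * π * thetaE t * Real.sqrt (muE t ^ 4 - 1))) / (muE t ^ 2) ^ 2)) _
    x15_image_neg_inv x15_injOn_neg_inv (fun t ht => ?_) (fun t ht => ?_)
  · have hμ := x15_muE_pos ht
    have h := (hasDerivAt_muE ht).fun_pow 2
    have h2 : HasDerivAt (fun t => muE t ^ 2)
        (2 * muE t * -(2 * π * thetaE t * Real.sqrt (muE t ^ 4 - 1))) t := by simpa using h
    exact (h2.inv (by positivity)).neg
  · have hμ := x15_muE_pos ht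
    have hs := x15_sqrt_pos ht
    have hθ := thetaE_pos ht
    have e1 : Real.sqrt (4 * (-(muE t ^ 2)⁻¹) ^ 3 - 4 * -(muE t ^ 2)⁻¹) =
        2 * Real.sqrt (muE t ^ 4 - 1) / muE t ^ 3 := by
      have : 4 * (-(muE t ^ 2)⁻¹) ^ 3 - 4 * -(muE t ^ 2)⁻¹ =
          (2 / muE t ^ 3) ^ 2 * (muE t ^ 4 - 1) := by
        field_simp
        ring
      rw [this, Real.sqrt_mul (by positivity), Real.sqrt_sq (by positivity)]
      ring
    show |-(-(2 * muE t * -(2 * π * thetaE t * Real.sqrt (muE t ^ 4 - 1))) / (muE t ^ 2) ^ 2)| *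
      (Real.sqrt (4 * (-(muE t ^ 2)⁻¹) ^ 3 - 4 * -(muE t ^ 2)⁻¹))⁻¹ = 2 * π * thetaE t
    have e2 : -(-(2 * muE t * -(2 * π * thetaE t * Real.sqrt (muE t ^ 4 - 1))) / (muE t ^ 2) ^ 2) =
        -(4 * π * thetaE t * Real.sqrt (muE t ^ 4 - 1) / muE t ^ 3) := by
      field_simp
      ring
    rw [e1, e2, abs_neg, abs_of_pos (by positivity)]
    field_simp
    ring

end Claimed.Open.R002
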