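import Claimed.Open.R002.SanityHeckeX1

/-! # Exact value, post X2: the first product formula in the new notation -/

set_option autoImplicit false

namespace Claimed.Open.R002

open Real

/-- even/odd split of a sum over `ℤ` -/
theorem x2_hasSum_int_even_add_odd {f : ℤ → ℝ} {m m' : ℝ} (he : HasSum (fun k : ℤ => f (2 * k)) m)
    (ho : HasSum (fun k : ℤ => f (2 * k + 1)) m') : HasSum f (m + m') := by
  have h2 := mul_right_injective₀ (two_ne_zero' ℤ)
  replace ho := ((add_left_injective 1).comp h2).hasSum_range_iff.2 ho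
  refine (h2.hasSum_range_iff.2 he).add_isCompl ?_ ho
  simpa [Function.comp_def] using Int.isCompl_even_odd

/-- `∑_n exp (-π (n + 1/2)² y)` is twice the sum over even `n = 2 m` (`n ↦ -1 - n` exchanges even and
odd `n`), and `(2 m + 1/2)² y = (m + 1/4)² (4 y)`. -/
theorem evenKernel_quarter_eq {x : ℝ} (hx : 0 < x) :
    HurwitzZeta.evenKernel ((1 / 4 : ℝ) : UnitAddCircle) x = thC (x / 4) / 2 := by
  have hE := HurwitzZeta.hasSum_int_evenKernel (1 / 4 : ℝ) hx
  have hC := hasSum_thC (t := x / 4) (by positivity)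
  have he : HasSum (fun k : ℤ => rexp (-π * (((2 * k : ℤ) : ℝ) + 1 / 2) ^ 2 * (x / 4)))
      (HurwitzZeta.evenKernel ((1 / 4 : ℝ) : UnitAddCircle) x) := by
    have e : (fun k : ℤ => rexp (-π * (((2 * k : ℤ) : ℝ) + 1 / 2) ^ 2 * (x / 4)))
        = fun k : ℤ => rexp (-π * ((k : ℝ) + 1 / 4) ^ 2 * x) := by
      funext k
      congr 1
      push_cast
      ring
    rw [e]
    exact hE
  have ho : HasSum (fun k : ℤ => rexp (-π * (((2 * k + 1 : ℤ) : ℝ) + 1 / 2) ^ 2 * (x / 4)))
      (HurwitzZeta.evenKernel ((1 / 4 : ℝ) : UnitAddCircle) x) := by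
    have e : (fun k : ℤ => rexp (-π * (((2 * k + 1 : ℤ) : ℝ) + 1 / 2) ^ 2 * (x / 4)))
        = (fun k : ℤ => rexp (-π * ((k : ℝ) + 1 / 4) ^ 2 * x)) ∘ (Equiv.subLeft (-1 : ℤ)) := by
      funext k
      simp only [Function.comp, Equiv.subLeft_apply]
      congr 1
      push_cast
      ring
    rw [e]
    exact (Equiv.subLeft (-1 : ℤ)).hasSum_iff.2 hE
  have h := (x2_hasSum_int_even_add_odd (f := fun n : ℤ => rexp (-π * ((n : ℝ) + 1 / 2) ^ 2 * (x / 4)))
    he ho).unique hC
  linarith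

theorem thetaE_eq_thP_mul_thC {t : ℝ} (ht : 0 < t) :
    thetaE t = thP (t / 2) * thC (2 * t) / 2 := by
  have h := evenKernel_quarter_eq (x := 8 * t) (by positivity)
  unfold thetaE thP
  rw [h]
  have e1 : 16 * (t / 2) = 8 * t := by ring
  have e2 : 8 * t / 4 = 2 * t := by ring
  rw [e1, e2]
  ring

end Claimed.Open.R002
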