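import Claimed.Open.R002.SanityHeckeX1

/-! # Exact value, post X5: `θ₃ (q)² = θ₃ (q²)² + θ₂ (q²)²` -/

set_option autoImplicit false

namespace Claimed.Open.R002

open Real

/-- The rotation `(c, d) ↦ (c + d, c - d)`. -/
def x5_g0 (p : ℤ × ℤ) : ℤ × ℤ := (p.1 + p.2, p.1 - p.2)

/-- The shifted rotation `(c, d) ↦ (c + d + 1, c - d)`. -/
def x5_g1 (p : ℤ × ℤ) : ℤ × ℤ := (p.1 + p.2 + 1, p.1 - p.2)

theorem x5_g0_injective : Function.Injective x5_g0 := by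
  rintro ⟨a, b⟩ ⟨c, d⟩ h
  simp only [x5_g0, Prod.mk.injEq] at h
  obtain ⟨h1, h2⟩ := h
  ext <;> simp only <;> omega

theorem x5_g1_injective : Function.Injective x5_g1 := by
  rintro ⟨a, b⟩ ⟨c, d⟩ h
  simp only [x5_g1, Prod.mk.injEq] at h
  obtain ⟨h1, h2⟩ := h
  ext <;> simp only <;> omega

theorem x5_range_g0 : Set.range x5_g0 = {p : ℤ × ℤ | Even (p.1 + p.2)} := by
  ext ⟨a, b⟩
  simp only [Set.mem_range, Set.mem_ofPred_eq, x5_g0, Prod.exists, Prod.mk.injEq]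
  constructor
  · rintro ⟨c, d, rfl, rfl⟩
    exact ⟨c, by ring⟩
  · rintro ⟨c, hc⟩
    exact ⟨c, a - c, by omega, by omega⟩

theorem x5_range_g1 : Set.range x5_g1 = {p : ℤ × ℤ | Even (p.1 + p.2)}ᶜ := by
  ext ⟨a, b⟩
  simp only [Set.mem_range, Set.mem_compl_iff, Set.mem_ofPred_eq, x5_g1, Prod.exists,
    Prod.mk.injEq, Int.not_even_iff_odd]
  constructor
  · rintro ⟨c, d, rfl, rfl⟩
    exact ⟨c, by ring⟩
  · rintro ⟨c, hc⟩
    exact ⟨c, a - c - 1, by omega, by omega⟩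

theorem x5_isCompl : IsCompl (Set.range x5_g0) (Set.range x5_g1) := by
  rw [x5_range_g0, x5_range_g1]
  exact isCompl_compl

/-- A sum over `ℤ × ℤ` splits along the two rotations. -/
theorem x5_hasSum_split {f : ℤ × ℤ → ℝ} {u v : ℝ} (h0 : HasSum (f ∘ x5_g0) u)
    (h1 : HasSum (f ∘ x5_g1) v) : HasSum f (u + v) :=
  (x5_g0_injective.hasSum_range_iff.2 h0).add_isCompl x5_isCompl
    (x5_g1_injective.hasSum_range_iff.2 h1)

/-- The product of two nonnegative sums as a sum over pairs. -/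
theorem x5_hasSum_mul {f g : ℤ → ℝ} {u v : ℝ} (hf : HasSum f u) (hg : HasSum g v)
    (hf0 : ∀ n, 0 ≤ f n) (hg0 : ∀ n, 0 ≤ g n) :
    HasSum (fun p : ℤ × ℤ => f p.1 * g p.2) (u * v) :=
  hf.mul hg (hf.summable.mul_of_nonneg hg.summable hf0 hg0)

/-- `thA t ^ 2 = ∑_{a, b} exp (-π (a² + b²) t)`.  Pairs with `a ≡ b (2)`: `(a, b) = (c + d, c - d)`,
`a² + b² = 2 (c² + d²)`: `thA (2 t) ^ 2`.  Pairs with `a ≢ b (2)`: `(a, b) = (c + d + 1, c - d)`,
`a² + b² = 2 ((c + 1/2)² + (d + 1/2)²)`: `thC (2 t) ^ 2`. -/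
theorem thA_sq {t : ℝ} (ht : 0 < t) : thA t ^ 2 = thA (2 * t) ^ 2 + thC (2 * t) ^ 2 := by
  have h2t : 0 < 2 * t := by positivity
  have hAA := x5_hasSum_mul (hasSum_thA ht) (hasSum_thA ht) (fun _ => (exp_pos _).le)
    (fun _ => (exp_pos _).le)
  have hA2 := x5_hasSum_mul (hasSum_thA h2t) (hasSum_thA h2t) (fun _ => (exp_pos _).le)
    (fun _ => (exp_pos _).le)
  have hC2 := x5_hasSum_mul (hasSum_thC h2t) (hasSum_thC h2t) (fun _ => (exp_pos _).le)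
    (fun _ => (exp_pos _).le)
  have h0 : HasSum ((fun p : ℤ × ℤ => rexp (-π * (p.1 : ℝ) ^ 2 * t) * rexp (-π * (p.2 : ℝ) ^ 2 * t))
      ∘ x5_g0) (thA (2 * t) * thA (2 * t)) := by
    convert hA2 using 1
    funext p
    simp only [Function.comp_apply, x5_g0, ← Real.exp_add]
    congr 1
    push_cast
    ring
  have h1 : HasSum ((fun p : ℤ × ℤ => rexp (-π * (p.1 : ℝ) ^ 2 * t) * rexp (-π * (p.2 : ℝ) ^ 2 * t))
      ∘ x5_g1) (thC (2 * t) * thC (2 * t)) := by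
    convert hC2 using 1
    funext p
    simp only [Function.comp_apply, x5_g1, ← Real.exp_add]
    congr 1
    push_cast
    ring
  have := hAA.unique (x5_hasSum_split h0 h1)
  rw [sq, sq, sq]
  exact this

end Claimed.Open.R002
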