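import Claimed.Open.R002.SanityVarChange

/-!
# Sanity for R002: changes of variables between integral and minimal Weierstrass equations

Let `R` be a discrete valuation ring with fraction field `K`.

* `vc_integral` (Silverman, *AEC* VII.1.3(d)): if `W` and `C • W` are integral and `u ∈ R`, then
  `r, s, t ∈ R`.
* `isMinimal_iff_forall_inv_u`: for an elliptic curve, Mathlib's `IsMinimal R W` says that `W` is
  integral and every `C` with `C • W` integral has `u⁻¹ ∈ R`.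
* `vc_unit_of_isMinimal`: between two minimal equations `u` is a unit of `R` and `r, s, t ∈ R`.
* `isMinimal_of_Δ_not_mem`: an integral equation whose discriminant is not in `𝔪 ^ 12` is minimal.
-/

set_option autoImplicit false

namespace Claimed.Open.R002

open WeierstrassCurve Polynomial

section IntRange

variable (R : Type*) [CommRing R] {K : Type*} [Field K] [Algebra R K]

/-- The image of `R` in `K`, as a subring. -/
abbrev intRange : Subring K := (algebraMap R K).range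

variable {R}

lemma isIntegral_iff_coeff (W : WeierstrassCurve K) :
    IsIntegral R W ↔ W.a₁ ∈ intRange R (K := K) ∧ W.a₂ ∈ intRange R (K := K) ∧
      W.a₃ ∈ intRange R (K := K) ∧ W.a₄ ∈ intRange R (K := K) ∧ W.a₆ ∈ intRange R (K := K) := by
  constructor
  · rintro ⟨W', rfl⟩
    exact ⟨⟨W'.a₁, rfl⟩, ⟨W'.a₂, rfl⟩, ⟨W'.a₃, rfl⟩, ⟨W'.a₄, rfl⟩, ⟨W'.a₆, rfl⟩⟩
  · rintro ⟨h₁, h₂, h₃, h₄, h₆⟩
    exact isIntegral_of_exists_lift R h₁ h₂ h₃ h₄ h₆

lemma mem_intRange_of_quartic [IsDomain R] [IsIntegrallyClosed R] [IsFractionRing R K]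
    {x c₃ c₂ c₁ c₀ : K} (h₃ : c₃ ∈ intRange R (K := K)) (h₂ : c₂ ∈ intRange R (K := K))
    (h₁ : c₁ ∈ intRange R (K := K)) (h₀ : c₀ ∈ intRange R (K := K))
    (h : x ^ 4 + c₃ * x ^ 3 + c₂ * x ^ 2 + c₁ * x + c₀ = 0) : x ∈ intRange R (K := K) := by
  obtain ⟨d₃, rfl⟩ := h₃
  obtain ⟨d₂, rfl⟩ := h₂
  obtain ⟨d₁, rfl⟩ := h₁
  obtain ⟨d₀, rfl⟩ := h₀
  have hint : IsIntegral R x := by
    refine ⟨X ^ 4 + C d₃ * X ^ 3 + C d₂ * X ^ 2 + C d₁ * X + C d₀, by monicity!, ?_⟩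
    simpa using h
  obtain ⟨y, hy⟩ := IsIntegrallyClosed.isIntegral_iff.mp hint
  exact ⟨y, hy⟩

lemma mem_intRange_of_cubic [IsDomain R] [IsIntegrallyClosed R] [IsFractionRing R K]
    {x c₂ c₁ c₀ : K} (h₂ : c₂ ∈ intRange R (K := K))
    (h₁ : c₁ ∈ intRange R (K := K)) (h₀ : c₀ ∈ intRange R (K := K))
    (h : x ^ 3 + c₂ * x ^ 2 + c₁ * x + c₀ = 0) : x ∈ intRange R (K := K) :=
  mem_intRange_of_quartic h₂ h₁ h₀ (zero_mem _) (by linear_combination x * h)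

lemma mem_intRange_of_quadratic [IsDomain R] [IsIntegrallyClosed R] [IsFractionRing R K]
    {x c₁ c₀ : K} (h₁ : c₁ ∈ intRange R (K := K)) (h₀ : c₀ ∈ intRange R (K := K))
    (h : x ^ 2 + c₁ * x + c₀ = 0) : x ∈ intRange R (K := K) :=
  mem_intRange_of_cubic h₁ h₀ (zero_mem _) (by linear_combination x * h)

/-- Silverman, *AEC* VII.1.3(d): a change of variables `(u, r, s, t)` with `u ∈ R` between two
integral Weierstrass equations has `r, s, t ∈ R`. -/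
theorem vc_integral [IsDomain R] [IsIntegrallyClosed R] [IsFractionRing R K]
    {W : WeierstrassCurve K} {C : VariableChange K} (hW : IsIntegral R W)
    (hCW : IsIntegral R (C • W)) (hu : (C.u : K) ∈ intRange R (K := K)) :
    C.r ∈ intRange R (K := K) ∧ C.s ∈ intRange R (K := K) ∧ C.t ∈ intRange R (K := K) := by
  have hu0 : (C.u : K) ≠ 0 := C.u.ne_zero
  obtain ⟨ha₁, ha₂, ha₃, ha₄, ha₆⟩ := (isIntegral_iff_coeff W).mp hW
  obtain ⟨ha₁', ha₂', ha₃', ha₄', ha₆'⟩ := (isIntegral_iff_coeff (C • W)).mp hCW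
  have hb₂ : W.b₂ ∈ intRange R (K := K) := ⟨_, integralModel_b₂_eq R W⟩
  have hb₄ : W.b₄ ∈ intRange R (K := K) := ⟨_, integralModel_b₄_eq R W⟩
  have hb₆ : W.b₆ ∈ intRange R (K := K) := ⟨_, integralModel_b₆_eq R W⟩
  have hb₈ : W.b₈ ∈ intRange R (K := K) := ⟨_, integralModel_b₈_eq R W⟩
  have hb₆' : (C • W).b₆ ∈ intRange R (K := K) := ⟨_, integralModel_b₆_eq R (C • W)⟩
  have hb₈' : (C • W).b₈ ∈ intRange R (K := K) := ⟨_, integralModel_b₈_eq R (C • W)⟩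
  have hn : ∀ n : ℕ, (n : K) ∈ intRange R (K := K) := fun n => natCast_mem _ n
  -- `3 r ∈ R`
  have e₈ : (C.u : K) ^ 8 * (C • W).b₈ =
      W.b₈ + 3 * C.r * W.b₆ + 3 * C.r ^ 2 * W.b₄ + C.r ^ 3 * W.b₂ + 3 * C.r ^ 4 := by
    rw [variableChange_b₈, Units.val_inv_eq_inv_val]
    field_simp
  have h3r : 3 * C.r ∈ intRange R (K := K) := by
    refine mem_intRange_of_quartic (c₃ := W.b₂) (c₂ := 9 * W.b₄) (c₁ := 27 * W.b₆)
      (c₀ := 27 * (W.b₈ - (C.u : K) ^ 8 * (C • W).b₈)) hb₂ (mul_mem (by exact_mod_cast hn 9) hb₄)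
      (mul_mem (by exact_mod_cast hn 27) hb₆)
      (mul_mem (by exact_mod_cast hn 27) (sub_mem hb₈ (mul_mem (pow_mem hu 8) hb₈'))) ?_
    linear_combination (-27 : K) * e₈
  -- `4 r ∈ R`
  have e₆ : (C.u : K) ^ 6 * (C • W).b₆ =
      W.b₆ + 2 * C.r * W.b₄ + C.r ^ 2 * W.b₂ + 4 * C.r ^ 3 := by
    rw [variableChange_b₆, Units.val_inv_eq_inv_val]
    field_simp
  have h4r : 4 * C.r ∈ intRange R (K := K) := by
    refine mem_intRange_of_cubic (c₂ := W.b₂) (c₁ := 8 * W.b₄)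
      (c₀ := 16 * (W.b₆ - (C.u : K) ^ 6 * (C • W).b₆)) hb₂ (mul_mem (by exact_mod_cast hn 8) hb₄)
      (mul_mem (by exact_mod_cast hn 16) (sub_mem hb₆ (mul_mem (pow_mem hu 6) hb₆'))) ?_
    linear_combination (-16 : K) * e₆
  have hr : C.r ∈ intRange R (K := K) := by
    have : C.r = 4 * C.r - 3 * C.r := by ring
    rw [this]
    exact sub_mem h4r h3r
  -- `s ∈ R`
  have e₂ : (C.u : K) ^ 2 * (C • W).a₂ = W.a₂ - C.s * W.a₁ + 3 * C.r - C.s ^ 2 := by
    rw [variableChange_a₂, Units.val_inv_eq_inv_val]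
    field_simp
  have hs : C.s ∈ intRange R (K := K) := by
    refine mem_intRange_of_quadratic (c₁ := W.a₁)
      (c₀ := (C.u : K) ^ 2 * (C • W).a₂ - W.a₂ - 3 * C.r) ha₁
      (sub_mem (sub_mem (mul_mem (pow_mem hu 2) ha₂') ha₂) h3r) ?_
    linear_combination e₂
  -- `t ∈ R`
  have e₆' : (C.u : K) ^ 6 * (C • W).a₆ =
      W.a₆ + C.r * W.a₄ + C.r ^ 2 * W.a₂ + C.r ^ 3 - C.t * W.a₃ - C.t ^ 2 - C.r * C.t * W.a₁ := by
    rw [variableChange_a₆, Units.val_inv_eq_inv_val]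
    field_simp
  have ht : C.t ∈ intRange R (K := K) := by
    refine mem_intRange_of_quadratic (c₁ := W.a₃ + C.r * W.a₁)
      (c₀ := (C.u : K) ^ 6 * (C • W).a₆ - W.a₆ - C.r * W.a₄ - C.r ^ 2 * W.a₂ - C.r ^ 3)
      (add_mem ha₃ (mul_mem hr ha₁))
      (sub_mem (sub_mem (sub_mem (sub_mem (mul_mem (pow_mem hu 6) ha₆') ha₆) (mul_mem hr ha₄))
        (mul_mem (pow_mem hr 2) ha₂)) (pow_mem hr 3)) ?_
    linear_combination e₆'
  exact ⟨hr, hs, ht⟩

end IntRange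

end Claimed.Open.R002
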