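import Claimed.Open.R002.SanityKummerImage
import Claimed.Open.R002.SanityChainCorank

/-!
# Sanity: from a complete `2`-descent with one generator to Selmer corank one

Curve-free part of the checked example of `selmerCorank E 2 = 1`.

Let `E/ℚ` be a Weierstrass curve and `P ∈ E(ℚ)`.  Assume

* `hhalf`: every point of `E(ℚ̄)` is divisible by `2`;
* `hdesc` (complete `2`-descent): every everywhere locally trivial continuous cocycle with values in `E[2]` is the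
  coboundary of a point `R` with `2R = bP + T`, `T ∈ E[2]`;
* `hne`: the Kummer class of `P ⊗ 1/2` is not zero in `H¹(ℚ, E[2^∞])`.

Choose `R₀ = P`, `2R_{k+1} = R_k`, and let `c_k ∈ Sel_{2^∞}(E/ℚ)` be the Kummer class of `P ⊗ 2⁻ᵏ`, i.e. the class of
`σ ↦ σR_k - R_k`.  Then `c₀ = 0`, `2c_{k+1} = c_k`, `c₁ ≠ 0`, and every Selmer class is a multiple of some `c_k`
(`descent_induction_rankOne`): the Selmer group is a Prüfer group `ℚ₂/ℤ₂` (`selmer_chain_of_descent`), so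
`selmerCorank E 2 = 1` (`selmerCorank_two_eq_one_of_descent`, by `SanityChainCorank.lean`).
-/

set_option autoImplicit false

namespace Claimed.Open.R002

open WeierstrassCurve
open scoped Classical

noncomputable section

attribute [-instance] DivisionRing.toRatAlgebra

local instance algQpR1 (p : ℕ) [Fact p.Prime] : Algebra ℚ ℚ_[p] := DivisionRing.toRatAlgebra
local instance algRR1 : Algebra ℚ ℝ := DivisionRing.toRatAlgebra

section RankOne

variable (E : WeierstrassCurve ℚ)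

/-- `σ ↦ σX - X` is additive in `X`. -/
lemma smul_sub_self_add (τ : GalBar ℚ) (X Y : PointsBar E ℚ) :
    τ • (X + Y) - (X + Y) = (τ • X - X) + (τ • Y - Y) := by
  rw [smul_add]; abel

lemma smul_sub_self_nsmul (τ : GalBar ℚ) (n : ℕ) (X : PointsBar E ℚ) :
    τ • (n • X) - n • X = n • (τ • X - X) := by
  rw [smul_nsmul_comm, nsmul_sub]

variable {E}

lemma exists_div_two_pow_of_half (hhalf : ∀ Q : PointsBar E ℚ, ∃ Q' : PointsBar E ℚ, Q' + Q' = Q)
    (n : ℕ) (Q : PointsBar E ℚ) : ∃ Q' : PointsBar E ℚ, 2 ^ n • Q' = Q := by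
  induction n generalizing Q with
  | zero => exact ⟨Q, by simp⟩
  | succ n ih =>
    obtain ⟨Q₁, hQ₁⟩ := hhalf Q
    obtain ⟨Q₂, hQ₂⟩ := ih Q₁
    refine ⟨Q₂, ?_⟩
    rw [pow_succ, mul_comm, mul_nsmul', hQ₂, two_nsmul, hQ₁]

/-- A chain of halves: `2ʲ R_{k+j} = R_k`. -/
lemma chain_two_pow {R : ℕ → PointsBar E ℚ} (hs : ∀ k, R (k + 1) + R (k + 1) = R k) (k j : ℕ) :
    2 ^ j • R (k + j) = R k := by
  induction j with
  | zero => simp
  | succ j ih =>
    rw [pow_succ, mul_nsmul', ← add_assoc, two_nsmul, hs, ih]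

/-- There is a chain of halves starting at any point. -/
lemma exists_chain_of_half (hhalf : ∀ Q : PointsBar E ℚ, ∃ Q' : PointsBar E ℚ, Q' + Q' = Q)
    (P : PointsBar E ℚ) :
    ∃ R : ℕ → PointsBar E ℚ, R 0 = P ∧ ∀ k, R (k + 1) + R (k + 1) = R k := by
  choose h hh using hhalf
  exact ⟨fun k => Nat.rec P (fun _ Q => h Q) k, rfl, fun k => hh _⟩

/-- **The induction from `E[2]` to `E[2ⁿ]`.**  Every everywhere locally trivial continuous cocycle with values in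
`E[2ⁿ]` is a multiple of a Kummer cocycle `σ ↦ σR_k - R_k` of `P`, up to the coboundary of a point of `E[2^∞]`. -/
theorem descent_induction_rankOne {P : PointsBar E ℚ}
    (hhalf : ∀ Q : PointsBar E ℚ, ∃ Q' : PointsBar E ℚ, Q' + Q' = Q)
    (hdesc : ∀ ξ : Z1 (GalBar ℚ) (PointsBar E ℚ), (∀ τ, ξ.1 τ + ξ.1 τ = 0) → LocTriv E ξ.1 →
      ∃ (R T : PointsBar E ℚ) (b : ℕ), T + T = 0 ∧ R + R = b • P + T ∧
        ∀ τ : GalBar ℚ, ξ.1 τ = τ • R - R)
    {R : ℕ → PointsBar E ℚ} (h0 : R 0 = P) (hs : ∀ k, R (k + 1) + R (k + 1) = R k) (n : ℕ) :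
    ∀ ξ : Z1 (GalBar ℚ) (PointsBar E ℚ), (∀ τ, 2 ^ n • ξ.1 τ = 0) → LocTriv E ξ.1 →
      ∃ (a k : ℕ) (T : PointsBar E ℚ), (∃ m : ℕ, 2 ^ m • T = 0) ∧
        ∀ τ : GalBar ℚ, ξ.1 τ = a • (τ • R k - R k) + (τ • T - T) := by
  induction n with
  | zero =>
    intro ξ h _
    exact ⟨0, 0, 0, ⟨0, by simp⟩, fun τ => by simpa using h τ⟩
  | succ n ih =>
    intro ξ h hloc
    have hη : ∀ τ, (2 ^ n • ξ).1 τ = 2 ^ n • ξ.1 τ := fun τ => rfl
    obtain ⟨R₀, T₀, b, hT₀, hR₀, hη'⟩ := hdesc (2 ^ n • ξ)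
      (fun τ => by rw [hη, ← two_nsmul, ← mul_nsmul', ← pow_succ']; exact h τ)
      (hloc.nsmul E (2 ^ n))
    obtain ⟨S, hS⟩ := exists_div_two_pow_of_half hhalf n R₀
    obtain ⟨a', k', T', ⟨m', hm'⟩, hξ'⟩ := ih (ξ - cob E ℚ S)
      (fun τ => by
        show 2 ^ n • (ξ.1 τ - (τ • S - S)) = 0
        rw [nsmul_sub, ← hη, hη', nsmul_sub, ← smul_nsmul_comm, hS, sub_self])
      (hloc.sub E (LocTriv.cob E S))
    -- `U = S - b R_{n+1}` is a torsion point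
    have hSb : 2 ^ (n + 1) • S = b • P + T₀ := by
      rw [pow_succ', mul_nsmul', hS, two_nsmul, hR₀]
    have hRb : 2 ^ (n + 1) • (b • R (n + 1)) = b • P := by
      have := chain_two_pow hs 0 (n + 1)
      rw [zero_add, h0] at this
      rw [nsmul_left_comm, this]
    have hU : 2 ^ (n + 1) • (S - b • R (n + 1)) = T₀ := by
      rw [nsmul_sub, hSb, hRb]; abel
    have hU2 : 2 ^ (n + 2) • (S - b • R (n + 1)) = 0 := by
      rw [pow_succ', mul_nsmul', hU, two_nsmul, hT₀]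
    have e1 : R (n + 1) = 2 ^ k' • R (n + 1 + k') := (chain_two_pow hs (n + 1) k').symm
    have e2 : R k' = 2 ^ (n + 1) • R (n + 1 + k') := by
      rw [add_comm (n + 1) k']; exact (chain_two_pow hs k' (n + 1)).symm
    refine ⟨b * 2 ^ k' + a' * 2 ^ (n + 1), n + 1 + k', (S - b • R (n + 1)) + T',
      ⟨n + 2 + m', ?_⟩, fun τ => ?_⟩
    · rw [nsmul_add, pow_add, mul_comm, mul_nsmul', hU2, nsmul_zero, zero_add, mul_comm, mul_nsmul',
        hm', nsmul_zero]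
    · have h1 : ξ.1 τ - (τ • S - S) = a' • (τ • R k' - R k') + (τ • T' - T') := hξ' τ
      have h2 : τ • S - S = b • (τ • R (n + 1) - R (n + 1)) +
          (τ • (S - b • R (n + 1)) - (S - b • R (n + 1))) := by
        rw [← smul_sub_self_nsmul, ← smul_sub_self_add]
        congr 2 <;> abel
      have h3 : τ • R (n + 1) - R (n + 1) = 2 ^ k' • (τ • R (n + 1 + k') - R (n + 1 + k')) := by
        rw [← smul_sub_self_nsmul, ← e1]
      have h4 : τ • R k' - R k' = 2 ^ (n + 1) • (τ • R (n + 1 + k') - R (n + 1 + k')) := by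
        rw [← smul_sub_self_nsmul, ← e2]
      rw [smul_sub_self_add, add_nsmul, mul_nsmul', mul_nsmul', ← h3, ← h4]
      calc ξ.1 τ = (ξ.1 τ - (τ • S - S)) + (τ • S - S) := by abel
        _ = _ := by rw [h1, h2]; abel

/-- **The `2^∞`-Selmer group is a Prüfer group.**  Under the hypotheses in the header of this file there are classes
`c_k ∈ Sel_{2^∞}(E/ℚ)` (the Kummer classes of `P ⊗ 2⁻ᵏ`) with `c₀ = 0`, `2c_{k+1} = c_k`, `c₁ ≠ 0`, such that every
Selmer class is a multiple of some `c_k`. -/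
theorem selmer_chain_of_descent {P : PointsBar E ℚ} (hP : P ∈ rationalPoints E ℚ)
    (hhalf : ∀ Q : PointsBar E ℚ, ∃ Q' : PointsBar E ℚ, Q' + Q' = Q)
    (hdesc : ∀ ξ : Z1 (GalBar ℚ) (PointsBar E ℚ), (∀ τ, ξ.1 τ + ξ.1 τ = 0) → LocTriv E ξ.1 →
      ∃ (R T : PointsBar E ℚ) (b : ℕ), T + T = 0 ∧ R + R = b • P + T ∧
        ∀ τ : GalBar ℚ, ξ.1 τ = τ • R - R)
    (hne : ∀ R₁ T : PointsBar E ℚ, R₁ + R₁ = P → (∃ m : ℕ, 2 ^ m • T = 0) →
      ¬ ∀ τ : GalBar ℚ, τ • R₁ - R₁ = τ • T - T) :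
    ∃ c : ℕ → Selmer E 2, c 0 = 0 ∧ (∀ k, 2 • c (k + 1) = c k) ∧ c 1 ≠ 0 ∧
      ∀ a : Selmer E 2, ∃ n k : ℕ, a = n • c k := by
  obtain ⟨R, h0, hs⟩ := exists_chain_of_half hhalf P
  have hrat : ∀ k, 2 ^ k • R k ∈ rationalPoints E ℚ := fun k => by
    have := chain_two_pow hs 0 k
    rw [zero_add, h0] at this
    rw [this]; exact hP
  choose ξ hξ hmem using fun k => exists_kummer_class_mem_Selmer E 2 (R k) k (hrat k)
  refine ⟨fun k => ⟨H1.mk (ξ k), hmem k⟩, ?_, fun k => ?_, ?_, ?_⟩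
  · apply Subtype.ext
    show H1.mk (ξ 0) = 0
    rw [H1.mk_eq_zero_iff]
    refine ⟨0, fun g => Subtype.ext ?_⟩
    rw [hξ, h0, smul_eq_of_mem_rationalPoints E ℚ hP, sub_self, smul_zero, sub_zero]
    rfl
  · apply Subtype.ext
    show 2 • H1.mk (ξ (k + 1)) = H1.mk (ξ k)
    rw [← map_nsmul]
    congr 1
    apply Subtype.ext
    funext g
    apply Subtype.ext
    show 2 • ((ξ (k + 1)).1 g).1 = ((ξ k).1 g).1
    rw [hξ, hξ, ← smul_sub_self_nsmul, two_nsmul, hs]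
  · intro h
    have h' : H1.mk (ξ 1) = 0 := congrArg Subtype.val h
    rw [H1.mk_eq_zero_iff] at h'
    obtain ⟨t, ht⟩ := h'
    refine hne (R 1) t.1 (by rw [hs, h0]) t.2 fun τ => ?_
    rw [← hξ, ht]
    rfl
  · rintro ⟨a, ha⟩
    obtain ⟨ζ, rfl⟩ := H1.mk_surjective a
    obtain ⟨n, hn⟩ := exists_uniform_exponent E 2 ζ
    rw [mem_Selmer_iff] at ha
    obtain ⟨a, k, T, hT, h⟩ := descent_induction_rankOne hhalf hdesc h0 hs n (Z1.incl E 2 ζ) hn ha
    refine ⟨a, k, Subtype.ext ?_⟩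
    show H1.mk ζ = a • H1.mk (ξ k)
    rw [← map_nsmul, ← sub_eq_zero, ← map_sub, H1.mk_eq_zero_iff]
    refine ⟨⟨T, hT⟩, fun g => Subtype.ext ?_⟩
    show (ζ.1 g).1 - a • ((ξ k).1 g).1 = g • T - T
    have : (ζ.1 g).1 = a • (g • R k - R k) + (g • T - T) := h g
    rw [this, hξ]; abel

/-- **Selmer corank one from a complete `2`-descent with one generator.** -/
theorem selmerCorank_two_eq_one_of_descent {P : PointsBar E ℚ} (hP : P ∈ rationalPoints E ℚ)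
    (hhalf : ∀ Q : PointsBar E ℚ, ∃ Q' : PointsBar E ℚ, Q' + Q' = Q)
    (hdesc : ∀ ξ : Z1 (GalBar ℚ) (PointsBar E ℚ), (∀ τ, ξ.1 τ + ξ.1 τ = 0) → LocTriv E ξ.1 →
      ∃ (R T : PointsBar E ℚ) (b : ℕ), T + T = 0 ∧ R + R = b • P + T ∧
        ∀ τ : GalBar ℚ, ξ.1 τ = τ • R - R)
    (hne : ∀ R₁ T : PointsBar E ℚ, R₁ + R₁ = P → (∃ m : ℕ, 2 ^ m • T = 0) →
      ¬ ∀ τ : GalBar ℚ, τ • R₁ - R₁ = τ • T - T) :
    selmerCorank E 2 = 1 := by
  obtain ⟨c, h0, hs, h1, hgen⟩ := selmer_chain_of_descent hP hhalf hdesc hne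
  exact corank_eq_one_of_kummer_chain 2 c h0 hs h1 hgen

end RankOne

end

end Claimed.Open.R002
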