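import Claimed.Open.R002.SanityMinimal

/-!
# Sanity for R002: the Tamagawa number does not depend on the minimal equation

`Statement.lean` defines `c_p(E) = [E(ℚ_p) : E₀(ℚ_p)]` on Mathlib's *chosen* minimal Weierstrass
equation of `E` over `ℚ_p`.  We show (deviation 5 of `CLAIM.md`) that every minimal equation gives
the same number:

* `E0Set R W`, `tamagawaOf R W`: the definitions of `Statement.lean` for an arbitrary minimal
  equation over the fraction field of a discrete valuation ring;
* `mem_E0Set_iff_vcHom`: the isomorphism `(C • W)(K) ≃ W(K)` between two minimal equations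
  identifies the sets of points with nonsingular reduction;
* `tamagawaOf_smul`, `tamagawaNumber_eq_tamagawaOf`: the index is the same;
* `tamagawaOf_eq_one_of_hasGoodReduction`: `c = 1` for good reduction.
-/

set_option autoImplicit false

namespace Claimed.Open.R002

open WeierstrassCurve

section Generic

variable (R : Type*) [CommRing R] [IsDomain R] [IsDiscreteValuationRing R]
variable {K : Type*} [Field K] [Algebra R K] [IsFractionRing R K]

/-- The set `W₀(K)` of points with nonsingular reduction on a minimal Weierstrass equation `W`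
(the definition of `nonsingularReductionSet` in `Statement.lean`, for general `R`, `K`, `W`). -/
def E0Set (W : WeierstrassCurve K) [IsMinimal R W] : Set W.toAffine.Point :=
  {P | ∀ (x y : R) (h : W.toAffine.Nonsingular (algebraMap R K x) (algebraMap R K y)),
    P = .some _ _ h →
      (W.reduction R).toAffine.Nonsingular (IsLocalRing.residue R x) (IsLocalRing.residue R y)}

lemma zero_mem_E0Set (W : WeierstrassCurve K) [IsMinimal R W] :
    (Affine.Point.zero : W.toAffine.Point) ∈ E0Set R W := by
  intro x y h hP
  exact absurd hP (by simp)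

lemma some_mem_E0Set_iff (W : WeierstrassCurve K) [IsMinimal R W] {x y : K}
    (h : W.toAffine.Nonsingular x y) :
    (Affine.Point.some x y h : W.toAffine.Point) ∈ E0Set R W ↔
      ∀ x₀ y₀ : R, algebraMap R K x₀ = x → algebraMap R K y₀ = y →
        (W.reduction R).toAffine.Nonsingular (IsLocalRing.residue R x₀)
          (IsLocalRing.residue R y₀) := by
  constructor
  · intro hP x₀ y₀ hx hy
    subst hx hy
    exact hP x₀ y₀ h rfl
  · intro hP x₀ y₀ h' e
    simp only [Affine.Point.some.injEq] at e
    exact hP x₀ y₀ e.1.symm e.2.symm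

/-- The index `[W(K) : W₀(K)]` on a minimal Weierstrass equation `W` (the definition of
`tamagawaNumber` in `Statement.lean`, for general `R`, `K`, `W`). -/
noncomputable def tamagawaOf [DecidableEq K] (W : WeierstrassCurve K) [IsMinimal R W] : ℕ :=
  (AddSubgroup.closure (E0Set R W)).index

lemma tamagawaOf_congr [DecidableEq K] {W₁ W₂ : WeierstrassCurve K} [IsMinimal R W₁]
    [IsMinimal R W₂] (h : W₁ = W₂) : tamagawaOf R W₁ = tamagawaOf R W₂ := by
  subst h
  rfl

/-- A change of variables between two minimal equations of an elliptic curve comes from `R`. -/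
lemma exists_vc_lift {W : WeierstrassCurve K} [W.IsElliptic] {C : VariableChange K}
    (hW : IsMinimal R W) (hCW : IsMinimal R (C • W)) :
    ∃ C₀ : VariableChange R, C₀.map (algebraMap R K) = C := by
  obtain ⟨⟨u, hu⟩, ⟨u', hu'⟩, ⟨r, hr⟩, ⟨s, hs⟩, ⟨t, ht⟩⟩ := vc_of_isMinimal R hW hCW
  have inj := IsFractionRing.injective R K
  have h1 : u * u' = 1 := by
    apply inj
    rw [map_mul, hu, hu', map_one, Units.mul_inv]
  refine ⟨⟨⟨u, u', h1, by rw [mul_comm]; exact h1⟩, r, s, t⟩, ?_⟩
  ext
  · simpa using hu
  · simpa using hr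
  · simpa using hs
  · simpa using ht

/-- The reduction of `C • W` is `C̄ • W̄`. -/
lemma reduction_smul {W : WeierstrassCurve K} [IsMinimal R W] (C₀ : VariableChange R)
    [IsMinimal R (C₀.map (algebraMap R K) • W)] :
    (C₀.map (algebraMap R K) • W).reduction R =
      C₀.map (IsLocalRing.residue R) • W.reduction R := by
  have inj := IsFractionRing.injective R K
  have e : integralModel R (C₀.map (algebraMap R K) • W) = C₀ • integralModel R W := by
    apply WeierstrassCurve.map_injective inj
    show (integralModel R (C₀.map (algebraMap R K) • W))⁄K = (C₀ • integralModel R W).map _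
    rw [baseChange_integralModel_eq, ← map_variableChange]
    congr 1
    exact (baseChange_integralModel_eq R W).symm
  rw [reduction, reduction, e, map_variableChange]

lemma map_vcX {A B : Type*} [Field B] [CommRing A] (φ : A →+* B) (C₀ : VariableChange A) (x : A) :
    vcX (C₀.map φ) (φ x) = φ ((C₀.u : A) ^ 2 * x + C₀.r) := by
  simp [vcX]

lemma map_vcY {A B : Type*} [Field B] [CommRing A] (φ : A →+* B) (C₀ : VariableChange A)
    (x y : A) :
    vcY (C₀.map φ) (φ x) (φ y) = φ ((C₀.u : A) ^ 3 * y + (C₀.u : A) ^ 2 * C₀.s * x + C₀.t) := by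
  simp [vcY]

variable [DecidableEq K]

/-- The isomorphism `(C • W)(K) ≃ W(K)` between two minimal equations of an elliptic curve
identifies the sets of points with nonsingular reduction. -/
theorem mem_E0Set_iff_vcHom (W : WeierstrassCurve K) [W.IsElliptic] [hW : IsMinimal R W]
    (C : VariableChange K) [hCW : IsMinimal R (C • W)] (P : (C • W).toAffine.Point) :
    vcHom W C P ∈ E0Set R W ↔ P ∈ E0Set R (C • W) := by
  obtain ⟨C₀, rfl⟩ := exists_vc_lift R hW hCW
  have inj := IsFractionRing.injective R K
  rcases P with _ | ⟨x, y, h⟩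
  · exact iff_of_true (zero_mem_E0Set R W) (zero_mem_E0Set R _)
  · rw [vcHom_some, some_mem_E0Set_iff, some_mem_E0Set_iff, reduction_smul]
    constructor
    · intro H x₀ y₀ hx hy
      subst hx hy
      have := H _ _ (map_vcX (algebraMap R K) C₀ x₀).symm (map_vcY (algebraMap R K) C₀ x₀ y₀).symm
      rw [← map_vcX, ← map_vcY, vc_nonsingular_iff] at this
      exact this
    · intro H X₀ Y₀ hX hY
      -- the coordinates `x`, `y` are integral as well
      set u' : R := ((C₀.u⁻¹ : Rˣ) : R) with hu'
      have huu : (C₀.u : R) * u' = 1 := Units.mul_inv _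
      set x₀ : R := u' ^ 2 * (X₀ - C₀.r) with hx₀
      set y₀ : R := u' ^ 3 * (Y₀ - (C₀.u : R) ^ 2 * C₀.s * x₀ - C₀.t) with hy₀
      have eX : (C₀.u : R) ^ 2 * x₀ + C₀.r = X₀ := by
        rw [hx₀]
        linear_combination (X₀ - C₀.r) * ((C₀.u : R) * u' + 1) * huu
      have eY : (C₀.u : R) ^ 3 * y₀ + (C₀.u : R) ^ 2 * C₀.s * x₀ + C₀.t = Y₀ := by
        rw [hy₀]
        linear_combination (Y₀ - (C₀.u : R) ^ 2 * C₀.s * x₀ - C₀.t) *
          (((C₀.u : R) * u') ^ 2 + (C₀.u : R) * u' + 1) * huu
      have hx : algebraMap R K x₀ = x := by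
        apply vcX_injective (C₀.map (algebraMap R K))
        rw [map_vcX, eX, hX]
      have hy : algebraMap R K y₀ = y := by
        apply vcY_injective (C₀.map (algebraMap R K)) x
        rw [← hx, map_vcY, eY, hY, hx]
      have := H x₀ y₀ hx hy
      rw [← vc_nonsingular_iff, map_vcX, map_vcY, eX, eY] at this
      exact this

/-- **The Tamagawa number does not depend on the minimal equation.** -/
theorem tamagawaOf_smul (W : WeierstrassCurve K) [W.IsElliptic] [IsMinimal R W]
    (C : VariableChange K) [IsMinimal R (C • W)] : tamagawaOf R (C • W) = tamagawaOf R W := by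
  have himg : (vcEquiv W C : (C • W).toAffine.Point →+ W.toAffine.Point) '' E0Set R (C • W) =
      E0Set R W := by
    ext Q
    constructor
    · rintro ⟨P, hP, rfl⟩
      exact (mem_E0Set_iff_vcHom R W C P).mpr hP
    · intro hQ
      obtain ⟨P, rfl⟩ := (vcEquiv W C).surjective Q
      exact ⟨P, (mem_E0Set_iff_vcHom R W C P).mp hQ, rfl⟩
  rw [tamagawaOf, tamagawaOf, ← himg, ← AddMonoidHom.map_closure, AddSubgroup.index_map_equiv]

omit [DecidableEq K] in
/-- At a place of good reduction every point has nonsingular reduction. -/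
theorem E0Set_eq_univ_of_hasGoodReduction (W : WeierstrassCurve K) [hW : IsMinimal R W]
    (hg : W.HasGoodReduction R) : E0Set R W = Set.univ := by
  have hell : (W.reduction R).IsElliptic := (hasGoodReduction_iff_isElliptic_reduction R).mp hg
  have inj := IsFractionRing.injective R K
  refine Set.eq_univ_of_forall fun P x y h _ => ?_
  rw [← Affine.equation_iff_nonsingular]
  have h1 : ((integralModel R W)⁄K).toAffine.Equation (algebraMap R K x) (algebraMap R K y) := by
    rw [baseChange_integralModel_eq]; exact h.1
  have h2 : (integralModel R W).toAffine.Equation x y :=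
    (Affine.map_equation (W := (integralModel R W).toAffine) inj x y).mp h1
  exact Affine.Equation.map (IsLocalRing.residue R) h2

/-- `c = 1` at a place of good reduction. -/
theorem tamagawaOf_eq_one_of_hasGoodReduction (W : WeierstrassCurve K) [hW : IsMinimal R W]
    (hg : W.HasGoodReduction R) : tamagawaOf R W = 1 := by
  rw [tamagawaOf, E0Set_eq_univ_of_hasGoodReduction R W hg, AddSubgroup.closure_univ,
    AddSubgroup.index_top]

omit [DecidableEq K] in
/-- An integral equation with unit discriminant is minimal and has good reduction. -/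
theorem hasGoodReduction_of_isUnit_Δ (W : WeierstrassCurve K) [W.IsElliptic] [IsIntegral R W]
    (h : IsUnit (integralModel R W).Δ) : W.HasGoodReduction R := by
  have hnm : (integralModel R W).Δ ∉ IsLocalRing.maximalIdeal R := by
    rw [IsLocalRing.mem_maximalIdeal, mem_nonunits_iff, not_not]
    exact h
  have hmin : IsMinimal R W :=
    isMinimal_of_Δ_notMem R W fun hmem => hnm (Ideal.pow_le_self (by norm_num) hmem)
  refine (hasGoodReduction_iff R W).mpr ⟨hmin, ?_⟩
  rw [← integralModel_Δ_eq R W, IsDedekindDomain.HeightOneSpectrum.valuation_eq_one_iff_notMem]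
  exact hnm

end Generic

/-! ## The definitions of `Statement.lean` -/

section Padic

open scoped Classical

variable (E : WeierstrassCurve ℚ) (p : ℕ) [Fact p.Prime]

lemma nonsingularReductionSet_eq_E0Set :
    nonsingularReductionSet E p = E0Set ℤ_[p] (localMinimalModel E p) := rfl

lemma tamagawaNumber_eq_tamagawaOf_localMinimalModel :
    tamagawaNumber E p = tamagawaOf ℤ_[p] (localMinimalModel E p) := rfl

instance baseChangePadic.instIsElliptic [E.IsElliptic] : (E⁄ℚ_[p]).IsElliptic :=
  inferInstanceAs (E.map (algebraMap ℚ ℚ_[p])).IsElliptic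

instance localMinimalModel.instIsElliptic [E.IsElliptic] : (localMinimalModel E p).IsElliptic := by
  unfold localMinimalModel WeierstrassCurve.minimal
  infer_instance

/-- `c_p(E)` can be computed on any minimal Weierstrass equation `C • E` of `E` over `ℚ_p`. -/
theorem tamagawaNumber_eq_tamagawaOf [E.IsElliptic] (C : VariableChange ℚ_[p])
    [IsMinimal ℤ_[p] (C • (E⁄ℚ_[p]))] :
    tamagawaNumber E p = tamagawaOf ℤ_[p] (C • (E⁄ℚ_[p])) := by
  rw [tamagawaNumber_eq_tamagawaOf_localMinimalModel]
  set C₀ : VariableChange ℚ_[p] := ((E⁄ℚ_[p]).exists_isMinimal ℤ_[p]).choose with hC₀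
  have e0 : localMinimalModel E p = C₀ • (E⁄ℚ_[p]) := rfl
  have e : C • (E⁄ℚ_[p]) = (C * C₀⁻¹) • localMinimalModel E p := by
    rw [e0, ← mul_smul, inv_mul_cancel_right]
  have : IsMinimal ℤ_[p] ((C * C₀⁻¹) • localMinimalModel E p) := by rw [← e]; infer_instance
  rw [tamagawaOf_congr ℤ_[p] e, tamagawaOf_smul]

/-- If the given equation is already minimal at `p`, `c_p(E)` can be computed on it. -/
theorem tamagawaNumber_eq_of_isMinimal [E.IsElliptic] [IsMinimal ℤ_[p] (E⁄ℚ_[p])] :
    tamagawaNumber E p = tamagawaOf ℤ_[p] (E⁄ℚ_[p]) := by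
  have e : (1 : VariableChange ℚ_[p]) • (E⁄ℚ_[p]) = E⁄ℚ_[p] := one_smul _ _
  have : IsMinimal ℤ_[p] ((1 : VariableChange ℚ_[p]) • (E⁄ℚ_[p])) := by rw [e]; infer_instance
  rw [tamagawaNumber_eq_tamagawaOf E p 1, tamagawaOf_congr ℤ_[p] e]

end Padic

end Claimed.Open.R002
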