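import Mathlib

/-! # Twist road, post K3a: two numerical bounds for one-dimensional theta sums (Mathlib only) -/

set_option autoImplicit false

namespace Claimed.Open.R002

open Real

/-- summability: compare with `exp (-c |m| / 2)` (`(m + 1/4)² ≥ |m| / 2` for every integer `m`), or use `HurwitzZeta.hasSum_int_evenKernel`. -/
theorem summable_exp_quarter {c : ℝ} (hc : 0 < c) :
    Summable fun m : ℤ => rexp (-c * ((m : ℝ) + 1 / 4) ^ 2) := by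
  have h := HurwitzKernelBounds.summable_f_int 0 (1 / 4) (t := c / π) (by positivity)
  refine h.congr fun m => ?_
  have e : -π * ((m : ℝ) + 1 / 4) ^ 2 * (c / π) = -c * ((m : ℝ) + 1 / 4) ^ 2 := by
    field_simp
  rw [HurwitzKernelBounds.f_int, e, pow_zero, one_mul]

theorem summable_abs_mul_exp_quarter {c : ℝ} (hc : 0 < c) :
    Summable fun m : ℤ => |(m : ℝ) + 1 / 4| * rexp (-c * ((m : ℝ) + 1 / 4) ^ 2) := by
  have h := HurwitzKernelBounds.summable_f_int 1 (1 / 4) (t := c / π) (by positivity)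
  refine h.congr fun m => ?_
  have e : -π * ((m : ℝ) + 1 / 4) ^ 2 * (c / π) = -c * ((m : ℝ) + 1 / 4) ^ 2 := by
    field_simp
  rw [HurwitzKernelBounds.f_int, e, pow_one]

/-- pairing `m = k`, `m = -(k + 1)`; the first pair is kept, the others are compared with a geometric series -/
theorem k3a_bound (f : ℤ → ℝ) (hs : Summable f) (A C r : ℝ) (hr0 : 0 ≤ r) (hr : r < 1)
    (h0 : f 0 + f (-1) ≤ A)
    (hk : ∀ k : ℕ, f ((k + 1 : ℕ) : ℤ) + f (-(((k + 1 : ℕ) : ℤ) + 1)) ≤ C * r ^ k) :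
    ∑' m, f m ≤ A + C * (1 - r)⁻¹ := by
  have h := hs.hasSum.nat_add_neg_add_one
  have h1 := (hasSum_nat_add_iff' 1).mpr h
  have hgeo : HasSum (fun k : ℕ => C * r ^ k) (C * (1 - r)⁻¹) :=
    (hasSum_geometric_of_lt_one hr0 hr).mul_left C
  have h2 := hasSum_le hk h1 hgeo
  simp only [Finset.range_one, Finset.sum_singleton, Nat.cast_zero, zero_add] at h2
  linarith

theorem k3a_inv_le {y b : ℝ} (hb : 1 ≤ b * rexp y) : rexp (-y) ≤ b := by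
  rw [Real.exp_neg]
  have hy : 0 < rexp y := Real.exp_pos y
  rw [inv_le_iff_one_le_mul₀ hy]
  exact hb

theorem k3a_E1 {c : ℝ} (hc : 7 / 4 ≤ c) : rexp (-c * (1 / 4 : ℝ) ^ 2) ≤ 897 / 1000 := by
  have h1 : rexp (-c * (1 / 4 : ℝ) ^ 2) ≤ rexp (-(7 / 64 : ℝ)) :=
    Real.exp_le_exp.mpr (by linarith)
  refine h1.trans (k3a_inv_le ?_)
  have := Real.quadratic_le_exp_of_nonneg (x := (7 / 64 : ℝ)) (by norm_num)
  linarith

theorem k3a_E2 {c : ℝ} (hc : 7 / 4 ≤ c) : rexp (-c * (3 / 4 : ℝ) ^ 2) ≤ 41 / 100 := by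
  have h1 : rexp (-c * (3 / 4 : ℝ) ^ 2) ≤ rexp (-(63 / 64 : ℝ)) :=
    Real.exp_le_exp.mpr (by linarith)
  refine h1.trans (k3a_inv_le ?_)
  have := Real.quadratic_le_exp_of_nonneg (x := (63 / 64 : ℝ)) (by norm_num)
  linarith

theorem k3a_rho : rexp (-(35 / 8 : ℝ)) ≤ 1 / 10 := by
  refine k3a_inv_le ?_
  have := Real.quadratic_le_exp_of_nonneg (x := (35 / 8 : ℝ)) (by norm_num)
  linarith

theorem k3a_e_gt : (2.71 : ℝ) < rexp 1 := lt_trans (by norm_num) Real.exp_one_gt_d9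

theorem k3a_a5 : rexp (-(175 / 64 : ℝ)) ≤ 7 / 100 := by
  refine k3a_inv_le ?_
  have h1 : rexp (175 / 64 : ℝ) = rexp 1 ^ 2 * rexp (47 / 64) := by
    rw [← Real.exp_nat_mul, ← Real.exp_add]; norm_num
  have h2 : (2.71 : ℝ) ^ 2 < rexp 1 ^ 2 := pow_lt_pow_left₀ k3a_e_gt (by norm_num) (by norm_num)
  have h3 := Real.quadratic_le_exp_of_nonneg (x := (47 / 64 : ℝ)) (by norm_num)
  have h4 : (7.3441 : ℝ) * 2.004 ≤ rexp 1 ^ 2 * rexp (47 / 64) := by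
    apply mul_le_mul _ _ (by norm_num) (by positivity)
    · have : (2.71 : ℝ) ^ 2 = 7.3441 := by norm_num
      linarith
    · norm_num at h3 ⊢
      linarith
  rw [h1]
  linarith

theorem k3a_a7 : rexp (-(343 / 64 : ℝ)) ≤ 7 / 1000 := by
  refine k3a_inv_le ?_
  have h0 : rexp 5 ≤ rexp (343 / 64 : ℝ) := Real.exp_le_exp.mpr (by norm_num)
  have h1 : rexp (5 : ℝ) = rexp 1 ^ 5 := by
    rw [← Real.exp_nat_mul]; norm_num
  have h2 : (2.71 : ℝ) ^ 5 < rexp 1 ^ 5 := pow_lt_pow_left₀ k3a_e_gt (by norm_num) (by norm_num)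
  have h3 : (146 : ℝ) < (2.71 : ℝ) ^ 5 := by norm_num
  rw [h1] at h0
  linarith

theorem k3a_E3 {c : ℝ} (hc : 7 / 4 ≤ c) (k : ℕ) :
    rexp (-c * ((k : ℝ) + 5 / 4) ^ 2) ≤ 7 / 100 * (1 / 10) ^ k := by
  have hk : (0 : ℝ) ≤ (k : ℝ) := Nat.cast_nonneg k
  have h1 : -c * ((k : ℝ) + 5 / 4) ^ 2 ≤ -(175 / 64 : ℝ) + (k : ℝ) * (-(35 / 8 : ℝ)) := by
    have h2 : (25 / 16 : ℝ) + 5 / 2 * k ≤ ((k : ℝ) + 5 / 4) ^ 2 := by nlinarith
    have h3 : (7 / 4 : ℝ) * ((25 / 16 : ℝ) + 5 / 2 * k) ≤ c * ((k : ℝ) + 5 / 4) ^ 2 :=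
      mul_le_mul hc h2 (by positivity) (by linarith)
    linarith
  calc rexp (-c * ((k : ℝ) + 5 / 4) ^ 2)
      ≤ rexp (-(175 / 64 : ℝ) + (k : ℝ) * (-(35 / 8 : ℝ))) := Real.exp_le_exp.mpr h1
    _ = rexp (-(175 / 64 : ℝ)) * rexp (-(35 / 8 : ℝ)) ^ k := by
        rw [Real.exp_add, Real.exp_nat_mul]
    _ ≤ 7 / 100 * (1 / 10) ^ k :=
        mul_le_mul k3a_a5 (pow_le_pow_left₀ (Real.exp_pos _).le k3a_rho k) (by positivity)
          (by norm_num)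

theorem k3a_E4 {c : ℝ} (hc : 7 / 4 ≤ c) (k : ℕ) :
    rexp (-c * ((k : ℝ) + 7 / 4) ^ 2) ≤ 7 / 1000 * (1 / 10) ^ k := by
  have hk : (0 : ℝ) ≤ (k : ℝ) := Nat.cast_nonneg k
  have h1 : -c * ((k : ℝ) + 7 / 4) ^ 2 ≤ -(343 / 64 : ℝ) + (k : ℝ) * (-(35 / 8 : ℝ)) := by
    have h2 : (49 / 16 : ℝ) + 5 / 2 * k ≤ ((k : ℝ) + 7 / 4) ^ 2 := by nlinarith
    have h3 : (7 / 4 : ℝ) * ((49 / 16 : ℝ) + 5 / 2 * k) ≤ c * ((k : ℝ) + 7 / 4) ^ 2 :=
      mul_le_mul hc h2 (by positivity) (by linarith)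
    linarith
  calc rexp (-c * ((k : ℝ) + 7 / 4) ^ 2)
      ≤ rexp (-(343 / 64 : ℝ) + (k : ℝ) * (-(35 / 8 : ℝ))) := Real.exp_le_exp.mpr h1
    _ = rexp (-(343 / 64 : ℝ)) * rexp (-(35 / 8 : ℝ)) ^ k := by
        rw [Real.exp_add, Real.exp_nat_mul]
    _ ≤ 7 / 1000 * (1 / 10) ^ k :=
        mul_le_mul k3a_a7 (pow_le_pow_left₀ (Real.exp_pos _).le k3a_rho k) (by positivity)
          (by norm_num)

theorem k3a_cast1 (k : ℕ) : ((((k + 1 : ℕ) : ℤ) : ℝ) + 1 / 4) = (k : ℝ) + 5 / 4 := by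
  push_cast; ring

theorem k3a_cast2 (k : ℕ) : (((-(((k + 1 : ℕ) : ℤ) + 1) : ℤ) : ℝ) + 1 / 4) = -((k : ℝ) + 7 / 4) := by
  push_cast; ring

/-- True value at `c = 7/4`: `0.8964 + 0.3737 + 0.0650 + 0.0047 + 0.0001 = 1.340` (`m = 0, -1, 1, -2, 2`); decreasing in `c`.  E.g. split off `m = 0, -1`, and for the others
`(m + 1/4)² ≥ (5/4) |m + 1/4| ≥ (5/4)(|m| - 1/4)`, a geometric series. -/
theorem tsum_exp_quarter_le {c : ℝ} (hc : 7 / 4 ≤ c) :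
    ∑' m : ℤ, rexp (-c * ((m : ℝ) + 1 / 4) ^ 2) ≤ 3 / 2 := by
  have hc0 : 0 < c := by linarith
  have h := k3a_bound (fun m : ℤ => rexp (-c * ((m : ℝ) + 1 / 4) ^ 2)) (summable_exp_quarter hc0)
    (897 / 1000 + 41 / 100) (77 / 1000) (1 / 10) (by norm_num) (by norm_num) ?_ ?_
  · refine h.trans ?_
    norm_num
  · have e1 : (((0 : ℤ) : ℝ) + 1 / 4) = 1 / 4 := by push_cast; ring
    have e2 : (((-1 : ℤ) : ℝ) + 1 / 4) = -(3 / 4) := by push_cast; ring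
    simp only [e1, e2, neg_sq]
    exact add_le_add (k3a_E1 hc) (k3a_E2 hc)
  · intro k
    simp only [k3a_cast1, k3a_cast2, neg_sq]
    have h3 := k3a_E3 hc k
    have h4 := k3a_E4 hc k
    calc _ ≤ 7 / 100 * (1 / 10 : ℝ) ^ k + 7 / 1000 * (1 / 10) ^ k := add_le_add h3 h4
      _ = 77 / 1000 * (1 / 10) ^ k := by ring

/-- True value at `c = 7/4`: `0.2241 + 0.2803 + 0.0812 + 0.0082 + 0.0003 = 0.594`; each term is decreasing in `c`. -/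
theorem tsum_abs_mul_exp_quarter_le {c : ℝ} (hc : 7 / 4 ≤ c) :
    ∑' m : ℤ, |(m : ℝ) + 1 / 4| * rexp (-c * ((m : ℝ) + 1 / 4) ^ 2) ≤ 3 / 4 := by
  have hc0 : 0 < c := by linarith
  have h := k3a_bound (fun m : ℤ => |(m : ℝ) + 1 / 4| * rexp (-c * ((m : ℝ) + 1 / 4) ^ 2))
    (summable_abs_mul_exp_quarter hc0)
    (1 / 4 * (897 / 1000) + 3 / 4 * (41 / 100)) (5 / 4 * (7 / 100) + 7 / 4 * (7 / 1000)) (1 / 5)
    (by norm_num) (by norm_num) ?_ ?_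
  · refine h.trans ?_
    norm_num
  · have e1 : (((0 : ℤ) : ℝ) + 1 / 4) = 1 / 4 := by push_cast; ring
    have e2 : (((-1 : ℤ) : ℝ) + 1 / 4) = -(3 / 4) := by push_cast; ring
    simp only [e1, e2, neg_sq, abs_neg]
    rw [abs_of_pos (by norm_num : (0 : ℝ) < 1 / 4), abs_of_pos (by norm_num : (0 : ℝ) < 3 / 4)]
    exact add_le_add (mul_le_mul_of_nonneg_left (k3a_E1 hc) (by norm_num))
      (mul_le_mul_of_nonneg_left (k3a_E2 hc) (by norm_num))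
  · intro k
    have hk : (0 : ℝ) ≤ (k : ℝ) := Nat.cast_nonneg k
    simp only [k3a_cast1, k3a_cast2, neg_sq, abs_neg]
    rw [abs_of_pos (by positivity : (0 : ℝ) < (k : ℝ) + 5 / 4),
      abs_of_pos (by positivity : (0 : ℝ) < (k : ℝ) + 7 / 4)]
    have h3 := k3a_E3 hc k
    have h4 := k3a_E4 hc k
    have hp : (k : ℝ) + 1 ≤ 2 ^ k := by
      have : k + 1 ≤ 2 ^ k := Nat.lt_two_pow_self (n := k)
      exact_mod_cast this
    have hp1 : (1 : ℝ) ≤ 2 ^ k := one_le_pow₀ (by norm_num)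
    have h5 : (1 / 5 : ℝ) ^ k = 2 ^ k * (1 / 10) ^ k := by
      rw [← mul_pow]; norm_num
    have hq : (0 : ℝ) < (1 / 10 : ℝ) ^ k := by positivity
    have b1 : ((k : ℝ) + 5 / 4) * rexp (-c * ((k : ℝ) + 5 / 4) ^ 2) ≤
        (5 / 4 * 2 ^ k) * (7 / 100 * (1 / 10) ^ k) :=
      mul_le_mul (by linarith) h3 (Real.exp_pos _).le (by positivity)
    have b2 : ((k : ℝ) + 7 / 4) * rexp (-c * ((k : ℝ) + 7 / 4) ^ 2) ≤
        (7 / 4 * 2 ^ k) * (7 / 1000 * (1 / 10) ^ k) :=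
      mul_le_mul (by linarith) h4 (Real.exp_pos _).le (by positivity)
    calc _ ≤ (5 / 4 * 2 ^ k) * (7 / 100 * (1 / 10 : ℝ) ^ k) +
          (7 / 4 * 2 ^ k) * (7 / 1000 * (1 / 10) ^ k) := add_le_add b1 b2
      _ = (5 / 4 * (7 / 100) + 7 / 4 * (7 / 1000)) * (1 / 5) ^ k := by rw [h5]; ring

end Claimed.Open.R002
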