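import Claimed.Open.R002.SanityTwistDefs
import Claimed.Open.R002.SanityTwistK3a

/-! # Twist road, post K3b: the absolute theta sum at the fixed point -/

set_option autoImplicit false

namespace Claimed.Open.R002

open Real

/-- `8 π / √200 = 1.7772`: `π > 3.1415`, `√200 < 14.1422` (`Real.sqrt_lt'`, `14.1422² = 200.0018`). -/
theorem seven_fourths_le : 7 / 4 ≤ 8 * π * t5 := by
  have h1 : Real.sqrt 200 ≤ 14.1422 := by
    rw [Real.sqrt_le_iff]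
    constructor <;> norm_num
  have h2 : 0 < Real.sqrt 200 := Real.sqrt_pos.mpr (by norm_num)
  unfold t5
  rw [← div_eq_mul_inv, le_div_iff₀ h2]
  nlinarith [Real.pi_gt_d4]

/-- The majorant of post K3b: `2 (|u| e(u) e(v) + e(u) |v| e(v))`. -/
theorem k3b_term_le (x : ℤ × ℤ) :
    |((primOf x).re : ℝ)| * rexp (-π * ((primOf x).norm : ℝ) * t5) ≤
      2 * ((|(x.1 : ℝ) + 1 / 4| * rexp (-(8 * π * t5) * ((x.1 : ℝ) + 1 / 4) ^ 2)) *
          rexp (-(8 * π * t5) * ((x.2 : ℝ) + 1 / 4) ^ 2) +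
        rexp (-(8 * π * t5) * ((x.1 : ℝ) + 1 / 4) ^ 2) *
          (|(x.2 : ℝ) + 1 / 4| * rexp (-(8 * π * t5) * ((x.2 : ℝ) + 1 / 4) ^ 2))) := by
  have he : rexp (-π * ((primOf x).norm : ℝ) * t5) =
      rexp (-(8 * π * t5) * ((x.1 : ℝ) + 1 / 4) ^ 2) *
        rexp (-(8 * π * t5) * ((x.2 : ℝ) + 1 / 4) ^ 2) := by
    rw [← Real.exp_add, norm_primOf_real]
    congr 1
    ring
  have ha : |((primOf x).re : ℝ)| ≤ 2 * (|(x.1 : ℝ) + 1 / 4| + |(x.2 : ℝ) + 1 / 4|) := by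
    rw [re_primOf_real, abs_mul, abs_of_pos (by norm_num : (0 : ℝ) < 2)]
    exact mul_le_mul_of_nonneg_left (abs_add_le _ _) (by norm_num)
  rw [he]
  calc |((primOf x).re : ℝ)| * (rexp (-(8 * π * t5) * ((x.1 : ℝ) + 1 / 4) ^ 2) *
        rexp (-(8 * π * t5) * ((x.2 : ℝ) + 1 / 4) ^ 2))
      ≤ 2 * (|(x.1 : ℝ) + 1 / 4| + |(x.2 : ℝ) + 1 / 4|) *
        (rexp (-(8 * π * t5) * ((x.1 : ℝ) + 1 / 4) ^ 2) *
        rexp (-(8 * π * t5) * ((x.2 : ℝ) + 1 / 4) ^ 2)) :=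
        mul_le_mul_of_nonneg_right ha (by positivity)
    _ = _ := by ring

theorem k3b_c_pos : 0 < 8 * π * t5 := lt_of_lt_of_le (by norm_num) seven_fourths_le

theorem k3b_summable_left : Summable fun x : ℤ × ℤ =>
    (|(x.1 : ℝ) + 1 / 4| * rexp (-(8 * π * t5) * ((x.1 : ℝ) + 1 / 4) ^ 2)) *
      rexp (-(8 * π * t5) * ((x.2 : ℝ) + 1 / 4) ^ 2) :=
  Summable.mul_of_nonneg (summable_abs_mul_exp_quarter k3b_c_pos) (summable_exp_quarter k3b_c_pos)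
    (fun _ => by positivity) (fun _ => by positivity)

theorem k3b_summable_right : Summable fun x : ℤ × ℤ =>
    rexp (-(8 * π * t5) * ((x.1 : ℝ) + 1 / 4) ^ 2) *
      (|(x.2 : ℝ) + 1 / 4| * rexp (-(8 * π * t5) * ((x.2 : ℝ) + 1 / 4) ^ 2)) :=
  Summable.mul_of_nonneg (summable_exp_quarter k3b_c_pos) (summable_abs_mul_exp_quarter k3b_c_pos)
    (fun _ => by positivity) (fun _ => by positivity)

theorem k3b_summable_major : Summable fun x : ℤ × ℤ =>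
    2 * ((|(x.1 : ℝ) + 1 / 4| * rexp (-(8 * π * t5) * ((x.1 : ℝ) + 1 / 4) ^ 2)) *
          rexp (-(8 * π * t5) * ((x.2 : ℝ) + 1 / 4) ^ 2) +
        rexp (-(8 * π * t5) * ((x.1 : ℝ) + 1 / 4) ^ 2) *
          (|(x.2 : ℝ) + 1 / 4| * rexp (-(8 * π * t5) * ((x.2 : ℝ) + 1 / 4) ^ 2))) :=
  (k3b_summable_left.add k3b_summable_right).mul_left 2

/-- `|Re| ≤ 2 (|m + 1/4| + |n + 1/4|)` (`re_primOf_real`), `exp (-π N t₀) = exp (-c (m+1/4)²) exp (-c (n+1/4)²)`, `c = 8 π t₀` (`norm_primOf_real`); products of summable families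
(`Summable.mul_of_nonneg`). -/
theorem summable_abs_re_mul_exp :
    Summable fun x : ℤ × ℤ => |((primOf x).re : ℝ)| * rexp (-π * ((primOf x).norm : ℝ) * t5) :=
  Summable.of_nonneg_of_le (fun _ => by positivity) k3b_term_le k3b_summable_major

/-- `≤ 4 A B ≤ 4 · (3/4) · (3/2)` (K3a; `tsum_mul_tsum_of_summable_norm` / `Summable.tsum_mul_tsum`; true value `3.11`). -/
theorem tsum_abs_re_mul_exp_le :
    ∑' x : ℤ × ℤ, |((primOf x).re : ℝ)| * rexp (-π * ((primOf x).norm : ℝ) * t5) ≤ 9 / 2 := by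
  have hA := tsum_exp_quarter_le seven_fourths_le
  have hB := tsum_abs_mul_exp_quarter_le seven_fourths_le
  have hA0 : 0 ≤ ∑' m : ℤ, rexp (-(8 * π * t5) * ((m : ℝ) + 1 / 4) ^ 2) :=
    tsum_nonneg fun _ => by positivity
  have hB0 : 0 ≤ ∑' m : ℤ, |(m : ℝ) + 1 / 4| * rexp (-(8 * π * t5) * ((m : ℝ) + 1 / 4) ^ 2) :=
    tsum_nonneg fun _ => by positivity
  have h1 := (summable_abs_mul_exp_quarter k3b_c_pos).tsum_mul_tsum
    (summable_exp_quarter k3b_c_pos) k3b_summable_left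
  have h2 := (summable_exp_quarter k3b_c_pos).tsum_mul_tsum
    (summable_abs_mul_exp_quarter k3b_c_pos) k3b_summable_right
  calc ∑' x : ℤ × ℤ, |((primOf x).re : ℝ)| * rexp (-π * ((primOf x).norm : ℝ) * t5)
      ≤ ∑' x : ℤ × ℤ,
        2 * ((|(x.1 : ℝ) + 1 / 4| * rexp (-(8 * π * t5) * ((x.1 : ℝ) + 1 / 4) ^ 2)) *
          rexp (-(8 * π * t5) * ((x.2 : ℝ) + 1 / 4) ^ 2) +
        rexp (-(8 * π * t5) * ((x.1 : ℝ) + 1 / 4) ^ 2) *
          (|(x.2 : ℝ) + 1 / 4| * rexp (-(8 * π * t5) * ((x.2 : ℝ) + 1 / 4) ^ 2))) :=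
        summable_abs_re_mul_exp.tsum_le_tsum k3b_term_le k3b_summable_major
    _ = 2 * ((∑' m : ℤ, |(m : ℝ) + 1 / 4| * rexp (-(8 * π * t5) * ((m : ℝ) + 1 / 4) ^ 2)) *
          (∑' m : ℤ, rexp (-(8 * π * t5) * ((m : ℝ) + 1 / 4) ^ 2)) +
        (∑' m : ℤ, rexp (-(8 * π * t5) * ((m : ℝ) + 1 / 4) ^ 2)) *
          (∑' m : ℤ, |(m : ℝ) + 1 / 4| * rexp (-(8 * π * t5) * ((m : ℝ) + 1 / 4) ^ 2))) := by
        rw [tsum_mul_left, k3b_summable_left.tsum_add k3b_summable_right, h1, h2]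
    _ ≤ 9 / 2 := by nlinarith [mul_le_mul hB hA hA0 (by norm_num : (0 : ℝ) ≤ 3 / 4)]

end Claimed.Open.R002
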