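import Claimed.Open.R002.SanityTwistH1c
import Claimed.Open.R002.SanityTwistK3b

/-! # Twist road, post K3: `theta5` is bounded below by its first term minus a small remainder, on `[t₀, ∞)` -/

set_option autoImplicit false

namespace Claimed.Open.R002

open Real

theorem k3_two_sq_add (m : ℤ) : 0 ≤ 2 * m ^ 2 + m ∧ (m ≠ 0 → 1 ≤ 2 * m ^ 2 + m) := by
  rcases lt_trichotomy m 0 with h | h | h
  · have h1 : m ≤ -1 := by omega
    constructor
    · nlinarith
    · intro _
      nlinarith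
  · subst h
    simp
  · have h1 : 1 ≤ m := by omega
    constructor
    · nlinarith
    · intro _
      nlinarith

/-- `N = 8m² + 4m + 8n² + 4n + 1` (`norm_primOf`) is `≡ 1 mod 4`, `≥ 1`, `= 1` only for `x = 0`, and `N = 5` has `chi5 N = 0`. -/
theorem nine_le_norm_primOf {x : ℤ × ℤ} (hx : x ≠ 0) (hχ : chi5 (primOf x).norm ≠ 0) :
    9 ≤ (primOf x).norm := by
  rw [norm_primOf] at hχ ⊢
  obtain ⟨hu0, hu1⟩ := k3_two_sq_add x.1
  obtain ⟨hv0, hv1⟩ := k3_two_sq_add x.2
  by_contra hlt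
  have hk : (2 * x.1 ^ 2 + x.1) + (2 * x.2 ^ 2 + x.2) ≤ 1 := by linarith
  have hne : x.1 ≠ 0 ∨ x.2 ≠ 0 := by
    by_contra hcon
    push Not at hcon
    exact hx (Prod.ext hcon.1 hcon.2)
  have hk1 : 1 ≤ (2 * x.1 ^ 2 + x.1) + (2 * x.2 ^ 2 + x.2) := by
    rcases hne with h | h
    · have := hu1 h
      linarith
    · have := hv1 h
      linarith
  have h5 : 8 * x.1 ^ 2 + 4 * x.1 + 8 * x.2 ^ 2 + 4 * x.2 + 1 = 5 := by linarith
  rw [h5] at hχ
  exact hχ (by decide)

theorem k3_t5_pos : 0 < t5 := by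
  unfold t5
  positivity

/-- H1c: `θ₅(t) = ∑_x χ(N) Re exp(-π N t)`; the term `x = 0` is `exp (-π t)` (`HasSum` minus one term: `hasSum_ite_sub_hasSum` / `HasSum.update` / `Summable.tsum_eq_add_tsum_ite`);
for `x ≠ 0`: `|χ Re exp(-π N t)| ≤ |Re| exp(-π N t₀) exp(-9π (t - t₀))` (zero if `χ = 0`, else `N ≥ 9`, `|χ| ≤ 1`); sum `≤ 9/2` by K3b. -/
theorem theta5_ge {t : ℝ} (ht : t5 ≤ t) :
    rexp (-π * t) - 9 / 2 * rexp (-(9 * π) * (t - t5)) ≤ theta5 t := by
  classical
  have ht0 : 0 < t := lt_of_lt_of_le k3_t5_pos ht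
  set c : ℝ := rexp (-(9 * π) * (t - t5)) with hc
  have hc0 : 0 ≤ c := (Real.exp_pos _).le
  have h1 := hasSum_theta5_real ht0
  have h2 : HasSum (fun x : ℤ × ℤ => (if x = 0 then rexp (-π * t) else 0) -
      c * (|((primOf x).re : ℝ)| * rexp (-π * ((primOf x).norm : ℝ) * t5)))
      (rexp (-π * t) - c * ∑' x : ℤ × ℤ, |((primOf x).re : ℝ)| * rexp (-π * ((primOf x).norm : ℝ) * t5)) :=
    (hasSum_ite_eq (0 : ℤ × ℤ) (rexp (-π * t))).sub (summable_abs_re_mul_exp.hasSum.mul_left c)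
  have h3 : ∀ x : ℤ × ℤ, (if x = 0 then rexp (-π * t) else 0) -
      c * (|((primOf x).re : ℝ)| * rexp (-π * ((primOf x).norm : ℝ) * t5)) ≤
      (chi5 (primOf x).norm : ℝ) * ((primOf x).re : ℝ) * rexp (-π * ((primOf x).norm : ℝ) * t) := by
    intro x
    have hg0 : 0 ≤ c * (|((primOf x).re : ℝ)| * rexp (-π * ((primOf x).norm : ℝ) * t5)) := by positivity
    by_cases hx : x = 0
    · subst hx
      rw [if_pos rfl]
      have e1 : (primOf 0).norm = 1 := by
        rw [norm_primOf]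
        simp
      have e2 : (primOf 0).re = 1 := by simp [primOf]
      rw [e1, e2] at hg0 ⊢
      rw [chi5_one]
      have e3 : ((1 : ℤ) : ℝ) * ((1 : ℤ) : ℝ) * rexp (-π * ((1 : ℤ) : ℝ) * t) = rexp (-π * t) := by
        norm_num
      rw [e3]
      linarith
    · rw [if_neg hx, zero_sub]
      by_cases hχ : chi5 (primOf x).norm = 0
      · rw [hχ]
        simp only [Int.cast_zero, zero_mul]
        linarith
      · have h9 : (9 : ℝ) ≤ ((primOf x).norm : ℝ) := by exact_mod_cast nine_le_norm_primOf hx hχ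
        have habs : |(chi5 (primOf x).norm : ℝ)| ≤ 1 := by exact_mod_cast abs_chi5_le (primOf x).norm
        have hexp : rexp (-π * ((primOf x).norm : ℝ) * t) ≤ c * rexp (-π * ((primOf x).norm : ℝ) * t5) := by
          rw [hc, ← Real.exp_add]
          apply Real.exp_le_exp.2
          have hπ := Real.pi_pos
          have htt : 0 ≤ t - t5 := sub_nonneg.2 ht
          nlinarith [mul_nonneg (mul_nonneg hπ.le htt) (sub_nonneg.2 h9)]
        have hle : |(chi5 (primOf x).norm : ℝ) * ((primOf x).re : ℝ) * rexp (-π * ((primOf x).norm : ℝ) * t)| ≤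
            c * (|((primOf x).re : ℝ)| * rexp (-π * ((primOf x).norm : ℝ) * t5)) := by
          rw [abs_mul, abs_mul, abs_of_pos (Real.exp_pos _)]
          calc |(chi5 (primOf x).norm : ℝ)| * |((primOf x).re : ℝ)| * rexp (-π * ((primOf x).norm : ℝ) * t)
              ≤ 1 * |((primOf x).re : ℝ)| * (c * rexp (-π * ((primOf x).norm : ℝ) * t5)) := by
                refine mul_le_mul (mul_le_mul_of_nonneg_right habs (abs_nonneg _)) hexp (Real.exp_pos _).le (by positivity)
            _ = _ := by ring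
        exact (neg_le_neg hle).trans (neg_abs_le _)
  have h4 := hasSum_le h3 h2 h1
  have h5 := tsum_abs_re_mul_exp_le
  nlinarith

end Claimed.Open.R002
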