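import Mathlib

/-! # Twist road, post K4a: two integrals with the weight `log (c t²)` on `[t₀, ∞)`, `t₀ = c^{-1/2}` (Mathlib only) -/

set_option autoImplicit false

namespace Claimed.Open.R002

open Real Set MeasureTheory

/-- `1 ≤ √c · t` for `t ≥ t₀`. -/
theorem k4a_one_le {c t : ℝ} (hc : 0 < c) (ht : (Real.sqrt c)⁻¹ ≤ t) : 1 ≤ Real.sqrt c * t := by
  have hs : 0 < Real.sqrt c := Real.sqrt_pos.2 hc
  calc (1 : ℝ) = Real.sqrt c * (Real.sqrt c)⁻¹ := (mul_inv_cancel₀ hs.ne').symm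
    _ ≤ Real.sqrt c * t := mul_le_mul_of_nonneg_left ht hs.le

/-- `c t² = (√c · t)²`. -/
theorem k4a_sq {c : ℝ} (hc : 0 < c) (t : ℝ) : c * t ^ 2 = (Real.sqrt c * t) ^ 2 := by
  rw [mul_pow, Real.sq_sqrt hc.le]

/-- `0 ≤ log (c t²)` for `t ≥ t₀` (`c t² ≥ 1`). -/
theorem log_weight_nonneg {c t : ℝ} (hc : 0 < c) (ht : (Real.sqrt c)⁻¹ ≤ t) :
    0 ≤ Real.log (c * t ^ 2) := by
  have h1 := k4a_one_le hc ht
  rw [k4a_sq hc]
  exact Real.log_nonneg (by nlinarith)

/-- `log (c t²) = 2 log (t / t₀) ≤ 2 (t / t₀ - 1)` (`Real.log_le_sub_one_of_pos`). -/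
theorem log_weight_le {c t : ℝ} (hc : 0 < c) (ht : (Real.sqrt c)⁻¹ ≤ t) :
    Real.log (c * t ^ 2) ≤ 2 * (t - (Real.sqrt c)⁻¹) / (Real.sqrt c)⁻¹ := by
  have hs : 0 < Real.sqrt c := Real.sqrt_pos.2 hc
  have h1 := k4a_one_le hc ht
  have h2 : Real.log (Real.sqrt c * t) ≤ Real.sqrt c * t - 1 :=
    Real.log_le_sub_one_of_pos (by linarith)
  have h3 : 2 * (t - (Real.sqrt c)⁻¹) / (Real.sqrt c)⁻¹ = 2 * (Real.sqrt c * t - 1) := by
    field_simp
  rw [k4a_sq hc, Real.log_pow, h3]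
  push_cast
  linarith

/-- the weight is measurable. -/
theorem k4a_measurable (c : ℝ) : Measurable fun t : ℝ => Real.log (c * t ^ 2) :=
  Real.measurable_log.comp (by fun_prop)

/-- `t exp (-a t)` is integrable on `(T, ∞)`, `T ≥ 0`. -/
theorem k4a_integrableOn_id_mul_exp {a T : ℝ} (ha : 0 < a) (hT : 0 ≤ T) :
    IntegrableOn (fun t : ℝ => t * rexp (-a * t)) (Ioi T) := by
  have h := integrableOn_rpow_mul_exp_neg_mul_rpow (p := 1) (s := 1) (b := a) (by norm_num)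
    (by norm_num) ha
  simp only [Real.rpow_one] at h
  exact h.mono_set (Ioi_subset_Ioi hT)

/-- the dominating function is integrable. -/
theorem k4a_integrableOn_bound {c a : ℝ} (hc : 0 < c) (ha : 0 < a) :
    IntegrableOn (fun t : ℝ => 2 * (t - (Real.sqrt c)⁻¹) / (Real.sqrt c)⁻¹ * rexp (-a * t))
      (Ioi (Real.sqrt c)⁻¹) := by
  have hs : 0 < Real.sqrt c := Real.sqrt_pos.2 hc
  have h1 := (k4a_integrableOn_id_mul_exp ha (inv_pos.2 hs).le).const_mul (2 * Real.sqrt c)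
  have h2 := (exp_neg_integrableOn_Ioi (Real.sqrt c)⁻¹ ha).const_mul 2
  refine (h1.sub h2).congr (Filter.Eventually.of_forall fun t => ?_)
  simp only [Pi.sub_apply]
  field_simp

/-- dominated by `(2 (t - t₀) / t₀) exp (-a t)`. -/
theorem integrableOn_log_weight_mul_exp {c a : ℝ} (hc : 0 < c) (ha : 0 < a) :
    IntegrableOn (fun t => Real.log (c * t ^ 2) * rexp (-a * t)) (Ioi (Real.sqrt c)⁻¹) := by
  refine Integrable.mono' (k4a_integrableOn_bound hc ha)
    ((k4a_measurable c).mul (by fun_prop)).aestronglyMeasurable ?_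
  refine (ae_restrict_iff' measurableSet_Ioi).2 (Filter.Eventually.of_forall fun t ht => ?_)
  have ht' : (Real.sqrt c)⁻¹ ≤ t := le_of_lt ht
  rw [Real.norm_of_nonneg (mul_nonneg (log_weight_nonneg hc ht') (Real.exp_pos _).le)]
  exact mul_le_mul_of_nonneg_right (log_weight_le hc ht') (Real.exp_pos _).le

/-- restrict to `t ≥ 4 t₀`, where `log (c t²) ≥ log 16 = 2 log 4`; `∫_{Ioi T} exp (-a t) = exp (-a T) / a` (`integral_exp_neg_mul_Ioi`-type lemma). -/
theorem le_integral_log_weight_mul_exp {c a : ℝ} (hc : 0 < c) (ha : 0 < a) :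
    2 * Real.log 4 / a * rexp (-a * (4 * (Real.sqrt c)⁻¹)) ≤
      ∫ t in Ioi (Real.sqrt c)⁻¹, Real.log (c * t ^ 2) * rexp (-a * t) := by
  have hs : 0 < Real.sqrt c := Real.sqrt_pos.2 hc
  have ht0 : 0 < (Real.sqrt c)⁻¹ := inv_pos.2 hs
  have hsub : Ioi (4 * (Real.sqrt c)⁻¹) ⊆ Ioi (Real.sqrt c)⁻¹ := Ioi_subset_Ioi (by linarith)
  have hint := integrableOn_log_weight_mul_exp hc ha
  have h1 : ∫ t in Ioi (4 * (Real.sqrt c)⁻¹), Real.log (c * t ^ 2) * rexp (-a * t) ≤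
      ∫ t in Ioi (Real.sqrt c)⁻¹, Real.log (c * t ^ 2) * rexp (-a * t) := by
    refine setIntegral_mono_set hint ?_ (Filter.Eventually.of_forall hsub)
    refine (ae_restrict_iff' measurableSet_Ioi).2 (Filter.Eventually.of_forall fun t ht => ?_)
    exact mul_nonneg (log_weight_nonneg hc (le_of_lt ht)) (Real.exp_pos _).le
  have h2 : ∫ t in Ioi (4 * (Real.sqrt c)⁻¹), 2 * Real.log 4 * rexp (-a * t) ≤
      ∫ t in Ioi (4 * (Real.sqrt c)⁻¹), Real.log (c * t ^ 2) * rexp (-a * t) := by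
    refine setIntegral_mono_on ((exp_neg_integrableOn_Ioi _ ha).const_mul _) (hint.mono_set hsub)
      measurableSet_Ioi fun t ht => ?_
    refine mul_le_mul_of_nonneg_right ?_ (Real.exp_pos _).le
    have ht' : 4 * (Real.sqrt c)⁻¹ < t := ht
    have h4 : 4 ≤ Real.sqrt c * t := by
      calc (4 : ℝ) = Real.sqrt c * (4 * (Real.sqrt c)⁻¹) := by field_simp
        _ ≤ Real.sqrt c * t := mul_le_mul_of_nonneg_left ht'.le hs.le
    rw [k4a_sq hc, Real.log_pow]
    push_cast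
    have := Real.log_le_log (by norm_num : (0 : ℝ) < 4) h4
    linarith
  have h3 : ∫ t in Ioi (4 * (Real.sqrt c)⁻¹), 2 * Real.log 4 * rexp (-a * t) =
      2 * Real.log 4 / a * rexp (-a * (4 * (Real.sqrt c)⁻¹)) := by
    rw [integral_const_mul, integral_exp_mul_Ioi (by linarith : -a < 0)]
    field_simp
  linarith

/-- `∫_{Ioi t₀} (t - t₀) exp (-a (t - t₀)) dt = 1 / a²`, with integrability. -/
theorem k4a_shift {a : ℝ} (ha : 0 < a) (T : ℝ) :
    IntegrableOn (fun t : ℝ => (t - T) * rexp (-a * (t - T))) (Ioi T) ∧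
      ∫ t in Ioi T, (t - T) * rexp (-a * (t - T)) = 1 / a ^ 2 := by
  have hpre : (fun t : ℝ => t - T) ⁻¹' Ioi 0 = Ioi T := by
    ext t
    simp
  have hmp := measurePreserving_sub_right (volume : Measure ℝ) T
  have hemb := measurableEmbedding_subRight T
  constructor
  · have h := (hmp.integrableOn_comp_preimage hemb (f := fun u : ℝ => u * rexp (-a * u))
      (s := Ioi 0)).2 (k4a_integrableOn_id_mul_exp ha le_rfl)
    rw [hpre] at h
    exact h
  · have h := hmp.setIntegral_preimage_emb hemb (fun u : ℝ => u * rexp (-a * u)) (Ioi 0)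
    rw [hpre] at h
    rw [h]
    have h2 := Real.integral_rpow_mul_exp_neg_mul_Ioi (a := 2) (r := a) (by norm_num) ha
    have e : (2 : ℝ) - 1 = 1 := by norm_num
    simp only [e, Real.rpow_one] at h2
    have h3 : ∫ u in Ioi (0 : ℝ), u * rexp (-a * u) = ∫ u in Ioi (0 : ℝ), u * rexp (-(a * u)) := by
      simp only [neg_mul]
    rw [h3, h2, Real.Gamma_two, mul_one, ← Real.rpow_natCast]
    norm_num

/-- `log_weight_le` and `∫_{Ioi t₀} (t - t₀) exp (-a (t - t₀)) dt = ∫_{Ioi 0} u exp (-a u) du = 1 / a²` (`Real.integral_rpow_mul_exp_neg_mul_Ioi` / Gamma integral). -/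
theorem integral_log_weight_mul_exp_shift_le {c a : ℝ} (hc : 0 < c) (ha : 0 < a) :
    ∫ t in Ioi (Real.sqrt c)⁻¹, Real.log (c * t ^ 2) * rexp (-a * (t - (Real.sqrt c)⁻¹)) ≤
      2 / ((Real.sqrt c)⁻¹ * a ^ 2) := by
  have hs : 0 < Real.sqrt c := Real.sqrt_pos.2 hc
  obtain ⟨hi, he⟩ := k4a_shift ha (Real.sqrt c)⁻¹
  have hint : IntegrableOn (fun t => Real.log (c * t ^ 2) * rexp (-a * (t - (Real.sqrt c)⁻¹)))
      (Ioi (Real.sqrt c)⁻¹) := by
    refine ((integrableOn_log_weight_mul_exp hc ha).const_mul (rexp (a * (Real.sqrt c)⁻¹))).congr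
      (Filter.Eventually.of_forall fun t => ?_)
    change rexp (a * (Real.sqrt c)⁻¹) * (Real.log (c * t ^ 2) * rexp (-a * t)) =
      Real.log (c * t ^ 2) * rexp (-a * (t - (Real.sqrt c)⁻¹))
    rw [mul_left_comm, ← Real.exp_add]
    congr 2
    ring
  calc ∫ t in Ioi (Real.sqrt c)⁻¹, Real.log (c * t ^ 2) * rexp (-a * (t - (Real.sqrt c)⁻¹))
      ≤ ∫ t in Ioi (Real.sqrt c)⁻¹, 2 / (Real.sqrt c)⁻¹ *
          ((t - (Real.sqrt c)⁻¹) * rexp (-a * (t - (Real.sqrt c)⁻¹))) := by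
        refine setIntegral_mono_on hint (hi.const_mul _) measurableSet_Ioi fun t ht => ?_
        have h := mul_le_mul_of_nonneg_right (log_weight_le hc (le_of_lt ht))
          (Real.exp_pos (-a * (t - (Real.sqrt c)⁻¹))).le
        refine h.trans (le_of_eq ?_)
        ring
    _ = 2 / ((Real.sqrt c)⁻¹ * a ^ 2) := by
        rw [integral_const_mul, he]
        field_simp

end Claimed.Open.R002
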