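import Mathlib

/-! # Twist road, post K4c: the numerical inequality `0.1592 < 0.3629` (Mathlib only) -/

set_option autoImplicit false

namespace Claimed.Open.R002

open Real

/-- Left side `= √200 / (9 π²) ≤ 14.15 / (9 · 9.85) < 0.16`.  Right side: `log 4 = 2 log 2 > 1.386` (`Real.log_two_gt_d9`), `π < 3.1416`, `4 π / √200 < 0.889` (`√200 > 14.14`),
`exp (-0.889) > 0.38` (e.g. `Real.add_one_le_exp`-type bounds, or `exp 0.889 < exp 1 < 2.7183`, which already gives `0.367`): right side `> 0.88 · 0.367 = 0.32`. -/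
theorem twist_numerics :
    9 / 2 * (2 / ((Real.sqrt 200)⁻¹ * (9 * π) ^ 2)) <
      2 * Real.log 4 / π * rexp (-π * (4 * (Real.sqrt 200)⁻¹)) := by
  have hs1 : (14.14 : ℝ) < Real.sqrt 200 := by
    rw [Real.lt_sqrt (by norm_num)]; norm_num
  have hs2 : Real.sqrt 200 < 14.15 := by
    rw [Real.sqrt_lt' (by norm_num)]; norm_num
  have hs0 : 0 < Real.sqrt 200 := by linarith
  have hpi1 := Real.pi_gt_d2
  have hpi2 := Real.pi_lt_d4
  have hpi0 := Real.pi_pos
  have hlog : Real.log 4 = 2 * Real.log 2 := by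
    rw [show (4 : ℝ) = 2 ^ 2 by norm_num, Real.log_pow]; norm_num
  have hl2 := Real.log_two_gt_d9
  -- the left side
  have hL : 9 / 2 * (2 / ((Real.sqrt 200)⁻¹ * (9 * π) ^ 2)) < 0.16 := by
    have e : 9 / 2 * (2 / ((Real.sqrt 200)⁻¹ * (9 * π) ^ 2)) = Real.sqrt 200 / (9 * π ^ 2) := by
      field_simp
    rw [e, div_lt_iff₀ (by positivity)]
    nlinarith
  -- the exponential
  have hx : -1 ≤ -π * (4 * (Real.sqrt 200)⁻¹) := by
    have : π * (4 * (Real.sqrt 200)⁻¹) ≤ 1 := by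
      rw [← mul_assoc, ← div_eq_mul_inv, div_le_one hs0]
      linarith
    linarith
  have he1 : (0.36 : ℝ) < rexp (-1) := by
    rw [Real.exp_neg, lt_inv_comm₀ (by norm_num) (Real.exp_pos 1)]
    have := Real.exp_one_lt_d9
    norm_num at this ⊢
    linarith
  have he : (0.36 : ℝ) < rexp (-π * (4 * (Real.sqrt 200)⁻¹)) := lt_of_lt_of_le he1 (Real.exp_le_exp.2 hx)
  have hq : (0.88 : ℝ) < 2 * Real.log 4 / π := by
    rw [lt_div_iff₀ hpi0, hlog]
    nlinarith
  have hR : (0.16 : ℝ) < 2 * Real.log 4 / π * rexp (-π * (4 * (Real.sqrt 200)⁻¹)) := by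
    nlinarith
  linarith

end Claimed.Open.R002
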