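import Claimed.Open.R002.SanityTwistK2
import Claimed.Open.R002.SanityTwistK3
import Claimed.Open.R002.SanityTwistK4a
import Claimed.Open.R002.SanityTwistK4c

/-! # Twist road, post K4: `∫_{t₀}^∞ θ₅(t) log (200 t²) dt > 0` -/

set_option autoImplicit false

namespace Claimed.Open.R002

open Real Set MeasureTheory

/-- On `Ioi t5`: `w = log (200 t²) ≥ 0` (K4a) and K3 give `w (exp (-π t) - (9/2) exp (-9π (t - t₀))) ≤ w θ₅`; both sides integrable (K4a with `a = π`, `a = 9π`:
`exp (-9π (t - t₀)) = exp (9π t₀) exp (-9π t)`; K2 restricted to `Ioi t5 ⊆ Ioi 0`); `setIntegral_mono_on`; then K4a (two bounds) and K4c.  `t5 = (√200)⁻¹` by definition. -/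
theorem integral_w_mul_theta5_pos :
    0 < ∫ t in Ioi t5, Real.log (200 * t ^ 2) * theta5 t := by
  have h200 : (0 : ℝ) < 200 := by norm_num
  have ht5 : t5 = (Real.sqrt 200)⁻¹ := rfl
  have ht5pos : 0 < t5 := by rw [ht5]; positivity
  have h9 : (0 : ℝ) < 9 * π := by positivity
  -- integrability
  have I1 : IntegrableOn (fun t => Real.log (200 * t ^ 2) * rexp (-π * t)) (Ioi t5) :=
    integrableOn_log_weight_mul_exp h200 Real.pi_pos
  have I2' : IntegrableOn (fun t => Real.log (200 * t ^ 2) * rexp (-(9 * π) * t)) (Ioi t5) :=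
    integrableOn_log_weight_mul_exp h200 h9
  have I2 : IntegrableOn (fun t => Real.log (200 * t ^ 2) * rexp (-(9 * π) * (t - t5))) (Ioi t5) := by
    have h : IntegrableOn (fun t => Real.log (200 * t ^ 2) * rexp (-(9 * π) * t) * rexp (9 * π * t5))
        (Ioi t5) := I2'.mul_const (rexp (9 * π * t5))
    refine IntegrableOn.congr_fun h (fun t _ => ?_) measurableSet_Ioi
    show Real.log (200 * t ^ 2) * rexp (-(9 * π) * t) * rexp (9 * π * t5)
      = Real.log (200 * t ^ 2) * rexp (-(9 * π) * (t - t5))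
    rw [mul_assoc, ← Real.exp_add]
    congr 2
    ring
  have I3 : IntegrableOn (fun t => Real.log (200 * t ^ 2) * theta5 t) (Ioi t5) :=
    integrableOn_w_mul_theta5.mono_set (Ioi_subset_Ioi ht5pos.le)
  have I4 : IntegrableOn (fun t => Real.log (200 * t ^ 2) * rexp (-π * t)
      - 9 / 2 * (Real.log (200 * t ^ 2) * rexp (-(9 * π) * (t - t5)))) (Ioi t5) :=
    I1.sub (I2.const_mul (9 / 2))
  -- comparison
  have hmono : ∫ t in Ioi t5, (Real.log (200 * t ^ 2) * rexp (-π * t)
      - 9 / 2 * (Real.log (200 * t ^ 2) * rexp (-(9 * π) * (t - t5))))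
      ≤ ∫ t in Ioi t5, Real.log (200 * t ^ 2) * theta5 t := by
    refine setIntegral_mono_on I4 I3 measurableSet_Ioi fun t ht => ?_
    have ht' : t5 ≤ t := le_of_lt ht
    have hw : 0 ≤ Real.log (200 * t ^ 2) := log_weight_nonneg h200 ht'
    have := mul_le_mul_of_nonneg_left (theta5_ge ht') hw
    linarith
  have hsplit : ∫ t in Ioi t5, (Real.log (200 * t ^ 2) * rexp (-π * t)
      - 9 / 2 * (Real.log (200 * t ^ 2) * rexp (-(9 * π) * (t - t5))))
      = (∫ t in Ioi t5, Real.log (200 * t ^ 2) * rexp (-π * t))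
        - 9 / 2 * ∫ t in Ioi t5, Real.log (200 * t ^ 2) * rexp (-(9 * π) * (t - t5)) := by
    rw [integral_sub I1 (I2.const_mul (9 / 2)), integral_const_mul]
  have hlow : 2 * Real.log 4 / π * rexp (-π * (4 * (Real.sqrt 200)⁻¹))
      ≤ ∫ t in Ioi t5, Real.log (200 * t ^ 2) * rexp (-π * t) :=
    le_integral_log_weight_mul_exp h200 Real.pi_pos
  have hup : ∫ t in Ioi t5, Real.log (200 * t ^ 2) * rexp (-(9 * π) * (t - t5))
      ≤ 2 / ((Real.sqrt 200)⁻¹ * (9 * π) ^ 2) :=
    integral_log_weight_mul_exp_shift_le h200 h9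
  have hnum := twist_numerics
  linarith

end Claimed.Open.R002
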