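import Mathlib

/-! # Twist road, post K5: a simple zero has analytic order one (Mathlib only) -/

set_option autoImplicit false

namespace Claimed.Open.R002

/-- `hf.analyticAt z`; `analyticOrderAt_eq_natCast_iff` / `AnalyticAt.analyticOrderAt_eq_natCast` with `g = dslope f z` (`dslope_same`, `sub_smul_dslope`), or: order `≠ 0` since `f z = 0`,
order `≠ ⊤` and `< 2` since otherwise `f w = (w - z)² g w` near `z` has derivative `0` at `z`. -/
theorem analyticOrderAt_eq_one_of_hasDerivAt {f : ℂ → ℂ} (hf : Differentiable ℂ f) {z c : ℂ}
    (h0 : f z = 0) (h1 : HasDerivAt f c z) (hc : c ≠ 0) : analyticOrderAt f z = 1 := by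
  have hfa : AnalyticAt ℂ f z := hf.analyticAt z
  have hg : AnalyticAt ℂ (dslope f z) z := by
    have hd : Differentiable ℂ (dslope f z) := by
      intro w
      exact ((Complex.differentiableOn_dslope (s := Set.univ) (by simp)).mpr hf.differentiableOn).differentiableAt (by simp)
    exact hd.analyticAt z
  have h := (hfa.analyticOrderAt_eq_natCast (n := 1)).mpr
    ⟨dslope f z, hg, by rw [dslope_same, h1.deriv]; exact hc, by
      filter_upwards with w
      have := sub_smul_dslope f z w
      rw [h0, sub_zero] at this
      rw [pow_one]; exact this.symm⟩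
  exact_mod_cast h

end Claimed.Open.R002
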