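import Claimed.Open.R002.SanityTwistTop1
import Claimed.Open.R002.SanityTwistK4
import Claimed.Open.R002.SanityTwistK5

/-! # Sanity for R002: the analytic clause of `MainStatement` is true at the example of rank one, `E₅ : y² = x³ - 25 x` -/

set_option autoImplicit false

namespace Claimed.Open.R002

open Real Set MeasureTheory

/-- `L'(E₅, 1) = π ∫_{t₀}^∞ θ₅(t) log (200 t²) dt`. -/
theorem hasDerivAt_twistL_one :
    HasDerivAt twistL ((π * ∫ t in Ioi t5, Real.log (200 * t ^ 2) * theta5 t : ℝ) : ℂ) 1 := by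
  have h1 : HasDerivAt (fun s : ℂ => (π : ℂ) ^ s * (Complex.Gamma s)⁻¹)
      (deriv (fun s : ℂ => (π : ℂ) ^ s * (Complex.Gamma s)⁻¹) 1) 1 := by
    have d1 : Differentiable ℂ fun s : ℂ => (π : ℂ) ^ s := fun s =>
      (differentiableAt_id).const_cpow (Or.inl (by exact_mod_cast Real.pi_ne_zero))
    have d2 : Differentiable ℂ fun s : ℂ => (Complex.Gamma s)⁻¹ :=
      by simpa [one_div] using Complex.differentiable_one_div_Gamma
    exact ((d1.mul d2) 1).hasDerivAt
  have h2 := hasDerivAt_mellin_theta5_one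
  have h3 := h1.mul h2
  rw [mellin_theta5_one, mul_zero, zero_add, integral_log_mul_theta5, Complex.cpow_one,
    Complex.Gamma_one, inv_one, mul_one] at h3
  have e : ((π * ∫ t in Ioi t5, Real.log (200 * t ^ 2) * theta5 t : ℝ) : ℂ) =
      (π : ℂ) * ((∫ t in Ioi t5, Real.log (200 * t ^ 2) * theta5 t : ℝ) : ℂ) := by
    push_cast
    rfl
  rw [e]
  exact h3

/-- **`ord_{s=1} L(E₅, s) = 1`.** -/
theorem analyticOrderAt_twistL_one : analyticOrderAt twistL 1 = 1 :=
  analyticOrderAt_eq_one_of_hasDerivAt differentiable_twistL twistL_one hasDerivAt_twistL_one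
    (by
      have := integral_w_mul_theta5_pos
      exact_mod_cast (mul_pos Real.pi_pos this).ne')

/-- **The analytic clause of `MainStatement` at `(E₅, r = 1)`**: the `L`-series of `y² = x³ - 25 x` has an entire continuation, with a simple zero at `s = 1`. -/
theorem exists_isLFunction_E₅_order :
    ∃ L : ℂ → ℂ, IsLFunction E₅ L ∧ analyticOrderAt L 1 = ((1 : ℕ) : ℕ∞) :=
  ⟨twistL, isLFunction_E₅_twistL, by rw [analyticOrderAt_twistL_one]; rfl⟩

end Claimed.Open.R002
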