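import Claimed.Open.R002.SanityHeckeE5
import Claimed.Open.R002.SanityE5Curve

/-!
# Sanity for R002: the analytic side of the example of rank one (definitions)

Goal of the files `SanityTwist*.lean`: for `E₅ : y² = x³ - 25 x` (Selmer corank one, `SanityE5Selmer.lean`)
`∃ L, IsLFunction E₅ L ∧ analyticOrderAt L 1 = 1`: the analytic clause of `MainStatement` is TRUE at `(E₅, r = 1)`.

The road: `E₅` is the quadratic twist of `E₀ : y² = x³ - x` by `5`, so `E₅.LFunction n = χ₅(n) · hecke n`; the theta series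
`θ₅(t) = ∑ χ₅(N α) Re α · exp (-π N(α) t)` over the primary `α` is a combination of 25 products of Hurwitz kernels and satisfies
`θ₅(1/(200 t)) = -200 t² θ₅(t)` (sign `-1`), so its Mellin transform is entire and vanishes at `1`; its derivative at `1` is
`∫_{t₀}^∞ θ₅(t) log (200 t²) dt > 0`, `t₀ = 200^{-1/2}`.
-/

set_option autoImplicit false

namespace Claimed.Open.R002

open WeierstrassCurve

/-- The Legendre symbol modulo `5`. -/
def chi5 (n : ℤ) : ℤ := if n % 5 = 0 then 0 else if n % 5 = 1 ∨ n % 5 = 4 then 1 else -1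

/-- The equation `y² = x³ - 25 x` over any commutative ring. -/
def E₅over (A : Type*) [CommRing A] : WeierstrassCurve A := ⟨0, 0, 0, -25, 0⟩

/-- The residues `r ≡ 1 mod 4` modulo `20`. -/
def R5 : Finset ℕ := {1, 5, 9, 13, 17}

/-- The theta series `∑_α χ₅(N α) Re α · exp (-π N(α) t)`, as a combination of products of Hurwitz kernels. -/
noncomputable def theta5 (t : ℝ) : ℝ :=
  -20 * ∑ r ∈ R5, ∑ s ∈ R5, (chi5 ((r : ℤ) ^ 2 + (s : ℤ) ^ 2) : ℝ) *
    (HurwitzZeta.oddKernel (((r : ℝ) / 20 : ℝ) : UnitAddCircle) (200 * t) *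
      HurwitzZeta.evenKernel (((s : ℝ) / 20 : ℝ) : UnitAddCircle) (200 * t))

/-- The Poisson dual of `theta5` (up to the factor of the functional equation). -/
noncomputable def theta5Dual (y : ℝ) : ℝ :=
  ∑ r ∈ R5, ∑ s ∈ R5, (chi5 ((r : ℤ) ^ 2 + (s : ℤ) ^ 2) : ℝ) *
    (HurwitzZeta.sinKernel (((r : ℝ) / 20 : ℝ) : UnitAddCircle) y *
      HurwitzZeta.cosKernel (((s : ℝ) / 20 : ℝ) : UnitAddCircle) y)

/-- The entire function `π ^ s / Γ(s) · ∫₀^∞ θ₅(t) t ^ (s - 1) dt`. -/
noncomputable def twistL (s : ℂ) : ℂ :=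
  (Real.pi : ℂ) ^ s * (Complex.Gamma s)⁻¹ * mellin (fun t : ℝ => (theta5 t : ℂ)) s

/-- The fixed point `200^{-1/2}` of `t ↦ 1 / (200 t)`. -/
noncomputable def t5 : ℝ := (Real.sqrt 200)⁻¹

end Claimed.Open.R002
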