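import Claimed.Open.R002.SanityTwistDefs

/-! # Twist road, post F0: the functional equations of the kernels (as `thetaE_one_div`, `SanityHeckeD5.lean`) -/

set_option autoImplicit false

namespace Claimed.Open.R002

open Real HurwitzZeta

/-- the factor of the two functional equations at `X = 200 / x`. -/
theorem f0_factor {x : ℝ} (hx : 0 < x) :
    1 / (200 / x) ^ (3 / 2 : ℝ) * (1 / (200 / x) ^ (1 / 2 : ℝ)) = (x / 200) ^ 2 := by
  have hy : 0 < 200 / x := by positivity
  have e2 : (200 / x) ^ (3 / 2 : ℝ) * (200 / x) ^ (1 / 2 : ℝ) = (200 / x) ^ 2 := by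
    rw [← rpow_add hy, ← rpow_natCast]
    norm_num
  rw [div_mul_div_comm, e2]
  field_simp

/-- one product of kernels. -/
theorem f0_term (a b : UnitAddCircle) {x : ℝ} (hx : 0 < x) :
    oddKernel a (200 * (1 / x)) * evenKernel b (200 * (1 / x)) =
      (x / 200) ^ 2 * (sinKernel a (x / 200) * cosKernel b (x / 200)) := by
  have h8 : 200 * (1 / x) = 200 / x := by ring
  have e1 : 1 / (200 / x) = x / 200 := by field_simp
  rw [h8, oddKernel_functional_equation, evenKernel_functional_equation, e1, ← f0_factor hx]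
  ring

/-- `oddKernel_functional_equation`, `evenKernel_functional_equation` at `X = 200 / x`: `1 / X^(3/2) * (1 / X^(1/2)) = (x / 200)²`, `1 / X = x / 200`. -/
theorem theta5_one_div_dual {x : ℝ} (hx : 0 < x) :
    theta5 (1 / x) = -20 * (x / 200) ^ 2 * theta5Dual (x / 200) := by
  unfold theta5 theta5Dual
  rw [mul_assoc]
  refine congrArg (fun z : ℝ => -20 * z) ?_
  rw [Finset.mul_sum]
  refine Finset.sum_congr rfl fun r _ => ?_
  rw [Finset.mul_sum]
  refine Finset.sum_congr rfl fun s _ => ?_
  rw [f0_term _ _ hx]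
  ring

end Claimed.Open.R002
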