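import Claimed.Open.R002.SanityTwistG1

/-! # Twist road, post F1: the Gauss sum (finite Fourier transform of `chi5 (r² + s²)`) -/

set_option autoImplicit false

namespace Claimed.Open.R002

open Real Complex

/-- `∑_{i, j < 5} χ((4 i + 1)² + (4 j + 1)²) a ^ i b ^ j`. -/
def f1_P (a b : ℂ) : ℂ :=
  (-1 + b - b ^ 2) + a * (1 + b ^ 2 + b ^ 3 + b ^ 4) + a ^ 2 * (-1 + b - b ^ 2) +
    a ^ 3 * (b - b ^ 3 - b ^ 4) + a ^ 4 * (b - b ^ 3 - b ^ 4)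

/-- The 25 cases: polynomial identities in `ζ` modulo `1 + ζ + ζ² + ζ³ + ζ⁴`. -/
theorem f1_core (ζ : ℂ) (h : 1 + ζ + ζ ^ 2 + ζ ^ 3 + ζ ^ 4 = 0) (u v : ℕ) (hu : u < 5) (hv : v < 5) :
    f1_P (ζ ^ u) (ζ ^ v) = 5 * (ζ ^ u * ζ ^ v) * (chi5 ((u : ℤ) ^ 2 + (v : ℤ) ^ 2) : ℂ) := by
  interval_cases u <;> interval_cases v
  · have hc : chi5 ((((0 : ℕ) : ℤ)) ^ 2 + (((0 : ℕ) : ℤ)) ^ 2) = 0 := by decide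
    rw [hc, f1_P]
    push_cast
    linear_combination (0) * h
  · have hc : chi5 ((((0 : ℕ) : ℤ)) ^ 2 + (((1 : ℕ) : ℤ)) ^ 2) = 1 := by decide
    rw [hc, f1_P]
    push_cast
    linear_combination ((-1) * ζ ^ 0) * h
  · have hc : chi5 ((((0 : ℕ) : ℤ)) ^ 2 + (((2 : ℕ) : ℤ)) ^ 2) = 1 := by decide
    rw [hc, f1_P]
    push_cast
    linear_combination ((-1) * ζ ^ 0 + (1) * ζ ^ 1 + (-1) * ζ ^ 2 + (1) * ζ ^ 3 + (-1) * ζ ^ 4) * h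
  · have hc : chi5 ((((0 : ℕ) : ℤ)) ^ 2 + (((3 : ℕ) : ℤ)) ^ 2) = 1 := by decide
    rw [hc, f1_P]
    push_cast
    linear_combination ((-1) * ζ ^ 0 + (1) * ζ ^ 1 + (-1) * ζ ^ 3 + (1) * ζ ^ 4 + (-1) * ζ ^ 5 + (1) * ζ ^ 7 + (-1) * ζ ^ 8) * h
  · have hc : chi5 ((((0 : ℕ) : ℤ)) ^ 2 + (((4 : ℕ) : ℤ)) ^ 2) = 1 := by decide
    rw [hc, f1_P]
    push_cast
    linear_combination ((-1) * ζ ^ 0 + (1) * ζ ^ 1 + (-1) * ζ ^ 4 + (1) * ζ ^ 6 + (-1) * ζ ^ 8 + (1) * ζ ^ 11 + (-1) * ζ ^ 12) * h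
  · have hc : chi5 ((((1 : ℕ) : ℤ)) ^ 2 + (((0 : ℕ) : ℤ)) ^ 2) = 1 := by decide
    rw [hc, f1_P]
    push_cast
    linear_combination ((-1) * ζ ^ 0) * h
  · have hc : chi5 ((((1 : ℕ) : ℤ)) ^ 2 + (((1 : ℕ) : ℤ)) ^ 2) = -1 := by decide
    rw [hc, f1_P]
    push_cast
    linear_combination ((-1) * ζ ^ 0 + (3) * ζ ^ 1 + (1) * ζ ^ 2 + (-1) * ζ ^ 3 + (-1) * ζ ^ 4) * h
  · have hc : chi5 ((((1 : ℕ) : ℤ)) ^ 2 + (((2 : ℕ) : ℤ)) ^ 2) = 0 := by decide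
    rw [hc, f1_P]
    push_cast
    linear_combination ((-1) * ζ ^ 0 + (2) * ζ ^ 1 + (-1) * ζ ^ 2 + (1) * ζ ^ 5 + (-1) * ζ ^ 8) * h
  · have hc : chi5 ((((1 : ℕ) : ℤ)) ^ 2 + (((3 : ℕ) : ℤ)) ^ 2) = 0 := by decide
    rw [hc, f1_P]
    push_cast
    linear_combination ((-1) * ζ ^ 0 + (2) * ζ ^ 1 + (-2) * ζ ^ 2 + (2) * ζ ^ 3 + (-1) * ζ ^ 4 + (1) * ζ ^ 6 + (-1) * ζ ^ 8 + (1) * ζ ^ 10 + (-1) * ζ ^ 12) * h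
  · have hc : chi5 ((((1 : ℕ) : ℤ)) ^ 2 + (((4 : ℕ) : ℤ)) ^ 2) = -1 := by decide
    rw [hc, f1_P]
    push_cast
    linear_combination ((-1) * ζ ^ 0 + (2) * ζ ^ 1 + (-2) * ζ ^ 2 + (1) * ζ ^ 3 + (1) * ζ ^ 4 + (3) * ζ ^ 5 + (-2) * ζ ^ 6 + (-2) * ζ ^ 7 + (2) * ζ ^ 9 + (1) * ζ ^ 10 + (-1) * ζ ^ 11 + (-2) * ζ ^ 12 + (1) * ζ ^ 13 + (1) * ζ ^ 14 + (-1) * ζ ^ 16) * h
  · have hc : chi5 ((((2 : ℕ) : ℤ)) ^ 2 + (((0 : ℕ) : ℤ)) ^ 2) = 1 := by decide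
    rw [hc, f1_P]
    push_cast
    linear_combination ((-1) * ζ ^ 0 + (1) * ζ ^ 1 + (-1) * ζ ^ 2 + (1) * ζ ^ 3 + (-1) * ζ ^ 4) * h
  · have hc : chi5 ((((2 : ℕ) : ℤ)) ^ 2 + (((1 : ℕ) : ℤ)) ^ 2) = 0 := by decide
    rw [hc, f1_P]
    push_cast
    linear_combination ((-1) * ζ ^ 0 + (2) * ζ ^ 1 + (-1) * ζ ^ 2 + (1) * ζ ^ 5 + (-1) * ζ ^ 8) * h
  · have hc : chi5 ((((2 : ℕ) : ℤ)) ^ 2 + (((2 : ℕ) : ℤ)) ^ 2) = -1 := by decide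
    rw [hc, f1_P]
    push_cast
    linear_combination ((-1) * ζ ^ 0 + (1) * ζ ^ 1 + (2) * ζ ^ 2 + (-2) * ζ ^ 3 + (3) * ζ ^ 4 + (-4) * ζ ^ 5 + (3) * ζ ^ 6 + (-1) * ζ ^ 8 + (2) * ζ ^ 9 + (-2) * ζ ^ 10 + (1) * ζ ^ 11 + (-1) * ζ ^ 12) * h
  · have hc : chi5 ((((2 : ℕ) : ℤ)) ^ 2 + (((3 : ℕ) : ℤ)) ^ 2) = -1 := by decide
    rw [hc, f1_P]
    push_cast
    linear_combination ((-1) * ζ ^ 0 + (1) * ζ ^ 1 + (1) * ζ ^ 2 + (-2) * ζ ^ 4 + (5) * ζ ^ 5 + (-5) * ζ ^ 6 + (3) * ζ ^ 7 + (-2) * ζ ^ 9 + (3) * ζ ^ 10 + (-2) * ζ ^ 11 + (1) * ζ ^ 12 + (-1) * ζ ^ 14 + (1) * ζ ^ 15 + (-1) * ζ ^ 16) * h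
  · have hc : chi5 ((((2 : ℕ) : ℤ)) ^ 2 + (((4 : ℕ) : ℤ)) ^ 2) = 0 := by decide
    rw [hc, f1_P]
    push_cast
    linear_combination ((-1) * ζ ^ 0 + (1) * ζ ^ 1 + (1) * ζ ^ 2 + (-1) * ζ ^ 3 + (-1) * ζ ^ 5 + (1) * ζ ^ 6 + (1) * ζ ^ 7 + (-1) * ζ ^ 8 + (1) * ζ ^ 10 + (-1) * ζ ^ 11 + (1) * ζ ^ 12 + (-1) * ζ ^ 13 + (1) * ζ ^ 14 + (-1) * ζ ^ 16 + (1) * ζ ^ 17 + (-1) * ζ ^ 18 + (1) * ζ ^ 19 + (-1) * ζ ^ 20) * h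
  · have hc : chi5 ((((3 : ℕ) : ℤ)) ^ 2 + (((0 : ℕ) : ℤ)) ^ 2) = 1 := by decide
    rw [hc, f1_P]
    push_cast
    linear_combination ((-1) * ζ ^ 0 + (1) * ζ ^ 1 + (-1) * ζ ^ 3 + (1) * ζ ^ 4 + (-1) * ζ ^ 5 + (1) * ζ ^ 7 + (-1) * ζ ^ 8) * h
  · have hc : chi5 ((((3 : ℕ) : ℤ)) ^ 2 + (((1 : ℕ) : ℤ)) ^ 2) = 0 := by decide
    rw [hc, f1_P]
    push_cast
    linear_combination ((-1) * ζ ^ 0 + (2) * ζ ^ 1 + (-2) * ζ ^ 2 + (2) * ζ ^ 3 + (-1) * ζ ^ 4 + (1) * ζ ^ 6 + (-1) * ζ ^ 8 + (1) * ζ ^ 10 + (-1) * ζ ^ 12) * h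
  · have hc : chi5 ((((3 : ℕ) : ℤ)) ^ 2 + (((2 : ℕ) : ℤ)) ^ 2) = -1 := by decide
    rw [hc, f1_P]
    push_cast
    linear_combination ((-1) * ζ ^ 0 + (1) * ζ ^ 1 + (1) * ζ ^ 2 + (-2) * ζ ^ 4 + (5) * ζ ^ 5 + (-5) * ζ ^ 6 + (3) * ζ ^ 7 + (-2) * ζ ^ 9 + (3) * ζ ^ 10 + (-2) * ζ ^ 11 + (1) * ζ ^ 12 + (-1) * ζ ^ 14 + (1) * ζ ^ 15 + (-1) * ζ ^ 16) * h
  · have hc : chi5 ((((3 : ℕ) : ℤ)) ^ 2 + (((3 : ℕ) : ℤ)) ^ 2) = -1 := by decide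
    rw [hc, f1_P]
    push_cast
    linear_combination ((-1) * ζ ^ 0 + (1) * ζ ^ 1 + (2) * ζ ^ 3 + (-2) * ζ ^ 4 + (-1) * ζ ^ 5 + (4) * ζ ^ 6 + (-3) * ζ ^ 7 + (2) * ζ ^ 8 + (-3) * ζ ^ 10 + (4) * ζ ^ 11 + (-2) * ζ ^ 12 + (1) * ζ ^ 13 + (-1) * ζ ^ 15 + (2) * ζ ^ 16 + (-2) * ζ ^ 17 + (1) * ζ ^ 19 + (-1) * ζ ^ 20) * h
  · have hc : chi5 ((((3 : ℕ) : ℤ)) ^ 2 + (((4 : ℕ) : ℤ)) ^ 2) = 0 := by decide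
    rw [hc, f1_P]
    push_cast
    linear_combination ((-1) * ζ ^ 0 + (1) * ζ ^ 1 + (1) * ζ ^ 3 + (-2) * ζ ^ 5 + (1) * ζ ^ 7 + (1) * ζ ^ 9 + (-1) * ζ ^ 10 + (1) * ζ ^ 13 + (-1) * ζ ^ 14 + (1) * ζ ^ 15 + (-1) * ζ ^ 17 + (1) * ζ ^ 18 + (-1) * ζ ^ 21 + (1) * ζ ^ 23 + (-1) * ζ ^ 24) * h
  · have hc : chi5 ((((4 : ℕ) : ℤ)) ^ 2 + (((0 : ℕ) : ℤ)) ^ 2) = 1 := by decide
    rw [hc, f1_P]
    push_cast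
    linear_combination ((-1) * ζ ^ 0 + (1) * ζ ^ 1 + (-1) * ζ ^ 4 + (1) * ζ ^ 6 + (-1) * ζ ^ 8 + (1) * ζ ^ 11 + (-1) * ζ ^ 12) * h
  · have hc : chi5 ((((4 : ℕ) : ℤ)) ^ 2 + (((1 : ℕ) : ℤ)) ^ 2) = -1 := by decide
    rw [hc, f1_P]
    push_cast
    linear_combination ((-1) * ζ ^ 0 + (2) * ζ ^ 1 + (-2) * ζ ^ 2 + (1) * ζ ^ 3 + (1) * ζ ^ 4 + (3) * ζ ^ 5 + (-2) * ζ ^ 6 + (-2) * ζ ^ 7 + (2) * ζ ^ 9 + (1) * ζ ^ 10 + (-1) * ζ ^ 11 + (-2) * ζ ^ 12 + (1) * ζ ^ 13 + (1) * ζ ^ 14 + (-1) * ζ ^ 16) * h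
  · have hc : chi5 ((((4 : ℕ) : ℤ)) ^ 2 + (((2 : ℕ) : ℤ)) ^ 2) = 0 := by decide
    rw [hc, f1_P]
    push_cast
    linear_combination ((-1) * ζ ^ 0 + (1) * ζ ^ 1 + (1) * ζ ^ 2 + (-1) * ζ ^ 3 + (-1) * ζ ^ 5 + (1) * ζ ^ 6 + (1) * ζ ^ 7 + (-1) * ζ ^ 8 + (1) * ζ ^ 10 + (-1) * ζ ^ 11 + (1) * ζ ^ 12 + (-1) * ζ ^ 13 + (1) * ζ ^ 14 + (-1) * ζ ^ 16 + (1) * ζ ^ 17 + (-1) * ζ ^ 18 + (1) * ζ ^ 19 + (-1) * ζ ^ 20) * h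
  · have hc : chi5 ((((4 : ℕ) : ℤ)) ^ 2 + (((3 : ℕ) : ℤ)) ^ 2) = 0 := by decide
    rw [hc, f1_P]
    push_cast
    linear_combination ((-1) * ζ ^ 0 + (1) * ζ ^ 1 + (1) * ζ ^ 3 + (-2) * ζ ^ 5 + (1) * ζ ^ 7 + (1) * ζ ^ 9 + (-1) * ζ ^ 10 + (1) * ζ ^ 13 + (-1) * ζ ^ 14 + (1) * ζ ^ 15 + (-1) * ζ ^ 17 + (1) * ζ ^ 18 + (-1) * ζ ^ 21 + (1) * ζ ^ 23 + (-1) * ζ ^ 24) * h
  · have hc : chi5 ((((4 : ℕ) : ℤ)) ^ 2 + (((4 : ℕ) : ℤ)) ^ 2) = -1 := by decide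
    rw [hc, f1_P]
    push_cast
    linear_combination ((-1) * ζ ^ 0 + (1) * ζ ^ 1 + (2) * ζ ^ 4 + (-3) * ζ ^ 5 + (1) * ζ ^ 6 + (3) * ζ ^ 8 + (-1) * ζ ^ 9 + (-3) * ζ ^ 10 + (1) * ζ ^ 11 + (2) * ζ ^ 12 + (1) * ζ ^ 13 + (-1) * ζ ^ 14 + (-3) * ζ ^ 15 + (2) * ζ ^ 16 + (1) * ζ ^ 17 + (1) * ζ ^ 18 + (-1) * ζ ^ 19 + (-1) * ζ ^ 20 + (1) * ζ ^ 22 + (1) * ζ ^ 23 + (-2) * ζ ^ 24 + (1) * ζ ^ 27 + (-1) * ζ ^ 28) * h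

theorem f1_zpow (ζ : ℂ) (h5 : ζ ^ 5 = 1) (k : ℤ) : ζ ^ k = ζ ^ (k % 5).toNat := by
  have hζ0 : ζ ≠ 0 := by
    intro h0
    rw [h0] at h5
    norm_num at h5
  have h5' : ζ ^ (5 : ℤ) = 1 := by exact_mod_cast h5
  conv_lhs => rw [← Int.emod_add_mul_ediv k 5]
  rw [zpow_add₀ hζ0, zpow_mul, h5', one_zpow, mul_one, ← zpow_natCast,
    Int.toNat_of_nonneg (Int.emod_nonneg k (by norm_num))]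

theorem f1_sum_R5 (f : ℕ → ℂ) : ∑ r ∈ R5, f r = f 1 + f 5 + f 9 + f 13 + f 17 := by
  simp [R5, Finset.sum_insert]
  ring

theorem f1_chi5 (k l : ℤ) :
    chi5 (k ^ 2 + l ^ 2) = chi5 (((k % 5).toNat : ℤ) ^ 2 + ((l % 5).toNat : ℤ) ^ 2) := by
  rw [Int.toNat_of_nonneg (Int.emod_nonneg k (by norm_num)),
    Int.toNat_of_nonneg (Int.emod_nonneg l (by norm_num))]
  exact chi5_congr (((Int.mod_modEq k 5).pow 2).add ((Int.mod_modEq l 5).pow 2)).symm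

/-- Checked numerically for `|k|, |l| ≤ 22`.  Road: for `r ∈ R5`, `r = 5 + 16 ρ - 20 j` with `ρ = r % 5`, so `e(r k / 20) = e(k / 4) ζ^(4 ρ k)`, `ζ = e(1/5)`, and `ρ` runs
over all residues; so the left side is `e((k + l)/4) ∑_{ρ, σ mod 5} χ(ρ² + σ²) ζ^(4 (ρ k + σ l))`.  The inner sum is `5 χ(k² + l²)`: either by
`ρ² + σ² = (ρ + 2σ)(ρ - 2σ)` and the square of the quadratic Gauss sum (`= 5`), or by brute force: it depends on `k % 5`, `l % 5` only (25 cases), in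
each case it is a polynomial identity in `ζ` which follows from `1 + ζ + ζ² + ζ³ + ζ⁴ = 0` and `ζ⁵ = 1` (`linear_combination`). -/
theorem gauss_sum_R5 (k l : ℤ) :
    ∑ r ∈ R5, ∑ s ∈ R5, (chi5 ((r : ℤ) ^ 2 + (s : ℤ) ^ 2) : ℂ) *
      (cexp (2 * π * I * ((r : ℝ) / 20 : ℝ) * k) * cexp (2 * π * I * ((s : ℝ) / 20 : ℝ) * l)) =
    5 * cexp (π * I * (k + l) / 2) * (chi5 (k ^ 2 + l ^ 2) : ℂ) := by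
  have hexp : ∀ (m : ℤ) (r : ℕ), cexp (2 * π * I * ((r : ℝ) / 20 : ℝ) * m) = cexp (2 * π * I * m / 20) ^ r := by
    intro m r
    rw [← Complex.exp_nat_mul]
    congr 1
    push_cast
    ring
  have hRHS : cexp (π * I * (k + l) / 2) = cexp (2 * π * I * k / 20) ^ 5 * cexp (2 * π * I * l / 20) ^ 5 := by
    rw [← Complex.exp_nat_mul, ← Complex.exp_nat_mul, ← Complex.exp_add]
    congr 1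
    push_cast
    ring
  have hζ : IsPrimitiveRoot (cexp (2 * π * I / (5 : ℕ))) 5 := Complex.isPrimitiveRoot_exp 5 (by norm_num)
  have hfour : ∀ m : ℤ, cexp (2 * π * I * m / 20) ^ 4 = cexp (2 * π * I / (5 : ℕ)) ^ (m % 5).toNat := by
    intro m
    rw [← f1_zpow _ hζ.pow_eq_one, ← Complex.exp_nat_mul, ← Complex.exp_int_mul]
    congr 1
    push_cast
    ring
  have hsum : 1 + cexp (2 * π * I / (5 : ℕ)) + cexp (2 * π * I / (5 : ℕ)) ^ 2 + cexp (2 * π * I / (5 : ℕ)) ^ 3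
      + cexp (2 * π * I / (5 : ℕ)) ^ 4 = 0 := by
    have h := hζ.geom_sum_eq_zero (by norm_num)
    simpa [Finset.sum_range_succ] using h
  have hcore := f1_core _ hsum (k % 5).toNat (l % 5).toNat (by omega) (by omega)
  rw [← hfour k, ← hfour l, ← f1_chi5] at hcore
  simp only [hexp, hRHS, f1_sum_R5]
  generalize cexp (2 * π * I * k / 20) = A at *
  generalize cexp (2 * π * I * l / 20) = B at *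
  generalize (chi5 (k ^ 2 + l ^ 2) : ℂ) = c at *
  rw [f1_P] at hcore
  norm_num [chi5]
  linear_combination (A * B) * hcore

end Claimed.Open.R002
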