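import Claimed.Open.R002.SanityTwistF1

/-! # Twist road, post F2: the dual theta series as a sum over `ℤ × ℤ` -/

set_option autoImplicit false

namespace Claimed.Open.R002

open Real Complex HurwitzZeta

/-- the product of one sine kernel and one cosine kernel as a sum over `ℤ × ℤ` -/
theorem f2_prod (a b : ℝ) {y : ℝ} (hy : 0 < y) :
    HasSum (fun x : ℤ × ℤ => (-I * (x.1 : ℂ) * cexp (2 * π * I * a * x.1) * rexp (-π * (x.1 : ℝ) ^ 2 * y)) *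
        (cexp (2 * π * I * b * x.2) * rexp (-π * (x.2 : ℝ) ^ 2 * y)))
      ((sinKernel (a : UnitAddCircle) y : ℂ) * (cosKernel (b : UnitAddCircle) y : ℂ)) := by
  have hs := hasSum_int_sinKernel a hy
  have hc := hasSum_int_cosKernel b hy
  have n1 := hs.summable.norm
  have n2 := hc.summable.norm
  have h3 := summable_mul_of_summable_norm n1 n2
  have h := hs.mul hc h3
  exact h

/-- For each `(r, s)`: product of `hasSum_int_sinKernel (r/20) hy` and `hasSum_int_cosKernel (s/20) hy` over `ℤ × ℤ` (both are absolutely summable: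
`HasSum.mul_of_summable_norm` / `Summable.mul_norm`, cf. `d4_sym_prod`); `hasSum_sum` over `R5 × R5`; then F1 termwise
(`rexp (-π k² y) * rexp (-π l² y) = rexp (-π (k² + l²) y)`). -/
theorem hasSum_theta5Dual {y : ℝ} (hy : 0 < y) :
    HasSum (fun x : ℤ × ℤ => -I * (x.1 : ℂ) *
        (5 * cexp (π * I * ((x.1 : ℂ) + (x.2 : ℂ)) / 2) * (chi5 (x.1 ^ 2 + x.2 ^ 2) : ℂ)) *
        (rexp (-π * ((x.1 : ℝ) ^ 2 + (x.2 : ℝ) ^ 2) * y) : ℂ))
      (theta5Dual y : ℂ) := by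
  have h1 : HasSum (fun x : ℤ × ℤ => ∑ r ∈ R5, ∑ s ∈ R5, (chi5 ((r : ℤ) ^ 2 + (s : ℤ) ^ 2) : ℂ) *
        ((-I * (x.1 : ℂ) * cexp (2 * π * I * ((r : ℝ) / 20 : ℝ) * x.1) * rexp (-π * (x.1 : ℝ) ^ 2 * y)) *
        (cexp (2 * π * I * ((s : ℝ) / 20 : ℝ) * x.2) * rexp (-π * (x.2 : ℝ) ^ 2 * y))))
      (∑ r ∈ R5, ∑ s ∈ R5, (chi5 ((r : ℤ) ^ 2 + (s : ℤ) ^ 2) : ℂ) *
        ((sinKernel (((r : ℝ) / 20 : ℝ) : UnitAddCircle) y : ℂ) *
          (cosKernel (((s : ℝ) / 20 : ℝ) : UnitAddCircle) y : ℂ))) :=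
    hasSum_sum fun r _ => hasSum_sum fun s _ => (f2_prod ((r : ℝ) / 20) ((s : ℝ) / 20) hy).mul_left _
  have hval : (∑ r ∈ R5, ∑ s ∈ R5, (chi5 ((r : ℤ) ^ 2 + (s : ℤ) ^ 2) : ℂ) *
        ((sinKernel (((r : ℝ) / 20 : ℝ) : UnitAddCircle) y : ℂ) *
          (cosKernel (((s : ℝ) / 20 : ℝ) : UnitAddCircle) y : ℂ))) = (theta5Dual y : ℂ) := by
    unfold theta5Dual
    push_cast
    rfl
  rw [hval] at h1
  refine h1.congr_fun fun x => ?_
  rw [← gauss_sum_R5 x.1 x.2]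
  have hE : (rexp (-π * ((x.1 : ℝ) ^ 2 + (x.2 : ℝ) ^ 2) * y) : ℂ)
      = (rexp (-π * (x.1 : ℝ) ^ 2 * y) : ℂ) * (rexp (-π * (x.2 : ℝ) ^ 2 * y) : ℂ) := by
    rw [← Complex.ofReal_mul, ← Real.exp_add]
    congr 2
    ring
  rw [hE, Finset.mul_sum, Finset.sum_mul]
  refine Finset.sum_congr rfl fun r _ => ?_
  rw [Finset.mul_sum, Finset.sum_mul]
  refine Finset.sum_congr rfl fun s _ => ?_
  ring

end Claimed.Open.R002
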