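import Claimed.Open.R002.SanityTwistF2

/-! # Twist road, post F3a: symmetrisation of the dual sum -/

set_option autoImplicit false

namespace Claimed.Open.R002

open Real Complex

/-- `sin (π k / 2)` -/
def sgnOdd (k : ℤ) : ℤ := if k % 4 = 1 then 1 else if k % 4 = 3 then -1 else 0

/-- `cos (π l / 2)` -/
def sgnEven (l : ℤ) : ℤ := if l % 4 = 0 then 1 else if l % 4 = 2 then -1 else 0

theorem f3a_exp_eq_zpow (k : ℤ) : cexp (π * I * (k : ℂ) / 2) = I ^ k := by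
  have h1 : cexp ((π : ℂ) / 2 * I) = I := by
    rw [Complex.exp_mul_I, Complex.cos_pi_div_two, Complex.sin_pi_div_two]
    ring
  have h2 : (π : ℂ) * I * (k : ℂ) / 2 = (k : ℂ) * ((π : ℂ) / 2 * I) := by ring
  rw [h2, Complex.exp_int_mul, h1]

theorem f3a_exp_neg_eq_zpow (k : ℤ) : cexp (-(π * I * (k : ℂ) / 2)) = (I ^ k)⁻¹ := by
  rw [Complex.exp_neg, f3a_exp_eq_zpow]

theorem f3a_I_zpow (k : ℤ) : (I : ℂ) ^ k = I ^ (k % 4) := by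
  have h4 : (I : ℂ) ^ (4 : ℤ) = 1 := by
    have : (I : ℂ) ^ (4 : ℤ) = I ^ (4 : ℕ) := by norm_cast
    rw [this, Complex.I_pow_four]
  conv_lhs => rw [← Int.mul_ediv_add_emod k 4]
  rw [zpow_add₀ Complex.I_ne_zero, zpow_mul, h4, one_zpow, one_mul]

theorem f3a_cases (k : ℤ) :
    (k % 4 = 0 ∧ (I : ℂ) ^ k = 1) ∨ (k % 4 = 1 ∧ (I : ℂ) ^ k = I) ∨
      (k % 4 = 2 ∧ (I : ℂ) ^ k = -1) ∨ (k % 4 = 3 ∧ (I : ℂ) ^ k = -I) := by
  have h : k % 4 = 0 ∨ k % 4 = 1 ∨ k % 4 = 2 ∨ k % 4 = 3 := by omega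
  rcases h with h | h | h | h
  · left; refine ⟨h, ?_⟩; rw [f3a_I_zpow, h, zpow_zero]
  · right; left; refine ⟨h, ?_⟩; rw [f3a_I_zpow, h, zpow_one]
  · right; right; left; refine ⟨h, ?_⟩
    rw [f3a_I_zpow, h]
    have : (I : ℂ) ^ (2 : ℤ) = I ^ (2 : ℕ) := by norm_cast
    rw [this, Complex.I_sq]
  · right; right; right; refine ⟨h, ?_⟩
    rw [f3a_I_zpow, h]
    have : (I : ℂ) ^ (3 : ℤ) = I ^ (3 : ℕ) := by norm_cast
    rw [this, Complex.I_pow_three]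

/-- `e(k/4) - e(-k/4) = 2 i sin (π k / 2)` (write `k = 4 q + j`, `Complex.exp_periodic` / `Complex.exp_int_mul_two_pi_mul_I`). -/
theorem cexp_sub_cexp_neg (k : ℤ) :
    cexp (π * I * (k : ℂ) / 2) - cexp (-(π * I * (k : ℂ) / 2)) = 2 * I * (sgnOdd k : ℂ) := by
  rw [f3a_exp_eq_zpow, f3a_exp_neg_eq_zpow]
  rcases f3a_cases k with ⟨h, e⟩ | ⟨h, e⟩ | ⟨h, e⟩ | ⟨h, e⟩ <;> rw [e] <;> simp [sgnOdd, h] <;> ring

theorem cexp_add_cexp_neg (l : ℤ) :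
    cexp (π * I * (l : ℂ) / 2) + cexp (-(π * I * (l : ℂ) / 2)) = 2 * (sgnEven l : ℂ) := by
  rw [f3a_exp_eq_zpow, f3a_exp_neg_eq_zpow]
  rcases f3a_cases l with ⟨h, e⟩ | ⟨h, e⟩ | ⟨h, e⟩ | ⟨h, e⟩ <;> rw [e] <;> simp [sgnEven, h] <;> ring

theorem f3a_quarter (k l : ℤ) (χ R : ℂ) :
    1 / 4 * (-I * (k : ℂ) * (5 * cexp (π * I * ((k : ℂ) + (l : ℂ)) / 2) * χ) * R
      + -I * (-(k : ℂ)) * (5 * cexp (π * I * (-(k : ℂ) + (l : ℂ)) / 2) * χ) * R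
      + -I * (k : ℂ) * (5 * cexp (π * I * ((k : ℂ) + -(l : ℂ)) / 2) * χ) * R
      + -I * (-(k : ℂ)) * (5 * cexp (π * I * (-(k : ℂ) + -(l : ℂ)) / 2) * χ) * R)
    = 5 * ((k : ℂ) * (sgnOdd k : ℂ) * (sgnEven l : ℂ) * χ) * R := by
  have h1 := cexp_sub_cexp_neg k
  have h2 := cexp_add_cexp_neg l
  have e1 : cexp (π * I * ((k : ℂ) + (l : ℂ)) / 2)
      = cexp (π * I * (k : ℂ) / 2) * cexp (π * I * (l : ℂ) / 2) := by
    rw [← Complex.exp_add]; congr 1; ring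
  have e2 : cexp (π * I * (-(k : ℂ) + (l : ℂ)) / 2)
      = cexp (-(π * I * (k : ℂ) / 2)) * cexp (π * I * (l : ℂ) / 2) := by
    rw [← Complex.exp_add]; congr 1; ring
  have e3 : cexp (π * I * ((k : ℂ) + -(l : ℂ)) / 2)
      = cexp (π * I * (k : ℂ) / 2) * cexp (-(π * I * (l : ℂ) / 2)) := by
    rw [← Complex.exp_add]; congr 1; ring
  have e4 : cexp (π * I * (-(k : ℂ) + -(l : ℂ)) / 2)
      = cexp (-(π * I * (k : ℂ) / 2)) * cexp (-(π * I * (l : ℂ) / 2)) := by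
    rw [← Complex.exp_add]; congr 1; ring
  rw [e1, e2, e3, e4]
  have h3 : (cexp (π * I * (k : ℂ) / 2) - cexp (-(π * I * (k : ℂ) / 2))) *
      (cexp (π * I * (l : ℂ) / 2) + cexp (-(π * I * (l : ℂ) / 2)))
      = 2 * I * (sgnOdd k : ℂ) * (2 * (sgnEven l : ℂ)) := by rw [h1, h2]
  linear_combination (1 / 4 * (-I) * (k : ℂ) * 5 * χ * R) * h3
    - (5 * (k : ℂ) * (sgnOdd k : ℂ) * (sgnEven l : ℂ) * χ * R) * Complex.I_mul_I

/-- Let `g` be the summand of F2.  The sums of `g (k, l)`, `g (-k, l)`, `g (k, -l)`, `g (-k, -l)` are equal (`Equiv.hasSum_iff` with `Equiv.neg`, `Equiv.prodCongr`); a quarter of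
the sum of the four is `5 k sin(π k/2) cos(π l/2) χ(k² + l²) exp(..)`: `-i k · (1/4) (e(k/4) - e(-k/4)) (e(l/4) + e(-l/4))`.  Then `hasSum_ofReal`. -/
theorem hasSum_theta5Dual_real {y : ℝ} (hy : 0 < y) :
    HasSum (fun x : ℤ × ℤ => 5 * (((x.1 * sgnOdd x.1 * sgnEven x.2 * chi5 (x.1 ^ 2 + x.2 ^ 2) : ℤ) : ℝ) *
        rexp (-π * ((x.1 : ℝ) ^ 2 + (x.2 : ℝ) ^ 2) * y)))
      (theta5Dual y) := by
  have h := hasSum_theta5Dual hy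
  have h1 := (Equiv.prodCongr (Equiv.neg ℤ) (Equiv.refl ℤ)).hasSum_iff.2 h
  have h2 := (Equiv.prodCongr (Equiv.refl ℤ) (Equiv.neg ℤ)).hasSum_iff.2 h
  have h3 := (Equiv.prodCongr (Equiv.neg ℤ) (Equiv.neg ℤ)).hasSum_iff.2 h
  have hs := (((h.add h1).add h2).add h3).mul_left (1 / 4 : ℂ)
  have hval : (1 / 4 * ((theta5Dual y : ℂ) + (theta5Dual y : ℂ) + (theta5Dual y : ℂ)
      + (theta5Dual y : ℂ)) : ℂ) = (theta5Dual y : ℂ) := by ring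
  rw [hval] at hs
  simp only [Function.comp, Equiv.prodCongr_apply, Prod.map, Equiv.neg_apply, Equiv.refl_apply,
    neg_sq, Int.cast_neg, f3a_quarter] at hs
  refine Complex.hasSum_ofReal.1 ?_
  have hfun : ∀ x : ℤ × ℤ,
      (((5 * (((x.1 * sgnOdd x.1 * sgnEven x.2 * chi5 (x.1 ^ 2 + x.2 ^ 2) : ℤ) : ℝ) *
        rexp (-π * ((x.1 : ℝ) ^ 2 + (x.2 : ℝ) ^ 2) * y))) : ℝ) : ℂ)
      = 5 * ((x.1 : ℂ) * (sgnOdd x.1 : ℂ) * (sgnEven x.2 : ℂ) * (chi5 (x.1 ^ 2 + x.2 ^ 2) : ℂ)) *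
        (rexp (-π * ((x.1 : ℝ) ^ 2 + (x.2 : ℝ) ^ 2) * y) : ℂ) := by
    intro x
    push_cast
    ring
  simp only [hfun]
  exact hs

end Claimed.Open.R002
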