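import Mathlib

/-! # Twist road, post H1b: a sum over `ℤ × ℤ` from its 25 residue classes modulo `5` (Mathlib only) -/

set_option autoImplicit false

namespace Claimed.Open.R002

/-- The part of `f` carried by one residue class modulo `5`. -/
noncomputable def h1b_part (f : ℤ × ℤ → ℝ) (μ ν : ℕ) : ℤ × ℤ → ℝ :=
  fun x => if x.1 % 5 = (μ : ℤ) ∧ x.2 % 5 = (ν : ℤ) then f x else 0

theorem h1b_inj (μ ν : ℕ) :
    Function.Injective (fun y : ℤ × ℤ => ((5 * y.1 + μ, 5 * y.2 + ν) : ℤ × ℤ)) := by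
  rintro ⟨a, b⟩ ⟨c, d⟩ h
  simp only [Prod.mk.injEq] at h
  obtain ⟨h1, h2⟩ := h
  ext
  · simp only; omega
  · simp only; omega

theorem h1b_part_hasSum {f : ℤ × ℤ → ℝ} {μ ν : ℕ} (hμ : μ < 5) (hν : ν < 5) {s : ℝ}
    (h : HasSum (fun y : ℤ × ℤ => f (5 * y.1 + μ, 5 * y.2 + ν)) s) :
    HasSum (h1b_part f μ ν) s := by
  refine ((h1b_inj μ ν).hasSum_iff ?_).1 ?_
  · intro x hx
    unfold h1b_part
    rw [if_neg]
    rintro ⟨h1, h2⟩
    apply hx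
    refine ⟨(x.1 / 5, x.2 / 5), ?_⟩
    ext
    · simp only; omega
    · simp only; omega
  · have : (h1b_part f μ ν ∘ fun y : ℤ × ℤ => ((5 * y.1 + μ, 5 * y.2 + ν) : ℤ × ℤ))
        = fun y : ℤ × ℤ => f (5 * y.1 + μ, 5 * y.2 + ν) := by
      funext y
      simp only [Function.comp, h1b_part]
      rw [if_pos]
      constructor <;> omega
    rw [this]
    exact h

theorem h1b_sum_part (f : ℤ × ℤ → ℝ) (x : ℤ × ℤ) :
    ∑ μ ∈ Finset.range 5, ∑ ν ∈ Finset.range 5, h1b_part f μ ν x = f x := by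
  obtain ⟨μ0, hμ0, h1⟩ : ∃ μ0 : ℕ, μ0 < 5 ∧ x.1 % 5 = (μ0 : ℤ) :=
    ⟨(x.1 % 5).toNat, by omega, by omega⟩
  obtain ⟨ν0, hν0, h2⟩ : ∃ ν0 : ℕ, ν0 < 5 ∧ x.2 % 5 = (ν0 : ℤ) :=
    ⟨(x.2 % 5).toNat, by omega, by omega⟩
  rw [Finset.sum_eq_single μ0, Finset.sum_eq_single ν0]
  · unfold h1b_part
    rw [if_pos ⟨h1, h2⟩]
  · intro ν _ hν
    unfold h1b_part
    rw [if_neg]
    rintro ⟨_, h⟩
    apply hν
    omega
  · intro h
    exact absurd (Finset.mem_range.2 hν0) h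
  · intro μ _ hμ
    apply Finset.sum_eq_zero
    intro ν _
    unfold h1b_part
    rw [if_neg]
    rintro ⟨h, _⟩
    apply hμ
    omega
  · intro h
    exact absurd (Finset.mem_range.2 hμ0) h

/-- `ℤ ≃ ℤ × Fin 5` (`Int.divModEquiv 5`, or `n ↦ (n / 5, n % 5)`), so `ℤ × ℤ ≃ (ℤ × ℤ) × (Fin 5 × Fin 5)`; a sum over a product with a finite factor
(`HasSum.prod_fiberwise` / `hasSum_sum` + `Equiv.hasSum_iff`, or `HasSum.sigma`). -/
theorem hasSum_of_classes {f : ℤ × ℤ → ℝ} {a : ℕ → ℕ → ℝ}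
    (h : ∀ μ ∈ Finset.range 5, ∀ ν ∈ Finset.range 5,
      HasSum (fun y : ℤ × ℤ => f (5 * y.1 + μ, 5 * y.2 + ν)) (a μ ν)) :
    HasSum f (∑ μ ∈ Finset.range 5, ∑ ν ∈ Finset.range 5, a μ ν) := by
  have key : HasSum (fun x => ∑ μ ∈ Finset.range 5, ∑ ν ∈ Finset.range 5, h1b_part f μ ν x)
      (∑ μ ∈ Finset.range 5, ∑ ν ∈ Finset.range 5, a μ ν) := by
    refine hasSum_sum fun μ hμ => hasSum_sum fun ν hν => ?_
    exact h1b_part_hasSum (Finset.mem_range.1 hμ) (Finset.mem_range.1 hν) (h μ hμ ν hν)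
  have e : (fun x => ∑ μ ∈ Finset.range 5, ∑ ν ∈ Finset.range 5, h1b_part f μ ν x) = f :=
    funext (h1b_sum_part f)
  rwa [e] at key

end Claimed.Open.R002
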