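import Claimed.Open.R002.SanityTwistH1a
import Claimed.Open.R002.SanityTwistH1b

/-! # Twist road, post H1c: the theta series of the twist -/

set_option autoImplicit false

namespace Claimed.Open.R002

open Real HurwitzZeta

/-- a sum over `R5` is a sum over `μ < 5` at `4 μ + 1` -/
theorem h1c_sum_R5 (g : ℕ → ℝ) : ∑ r ∈ R5, g r = ∑ μ ∈ Finset.range 5, g (4 * μ + 1) := by
  simp [R5, Finset.sum_range_succ]
  ring

/-- symmetrisation of a double sum -/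
theorem h1c_symm (c : ℕ → ℕ → ℝ) (o e : ℕ → ℝ) (hc : ∀ μ ν, c μ ν = c ν μ) :
    ∑ μ ∈ Finset.range 5, ∑ ν ∈ Finset.range 5, -10 * c μ ν * (o μ * e ν + e μ * o ν)
      = -20 * ∑ μ ∈ Finset.range 5, ∑ ν ∈ Finset.range 5, c μ ν * (o μ * e ν) := by
  have h1 : ∑ μ ∈ Finset.range 5, ∑ ν ∈ Finset.range 5, c μ ν * (e μ * o ν)
      = ∑ μ ∈ Finset.range 5, ∑ ν ∈ Finset.range 5, c μ ν * (o μ * e ν) := by
    rw [Finset.sum_comm]
    refine Finset.sum_congr rfl fun μ _ => Finset.sum_congr rfl fun ν _ => ?_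
    rw [hc ν μ, mul_comm (e ν)]
  have h2 : ∑ μ ∈ Finset.range 5, ∑ ν ∈ Finset.range 5, -10 * c μ ν * (o μ * e ν + e μ * o ν)
      = -10 * (∑ μ ∈ Finset.range 5, ∑ ν ∈ Finset.range 5, c μ ν * (o μ * e ν)
        + ∑ μ ∈ Finset.range 5, ∑ ν ∈ Finset.range 5, c μ ν * (e μ * o ν)) := by
    rw [← Finset.sum_add_distrib, Finset.mul_sum]
    refine Finset.sum_congr rfl fun μ _ => ?_
    rw [← Finset.sum_add_distrib, Finset.mul_sum]
    refine Finset.sum_congr rfl fun ν _ => ?_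
    ring
  rw [h2, h1]
  ring

/-- H1b with H1a; `R5` is the image of `range 5` under `μ ↦ 4 μ + 1` (`Finset.sum_image` or `simp [R5, Finset.sum_range_succ]`);
the two halves `odd·even`, `even·odd` are exchanged by `(r, s) ↦ (s, r)` (`Finset.sum_comm`, `add_comm` in `chi5 (r² + s²)`). -/
theorem hasSum_theta5_real {t : ℝ} (ht : 0 < t) :
    HasSum (fun x : ℤ × ℤ => (chi5 (primOf x).norm : ℝ) * ((primOf x).re : ℝ) *
      rexp (-π * ((primOf x).norm : ℝ) * t)) (theta5 t) := by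
  have h := hasSum_of_classes (f := fun x : ℤ × ℤ => (chi5 (primOf x).norm : ℝ) * ((primOf x).re : ℝ) *
      rexp (-π * ((primOf x).norm : ℝ) * t)) (fun μ _ ν _ => hasSum_theta5_class ht μ ν)
  have e : theta5 t = ∑ μ ∈ Finset.range 5, ∑ ν ∈ Finset.range 5,
      -10 * (chi5 (((4 * μ + 1 : ℕ) : ℤ) ^ 2 + ((4 * ν + 1 : ℕ) : ℤ) ^ 2) : ℝ) *
        (oddKernel ((((4 * μ + 1 : ℕ) : ℝ) / 20 : ℝ) : UnitAddCircle) (200 * t) *
            evenKernel ((((4 * ν + 1 : ℕ) : ℝ) / 20 : ℝ) : UnitAddCircle) (200 * t) +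
          evenKernel ((((4 * μ + 1 : ℕ) : ℝ) / 20 : ℝ) : UnitAddCircle) (200 * t) *
            oddKernel ((((4 * ν + 1 : ℕ) : ℝ) / 20 : ℝ) : UnitAddCircle) (200 * t)) := by
    rw [h1c_symm (fun μ ν => (chi5 (((4 * μ + 1 : ℕ) : ℤ) ^ 2 + ((4 * ν + 1 : ℕ) : ℤ) ^ 2) : ℝ))
      (fun μ => oddKernel ((((4 * μ + 1 : ℕ) : ℝ) / 20 : ℝ) : UnitAddCircle) (200 * t))
      (fun μ => evenKernel ((((4 * μ + 1 : ℕ) : ℝ) / 20 : ℝ) : UnitAddCircle) (200 * t))
      (fun μ ν => by rw [add_comm])]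
    unfold theta5
    rw [h1c_sum_R5]
    refine congrArg (fun z : ℝ => -20 * z) (Finset.sum_congr rfl fun μ _ => ?_)
    rw [h1c_sum_R5]
  rw [e]
  exact h

theorem hasSum_theta5 {t : ℝ} (ht : 0 < t) :
    HasSum (fun x : ℤ × ℤ => ((chi5 (primOf x).norm * (primOf x).re : ℤ) : ℂ) *
      rexp (-π * ((primOf x).norm : ℝ) * t)) (theta5 t : ℂ) := by
  have h := Complex.hasSum_ofReal.2 (hasSum_theta5_real ht)
  refine h.congr_fun fun x => ?_
  push_cast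
  ring

end Claimed.Open.R002
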