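import Claimed.Open.R002.SanityTwistF3a
import Claimed.Open.R002.SanityTwistH1c

/-! # Twist road, post F3b: `k` odd, `l` even: `k + l i` or its negative is primary -/

set_option autoImplicit false

namespace Claimed.Open.R002

open Real

/-- The two parametrisations `±primOf` of the pairs (odd, even). -/
def f3b_iota : (ℤ × ℤ) ⊕ (ℤ × ℤ) → ℤ × ℤ
  | Sum.inl x => (1 + 2 * x.1 + 2 * x.2, 2 * x.1 - 2 * x.2)
  | Sum.inr x => (-(1 + 2 * x.1 + 2 * x.2), -(2 * x.1 - 2 * x.2))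

theorem f3b_iota_injective : Function.Injective f3b_iota := by
  rintro (⟨m, n⟩ | ⟨m, n⟩) (⟨m', n'⟩ | ⟨m', n'⟩) h <;>
    simp only [f3b_iota, Prod.mk.injEq] at h <;> obtain ⟨h1, h2⟩ := h
  · have e1 : m = m' := by omega
    have e2 : n = n' := by omega
    rw [e1, e2]
  · omega
  · omega
  · have e1 : m = m' := by omega
    have e2 : n = n' := by omega
    rw [e1, e2]

theorem f3b_sgn_inl (m n : ℤ) : sgnOdd (1 + 2 * m + 2 * n) * sgnEven (2 * m - 2 * n) = 1 := by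
  have h : ((1 + 2 * m + 2 * n) % 4 = 1 ∧ (2 * m - 2 * n) % 4 = 0) ∨
      ((1 + 2 * m + 2 * n) % 4 = 3 ∧ (2 * m - 2 * n) % 4 = 2) := by omega
  generalize 1 + 2 * m + 2 * n = k at h ⊢
  generalize 2 * m - 2 * n = l at h ⊢
  rcases h with ⟨h1, h2⟩ | ⟨h1, h2⟩ <;> simp [sgnOdd, sgnEven, h1, h2]

theorem f3b_sgn_inr (m n : ℤ) :
    sgnOdd (-(1 + 2 * m + 2 * n)) * sgnEven (-(2 * m - 2 * n)) = -1 := by
  have h : ((-(1 + 2 * m + 2 * n)) % 4 = 3 ∧ (-(2 * m - 2 * n)) % 4 = 0) ∨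
      ((-(1 + 2 * m + 2 * n)) % 4 = 1 ∧ (-(2 * m - 2 * n)) % 4 = 2) := by omega
  generalize -(1 + 2 * m + 2 * n) = k at h ⊢
  generalize -(2 * m - 2 * n) = l at h ⊢
  rcases h with ⟨h1, h2⟩ | ⟨h1, h2⟩ <;> simp [sgnOdd, sgnEven, h1, h2]

theorem f3b_mem_range {k l : ℤ} (h : sgnOdd k * sgnEven l ≠ 0) : (k, l) ∈ Set.range f3b_iota := by
  have hk : k % 4 = 1 ∨ k % 4 = 3 := by
    by_contra hcon
    push Not at hcon
    exact h (by simp [sgnOdd, hcon.1, hcon.2])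
  have hl : l % 4 = 0 ∨ l % 4 = 2 := by
    by_contra hcon
    push Not at hcon
    exact h (by simp [sgnEven, hcon.1, hcon.2])
  have hc : (k + l) % 4 = 1 ∨ (k + l) % 4 = 3 := by omega
  rcases hc with hc | hc
  · refine ⟨Sum.inl ((k + l - 1) / 4, (k - l - 1) / 4), ?_⟩
    simp only [f3b_iota, Prod.mk.injEq]
    constructor <;> omega
  · refine ⟨Sum.inr ((-k - l - 1) / 4, (-k + l - 1) / 4), ?_⟩
    simp only [f3b_iota, Prod.mk.injEq]
    constructor <;> omega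

/-- Let `F (k, l)` be the summand.  `ι₊ x = ((primOf x).re, (primOf x).im) = (1 + 2m + 2n, 2m - 2n)`, `ι₋ = -ι₊`.  (1) `F (ι₊ x) = F (ι₋ x) = χ(N) Re exp(-π N y)`: there
`k % 4`, `l % 4` are `(1, 0)` or `(3, 2)`, so `sgnOdd k * sgnEven l = 1`, and `k² + l² = N` (`Zsqrtd.norm_def`); (2) `ι₊ ⊕ ι₋ : (ℤ × ℤ) ⊕ (ℤ × ℤ) → ℤ × ℤ` is injective
(`k + l ≡ 1` resp. `3` mod `4`); (3) outside its range `F = 0` (if `k` is odd and `l` even then `m = (k + l ∓ 1)/4`, `n = (k - l ∓ 1)/4`).  Then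
`Function.Injective.hasSum_iff`, `HasSum.sum` (sum over a `Sum` type) and H1c (`hasSum_theta5_real`).  Checked numerically. -/
theorem hasSum_primary_pm {y : ℝ} (hy : 0 < y) :
    HasSum (fun x : ℤ × ℤ => ((x.1 * sgnOdd x.1 * sgnEven x.2 * chi5 (x.1 ^ 2 + x.2 ^ 2) : ℤ) : ℝ) *
        rexp (-π * ((x.1 : ℝ) ^ 2 + (x.2 : ℝ) ^ 2) * y))
      (2 * theta5 y) := by
  have hθ := hasSum_theta5_real hy
  have hN : ∀ x : ℤ × ℤ, (primOf x).norm =
      (1 + 2 * x.1 + 2 * x.2) ^ 2 + (2 * x.1 - 2 * x.2) ^ 2 := by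
    intro x
    rw [Zsqrtd.norm_def]
    simp only [primOf]
    ring
  rw [← f3b_iota_injective.hasSum_iff, two_mul]
  · refine HasSum.sum ?_ ?_
    · convert hθ using 1
      funext x
      have e : (1 + 2 * x.1 + 2 * x.2) * sgnOdd (1 + 2 * x.1 + 2 * x.2) * sgnEven (2 * x.1 - 2 * x.2) =
          (primOf x).re := by
        rw [mul_assoc, f3b_sgn_inl, mul_one]
        rfl
      simp only [Function.comp_apply, f3b_iota]
      rw [e, ← hN x, hN x]
      push_cast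
      ring_nf
    · convert hθ using 1
      funext x
      have e : -(1 + 2 * x.1 + 2 * x.2) * sgnOdd (-(1 + 2 * x.1 + 2 * x.2)) *
          sgnEven (-(2 * x.1 - 2 * x.2)) = (primOf x).re := by
        rw [mul_assoc, f3b_sgn_inr, mul_neg, mul_one, neg_neg]
        rfl
      simp only [Function.comp_apply, f3b_iota]
      rw [e, neg_sq, neg_sq, ← hN x, hN x]
      push_cast
      ring_nf
  · rintro ⟨k, l⟩ hx
    have h0 : sgnOdd k * sgnEven l = 0 := by
      by_contra hcon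
      exact hx (f3b_mem_range hcon)
    have : k * sgnOdd k * sgnEven l * chi5 (k ^ 2 + l ^ 2) = 0 := by
      rw [mul_assoc k, h0, mul_zero, zero_mul]
    simp only [this, Int.cast_zero, zero_mul]

end Claimed.Open.R002
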