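import Claimed.Open.R002.SanityTwistF0
import Claimed.Open.R002.SanityTwistF3b

/-! # Twist road, glue F4: the functional equation of `theta5`, with sign `-1` -/

set_option autoImplicit false

namespace Claimed.Open.R002

open Real

theorem theta5Dual_eq {y : ℝ} (hy : 0 < y) : theta5Dual y = 10 * theta5 y := by
  have h1 := hasSum_theta5Dual_real hy
  have h2 := (hasSum_primary_pm hy).mul_left 5
  rw [h1.unique h2]
  ring

/-- **`θ₅(1/x) = - x² θ₅(x/200) / 200`.** -/
theorem theta5_one_div {x : ℝ} (hx : 0 < x) :
    theta5 (1 / x) = -(x ^ 2 * (theta5 (x / 200) / 200)) := by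
  rw [theta5_one_div_dual hx, theta5Dual_eq (by positivity)]
  ring

end Claimed.Open.R002
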