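import Claimed.Open.R002.SanityTwistDefs

/-! # Twist road, post G1: the character `chi5` (all by reduction modulo `5`: `Int.emod_emod_of_dvd`, `omega`, `decide`) -/

set_option autoImplicit false

namespace Claimed.Open.R002

theorem chi5_emod (n : ℤ) : chi5 (n % 5) = chi5 n := by
  unfold chi5
  rw [Int.emod_emod_of_dvd n (dvd_refl 5)]

theorem chi5_congr {a b : ℤ} (h : a % 5 = b % 5) : chi5 a = chi5 b := by
  unfold chi5
  rw [h]

theorem chi5_add_mul (n k : ℤ) : chi5 (n + 5 * k) = chi5 n :=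
  chi5_congr (by omega)

/-- 25 cases: `a % 5`, `b % 5` (`Int.mul_emod`). -/
theorem chi5_mul (a b : ℤ) : chi5 (a * b) = chi5 a * chi5 b := by
  rw [← chi5_emod (a * b), Int.mul_emod, chi5_emod, ← chi5_emod a, ← chi5_emod b]
  have ha : a % 5 = 0 ∨ a % 5 = 1 ∨ a % 5 = 2 ∨ a % 5 = 3 ∨ a % 5 = 4 := by omega
  have hb : b % 5 = 0 ∨ b % 5 = 1 ∨ b % 5 = 2 ∨ b % 5 = 3 ∨ b % 5 = 4 := by omega
  rcases ha with h | h | h | h | h <;> rcases hb with h' | h' | h' | h' | h' <;> rw [h, h'] <;> decide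

theorem chi5_eq_zero_iff (n : ℤ) : chi5 n = 0 ↔ (5 : ℤ) ∣ n := by
  unfold chi5
  split_ifs with h1 h2
  · exact ⟨fun _ => by omega, fun _ => rfl⟩
  · exact ⟨fun h => by norm_num at h, fun h => by omega⟩
  · exact ⟨fun h => by norm_num at h, fun h => by omega⟩

theorem chi5_mul_self {n : ℤ} (h : ¬ (5 : ℤ) ∣ n) : chi5 n * chi5 n = 1 := by
  unfold chi5
  split_ifs with h1 h2
  · omega
  · norm_num
  · norm_num

theorem abs_chi5_le (n : ℤ) : |chi5 n| ≤ 1 := by
  unfold chi5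
  split_ifs <;> simp

theorem chi5_neg (n : ℤ) : chi5 (-n) = chi5 n := by
  unfold chi5
  split_ifs <;> omega

theorem chi5_one : chi5 1 = 1 := by
  decide

theorem chi5_two : chi5 2 = -1 := by
  decide

/-- `chi5 (2 n) = - chi5 n`. -/
theorem chi5_two_mul (n : ℤ) : chi5 (2 * n) = -chi5 n := by
  rw [chi5_mul, chi5_two]
  ring

end Claimed.Open.R002
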