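import Claimed.Open.R002.SanityTwistDefs

/-! # Twist road, post G2: quadratic reciprocity for `5` -/

set_option autoImplicit false

namespace Claimed.Open.R002

theorem g2_fact_five : Fact (Nat.Prime 5) := ⟨by norm_num⟩

theorem g2_legendreSym_five (a : ℤ) : @legendreSym 5 g2_fact_five a = chi5 a := by
  rw [legendreSym.mod]
  have h : a % 5 = 0 ∨ a % 5 = 1 ∨ a % 5 = 2 ∨ a % 5 = 3 ∨ a % 5 = 4 := by omega
  unfold chi5
  push_cast
  rcases h with h | h | h | h | h <;> rw [h] <;> decide

/-- `(5 / p) = (p / 5)`: `legendreSym.quadratic_reciprocity'` (or `_one_mod_four` with `5 % 4 = 1`) with `Fact (Nat.Prime 5)`;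
`legendreSym p 5 = quadraticChar (ZMod p) 5` by definition; `legendreSym 5 p` depends on `(p : ZMod 5)` only: five cases, `decide`. -/
theorem quadraticChar_five (p : ℕ) [Fact p.Prime] (h2 : p ≠ 2) (h5 : p ≠ 5) :
    quadraticChar (ZMod p) (5 : ZMod p) = chi5 p := by
  have _h5 := h5
  have h := @legendreSym.quadratic_reciprocity_one_mod_four 5 p g2_fact_five _ (by norm_num) h2
  rw [g2_legendreSym_five] at h
  rw [← h, legendreSym]
  norm_num

end Claimed.Open.R002
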