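import Claimed.Open.R002.SanityTwistG2

/-! # Twist road, post G3: the character sum of the twist -/

set_option autoImplicit false

namespace Claimed.Open.R002

theorem g3_five_ne_zero (p : ℕ) [hp : Fact p.Prime] (h5 : p ≠ 5) : (5 : ZMod p) ≠ 0 := by
  intro h
  have h1 : ((5 : ℕ) : ZMod p) = 0 := by exact_mod_cast h
  rw [ZMod.natCast_eq_zero_iff] at h1
  exact h5 ((Nat.prime_dvd_prime_iff_eq hp.out (by norm_num)).1 h1)

/-- `x ↦ 5 x` is a bijection of `ZMod p` (`5` is a unit); `(5x)³ - 25 (5x) = 5³ (x³ - x)`, `ρ(5³) = ρ(5)` (`ρ(5)² = 1`), then G2. -/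
theorem sum_quadraticChar_twist (p : ℕ) [Fact p.Prime] (h2 : p ≠ 2) (h5 : p ≠ 5) :
    ∑ x : ZMod p, quadraticChar (ZMod p) (x ^ 3 - 25 * x) =
      chi5 p * ∑ x : ZMod p, quadraticChar (ZMod p) (x ^ 3 - x) := by
  have h0 := g3_five_ne_zero p h5
  have hsq : quadraticChar (ZMod p) (5 : ZMod p) ^ 2 = 1 := quadraticChar_sq_one h0
  rw [← Equiv.sum_comp (Equiv.mulLeft₀ (5 : ZMod p) h0) (fun x => quadraticChar (ZMod p) (x ^ 3 - 25 * x)), Finset.mul_sum]
  refine Finset.sum_congr rfl fun x _ => ?_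
  have e0 : (Equiv.mulLeft₀ (5 : ZMod p) h0) x = 5 * x := rfl
  have e : (5 * x) ^ 3 - 25 * (5 * x) = 5 * 5 ^ 2 * (x ^ 3 - x) := by ring
  rw [e0, e, map_mul, map_mul, map_pow, hsq, mul_one, quadraticChar_five p h2 h5]

end Claimed.Open.R002
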