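import Claimed.Open.R002.SanityTwistDefs

/-! # Twist road, post G4: the number of points of `y² = x³ - 25 x` over a finite field (copy of `SanityHeckeA5.lean`) -/

set_option autoImplicit false

namespace Claimed.Open.R002

open WeierstrassCurve

/-- The affine equation of `E₅over F` is `y² = x³ - 25 x`. -/
theorem g4_equation_iff (F : Type*) [Field F] (x y : F) :
    (E₅over F).toAffine.Equation x y ↔ y ^ 2 = x ^ 3 - 25 * x := by
  rw [WeierstrassCurve.Affine.equation_iff]
  simp only [E₅over]
  constructor
  · intro h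
    linear_combination h
  · intro h
    linear_combination h

/-- In characteristic `≠ 2, 5` every solution of the equation is a nonsingular point. -/
theorem g4_nonsingular (F : Type*) [Field F] (hF : ringChar F ≠ 2) (h5 : (5 : F) ≠ 0) {x y : F}
    (h : y ^ 2 = x ^ 3 - 25 * x) : (E₅over F).toAffine.Nonsingular x y := by
  have h2 : (2 : F) ≠ 0 := Ring.two_ne_zero hF
  rw [WeierstrassCurve.Affine.nonsingular_iff']
  refine ⟨(g4_equation_iff F x y).2 h, ?_⟩
  simp only [E₅over]
  by_contra hcon
  push Not at hcon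
  obtain ⟨h3, h4⟩ := hcon
  have hy : y = 0 := by
    have : 2 * y = 0 := by linear_combination h4
    rcases mul_eq_zero.1 this with h' | h'
    · exact absurd h' h2
    · exact h'
  have hx3 : 3 * x ^ 2 = 25 := by linear_combination -h3
  have hx : x * (x ^ 2 - 25) = 0 := by
    rw [hy] at h
    linear_combination -h
  rcases mul_eq_zero.1 hx with h' | h'
  · rw [h'] at hx3
    have h25 : (5 : F) * 5 = 0 := by linear_combination -hx3
    rcases mul_eq_zero.1 h25 with h'' | h'' <;> exact h5 h''
  · have h50 : (2 : F) * (5 * 5) = 0 := by linear_combination -3 * h' + hx3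
    rcases mul_eq_zero.1 h50 with h'' | h''
    · exact h2 h''
    · rcases mul_eq_zero.1 h'' with h''' | h''' <;> exact h5 h'''

/-- Points of `E₅over F` = the point at infinity and the solutions of `y² = x³ - 25 x`. -/
noncomputable def g4_equiv (F : Type*) [Field F] (hF : ringChar F ≠ 2) (h5 : (5 : F) ≠ 0) :
    (E₅over F).toAffine.Point ≃ Option {p : F × F // p.2 ^ 2 = p.1 ^ 3 - 25 * p.1} where
  toFun P := match P with
    | .zero => none
    | .some x y h => some ⟨(x, y), (g4_equation_iff F x y).1 h.1⟩
  invFun o := match o with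
    | none => .zero
    | some p => .some p.1.1 p.1.2 (g4_nonsingular F hF h5 p.2)
  left_inv := by
    rintro (_ | _) <;> rfl
  right_inv := by
    rintro (_ | ⟨⟨x, y⟩, h⟩) <;> rfl

/-- The number of solutions of `y² = x³ - 25 x`. -/
theorem g4_card_sol (F : Type*) [Field F] [Fintype F] [DecidableEq F] (hF : ringChar F ≠ 2) :
    (Fintype.card {p : F × F // p.2 ^ 2 = p.1 ^ 3 - 25 * p.1} : ℤ) =
      (Fintype.card F : ℤ) + ∑ x : F, quadraticChar F (x ^ 3 - 25 * x) := by
  rw [Fintype.card_subtype, Finset.card_filter, Fintype.sum_prod_type]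
  push_cast
  have key : ∀ x : F, (∑ y : F, (if y ^ 2 = x ^ 3 - 25 * x then 1 else 0 : ℤ)) =
      quadraticChar F (x ^ 3 - 25 * x) + 1 := by
    intro x
    rw [← quadraticChar_card_sqrts hF (x ^ 3 - 25 * x), Set.toFinset_ofPred, Finset.card_filter]
    push_cast
    rfl
  rw [Finset.sum_congr rfl fun x _ => key x, Finset.sum_add_distrib]
  simp only [Finset.sum_const, Finset.card_univ, nsmul_eq_mul, mul_one]
  ring

/-- Copy of `card_point_E₀over` (`SanityHeckeA5.lean`: `a5_equation_iff`, `a5_nonsingular`, `a5_card_sol`) with `x³ - 25 x`;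
the curve is nonsingular because `Δ = 64 · 5⁶ ≠ 0`. -/
theorem card_point_E₅over (F : Type*) [Field F] [Fintype F] [DecidableEq F] (hF : ringChar F ≠ 2)
    (h5 : (5 : F) ≠ 0) :
    (Nat.card (E₅over F).toAffine.Point : ℤ) =
      (Fintype.card F : ℤ) + 1 + ∑ x : F, quadraticChar F (x ^ 3 - 25 * x) := by
  rw [Nat.card_congr (g4_equiv F hF h5), Nat.card_eq_fintype_card, Fintype.card_option]
  push_cast
  rw [g4_card_sol F hF]
  ring

/-- Copy of `sum_quadraticChar_congr` (tool: `a5_quadraticChar_map`). -/
theorem sum_quadraticChar_congr₅ {F F' : Type*} [Field F] [Fintype F] [DecidableEq F]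
    [Field F'] [Fintype F'] [DecidableEq F'] (e : F ≃+* F') :
    ∑ x : F, quadraticChar F (x ^ 3 - 25 * x) = ∑ x : F', quadraticChar F' (x ^ 3 - 25 * x) := by
  refine Fintype.sum_equiv e.toEquiv _ _ fun x => ?_
  rw [← a5_quadraticChar_map e]
  simp [map_ofNat]

end Claimed.Open.R002
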