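import Claimed.Open.R002.SanityTwistG3
import Claimed.Open.R002.SanityTwistG4

/-! # Twist road, post G5: the local polynomials of `E₅` (copy of `SanityHeckeA6.lean`) -/

set_option autoImplicit false

namespace Claimed.Open.R002

open WeierstrassCurve IsDedekindDomain NumberField Polynomial

theorem g5_baseChange_eq (A F : Type*) [CommRing A] [Field F] [Algebra ℚ F] [Algebra A F] :
    E₅⁄F = (E₅over A)⁄F := by
  ext <;> simp [E₅over, WeierstrassCurve.baseChange, map_ofNat]

theorem g5_Δ (A : Type*) [CommRing A] : (E₅over A).Δ = 1000000 := by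
  simp [E₅over, WeierstrassCurve.Δ, WeierstrassCurve.b₂, WeierstrassCurve.b₄, WeierstrassCurve.b₆,
    WeierstrassCurve.b₈]
  norm_num

theorem g5_c₄ (A : Type*) [CommRing A] : (E₅over A).c₄ = 1200 := by
  simp [E₅over, WeierstrassCurve.c₄, WeierstrassCurve.b₂, WeierstrassCurve.b₄]
  norm_num

theorem g5_map_residue (A B : Type*) [CommRing A] [CommRing B] (f : A →+* B) :
    (E₅over A).map f = E₅over B := by
  ext <;> simp [E₅over, map_ofNat]

/-- Copy of `localPolynomial_E₀_of_ne_two`: `E₅⁄K_v = (E₅over O_v)⁄K_v`, `Δ = 1000000 = 2⁶ 5⁶` is a unit (A4), A2, G4, then G3 and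
the definition of `aE`. -/
theorem localPolynomial_E₅_of_ne (v : HeightOneSpectrum (𝓞 ℚ)) [Fact (primeBelow v).Prime]
    (h2 : primeBelow v ≠ 2) (h5 : primeBelow v ≠ 5) :
    (E₅.baseChange (v.adicCompletion ℚ)).localPolynomial (v.adicCompletionIntegers ℚ) =
      1 - C (chi5 (primeBelow v) * aE (primeBelow v)) * X + C (primeBelow v : ℤ) * X ^ 2 := by
  classical
  have e1 : E₅.baseChange (v.adicCompletion ℚ) =
      (E₅over (v.adicCompletionIntegers ℚ))⁄(v.adicCompletion ℚ) :=
    g5_baseChange_eq (v.adicCompletionIntegers ℚ) (v.adicCompletion ℚ)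
  have hunit : IsUnit (E₅over (v.adicCompletionIntegers ℚ)).Δ := by
    rw [g5_Δ]
    by_contra hcon
    have hmem : ((1000000 : ℕ) : v.adicCompletionIntegers ℚ) ∈
        IsLocalRing.maximalIdeal (v.adicCompletionIntegers ℚ) ^ 1 := by
      rw [pow_one, IsLocalRing.mem_maximalIdeal, mem_nonunits_iff]
      simpa using hcon
    rw [natCast_mem_maximalIdeal_pow, pow_one,
      show (1000000 : ℕ) = 2 ^ 6 * 5 ^ 6 by norm_num] at hmem
    rcases (prime_primeBelow v).dvd_mul.1 hmem with hd | hd
    · exact h2 ((Nat.prime_dvd_prime_iff_eq (prime_primeBelow v) Nat.prime_two).mp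
        ((prime_primeBelow v).dvd_of_dvd_pow hd))
    · exact h5 ((Nat.prime_dvd_prime_iff_eq (prime_primeBelow v) Nat.prime_five).mp
        ((prime_primeBelow v).dvd_of_dvd_pow hd))
  rw [e1, localPolynomial_of_isUnit_Δ _ _ _ hunit, g5_map_residue, card_residueField_completion]
  obtain ⟨e⟩ := nonempty_residueField_equiv_zmod v
  have : Fintype (IsLocalRing.ResidueField (v.adicCompletionIntegers ℚ)) :=
    Fintype.ofEquiv _ e.symm.toEquiv
  have hc : CharP (IsLocalRing.ResidueField (v.adicCompletionIntegers ℚ)) (primeBelow v) :=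
    charP_of_injective_ringHom (f := e.symm.toRingHom) e.symm.injective (primeBelow v)
  have hchar : ringChar (IsLocalRing.ResidueField (v.adicCompletionIntegers ℚ)) ≠ 2 := by
    rw [ringChar.eq _ (primeBelow v)]
    exact h2
  have hfive : (5 : IsLocalRing.ResidueField (v.adicCompletionIntegers ℚ)) ≠ 0 := by
    intro h0
    have h0' : ((5 : ℕ) : IsLocalRing.ResidueField (v.adicCompletionIntegers ℚ)) = 0 := by
      simpa using h0
    rw [CharP.cast_eq_zero_iff _ (primeBelow v)] at h0'
    exact h5 ((Nat.prime_dvd_prime_iff_eq (prime_primeBelow v) Nat.prime_five).mp h0')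
  have hcount :=
    card_point_E₅over (IsLocalRing.ResidueField (v.adicCompletionIntegers ℚ)) hchar hfive
  have hcard : (Fintype.card (IsLocalRing.ResidueField (v.adicCompletionIntegers ℚ)) : ℤ) =
      primeBelow v := by
    rw [← Nat.card_eq_fintype_card, card_residueField_completion]
  rw [hcount, hcard, sum_quadraticChar_congr₅ e, sum_quadraticChar_twist _ h2 h5, aE]
  congr 3
  ring_nf

/-- Copy of `localPolynomial_E₀_two`: `Δ = 2⁶ 5⁶`, `c₄ = 1200 = 2⁴ · 3 · 5²`: additive reduction at `2` and at `5` (A3, A4). -/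
theorem localPolynomial_E₅_bad (v : HeightOneSpectrum (𝓞 ℚ))
    (h : primeBelow v = 2 ∨ primeBelow v = 5) :
    (E₅.baseChange (v.adicCompletion ℚ)).localPolynomial (v.adicCompletionIntegers ℚ) = 1 := by
  have e1 : E₅.baseChange (v.adicCompletion ℚ) =
      (E₅over (v.adicCompletionIntegers ℚ))⁄(v.adicCompletion ℚ) :=
    g5_baseChange_eq (v.adicCompletionIntegers ℚ) (v.adicCompletion ℚ)
  have : ((E₅over (v.adicCompletionIntegers ℚ))⁄(v.adicCompletion ℚ)).IsElliptic := by
    rw [← e1]; infer_instance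
  rw [e1]
  apply localPolynomial_of_additive
  · rw [g5_Δ]
    intro hmem
    have hmem' : ((1000000 : ℕ) : v.adicCompletionIntegers ℚ) ∈
        IsLocalRing.maximalIdeal (v.adicCompletionIntegers ℚ) ^ 12 := by simpa using hmem
    rw [natCast_mem_maximalIdeal_pow] at hmem'
    rcases h with h | h <;> rw [h] at hmem' <;> norm_num at hmem'
  · rw [g5_Δ]
    have hmem' : ((1000000 : ℕ) : v.adicCompletionIntegers ℚ) ∈
        IsLocalRing.maximalIdeal (v.adicCompletionIntegers ℚ) ^ 1 := by
      rw [natCast_mem_maximalIdeal_pow]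
      rcases h with h | h <;> rw [h] <;> norm_num
    simpa using hmem'
  · rw [g5_c₄]
    have hmem' : ((1200 : ℕ) : v.adicCompletionIntegers ℚ) ∈
        IsLocalRing.maximalIdeal (v.adicCompletionIntegers ℚ) ^ 1 := by
      rw [natCast_mem_maximalIdeal_pow]
      rcases h with h | h <;> rw [h] <;> norm_num
    simpa using hmem'

end Claimed.Open.R002
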