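import Claimed.Open.R002.SanityTwistG1
import Claimed.Open.R002.SanityTwistG6

/-! # Twist road, post G7: `L(E₅, s)` is the twist of `L(E₀, s)` by `chi5` -/

set_option autoImplicit false

namespace Claimed.Open.R002

open WeierstrassCurve

/-- A prime `p ≠ 5` is prime to `5`, so `chi5 p ^ 2 = 1`. -/
theorem g7_chi5_prime_sq (p : ℕ) (hp : p.Prime) (h5 : p ≠ 5) : chi5 (p : ℤ) * chi5 (p : ℤ) = 1 := by
  apply chi5_mul_self
  intro h
  have h' : (5 : ℕ) ∣ p := by exact_mod_cast h
  exact h5 ((Nat.prime_dvd_prime_iff_eq Nat.prime_five hp).1 h').symm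

/-- The Hecke recursion of `hecke` at an odd prime, in the shape of `LFunction_E₀_prime_mul`. -/
theorem g7_hecke_prime_mul (p : ℕ) [Fact p.Prime] (h2 : p ≠ 2) (m : ℕ) :
    hecke (p * m) = aE p * hecke m - p * (if p ∣ m then hecke (m / p) else 0) := by
  have h0 := LFunction_E₀_prime_mul p h2 m
  rw [LFunction_E₀_eq_hecke, LFunction_E₀_eq_hecke, LFunction_E₀_eq_hecke] at h0
  exact h0

/-- Strong induction (as `LFunction_E₀_eq_hecke`, `SanityHeckeC4.lean`).  `n = 0`: both `0`; `n = 1`: both `1` (`isMultiplicative_LFunction`, `hecke_one`);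
`n = p m`: `p = 2`: G6 and `hecke_two_mul`; `p = 5`: G6 and `chi5 (5 m) = 0`; else G6, `LFunction_E₀_prime_mul` with
`LFunction_E₀_eq_hecke`, `chi5_mul`, and `chi5 p * chi5 m = chi5 (m / p)` for `p ∣ m` (`chi5_mul_self`). -/
theorem LFunction_E₅_eq (n : ℕ) : E₅.LFunction n = chi5 n * hecke n := by
  induction n using Nat.strong_induction_on with
  | _ n ih =>
    rcases Nat.eq_zero_or_pos n with rfl | hn0
    · rw [hecke_zero]; simp
    rcases eq_or_ne n 1 with rfl | hn1
    · rw [hecke_one, LFunction_one]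
      simp [chi5_one]
    have hp : n.minFac.Prime := Nat.minFac_prime hn1
    obtain ⟨m, hm⟩ := Nat.minFac_dvd n
    set p := n.minFac with hpdef
    have : Fact p.Prime := ⟨hp⟩
    have hm0 : 0 < m := by
      rcases Nat.eq_zero_or_pos m with rfl | h
      · simp at hm; omega
      · exact h
    have hmn : m < n := by
      rw [hm]
      exact lt_mul_of_one_lt_left hm0 hp.one_lt
    have hdiv : m / p < n := lt_of_le_of_lt (Nat.div_le_self m p) hmn
    rw [hm]
    rcases eq_or_ne p 2 with h2 | h2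
    · rw [h2, LFunction_E₅_two_mul, hecke_two_mul, mul_zero]
    rcases eq_or_ne p 5 with h5 | h5
    · rw [h5, LFunction_E₅_five_mul]
      have h0 : chi5 ((5 * m : ℕ) : ℤ) = 0 := (chi5_eq_zero_iff _).2 ⟨m, by push_cast; ring⟩
      rw [h0, zero_mul]
    · rw [LFunction_E₅_prime_mul p h2 h5 m, ih m hmn, ih (m / p) hdiv, g7_hecke_prime_mul p h2 m]
      have hsq := g7_chi5_prime_sq p hp h5
      have hpm : chi5 ((p * m : ℕ) : ℤ) = chi5 (p : ℤ) * chi5 (m : ℤ) := by
        rw [Nat.cast_mul, chi5_mul]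
      rw [hpm]
      split_ifs with hd
      · obtain ⟨k, rfl⟩ := hd
        rw [Nat.mul_div_cancel_left k hp.pos]
        have hpk : chi5 ((p * k : ℕ) : ℤ) = chi5 (p : ℤ) * chi5 (k : ℤ) := by
          rw [Nat.cast_mul, chi5_mul]
        rw [hpk]
        linear_combination ((p : ℤ) * chi5 (k : ℤ) * hecke k) * hsq
      · ring

end Claimed.Open.R002
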