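import Claimed.Open.R002.SanityTwistG1

/-! # Twist road, post H1a: the theta series on one residue class modulo `5` -/

set_option autoImplicit false

namespace Claimed.Open.R002

open Real HurwitzZeta

/-- `chi5 (N (primOf (5 m' + μ, 5 n' + ν))) = - chi5 ((4 μ + 1)² + (4 ν + 1)²)`. -/
theorem h1a_chi5 (y : ℤ × ℤ) (μ ν : ℕ) :
    chi5 (primOf (5 * y.1 + μ, 5 * y.2 + ν)).norm =
      -chi5 (((4 * μ + 1 : ℕ) : ℤ) ^ 2 + ((4 * ν + 1 : ℕ) : ℤ) ^ 2) := by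
  have h1 : chi5 (2 * (primOf (5 * y.1 + μ, 5 * y.2 + ν)).norm) =
      chi5 (((4 * μ + 1 : ℕ) : ℤ) ^ 2 + ((4 * ν + 1 : ℕ) : ℤ) ^ 2) := by
    have h2 : 2 * (primOf (5 * y.1 + μ, 5 * y.2 + ν)).norm =
        (((4 * μ + 1 : ℕ) : ℤ) ^ 2 + ((4 * ν + 1 : ℕ) : ℤ) ^ 2) +
          5 * (80 * y.1 ^ 2 + 8 * y.1 * (4 * μ + 1) + 80 * y.2 ^ 2 + 8 * y.2 * (4 * ν + 1)) := by
      rw [norm_primOf]
      push_cast
      ring
    rw [h2, chi5_add_mul]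
  rw [chi5_two_mul] at h1
  rw [← h1, neg_neg]

/-- Abstract form: a combination of two products of (absolutely) convergent real series. -/
theorem h1a_prod {f g f' g' : ℤ → ℝ} {a b a' b' : ℝ} (hf : HasSum f a) (hg : HasSum g b)
    (hf' : HasSum f' a') (hg' : HasSum g' b') (c : ℝ) :
    HasSum (fun x : ℤ × ℤ => c * (f x.1 * g x.2 + f' x.1 * g' x.2)) (c * (a * b + a' * b')) := by
  have h1 := hf.mul hg (summable_mul_of_summable_norm hf.summable.norm hg.summable.norm)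
  have h2 := hf'.mul hg' (summable_mul_of_summable_norm hf'.summable.norm hg'.summable.norm)
  exact (h1.add h2).mul_left c

/-- With `m = 5 m' + μ`, `r = 4 μ + 1`: `m + 1/4 = 5 (m' + r/20)`; so (`norm_primOf_real`, `re_primOf_real`) `N = 200 ((m' + r/20)² + (n' + s/20)²)`,
`Re = 10 ((m' + r/20) + (n' + s/20))`; `2 N = (4m+1)² + (4n+1)²` (`norm_primOf`), so `chi5 N = - chi5 (r² + s²)` (`chi5_two_mul`, `chi5_congr`).
Then `hasSum_int_oddKernel`, `hasSum_int_evenKernel` at `200 t` and the product of two sums as in `d4_sym_prod` (`SanityHeckeD4.lean`). -/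
theorem hasSum_theta5_class {t : ℝ} (ht : 0 < t) (μ ν : ℕ) :
    HasSum (fun y : ℤ × ℤ =>
        (chi5 (primOf (5 * y.1 + μ, 5 * y.2 + ν)).norm : ℝ) *
          ((primOf (5 * y.1 + μ, 5 * y.2 + ν)).re : ℝ) *
          rexp (-π * ((primOf (5 * y.1 + μ, 5 * y.2 + ν)).norm : ℝ) * t))
      (-10 * (chi5 (((4 * μ + 1 : ℕ) : ℤ) ^ 2 + ((4 * ν + 1 : ℕ) : ℤ) ^ 2) : ℝ) *
        (oddKernel ((((4 * μ + 1 : ℕ) : ℝ) / 20 : ℝ) : UnitAddCircle) (200 * t) *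
            evenKernel ((((4 * ν + 1 : ℕ) : ℝ) / 20 : ℝ) : UnitAddCircle) (200 * t) +
          evenKernel ((((4 * μ + 1 : ℕ) : ℝ) / 20 : ℝ) : UnitAddCircle) (200 * t) *
            oddKernel ((((4 * ν + 1 : ℕ) : ℝ) / 20 : ℝ) : UnitAddCircle) (200 * t))) := by
  have hT : 0 < 200 * t := by positivity
  have ho1 := hasSum_int_oddKernel (((4 * μ + 1 : ℕ) : ℝ) / 20) hT
  have he1 := hasSum_int_evenKernel (((4 * μ + 1 : ℕ) : ℝ) / 20) hT
  have ho2 := hasSum_int_oddKernel (((4 * ν + 1 : ℕ) : ℝ) / 20) hT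
  have he2 := hasSum_int_evenKernel (((4 * ν + 1 : ℕ) : ℝ) / 20) hT
  have h3 := h1a_prod ho1 he2 he1 ho2
    (-10 * (chi5 (((4 * μ + 1 : ℕ) : ℤ) ^ 2 + ((4 * ν + 1 : ℕ) : ℤ) ^ 2) : ℝ))
  refine h3.congr_fun fun y => ?_
  rw [h1a_chi5, norm_primOf_real, re_primOf_real]
  have hexp : rexp (-π * (8 * ((((5 * y.1 + μ : ℤ) : ℝ) + 1 / 4) ^ 2 +
        (((5 * y.2 + ν : ℤ) : ℝ) + 1 / 4) ^ 2)) * t) =
      rexp (-π * ((y.1 : ℝ) + ((4 * μ + 1 : ℕ) : ℝ) / 20) ^ 2 * (200 * t)) *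
        rexp (-π * ((y.2 : ℝ) + ((4 * ν + 1 : ℕ) : ℝ) / 20) ^ 2 * (200 * t)) := by
    rw [← Real.exp_add]; congr 1; push_cast; ring
  rw [hexp]
  push_cast
  ring

end Claimed.Open.R002
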