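import Claimed.Open.R002.SanityTwistDefs

/-! # Twist road, post H2: continuity and decay of `theta5` (generalise `continuousOn_thetaE`, `isBigO_thetaE` of `SanityHeckeD5.lean`) -/

set_option autoImplicit false

namespace Claimed.Open.R002

open Real HurwitzZeta Set Filter Asymptotics

/-- As `continuousOn_thetaE`, for every pair of shifts and every scale. -/
theorem continuousOn_oddKernel_mul_evenKernel (a b : UnitAddCircle) {c : ℝ} (hc : 0 < c) :
    ContinuousOn (fun t : ℝ => oddKernel a (c * t) * evenKernel b (c * t)) (Ioi 0) := by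
  have hm : MapsTo (fun t : ℝ => c * t) (Ioi 0) (Ioi 0) := fun t ht => by
    have : (0 : ℝ) < t := ht
    show (0 : ℝ) < c * t
    positivity
  have hcc : ContinuousOn (fun t : ℝ => c * t) (Ioi 0) := by fun_prop
  exact ((continuousOn_oddKernel a).comp hcc hm).mul ((continuousOn_evenKernel b).comp hcc hm)

/-- As `isBigO_thetaE`: `isBigO_atTop_oddKernel a` (exponential decay), `isBigO_atTop_evenKernel_sub b` (bounded). -/
theorem isBigO_oddKernel_mul_evenKernel (a b : UnitAddCircle) {c : ℝ} (hc : 0 < c) (r : ℝ) :
    (fun t : ℝ => oddKernel a (c * t) * evenKernel b (c * t)) =O[atTop] (· ^ r) := by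
  obtain ⟨p, hp, h1⟩ := isBigO_atTop_oddKernel a
  obtain ⟨q, hq, h2⟩ := isBigO_atTop_evenKernel_sub b
  have ht : Tendsto (fun t : ℝ => c * t) atTop atTop := tendsto_id.const_mul_atTop hc
  have hexp1 : (fun x : ℝ => rexp (-q * x)) =O[atTop] (fun _ : ℝ => (1 : ℝ)) := by
    refine IsBigO.of_bound 1 ?_
    filter_upwards [eventually_ge_atTop 0] with x hx
    rw [norm_of_nonneg (exp_pos _).le, norm_one, mul_one, exp_le_one_iff]
    nlinarith
  have h3 : (evenKernel b) =O[atTop] (fun _ : ℝ => (1 : ℝ)) := by
    have h4 := (h2.trans hexp1).add (isBigO_const_const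
      (if b = 0 then (1 : ℝ) else 0) (one_ne_zero) atTop)
    simpa using h4
  have h5 := (h1.comp_tendsto ht).mul (h3.comp_tendsto ht)
  have h6 : (fun t : ℝ => oddKernel a (c * t) * evenKernel b (c * t)) =O[atTop]
      fun t : ℝ => rexp (-(p * c) * t) := by
    refine (h5.congr_left fun t => ?_).congr_right fun t => ?_
    · simp only [Function.comp]
    · simp only [Function.comp, mul_one]; congr 1; ring
  exact h6.trans (isLittleO_exp_neg_mul_rpow_atTop (by positivity) _).isBigO

theorem continuousOn_theta5 : ContinuousOn theta5 (Ioi 0) := by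
  unfold theta5
  refine continuousOn_const.mul (continuousOn_finsetSum _ fun r _ =>
    continuousOn_finsetSum _ fun s _ => continuousOn_const.mul ?_)
  exact continuousOn_oddKernel_mul_evenKernel _ _ (by norm_num)

theorem isBigO_theta5 (r : ℝ) : theta5 =O[atTop] (· ^ r) := by
  unfold theta5
  refine IsBigO.const_mul_left (IsBigO.fun_sum fun i _ => IsBigO.fun_sum fun j _ =>
    IsBigO.const_mul_left ?_ _) _
  exact isBigO_oddKernel_mul_evenKernel _ _ (by norm_num) r

end Claimed.Open.R002
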