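import Claimed.Open.R002.SanityTwistF4
import Claimed.Open.R002.SanityTwistH2

/-! # Twist road, post H4: the FE pair of `theta5` (copy of the end of `SanityHeckeD5.lean`), sign `-1` -/

set_option autoImplicit false

namespace Claimed.Open.R002

open Real Set Filter Asymptotics Topology

/-- the partner of `theta5` in the functional equation -/
noncomputable def theta5G (t : ℝ) : ℝ := theta5 (t / 200) / 200

theorem continuousOn_theta5G : ContinuousOn theta5G (Ioi 0) := by
  have h1 : ContinuousOn (fun t : ℝ => theta5 (t / 200)) (Ioi 0) :=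
    continuousOn_theta5.comp (continuous_id.div_const 200).continuousOn
      (fun t ht => div_pos (show (0 : ℝ) < t from ht) (by norm_num : (0 : ℝ) < 200))
  exact h1.div_const 200

/-- `isBigO_theta5` composed with `t ↦ t / 200` (`tendsto_id.atTop_div_const`); `(t / 200) ^ r = 200 ^ (-r) * t ^ r` for `t > 0`. -/
theorem isBigO_theta5G (r : ℝ) : theta5G =O[atTop] (· ^ r) := by
  have h1 : (fun t : ℝ => theta5 (t / 200)) =O[atTop] (fun t : ℝ => (t / 200) ^ r) :=
    (isBigO_theta5 r).comp_tendsto (tendsto_id.atTop_div_const (by norm_num : (0 : ℝ) < 200))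
  have h2 : (fun t : ℝ => (t / 200) ^ r) =O[atTop] (fun t : ℝ => t ^ r) := by
    refine IsBigO.of_bound ((200 : ℝ) ^ r)⁻¹ ?_
    filter_upwards [eventually_gt_atTop 0] with t ht
    rw [Real.div_rpow ht.le (by norm_num), norm_div, div_eq_inv_mul,
      Real.norm_of_nonneg (Real.rpow_nonneg (by norm_num : (0 : ℝ) ≤ 200) r)]
  have h3 := (h1.trans h2).const_mul_left (1 / 200)
  refine h3.congr_left fun t => ?_
  simp only [theta5G]
  ring

/-- the FE pair of the theta series of `y² = x³ - 25 x`: weight `2`, sign `-1`. -/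
noncomputable def theta5FEPair : WeakFEPair ℂ where
  f := fun t : ℝ => (theta5 t : ℂ)
  g := fun t : ℝ => (theta5G t : ℂ)
  hf_int := (Complex.continuous_ofReal.comp_continuousOn continuousOn_theta5).locallyIntegrableOn
    measurableSet_Ioi
  hg_int := (Complex.continuous_ofReal.comp_continuousOn continuousOn_theta5G).locallyIntegrableOn
    measurableSet_Ioi
  k := 2
  hk := by norm_num
  ε := -1
  hε := by norm_num
  f₀ := 0
  g₀ := 0
  hf_top r := by
    have := isBigO_theta5 r
    rw [← isBigO_norm_left] at this ⊢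
    simpa using this
  hg_top r := by
    have := isBigO_theta5G r
    rw [← isBigO_norm_left] at this ⊢
    simpa using this
  h_feq x hx := by
    have hx' : (0 : ℝ) < x := hx
    rw [theta5_one_div hx', smul_eq_mul, theta5G, Real.rpow_two]
    push_cast
    ring

theorem isStrong_theta5FEPair : IsStrongFEPair theta5FEPair := ⟨rfl, rfl⟩

/-- as `differentiable_mellin_thetaE` -/
theorem differentiable_mellin_theta5 :
    Differentiable ℂ (mellin fun t : ℝ => (theta5 t : ℂ)) := by
  have h := isStrong_theta5FEPair.differentiable_Λ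
  rw [isStrong_theta5FEPair.Λ_eq] at h
  exact h

/-- `isStrong_theta5FEPair.hasMellin s` / `.mellinConvergent s` -/
theorem mellinConvergent_theta5 (s : ℂ) : MellinConvergent (fun t : ℝ => (theta5 t : ℂ)) s :=
  (isStrong_theta5FEPair.hasMellin s).1

/-- `WeakFEPair.hf_zero` (with `g₀ = 0`), then back to real values (`isBigO_norm_left`). -/
theorem isBigO_theta5_zero (r : ℝ) : theta5 =O[𝓝[>] 0] (· ^ r) := by
  have h : (fun t : ℝ => (theta5 t : ℂ)) =O[𝓝[>] 0] (· ^ r) := isStrong_theta5FEPair.hf_zero r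
  rw [← isBigO_norm_left] at h ⊢
  simpa using h

/-- `mellin_comp_mul_left` (or `mellin_comp_mul_right`), `mellin_div_const`: `∫ θ₅(t/200)/200 · t^(s-1) dt = 200^(s-1) ∫ θ₅(t) t^(s-1) dt`. -/
theorem mellin_theta5G (s : ℂ) : mellin (fun t : ℝ => (theta5G t : ℂ)) s =
    (200 : ℂ) ^ (s - 1) * mellin (fun t : ℝ => (theta5 t : ℂ)) s := by
  have h1 : (fun t : ℝ => (theta5G t : ℂ))
      = fun t : ℝ => (fun u : ℝ => (theta5 u : ℂ)) ((1 / 200 : ℝ) * t) / 200 := by
    funext t
    simp only [theta5G]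
    rw [show t / 200 = (1 / 200 : ℝ) * t by ring]
    push_cast
    rfl
  have harg : (200 : ℂ).arg ≠ Real.pi := by
    rw [show (200 : ℂ) = ((200 : ℝ) : ℂ) by norm_num, Complex.arg_ofReal_of_nonneg (by norm_num)]
    exact Real.pi_ne_zero.symm
  have h2 : (((1 / 200 : ℝ)) : ℂ) ^ (-s) = (200 : ℂ) ^ s := by
    have h3 : (((1 / 200 : ℝ)) : ℂ) = (200 : ℂ)⁻¹ := by
      push_cast
      norm_num
    rw [h3, Complex.inv_cpow _ _ harg, Complex.cpow_neg, inv_inv]
  have h4 := mellin_comp_mul_left (fun u : ℝ => (theta5 u : ℂ)) s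
    (by norm_num : (0 : ℝ) < 1 / 200)
  rw [h1, mellin_div_const, h4, smul_eq_mul,
    h2, Complex.cpow_sub _ _ (by norm_num : (200 : ℂ) ≠ 0), Complex.cpow_one]
  ring

/-- `WeakFEPair.functional_equation theta5FEPair 1` with `IsStrongFEPair.Λ_eq`, `.symm_Λ_eq`: `M(2 - 1) = - 200^0 M(1)`, so `2 M(1) = 0`. -/
theorem mellin_theta5_one : mellin (fun t : ℝ => (theta5 t : ℂ)) 1 = 0 := by
  have h := theta5FEPair.functional_equation 1
  rw [isStrong_theta5FEPair.Λ_eq, isStrong_theta5FEPair.symm_Λ_eq] at h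
  have hk : ((theta5FEPair.k : ℝ) : ℂ) - 1 = 1 := by
    have : theta5FEPair.k = 2 := rfl
    rw [this]
    push_cast
    norm_num
  rw [hk] at h
  change mellin (fun t : ℝ => (theta5 t : ℂ)) 1
    = (-1 : ℂ) • mellin (fun t : ℝ => (theta5G t : ℂ)) 1 at h
  rw [mellin_theta5G, sub_self, Complex.cpow_zero, one_mul, smul_eq_mul] at h
  linear_combination (1 / 2 : ℂ) * h

end Claimed.Open.R002
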