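import Claimed.Open.R002.SanityTwistH1c

/-! # Twist road, post H5: the Mellin transform of `theta5` is the completed `L`-series (copy of `SanityHeckeD6.lean`) -/

set_option autoImplicit false

namespace Claimed.Open.R002

open Real

/-- the twisted summand `χ₅(N α) Re α / N(α)^s` -/
noncomputable def h5_f (s : ℂ) (α : GaussianInt) : ℂ := ((chi5 α.norm : ℤ) : ℂ) * d6_f s α

theorem h5_norm_chi5_le (n : ℤ) : ‖((chi5 n : ℤ) : ℂ)‖ ≤ 1 := by
  rw [Complex.norm_intCast]
  exact_mod_cast abs_chi5_le n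

theorem h5_norm_le (s : ℂ) (α : GaussianInt) : ‖h5_f s α‖ ≤ ‖d6_f s α‖ := by
  unfold h5_f
  rw [norm_mul]
  calc ‖((chi5 α.norm : ℤ) : ℂ)‖ * ‖d6_f s α‖ ≤ 1 * ‖d6_f s α‖ :=
        mul_le_mul_of_nonneg_right (h5_norm_chi5_le _) (norm_nonneg _)
    _ = ‖d6_f s α‖ := one_mul _

theorem h5_summable_norm {s : ℂ} (hs : 3 / 2 < s.re) :
    Summable fun x : ℤ × ℤ => ‖h5_f s (primOf x)‖ :=
  Summable.of_nonneg_of_le (fun _ => norm_nonneg _) (fun _ => h5_norm_le s _) (d6_summable_norm hs)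

theorem h5_term_eq {s : ℂ} (hs : s ≠ 0) (n : ℕ) :
    LSeries.term (fun n : ℕ => ((chi5 n * hecke n : ℤ) : ℂ)) s n = ∑ α ∈ primSet n, h5_f s α := by
  have hf : ∀ α ∈ primSet n, h5_f s α = ((chi5 n : ℤ) : ℂ) * d6_f s α := by
    intro α hα
    have h := (mem_primSet.mp hα).2
    unfold h5_f
    rw [h]
  rw [Finset.sum_congr rfl hf, ← Finset.mul_sum, ← d6_term_eq hs]
  rcases Nat.eq_zero_or_pos n with rfl | hn
  · simp [LSeries.term_zero]
  · rw [LSeries.term_of_ne_zero hn.ne', LSeries.term_of_ne_zero hn.ne']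
    push_cast
    ring

theorem h5_summable_a {s : ℂ} (hs : 3 / 2 < s.re) :
    Summable fun x : ℤ × ℤ => ‖((chi5 (primOf x).norm * (primOf x).re : ℤ) : ℂ)‖ /
      ((primOf x).norm : ℝ) ^ s.re := by
  refine Summable.of_nonneg_of_le (fun x => ?_) (fun x => ?_) (summable_re_div_norm_rpow hs)
  · have hpos : (0 : ℝ) < ((primOf x).norm : ℝ) := by exact_mod_cast norm_primOf_pos x
    positivity
  · have hpos : (0 : ℝ) < ((primOf x).norm : ℝ) := by exact_mod_cast norm_primOf_pos x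
    refine div_le_div_of_nonneg_right ?_ (by positivity)
    rw [Int.cast_mul, norm_mul]
    calc ‖((chi5 (primOf x).norm : ℤ) : ℂ)‖ * ‖((primOf x).re : ℂ)‖ ≤ 1 * ‖((primOf x).re : ℂ)‖ :=
          mul_le_mul_of_nonneg_right (h5_norm_chi5_le _) (norm_nonneg _)
      _ = ‖((primOf x).re : ℂ)‖ := one_mul _

/-- Copy of `lseriesSummable_hecke` with `d6_f s α` replaced by `chi5 α.norm * d6_f s α` (`‖chi5 ..‖ ≤ 1`: `abs_chi5_le`; on `primSet n`, `α.norm = n`). -/
theorem lseriesSummable_twist {s : ℂ} (hs : 3 / 2 < s.re) :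
    LSeriesSummable (fun n : ℕ => ((chi5 n * hecke n : ℤ) : ℂ)) s := by
  have hs0 : s ≠ 0 := by
    rintro rfl
    norm_num at hs
  unfold LSeriesSummable
  refine Summable.of_norm_bounded (summable_sum_primSet_norm (h5_f s) (h5_summable_norm hs)) ?_
  intro n
  rw [h5_term_eq hs0]
  exact norm_sum_le _ _

/-- Copy of `mellin_thetaE_eq`: `hasSum_mellin_pi_mul` with `a x = chi5 N * Re`, `q x = N`, `hasSum_theta5` (H1c), the summability from
`summable_re_div_norm_rpow` (D3) by comparison, `hasSum_sum_primSet` (D2). -/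
theorem mellin_theta5_eq {s : ℂ} (hs : 3 / 2 < s.re) :
    mellin (fun t : ℝ => (theta5 t : ℂ)) s =
      (π : ℂ) ^ (-s) * Complex.Gamma s * LSeries (fun n : ℕ => ((chi5 n * hecke n : ℤ) : ℂ)) s := by
  have hs0 : s ≠ 0 := by
    rintro rfl
    norm_num at hs
  have hre : 0 < s.re := by linarith
  have h1 : HasSum (fun x : ℤ × ℤ => (π : ℂ) ^ (-s) * Complex.Gamma s *
      ((chi5 (primOf x).norm * (primOf x).re : ℤ) : ℂ) /
      (((primOf x).norm : ℝ) : ℂ) ^ s) (mellin (fun t : ℝ => (theta5 t : ℂ)) s) :=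
    hasSum_mellin_pi_mul (a := fun x : ℤ × ℤ => ((chi5 (primOf x).norm * (primOf x).re : ℤ) : ℂ))
      (q := fun x : ℤ × ℤ => ((primOf x).norm : ℝ))
      (fun x => Or.inr (by exact_mod_cast norm_primOf_pos x)) hre
      (fun t ht => hasSum_theta5 ht) (h5_summable_a hs)
  have h2 := hasSum_sum_primSet (h5_f s) (h5_summable_norm hs).of_norm
  have h3 : LSeries (fun n : ℕ => ((chi5 n * hecke n : ℤ) : ℂ)) s = ∑' x : ℤ × ℤ, h5_f s (primOf x) := by
    unfold LSeries
    simp_rw [h5_term_eq hs0]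
    exact h2.tsum_eq
  rw [h3, ← h1.tsum_eq, ← tsum_mul_left]
  refine tsum_congr fun x => ?_
  unfold h5_f d6_f
  push_cast
  ring

end Claimed.Open.R002
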