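import Claimed.Open.R002.SanityTwistH4

/-! # Twist road, post K1: the derivative of the Mellin transform at `1` -/

set_option autoImplicit false

namespace Claimed.Open.R002

open Real Set MeasureTheory

theorem k1_integrableOn_complex : IntegrableOn (fun t : ℝ => (theta5 t : ℂ)) (Ioi 0) := by
  have h : MellinConvergent (fun t : ℝ => (theta5 t : ℂ)) 1 := mellinConvergent_theta5 1
  unfold MellinConvergent at h
  simpa using h

/-- `mellinConvergent_theta5 1` unfolded (`MellinConvergent`, `t ^ (1 - 1) = 1`), real part / `IntegrableOn.re` or `integrable_ofReal`-type lemma (cf. `e4_integrableOn`, `SanityHeckeE4.lean`). -/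
theorem integrableOn_theta5 : IntegrableOn theta5 (Ioi 0) := by
  have h := k1_integrableOn_complex.re
  simp only [Complex.ofReal_re, RCLike.re_to_complex] at h
  exact h

/-- `mellin f 1 = ∫ f` for the complexification of a real function. -/
theorem k1_mellin_one (f : ℝ → ℝ) :
    mellin (fun t : ℝ => (f t : ℂ)) 1 = ((∫ t in Ioi (0 : ℝ), f t : ℝ) : ℂ) := by
  have h := integral_ofReal (𝕜 := ℂ) (μ := volume.restrict (Ioi (0 : ℝ))) (f := f)
  rw [mellin]
  simp only [sub_self, Complex.cpow_zero, one_smul]
  exact h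

/-- `mellin_theta5_one` unfolded (cf. `mellin_thetaE_one`, `SanityHeckeE4.lean`; `integral_ofReal`). -/
theorem integral_theta5 : ∫ t in Ioi (0 : ℝ), theta5 t = 0 := by
  have h := k1_mellin_one theta5
  rw [mellin_theta5_one] at h
  exact_mod_cast h.symm

/-- both halves of `mellin_hasDerivAt_of_isBigO_rpow` at `s = 1` -/
theorem k1_both :
    MellinConvergent (fun t : ℝ => Real.log t • (theta5 t : ℂ)) 1 ∧
      HasDerivAt (mellin fun t : ℝ => (theta5 t : ℂ))
        (mellin (fun t : ℝ => Real.log t • (theta5 t : ℂ)) 1) 1 := by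
  refine mellin_hasDerivAt_of_isBigO_rpow (a := 2) (b := 0) theta5FEPair.hf_int ?_ (by simp) ?_
    (by simp)
  · have := isBigO_theta5 (-2)
    rw [← Asymptotics.isBigO_norm_left] at this ⊢
    simpa using this
  · have := isBigO_theta5_zero (-0)
    rw [← Asymptotics.isBigO_norm_left] at this ⊢
    simpa using this

theorem k1_smul_eq : (fun t : ℝ => Real.log t • (theta5 t : ℂ)) =
    fun t : ℝ => ((Real.log t * theta5 t : ℝ) : ℂ) := by
  funext t
  rw [Complex.real_smul, Complex.ofReal_mul]

/-- First half of `mellin_hasDerivAt_of_isBigO_rpow` (`a = 2`, `b = 0`, `s = 1`; `isBigO_theta5 (-2)`, `isBigO_theta5_zero (-0)`, complex-valued via `isBigO_norm_left`). -/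
theorem integrableOn_log_mul_theta5 : IntegrableOn (fun t => Real.log t * theta5 t) (Ioi 0) := by
  have h := k1_both.1
  rw [k1_smul_eq] at h
  unfold MellinConvergent at h
  have h1 : IntegrableOn (fun t : ℝ => ((Real.log t * theta5 t : ℝ) : ℂ)) (Ioi 0) := by
    simpa using h
  have h2 := h1.re
  simp only [Complex.ofReal_re, RCLike.re_to_complex] at h2
  exact h2

/-- Second half of `mellin_hasDerivAt_of_isBigO_rpow`; `mellin (fun t => log t • (θ₅ t : ℂ)) 1 = ∫ (log t * θ₅ t : ℂ)`, `integral_ofReal`. -/
theorem hasDerivAt_mellin_theta5_one :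
    HasDerivAt (mellin fun t : ℝ => (theta5 t : ℂ))
      ((∫ t in Ioi (0 : ℝ), Real.log t * theta5 t : ℝ) : ℂ) 1 := by
  have h := k1_both.2
  rw [k1_smul_eq, k1_mellin_one (fun t => Real.log t * theta5 t)] at h
  exact h

end Claimed.Open.R002
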