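import Mathlib

/-! # Twist road, post K2b: folding an integral over `(0, ∞)` at the fixed point of `t ↦ 1 / (c t)` (Mathlib only) -/

set_option autoImplicit false

namespace Claimed.Open.R002

open Real Set MeasureTheory

/-- the image of `(s⁻¹, ∞)` under `t ↦ 1 / (s² t)` -/
theorem k2b_image {s : ℝ} (hs : 0 < s) : (fun t : ℝ => 1 / (s ^ 2 * t)) '' Ioi s⁻¹ = Ioo 0 s⁻¹ := by
  have ht0 : 0 < s⁻¹ := inv_pos.2 hs
  ext y
  constructor
  · rintro ⟨t, ht, rfl⟩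
    have ht' : s⁻¹ < t := ht
    have htp : 0 < t := ht0.trans ht'
    have h1 : 1 < s * t := by
      have := mul_lt_mul_of_pos_left ht' hs
      rwa [mul_inv_cancel₀ hs.ne'] at this
    refine ⟨by positivity, ?_⟩
    show 1 / (s ^ 2 * t) < s⁻¹
    rw [div_lt_iff₀ (by positivity)]
    have : s⁻¹ * (s ^ 2 * t) = s * t := by field_simp
    rw [this]
    exact h1
  · rintro ⟨hy0, hy1⟩
    have h1 : s * y < 1 := by
      have := mul_lt_mul_of_pos_left hy1 hs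
      rwa [mul_inv_cancel₀ hs.ne'] at this
    refine ⟨1 / (s ^ 2 * y), ?_, ?_⟩
    · show s⁻¹ < 1 / (s ^ 2 * y)
      rw [lt_div_iff₀ (by positivity)]
      have : s⁻¹ * (s ^ 2 * y) = s * y := by field_simp
      rw [this]
      exact h1
    · show 1 / (s ^ 2 * (1 / (s ^ 2 * y))) = y
      field_simp

/-- `∫_{Ioi 0} = ∫_{Ioc 0 t₀} + ∫_{Ioi t₀}`, `t₀ = c^{-1/2}`; the first integral is carried onto the second by the change of variables `t ↦ 1 / (c t)`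
(`integral_image_eq_integral_abs_deriv_smul`). -/
theorem integral_Ioi_eq_two_mul_of_inv {c : ℝ} (hc : 0 < c) {ψ : ℝ → ℝ}
    (hψ : IntegrableOn ψ (Ioi 0)) (h : ∀ t, 0 < t → ψ (1 / (c * t)) = c * t ^ 2 * ψ t) :
    ∫ t in Ioi (0 : ℝ), ψ t = 2 * ∫ t in Ioi (Real.sqrt c)⁻¹, ψ t := by
  obtain ⟨s, hs, rfl⟩ : ∃ s : ℝ, 0 < s ∧ c = s ^ 2 := ⟨√c, Real.sqrt_pos.2 hc, (Real.sq_sqrt hc.le).symm⟩
  rw [Real.sqrt_sq hs.le]
  have ht0 : 0 < s⁻¹ := inv_pos.2 hs
  have hsplit : ∫ t in Ioi (0 : ℝ), ψ t = (∫ t in Ioc 0 s⁻¹, ψ t) + ∫ t in Ioi s⁻¹, ψ t := by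
    rw [← Ioc_union_Ioi_eq_Ioi ht0.le]
    exact setIntegral_union (Ioc_disjoint_Ioi le_rfl) measurableSet_Ioi (hψ.mono_set Ioc_subset_Ioi_self)
      (hψ.mono_set (Ioi_subset_Ioi ht0.le))
  have hcv := integral_image_eq_integral_abs_deriv_smul (s := Ioi s⁻¹) (f := fun t : ℝ => 1 / (s ^ 2 * t))
    (f' := fun t : ℝ => -(s ^ 2 * 1) / (s ^ 2 * t) ^ 2) measurableSet_Ioi
    (fun t ht => by
      have htp : 0 < t := ht0.trans ht
      have h1 : HasDerivAt (fun t : ℝ => (s ^ 2 * t)⁻¹) (-(s ^ 2 * 1) / (s ^ 2 * t) ^ 2) t :=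
        ((hasDerivAt_id t).const_mul (s ^ 2)).inv (by positivity)
      simp only [one_div]
      exact h1.hasDerivWithinAt)
    (fun t ht u hu htu => by
      have htp : 0 < t := ht0.trans ht
      have hup : 0 < u := ht0.trans hu
      have h2 : 1 / (s ^ 2 * t) = 1 / (s ^ 2 * u) := htu
      rw [div_eq_div_iff (by positivity) (by positivity), one_mul, one_mul] at h2
      exact (mul_left_cancel₀ (by positivity) h2).symm) ψ
  rw [k2b_image hs] at hcv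
  have hfold : ∫ t in Ioi s⁻¹, |-(s ^ 2 * 1) / (s ^ 2 * t) ^ 2| • ψ (1 / (s ^ 2 * t)) = ∫ t in Ioi s⁻¹, ψ t := by
    refine setIntegral_congr_fun measurableSet_Ioi fun t ht => ?_
    have htp : 0 < t := ht0.trans ht
    show |-(s ^ 2 * 1) / (s ^ 2 * t) ^ 2| • ψ (1 / (s ^ 2 * t)) = ψ t
    rw [h t htp, neg_div, abs_neg, abs_of_pos (by positivity), smul_eq_mul]
    field_simp
  rw [hsplit, integral_Ioc_eq_integral_Ioo, hcv, hfold]
  ring

end Claimed.Open.R002
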