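import Claimed.Open.R002.SanityTwistK1
import Claimed.Open.R002.SanityTwistK2b

/-! # Twist road, post K2: `M'(1) = ∫_{t₀}^∞ θ₅(t) log (200 t²) dt` -/

set_option autoImplicit false

namespace Claimed.Open.R002

open Real Set MeasureTheory

/-- `theta5_one_div` at `x = 200 t`. -/
theorem theta5_inv {t : ℝ} (ht : 0 < t) : theta5 (1 / (200 * t)) = -(200 * t ^ 2) * theta5 t := by
  have h := theta5_one_div (x := 200 * t) (by positivity)
  have e : 200 * t / 200 = t := by ring
  rw [h, e]
  ring

/-- `log (200 t²) = log 200 + 2 log t` for `t > 0`. -/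
theorem k2_log {t : ℝ} (ht : 0 < t) :
    Real.log (200 * t ^ 2) = Real.log 200 + 2 * Real.log t := by
  rw [Real.log_mul (by norm_num) (by positivity), Real.log_pow]
  push_cast
  ring

/-- The weight times `θ₅`, split. -/
theorem k2_split {t : ℝ} (ht : 0 < t) :
    Real.log (200 * t ^ 2) * theta5 t =
      Real.log 200 * theta5 t + 2 * (Real.log t * theta5 t) := by
  rw [k2_log ht]
  ring

/-- `ψ (1/(200 t)) = 200 t² ψ t` for `ψ t = log (200 t²) θ₅(t)`. -/
theorem k2_psi_inv {t : ℝ} (ht : 0 < t) :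
    Real.log (200 * (1 / (200 * t)) ^ 2) * theta5 (1 / (200 * t)) =
      200 * t ^ 2 * (Real.log (200 * t ^ 2) * theta5 t) := by
  have e : 200 * (1 / (200 * t)) ^ 2 = (200 * t ^ 2)⁻¹ := by
    field_simp
  rw [e, Real.log_inv, theta5_inv ht]
  ring

/-- `log (200 t²) = log 200 + 2 log t` on `t > 0`; K1. -/
theorem integrableOn_w_mul_theta5 :
    IntegrableOn (fun t => Real.log (200 * t ^ 2) * theta5 t) (Ioi 0) := by
  have h1 : IntegrableOn
      (fun t => Real.log 200 * theta5 t + 2 * (Real.log t * theta5 t)) (Ioi 0) :=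
    Integrable.add (Integrable.const_mul integrableOn_theta5 _)
      (Integrable.const_mul integrableOn_log_mul_theta5 2)
  exact h1.congr_fun (fun t ht => (k2_split ht).symm) measurableSet_Ioi

/-- `ψ t = log (200 t²) θ₅(t)`: `∫_{Ioi 0} ψ = log 200 · 0 + 2 ∫ log t θ₅` (K1: `integral_theta5`); `log (200 (1/(200 t))²) = - log (200 t²)` and `theta5_inv` give
`ψ (1/(200 t)) = 200 t² ψ t`; K2b with `c = 200` (`t5 = (√200)⁻¹` by definition). -/
theorem integral_log_mul_theta5 :
    ∫ t in Ioi (0 : ℝ), Real.log t * theta5 t =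
      ∫ t in Ioi t5, Real.log (200 * t ^ 2) * theta5 t := by
  have h1 : ∫ t in Ioi (0 : ℝ), Real.log (200 * t ^ 2) * theta5 t =
      2 * ∫ t in Ioi (0 : ℝ), Real.log t * theta5 t := by
    have e : ∫ t in Ioi (0 : ℝ), Real.log (200 * t ^ 2) * theta5 t =
        ∫ t in Ioi (0 : ℝ), (Real.log 200 * theta5 t + 2 * (Real.log t * theta5 t)) :=
      setIntegral_congr_fun measurableSet_Ioi (fun t ht => k2_split ht)
    rw [e, integral_add (Integrable.const_mul integrableOn_theta5 _)
      (Integrable.const_mul integrableOn_log_mul_theta5 2), integral_const_mul,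
      integral_const_mul, integral_theta5]
    ring
  have h2 := integral_Ioi_eq_two_mul_of_inv (c := 200) (by norm_num)
    integrableOn_w_mul_theta5 (fun t ht => k2_psi_inv ht)
  rw [h1] at h2
  unfold t5
  linarith

end Claimed.Open.R002
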