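import Claimed.Open.R002.SanityTwistG7
import Claimed.Open.R002.SanityTwistH4
import Claimed.Open.R002.SanityTwistH5

/-! # Sanity for R002: the `L`-function of `E₅ : y² = x³ - 25 x` is entire and vanishes at `1` -/

set_option autoImplicit false

namespace Claimed.Open.R002

open Real

theorem differentiable_twistL : Differentiable ℂ twistL := by
  unfold twistL
  have h1 : Differentiable ℂ fun s : ℂ => (π : ℂ) ^ s := fun s =>
    (differentiableAt_id).const_cpow (Or.inl (by exact_mod_cast Real.pi_ne_zero))
  have h2 : Differentiable ℂ fun s : ℂ => (Complex.Gamma s)⁻¹ :=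
    by simpa [one_div] using Complex.differentiable_one_div_Gamma
  exact (h1.mul h2).mul differentiable_mellin_theta5

theorem LFunction_E₅_coe :
    (fun n => (E₅.LFunction n : ℂ)) = fun n : ℕ => ((chi5 n * hecke n : ℤ) : ℂ) := by
  funext n
  rw [LFunction_E₅_eq]

/-- **The Hasse–Weil `L`-series of `E₅ : y² = x³ - 25 x` converges absolutely on `Re s > 3/2` and extends to an entire function.** -/
theorem isLFunction_E₅_twistL : IsLFunction E₅ twistL := by
  refine ⟨differentiable_twistL, fun s hs => ⟨?_, ?_⟩⟩
  · rw [LFunction_E₅_coe]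
    exact lseriesSummable_twist hs
  · have h0 : E₅.LSeries s = LSeries (fun n : ℕ => ((chi5 n * hecke n : ℤ) : ℂ)) s := by
      unfold WeierstrassCurve.LSeries
      congr 1
      exact LFunction_E₅_coe
    have hΓ : Complex.Gamma s ≠ 0 := Complex.Gamma_ne_zero_of_re_pos (by linarith)
    have hπ : (π : ℂ) ≠ 0 := by exact_mod_cast Real.pi_ne_zero
    rw [h0, twistL, mellin_theta5_eq hs, Complex.cpow_neg]
    have hπs : (π : ℂ) ^ s ≠ 0 := by
      rw [Ne, Complex.cpow_eq_zero_iff]
      exact fun h => hπ h.1
    field_simp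

/-- **`L(E₅, 1) = 0`** (the sign of the functional equation is `-1`). -/
theorem twistL_one : twistL 1 = 0 := by
  rw [twistL, mellin_theta5_one, mul_zero]

end Claimed.Open.R002
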